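import Claimed.Agent.R286.LL06.Conc

/-!
# Row 286 (S0533), LL Section 6: THE NUMERICS OF THE ROUGH CONCENTRATION (CONC)      (owner helper261; 0 sorry; prefix `l6e_`)

TEX[LL:global:trial-gap] 06-global.tex l.467-552 (choice of the scales).      PURE REAL ANALYSIS, no model.      CONSUMER: `ll06_conc` (`LL06/ConcTop.lean`, 130): `l6d_main` (200, `LL06/ConcCh.lean`) at the record of `ll06_geo_pow` (261, `LL06/Geo.lean`).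
Scales: `κ = x^(17/4)`, `e0 = x^dg`, `δ = x^ag`, `hh = ε = ρ = x^(2 ag)`, `ηL = x^(2 ag - sl)`, `vmin = x^(ag + sl)`, `C1 = x^(-sl)`, `τ = x^(-1/8)`, `θ = x^th`, `l0 = (1/2) / 2^(bb-2) ∈ [x^6/2, x^6]`, `q' ≥ 49`, `n ≥ x^(-6)/2`.
All smallness is in the form `x^(1/40) ≤ ε0` (pairs with `ll06_unif_pow`), `ε0` depends on `q, q', c1, cR, c` only.
* (a) `l6e_mono` (`K x^a ≤ x^b`), `l6e_pow`, `l6e_bb` (the number of doubling blocks, `bb ≤ (2 + 12/s) x^(-s)`).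
* (b) `l6e_W_le`, `l6e_eps2` (abstract), **`l6e_num1`** = hypothesis `ε2` of `l6d_main`   (needs `10 ag + 2 sl + dg ≤ 3/2`).
* (c) `l6eKB`, `l6e_B_le` (abstract), **`l6e_num2`** = `l6cB / θ^(2q) ≤ x^5`   (needs `5 + 1/40 ≤ 2 q (ag - sl - th)`).
* (d) **`l6e_num`** = ALL numerical hypotheses of `l6d_main` at once (`∃ bb l0, ..`).
-/

set_option autoImplicit false

namespace Claimed.Agent.R286

open Set

noncomputable section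


/-! ## (a) monomials in a small `x` -/

/-- `K x^a ≤ x^b` as soon as `b + s ≤ a`, `x^s ≤ ε`, `K ε ≤ 1` -/
theorem l6e_mono {x K a b s ε : ℝ} (hx : 0 < x) (hx1 : x ≤ 1) (hs : x ^ s ≤ ε) (hK0 : 0 ≤ K) (hK : K * ε ≤ 1) (hab : b + s ≤ a) :
    K * x ^ a ≤ x ^ b := by
  have h1 : x ^ a ≤ x ^ (b + s) := Real.rpow_le_rpow_of_exponent_ge hx hx1 hab
  have h2 : x ^ (b + s) = x ^ b * x ^ s := Real.rpow_add hx _ _
  have hb : 0 < x ^ b := Real.rpow_pos_of_pos hx _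
  calc K * x ^ a ≤ K * (x ^ b * ε) := by
        refine mul_le_mul_of_nonneg_left ?_ hK0
        rw [h2] at h1
        exact h1.trans (mul_le_mul_of_nonneg_left hs hb.le)
    _ = (K * ε) * x ^ b := by ring
    _ ≤ 1 * x ^ b := mul_le_mul_of_nonneg_right hK hb.le
    _ = x ^ b := one_mul _

/-- natural powers of a monomial -/
theorem l6e_pow {x : ℝ} (hx : 0 < x) (a : ℝ) (k : ℕ) : (x ^ a) ^ k = x ^ (a * k) := by
  rw [← Real.rpow_natCast, ← Real.rpow_mul hx.le]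

/-- **the number of doubling blocks**: `l0 = (1/2) / 2^(bb-2) ∈ [x^6/2, x^6]`, `bb ≤ (2 + 12/s) x^(-s)` -/
theorem l6e_bb {x s : ℝ} (hx : 0 < x) (hx1 : x < 1) (hs : 0 < s) :
    ∃ bb : ℕ, 2 ≤ bb ∧ x ^ (6:ℝ) / 2 ≤ 1 / 2 / 2 ^ (bb - 2) ∧ 1 / 2 / 2 ^ (bb - 2) ≤ x ^ (6:ℝ) ∧ (bb : ℝ) ≤ (2 + 12 / s) * x ^ (-s) := by
  have hX : 0 < x ^ (6:ℝ) := Real.rpow_pos_of_pos hx _
  have hX1 : x ^ (6:ℝ) < 1 := Real.rpow_lt_one hx.le hx1 (by norm_num)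
  have hex : ∃ j : ℕ, ((1:ℝ) / 2) ^ j ≤ x ^ (6:ℝ) := by
    obtain ⟨j, hj⟩ := exists_pow_lt_of_lt_one hX (by norm_num : (1:ℝ) / 2 < 1)
    exact ⟨j, hj.le⟩
  classical
  set j := Nat.find hex with hj
  have hj1 : ((1:ℝ) / 2) ^ j ≤ x ^ (6:ℝ) := Nat.find_spec hex
  have hj0 : j ≠ 0 := by
    intro h0
    rw [h0, pow_zero] at hj1
    linarith
  obtain ⟨k, hk⟩ : ∃ k, j = k + 1 := ⟨j - 1, by omega⟩
  have hk1 : x ^ (6:ℝ) < ((1:ℝ) / 2) ^ k := by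
    have := Nat.find_min hex (m := k) (by omega)
    exact not_le.1 this
  have e1 : (1:ℝ) / 2 / 2 ^ k = ((1:ℝ) / 2) ^ (k + 1) := by
    rw [pow_succ, one_div_pow]; field_simp
  refine ⟨k + 2, by omega, ?_, ?_, ?_⟩
  · rw [Nat.add_sub_cancel, e1, pow_succ]; linarith
  · rw [Nat.add_sub_cancel, e1, ← hk]; exact hj1
  · -- `k log 2 < 6 log (1/x) ≤ 6 x^(-s) / s`
    have hl : (k:ℝ) * Real.log 2 < 6 * Real.log (1 / x) := by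
      have h1 := Real.log_lt_log hX hk1
      rw [Real.log_rpow hx, Real.log_pow, one_div, Real.log_inv] at h1
      rw [one_div, Real.log_inv]
      linarith
    have h2 : Real.log (1 / x) ≤ (1 / x) ^ s / s := Real.log_le_rpow_div (by positivity) hs
    have h3 : (1 / x) ^ s = x ^ (-s) := by
      rw [one_div, Real.inv_rpow hx.le, Real.rpow_neg hx.le]
    rw [h3] at h2
    have hlog2 : (1:ℝ) / 2 ≤ Real.log 2 := by
      have := Real.log_two_gt_d9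
      linarith
    have hy : 1 ≤ x ^ (-s) := Real.one_le_rpow_of_pos_of_le_one_of_nonpos hx hx1.le (by linarith)
    have hk0 : (0:ℝ) ≤ k := Nat.cast_nonneg k
    have h4 : (k:ℝ) * (1 / 2) ≤ 6 * (x ^ (-s) / s) := by nlinarith
    have h5 : (k:ℝ) ≤ 12 / s * x ^ (-s) := by
      have : 12 / s * x ^ (-s) = 2 * (6 * (x ^ (-s) / s)) := by field_simp; ring
      rw [this]; linarith
    push_cast
    nlinarith


/-! ## (b) the hypothesis `ε2` of `l6d_main` -/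

/-- the three terms of `l6cW` against one scale `Z` -/
theorem l6e_W_le {q r' b : ℕ} (hq : 1 ≤ q) {c1 cR vmin mm e0 l0 τ I Z : ℝ} (hcR : 0 ≤ cR)
    (h1n : 0 ≤ (c1 + 2 * τ * q) * 128 * q * 3 / (vmin ^ 2 * mm * e0)) (h1 : (c1 + 2 * τ * q) * 128 * q * 3 / (vmin ^ 2 * mm * e0) ≤ Z)
    (h2n : 0 ≤ 4 * I / (vmin ^ 2 * mm * e0 * l0 * τ ^ (r' - 1))) (h2 : 2 * (cR + 1) * (4 * I / (vmin ^ 2 * mm * e0 * l0 * τ ^ (r' - 1))) ≤ Z)
    (h3n : 0 ≤ 512 * q * (3 * l0)) (h3 : 512 * q * (3 * l0) ≤ Z) :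
    l6cW q r' b 1 c1 cR vmin mm e0 l0 τ I ≤ (b : ℝ) ^ (3 * q) * (3 * Z ^ q) := by
  unfold l6cW
  rw [one_pow, mul_one]
  refine mul_le_mul_of_nonneg_left ?_ (by positivity)
  have e1 := pow_le_pow_left₀ h1n h1 q
  have e3 := pow_le_pow_left₀ h3n h3 q
  have e2 : 2 ^ (q - 1) * cR * (4 * I / (vmin ^ 2 * mm * e0 * l0 * τ ^ (r' - 1))) ^ q ≤ Z ^ q := by
    have a1 : (2:ℝ) ^ (q - 1) ≤ 2 ^ q := pow_le_pow_right₀ (by norm_num) (Nat.sub_le _ _)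
    have a2 : cR ≤ (cR + 1) ^ q := by
      calc cR ≤ cR + 1 := by linarith
        _ = (cR + 1) ^ 1 := (pow_one _).symm
        _ ≤ (cR + 1) ^ q := pow_le_pow_right₀ (by linarith) hq
    have a3 : (2:ℝ) ^ (q - 1) * cR ≤ 2 ^ q * (cR + 1) ^ q := mul_le_mul a1 a2 hcR (by positivity)
    calc 2 ^ (q - 1) * cR * (4 * I / (vmin ^ 2 * mm * e0 * l0 * τ ^ (r' - 1))) ^ q
        ≤ 2 ^ q * (cR + 1) ^ q * (4 * I / (vmin ^ 2 * mm * e0 * l0 * τ ^ (r' - 1))) ^ q :=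
          mul_le_mul_of_nonneg_right a3 (pow_nonneg h2n q)
      _ = (2 * (cR + 1) * (4 * I / (vmin ^ 2 * mm * e0 * l0 * τ ^ (r' - 1)))) ^ q := by rw [mul_pow, mul_pow]
      _ ≤ Z ^ q := pow_le_pow_left₀ (by positivity) h2 q
  linarith

/-- from the `q`-th roots to the hypothesis `ε2` -/
theorem l6e_eps2 {q r' b : ℕ} (hq : 1 ≤ q) {c1 cR vmin mm e0 l0 τ I Z Kq hk ε : ℝ} (hKq : 0 ≤ Kq) (hhk : 0 < hk) (hZ : 0 ≤ Z)
    (hW : l6cW q r' b 1 c1 cR vmin mm e0 l0 τ I ≤ (b : ℝ) ^ (3 * q) * (3 * Z ^ q)) (hfin : 3 * Kq * (b : ℝ) ^ 3 * Z ≤ ε ^ 2 * hk) :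
    Kq ^ q / hk ^ q * l6cW q r' b 1 c1 cR vmin mm e0 l0 τ I ≤ ε ^ (2 * q) := by
  have h0 : 0 ≤ Kq ^ q / hk ^ q := by positivity
  refine (mul_le_mul_of_nonneg_left hW h0).trans ?_
  have e1 : Kq ^ q / hk ^ q * ((b : ℝ) ^ (3 * q) * (3 * Z ^ q)) = 3 * (Kq * (b : ℝ) ^ 3 * Z / hk) ^ q := by
    rw [div_pow, mul_pow, mul_pow, ← pow_mul]; ring
  have e2 : (3:ℝ) ≤ 3 ^ q := by
    calc (3:ℝ) = 3 ^ 1 := (pow_one _).symm
      _ ≤ 3 ^ q := pow_le_pow_right₀ (by norm_num) hq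
  have e3 : 0 ≤ Kq * (b : ℝ) ^ 3 * Z / hk := by positivity
  rw [e1]
  calc 3 * (Kq * (b : ℝ) ^ 3 * Z / hk) ^ q ≤ 3 ^ q * (Kq * (b : ℝ) ^ 3 * Z / hk) ^ q := mul_le_mul_of_nonneg_right e2 (pow_nonneg e3 q)
    _ = (3 * (Kq * (b : ℝ) ^ 3 * Z / hk)) ^ q := by rw [mul_pow]
    _ ≤ (ε ^ 2) ^ q := by
        refine pow_le_pow_left₀ (by positivity) ?_ q
        rw [← mul_div_assoc, div_le_iff₀ hhk]
        linarith
    _ = ε ^ (2 * q) := by rw [← pow_mul]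


/-- **(N1)** the hypothesis `ε2` of `l6d_main` at the scales of LL 06 l.467-552: `κ = x^(17/4)`, `e0 = x^dg`, `hh = ε = x^(2 ag)`, `vmin = x^(ag+sl)`, `l0 ∈ [x^6/2, x^6]`, `τ = x^(-1/8)`, `q' ≥ 49`, `n ≥ x^(-6)/2`.      TEX[LL:global:trial-gap] -/
theorem l6e_num1 {q q' : ℕ} (hq : 1 ≤ q) (hq' : 49 ≤ q') {c1 cR ag dg sl : ℝ} (hc1 : 0 ≤ c1) (hcR : 0 ≤ cR)
    (hsum : 10 * ag + 2 * sl + dg ≤ 3 / 2) (hag : 0 ≤ ag) (hsl : 0 ≤ sl) (hdg : 0 ≤ dg) :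
    ∃ ε0 : ℝ, 0 < ε0 ∧ ∀ x : ℝ, 0 < x → x ≤ 1 → x ^ (1 / 40 : ℝ) ≤ ε0 → ∀ (n bb : ℕ) (l0 : ℝ), x ^ (-6 : ℝ) / 2 ≤ n →
      x ^ (6:ℝ) / 2 ≤ l0 → l0 ≤ x ^ (6:ℝ) → (bb : ℝ) ≤ 482 * x ^ (-(1 / 40) : ℝ) →
      (1 + (2 * q : ℝ) ^ 2 / 3) ^ q / ((x ^ (2 * ag)) ^ 2 * x ^ (17 / 4 : ℝ)) ^ q
          * l6cW q q' bb 1 c1 cR (x ^ (ag + sl)) n (x ^ dg) l0 (x ^ (-(1 / 8) : ℝ)) (2 * x ^ (2 * ag)) ≤ (x ^ (2 * ag)) ^ (2 * q) := by
  set Kq : ℝ := 1 + (2 * q : ℝ) ^ 2 / 3 with hKq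
  set K1 : ℝ := 768 * q * (c1 + 2 * q) with hK1
  set K2 : ℝ := 64 * (cR + 1) with hK2
  set K3 : ℝ := 1536 * q with hK3
  set K4 : ℝ := 3 * Kq * 482 ^ 3 with hK4
  have hKq0 : 0 < Kq := by positivity
  have k1 : 0 ≤ K1 := by positivity
  have k2 : 0 ≤ K2 := by positivity
  have k3 : 0 ≤ K3 := by positivity
  have k4 : 0 ≤ K4 := by positivity
  have hS : 0 < K1 + K2 + K3 + K4 + 1 := by positivity
  refine ⟨1 / (K1 + K2 + K3 + K4 + 1), by positivity, ?_⟩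
  intro x hx hx1 hε n bb l0 hn hl1 hl2 hbb
  have hKε : ∀ K : ℝ, 0 ≤ K → K ≤ K1 + K2 + K3 + K4 + 1 → K * (1 / (K1 + K2 + K3 + K4 + 1)) ≤ 1 := by
    intro K _ hK
    rw [mul_one_div, div_le_one hS]; exact hK
  have P : ∀ a : ℝ, 0 < x ^ a := fun a => Real.rpow_pos_of_pos hx a
  obtain ⟨zz, hzz⟩ : ∃ zz : ℝ, zz = 8 * ag + 87 / 20 := ⟨_, rfl⟩
  obtain ⟨E, hE⟩ : ∃ E : ℝ, E = 2 * ag + 2 * sl + dg - 6 := ⟨_, rfl⟩
  have hv2 : (x ^ (ag + sl)) ^ 2 = x ^ (2 * ag + 2 * sl) := by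
    rw [l6e_pow hx]; congr 1; push_cast; ring
  have hn0 : (0:ℝ) < n := lt_of_lt_of_le (by have := P (-6); positivity) hn
  have hl0 : 0 < l0 := lt_of_lt_of_le (by have := P 6; positivity) hl1
  have hτ1 : 1 ≤ x ^ (-(1 / 8) : ℝ) := Real.one_le_rpow_of_pos_of_le_one_of_nonpos hx hx1 (by norm_num)
  have hq0 : (0:ℝ) < q := by exact_mod_cast hq
  -- the denominator
  have hden : x ^ E / 2 ≤ (x ^ (ag + sl)) ^ 2 * n * x ^ dg := by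
    rw [hv2]
    have e1 : x ^ E / 2 = x ^ (2 * ag + 2 * sl) * (x ^ (-6 : ℝ) / 2) * x ^ dg := by
      rw [hE, mul_div_assoc', div_mul_eq_mul_div, ← Real.rpow_add hx, ← Real.rpow_add hx]; congr 2; ring
    rw [e1]
    exact mul_le_mul_of_nonneg_right (mul_le_mul_of_nonneg_left hn (P _).le) (P _).le
  have hden0 : 0 < (x ^ (ag + sl)) ^ 2 * n * x ^ dg := lt_of_lt_of_le (by have := P E; positivity) hden
  -- term 1
  have T1 : (c1 + 2 * x ^ (-(1 / 8) : ℝ) * q) * 128 * q * 3 / ((x ^ (ag + sl)) ^ 2 * n * x ^ dg) ≤ x ^ zz := by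
    have a1 : (c1 + 2 * x ^ (-(1 / 8) : ℝ) * q) * 128 * q * 3 ≤ (c1 + 2 * q) * x ^ (-(1 / 8) : ℝ) * 384 * q := by
      have : c1 ≤ c1 * x ^ (-(1 / 8) : ℝ) := le_mul_of_one_le_right hc1 hτ1
      nlinarith
    have a2 := div_le_div₀ (by have := P (-(1 / 8)); positivity) a1 (by have := P E; positivity) hden
    refine a2.trans ?_
    have a3 : (c1 + 2 * q) * x ^ (-(1 / 8) : ℝ) * 384 * q / (x ^ E / 2) = K1 * x ^ (-(1 / 8) - E) := by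
      rw [Real.rpow_sub hx, hK1]
      have hY := (P E).ne'
      generalize x ^ E = Y at hY ⊢
      generalize x ^ (-(1 / 8) : ℝ) = X
      field_simp; ring
    rw [a3]
    exact l6e_mono hx hx1 hε k1 (hKε K1 k1 (by linarith)) (by rw [hzz, hE]; linarith)
  -- term 2
  have hτ48 : x ^ (-6 : ℝ) ≤ (x ^ (-(1 / 8) : ℝ)) ^ (q' - 1) := by
    have e1 : x ^ (-6 : ℝ) = (x ^ (-(1 / 8) : ℝ)) ^ 48 := by
      rw [l6e_pow hx]; congr 1; norm_num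
    rw [e1]
    exact pow_le_pow_right₀ hτ1 (by omega)
  have hden2 : x ^ E / 4 ≤ (x ^ (ag + sl)) ^ 2 * n * x ^ dg * l0 * (x ^ (-(1 / 8) : ℝ)) ^ (q' - 1) := by
    have e1 : x ^ E / 4 = x ^ E / 2 * (x ^ (6:ℝ) / 2) * x ^ (-6 : ℝ) := by
      have : x ^ (6:ℝ) * x ^ (-6 : ℝ) = 1 := by rw [← Real.rpow_add hx]; norm_num
      calc x ^ E / 4 = x ^ E / 4 * (x ^ (6:ℝ) * x ^ (-6 : ℝ)) := by rw [this, mul_one]
        _ = _ := by ring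
    rw [e1]
    exact mul_le_mul (mul_le_mul hden hl1 (by have := P 6; positivity) hden0.le) hτ48 (P _).le (by positivity)
  have T2 : 2 * (cR + 1) * (4 * (2 * x ^ (2 * ag)) / ((x ^ (ag + sl)) ^ 2 * n * x ^ dg * l0 * (x ^ (-(1 / 8) : ℝ)) ^ (q' - 1))) ≤ x ^ zz := by
    have a2 := div_le_div₀ (by have := P (2 * ag); positivity) (le_refl (4 * (2 * x ^ (2 * ag)))) (by have := P E; positivity) hden2
    have a3 : 4 * (2 * x ^ (2 * ag)) / (x ^ E / 4) = 32 * x ^ (2 * ag - E) := by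
      rw [Real.rpow_sub hx]
      have hY := (P E).ne'
      generalize x ^ E = Y at hY ⊢
      generalize x ^ (2 * ag) = X
      field_simp; ring
    rw [a3] at a2
    have a4 := mul_le_mul_of_nonneg_left a2 (by positivity : (0:ℝ) ≤ 2 * (cR + 1))
    refine a4.trans ?_
    have a5 : 2 * (cR + 1) * (32 * x ^ (2 * ag - E)) = K2 * x ^ (2 * ag - E) := by rw [hK2]; ring
    rw [a5]
    exact l6e_mono hx hx1 hε k2 (hKε K2 k2 (by linarith)) (by rw [hzz, hE]; linarith)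
  -- term 3
  have T3 : 512 * (q:ℝ) * (3 * l0) ≤ x ^ zz := by
    have a1 : 512 * (q:ℝ) * (3 * l0) ≤ K3 * x ^ (6:ℝ) := by rw [hK3]; nlinarith
    exact a1.trans (l6e_mono hx hx1 hε k3 (hKε K3 k3 (by linarith)) (by rw [hzz]; linarith))
  have hW := l6e_W_le (q := q) (r' := q') (b := bb) hq hcR (by have := P (-(1 / 8)); positivity) T1
    (by have := P (2 * ag); have := P (-(1 / 8)); positivity) T2 (by positivity) T3
  refine l6e_eps2 hq hKq0.le (by have := P (2 * ag); have := P (17 / 4); positivity) (P zz).le hW ?_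
  -- the last inequality
  have b3 : (bb : ℝ) ^ 3 ≤ 482 ^ 3 * x ^ (-(3 / 40) : ℝ) := by
    have := pow_le_pow_left₀ (Nat.cast_nonneg bb) hbb 3
    rw [mul_pow, l6e_pow hx] at this
    refine this.trans (le_of_eq ?_)
    congr 2; norm_num
  have r1 : (x ^ (2 * ag)) ^ 2 * ((x ^ (2 * ag)) ^ 2 * x ^ (17 / 4 : ℝ)) = x ^ (8 * ag + 17 / 4) := by
    rw [l6e_pow hx, ← Real.rpow_add hx, ← Real.rpow_add hx]; congr 1; push_cast; ring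
  rw [r1]
  calc 3 * Kq * (bb : ℝ) ^ 3 * x ^ zz ≤ 3 * Kq * (482 ^ 3 * x ^ (-(3 / 40) : ℝ)) * x ^ zz :=
        mul_le_mul_of_nonneg_right (mul_le_mul_of_nonneg_left b3 (by positivity)) (P _).le
    _ = K4 * x ^ (-(3 / 40) + zz) := by rw [Real.rpow_add hx, hK4]; ring
    _ ≤ x ^ (8 * ag + 17 / 4) := l6e_mono hx hx1 hε k4 (hKε K4 k4 (by linarith)) (by rw [hzz]; linarith)


/-! ## (c) the final moment bound -/

/-- the constant of `l6e_B_le` -/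
def l6eKB (r : ℕ) (c : ℝ) : ℝ := 2 ^ (2 * r - 1) * (3 ^ (2 * r - 1) * (2 ^ (2 * r - 1) * (432 ^ (2 * r) + 1) + 2 * c) + 3 ^ (2 * r))

theorem l6eKB_eqns_cite : True := by
  have := @l6eKB.eq_1
  trivial

theorem l6eKB_nonneg (r : ℕ) {c : ℝ} (hc : 0 ≤ c) : 0 ≤ l6eKB r c := by unfold l6eKB; positivity

/-- all the scales of `l6cB` against one scale `W` -/
theorem l6e_B_le {r : ℕ} {c vmin mm e0 hh η ε D W : ℝ} (hc : 0 ≤ c) (hη0 : 0 ≤ η) (hε0 : 0 ≤ ε) (hD0 : 0 ≤ D) (hη : η ≤ 2 * W) (hε : ε ≤ W)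
    (hD : D ≤ W) (hv0 : 0 ≤ 1 / (vmin ^ 2 * mm * (e0 * hh))) (hv : 1 / (vmin ^ 2 * mm * (e0 * hh)) ≤ W ^ 2) :
    l6cB r c vmin mm e0 hh η ε D ≤ l6eKB r c * W ^ (2 * r) := by
  unfold l6cB l6eKB
  have hW : 0 ≤ W := hD0.trans hD
  have e1 : (144 * (η + ε)) ^ (2 * r) ≤ 432 ^ (2 * r) * W ^ (2 * r) := by
    rw [← mul_pow]; exact pow_le_pow_left₀ (by positivity) (by linarith) _
  have e2 : D ^ (2 * r) ≤ W ^ (2 * r) := pow_le_pow_left₀ hD0 hD _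
  have e3 : (1 / (vmin ^ 2 * mm * (e0 * hh))) ^ r ≤ W ^ (2 * r) := by
    rw [pow_mul]; exact pow_le_pow_left₀ hv0 hv _
  have e4 : (D + η) ^ (2 * r) ≤ 3 ^ (2 * r) * W ^ (2 * r) := by
    rw [← mul_pow]; exact pow_le_pow_left₀ (by positivity) (by linarith) _
  have f1 : 2 ^ (2 * r - 1) * ((144 * (η + ε)) ^ (2 * r) + D ^ (2 * r)) + 2 * c * (1 / (vmin ^ 2 * mm * (e0 * hh))) ^ r
      ≤ (2 ^ (2 * r - 1) * (432 ^ (2 * r) + 1) + 2 * c) * W ^ (2 * r) := by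
    have g1 : (2:ℝ) ^ (2 * r - 1) * ((144 * (η + ε)) ^ (2 * r) + D ^ (2 * r)) ≤ 2 ^ (2 * r - 1) * (432 ^ (2 * r) * W ^ (2 * r) + W ^ (2 * r)) :=
      mul_le_mul_of_nonneg_left (by linarith) (by positivity)
    have g2 : 2 * c * (1 / (vmin ^ 2 * mm * (e0 * hh))) ^ r ≤ 2 * c * W ^ (2 * r) := mul_le_mul_of_nonneg_left e3 (by positivity)
    nlinarith
  have f2 : (3:ℝ) ^ (2 * r - 1) * (2 ^ (2 * r - 1) * ((144 * (η + ε)) ^ (2 * r) + D ^ (2 * r)) + 2 * c * (1 / (vmin ^ 2 * mm * (e0 * hh))) ^ r)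
      ≤ 3 ^ (2 * r - 1) * ((2 ^ (2 * r - 1) * (432 ^ (2 * r) + 1) + 2 * c) * W ^ (2 * r)) := mul_le_mul_of_nonneg_left f1 (by positivity)
  calc _ ≤ (2:ℝ) ^ (2 * r - 1) * (3 ^ (2 * r - 1) * ((2 ^ (2 * r - 1) * (432 ^ (2 * r) + 1) + 2 * c) * W ^ (2 * r)) + 3 ^ (2 * r) * W ^ (2 * r)) :=
        mul_le_mul_of_nonneg_left (by linarith) (by positivity)
    _ = _ := by ring

/-- **(N2)** the Markov bound of the tails: `l6cB / θ^(2q) ≤ x^5` at `θ = x^th`, as soon as `2 q (ag - sl - th) ≥ 5 + 1/40`.      TEX[LL:global:trial-gap] -/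
theorem l6e_num2 {q : ℕ} {c ag dg sl th : ℝ} (hc : 0 ≤ c) (hag : 0 ≤ ag) (hsl : 0 ≤ sl) (hsum : 6 * ag + dg ≤ 5)
    (hq : 5 + 1 / 40 ≤ 2 * q * (ag - sl - th)) :
    ∃ ε0 : ℝ, 0 < ε0 ∧ ∀ x : ℝ, 0 < x → x ≤ 1 → x ^ (1 / 40 : ℝ) ≤ ε0 → ∀ n : ℕ, x ^ (-6 : ℝ) / 2 ≤ n →
      l6cB q c (x ^ (ag + sl)) n (x ^ dg) (x ^ (2 * ag)) (x ^ (2 * ag - sl) + x ^ (2 * ag)) (x ^ (2 * ag)) (x ^ (-sl) * x ^ ag) / (x ^ th) ^ (2 * q)
        ≤ x ^ (5:ℝ) := by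
  have hKB := l6eKB_nonneg q hc
  have hS : 0 < l6eKB q c + 2 := by linarith
  refine ⟨1 / (l6eKB q c + 2), by positivity, ?_⟩
  intro x hx hx1 hε n hn
  have P : ∀ a : ℝ, 0 < x ^ a := fun a => Real.rpow_pos_of_pos hx a
  have mono : ∀ a b : ℝ, b ≤ a → x ^ a ≤ x ^ b := fun a b h => Real.rpow_le_rpow_of_exponent_ge hx hx1 h
  obtain ⟨E, hE⟩ : ∃ E : ℝ, E = 4 * ag + 2 * sl + dg - 6 := ⟨_, rfl⟩
  have hden : x ^ E / 2 ≤ (x ^ (ag + sl)) ^ 2 * n * (x ^ dg * x ^ (2 * ag)) := by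
    have hv2 : (x ^ (ag + sl)) ^ 2 = x ^ (2 * ag + 2 * sl) := by
      rw [l6e_pow hx]; congr 1; push_cast; ring
    rw [hv2]
    have e1 : x ^ E / 2 = x ^ (2 * ag + 2 * sl) * (x ^ (-6 : ℝ) / 2) * (x ^ dg * x ^ (2 * ag)) := by
      rw [hE, mul_div_assoc', div_mul_eq_mul_div, ← Real.rpow_add hx, ← Real.rpow_add hx, ← Real.rpow_add hx]; congr 2; ring
    rw [e1]
    exact mul_le_mul_of_nonneg_right (mul_le_mul_of_nonneg_left hn (P _).le) (by have := P dg; have := P (2 * ag); positivity)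
  have hden0 : 0 < (x ^ (ag + sl)) ^ 2 * n * (x ^ dg * x ^ (2 * ag)) := lt_of_lt_of_le (by have := P E; positivity) hden
  have hW2 : (x ^ (ag - sl)) ^ 2 = x ^ (2 * ag - 2 * sl) := by
    rw [l6e_pow hx]; congr 1; push_cast; ring
  have hv : 1 / ((x ^ (ag + sl)) ^ 2 * n * (x ^ dg * x ^ (2 * ag))) ≤ (x ^ (ag - sl)) ^ 2 := by
    have a1 := one_div_le_one_div_of_le (by have := P E; positivity) hden
    refine a1.trans ?_
    have a2 : 1 / (x ^ E / 2) = 2 * x ^ (-E) := by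
      rw [Real.rpow_neg hx.le]
      have hY := (P E).ne'
      generalize x ^ E = Y at hY ⊢
      field_simp
    rw [a2, hW2]
    refine l6e_mono hx hx1 hε (by norm_num) ?_ (by rw [hE]; linarith)
    rw [mul_one_div, div_le_one hS]; linarith
  have hD : x ^ (-sl) * x ^ ag = x ^ (ag - sl) := by rw [← Real.rpow_add hx]; congr 1; ring
  have key := l6e_B_le (r := q) (c := c) (vmin := x ^ (ag + sl)) (mm := n) (e0 := x ^ dg) (hh := x ^ (2 * ag))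
    (η := x ^ (2 * ag - sl) + x ^ (2 * ag)) (ε := x ^ (2 * ag)) (D := x ^ (-sl) * x ^ ag) (W := x ^ (ag - sl)) hc
    (by have := P (2 * ag - sl); have := P (2 * ag); positivity) (P _).le (by rw [hD]; exact (P _).le)
    (by have := mono (2 * ag - sl) (ag - sl) (by linarith); have := mono (2 * ag) (ag - sl) (by linarith); linarith)
    (mono _ _ (by linarith)) hD.le (by positivity) hv
  have hθ : 0 < (x ^ th) ^ (2 * q) := pow_pos (P _) _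
  rw [div_le_iff₀ hθ]
  refine key.trans ?_
  have e1 : (x ^ (ag - sl)) ^ (2 * q) = x ^ (2 * q * (ag - sl - th)) * (x ^ th) ^ (2 * q) := by
    rw [l6e_pow hx, l6e_pow hx, ← Real.rpow_add hx]; congr 1; push_cast; ring
  rw [e1, ← mul_assoc]
  refine mul_le_mul_of_nonneg_right ?_ hθ.le
  refine l6e_mono hx hx1 hε hKB ?_ hq
  rw [mul_one_div, div_le_one hS]; linarith


/-! ## (d) all the numerical hypotheses of `l6d_main` at once -/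

/-- **the numerics of (CONC)**: for `x` small (`x^(1/40) ≤ ε0`, `x^ag ≤ 1/4`) and `n ≥ x^(-6)/2` there are `bb`, `l0` with ALL the numerical hypotheses of `l6d_main` (200, `LL06/ConcCh.lean`) at
`κ = x^(17/4)`, `e0 = x^dg`, `δ = x^ag`, `hh = ε = ρ = x^(2 ag)`, `ηL = x^(2 ag - sl)`, `vmin = x^(ag + sl)`, `C1 = x^(-sl)` (`ll06_geo_pow`), `τ = x^(-1/8)`, `θ = x^th`, and the tails are `≤ x^5`.      TEX[LL:global:trial-gap] -/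
theorem l6e_num {q q' : ℕ} (hq : 1 ≤ q) (hq' : 49 ≤ q') {c1 cR c ag dg sl th : ℝ} (hc1 : 0 ≤ c1) (hcR : 0 ≤ cR) (hc : 0 ≤ c)
    (hag : 0 ≤ ag) (hsl : 0 ≤ sl) (hdg : 0 ≤ dg) (hsum : 10 * ag + 2 * sl + dg ≤ 3 / 2) (hqa : 5 + 1 / 40 ≤ 2 * q * (ag - sl - th)) :
    ∃ ε0 : ℝ, 0 < ε0 ∧ ∀ x : ℝ, 0 < x → x < 1 → x ^ (1 / 40 : ℝ) ≤ ε0 → x ^ ag ≤ 1 / 4 → ∀ n : ℕ, x ^ (-6 : ℝ) / 2 ≤ n →
      ∃ (bb : ℕ) (l0 : ℝ), 2 ≤ bb ∧ 0 < l0 ∧ l0 ≤ x ^ (2 * ag) ∧ 4 * x ^ (2 * ag) ≤ x ^ ag ∧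
        5 / 4 + 4 * x ^ (2 * ag) + l0 * 2 ^ (bb - 2) ≤ 2 ∧ 2 * x ^ (2 * ag) ≤ 3 * (l0 * 2 ^ (bb - 2)) ∧
        (1 + (2 * q : ℝ) ^ 2 / 3) ^ q / ((x ^ (2 * ag)) ^ 2 * x ^ (17 / 4 : ℝ)) ^ q
          * l6cW q q' bb 1 c1 cR (x ^ (ag + sl)) n (x ^ dg) l0 (x ^ (-(1 / 8) : ℝ)) (2 * x ^ (2 * ag)) ≤ (x ^ (2 * ag)) ^ (2 * q) ∧
        l6cB q c (x ^ (ag + sl)) n (x ^ dg) (x ^ (2 * ag)) (x ^ (2 * ag - sl) + x ^ (2 * ag)) (x ^ (2 * ag)) (x ^ (-sl) * x ^ ag) / (x ^ th) ^ (2 * q)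
          ≤ x ^ (5:ℝ) := by
  obtain ⟨ε1, hε1, N1⟩ := l6e_num1 (q := q) (q' := q') hq hq' (c1 := c1) (cR := cR) (ag := ag) (dg := dg) (sl := sl) hc1 hcR hsum hag hsl hdg
  obtain ⟨ε2, hε2, N2⟩ := l6e_num2 (q := q) (c := c) (ag := ag) (dg := dg) (sl := sl) (th := th) hc hag hsl (by linarith) hqa
  refine ⟨min ε1 ε2, lt_min hε1 hε2, ?_⟩
  intro x hx hx1 hε hxa n hn
  obtain ⟨bb, hbb2, hl1, hl2, hbb⟩ := l6e_bb hx hx1 (s := 1 / 40) (by norm_num)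
  have hbb' : (bb : ℝ) ≤ 482 * x ^ (-(1 / 40) : ℝ) := by
    refine hbb.trans (le_of_eq ?_); norm_num
  have hX6 : 0 < x ^ (6:ℝ) := Real.rpow_pos_of_pos hx _
  have hδ : 0 < x ^ ag := Real.rpow_pos_of_pos hx _
  have hh2 : x ^ (2 * ag) = x ^ ag * x ^ ag := by rw [← Real.rpow_add hx]; congr 1; ring
  have hl : (1:ℝ) / 2 / 2 ^ (bb - 2) * 2 ^ (bb - 2) = 1 / 2 := by
    have : (2:ℝ) ^ (bb - 2) ≠ 0 := by positivity
    field_simp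
  have hhh : x ^ (2 * ag) ≤ 1 / 16 := by rw [hh2]; nlinarith
  refine ⟨bb, 1 / 2 / 2 ^ (bb - 2), hbb2, by positivity, ?_, ?_, ?_, ?_, ?_, ?_⟩
  · exact hl2.trans (Real.rpow_le_rpow_of_exponent_ge hx hx1.le (by linarith))
  · rw [hh2]; nlinarith
  · rw [hl]; linarith
  · rw [hl]; linarith
  · exact N1 x hx hx1.le (hε.trans (min_le_left _ _)) n bb _ hn hl1 hl2 hbb'
  · exact N2 x hx hx1.le (hε.trans (min_le_right _ _)) n hn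

end

end Claimed.Agent.R286
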