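import Claimed.Agent.R286.LL06.PhiDefs

/-!
# Row 286 (S0533), LL Sec. 6 (06-global.tex l.27-36, l.139-170): THE CONSTRAINED INTERPOLATION `Φ(θ)` AND THE ENVELOPE GLUE OF (G1)      (architect helper58; head L05 helper291, ADV helper130; prefix `l6p_`)

TEX[LL:global:trial-gap] l.9-170.      Definitions: `LL06/PhiDefs.lean`.      Everything is NON-ASYMPTOTIC and holds for every `I : MvIface m`.
## LEMMAS (ALL PROVED, 0 sorry; tools: `Macro/Basic`, `Macro/Interp` (copy `mvObj_deriv`, `mvRem_nonneg`, `mvObj_lip_t`, `mvObj_lip_z` with `r ≤ 2` instead of `z ≤ 1`), `Tool/Box252`, `Tool/Danskin`)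
* `l6p_cls_iff`     the box in `r`-form: `r 0 = 0`, `r 1 = 2`, `(v-u)/M ≤ r v - r u ≤ (v-u)/κ`  (a CONVEX class).
* `l6p_box`         BOX (l.155-157): every quantile `[0,1] → [0,1]` is within `16 κ + 1/M` in `L¹` of the box.      Construction in the docstring.
* `l6p_J_deriv`     right derivative of `θ ↦ J(θ,r)` = `l6pDer`  ((A1) = `I.seg_deriv`).      `l6p_der_nonneg`.
* `l6p_J_lip_th`, `l6p_J_lip_r`      Lipschitz in `θ`; `L¹`-Lipschitz in `r`.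
* `l6p_value`       the minimum is attained (l.163).
* `l6p_J_one`       `J(1,r) = f_spin(h_* + b r) + ¼ ∫ b r²`.      `l6p_J_guerra`   `J(θ,q) ≤ F_*`.
## GLUE (proved here)
* `l6p_phi_mono`, `l6p_phi_lip` (l.164-165), `l6p_env` (envelope, integrated), `l6p_phi_zero` (S1 ⇒ `Φ(0) ≤ f_m(b,h_*) + E' + loss`), `l6p_phi_one` ((G2) ⇒ `Φ(1) ≥ F_*`), `l6p_phi_le` (l.167-170),
* **`l6p_main`** : [S1] + [(G2) at `z = r`] + [envelope derivative `≤ η` at every minimiser, every `θ ∈ (0,1)`]  ⟹  `0 ≤ F_* - f_m(b,h_*) ≤ E' + loss + η`.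
  SUPPLIERS: [S1] `l6p_s1` (`LL06/PhiS1.lean`, from `p6_error`);   [(G2)] `l6g_G2` (`LL06/G2.lean`);   [envelope bound] = l.171-652 (291 / 200: POT, LOC, G3, G4, CONC, GAP, ABS).
-/

set_option autoImplicit false

namespace Claimed.Agent.R286

open MeasureTheory Set Filter Topology
open scoped NNReal

noncomputable section

/-! ## the class -/

theorem l6p_ok_box {κ M : ℝ} (hκ : 0 < κ) : TlOk (fun _ : ℝ => κ) (fun _ : ℝ => M) 0 2 0 1 κ M :=
  ⟨by norm_num, hκ, intervalIntegrable_const, fun _ _ => le_rfl, continuousOn_const, fun _ _ => le_rfl⟩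

/-- the box in `r`-form.      (→) `TlQ.left, right, lower, upper`.   (←) `al` = inverse of the increasing bijection `r : [0,1] → [0,2]` (continuous: Lipschitz `1/κ`; onto: IVT). -/
theorem l6p_cls_iff {κ M : ℝ} (hκ : 0 < κ) (r : ℝ → ℝ) :
    r ∈ l6pCls κ M ↔ r 0 = 0 ∧ r 1 = 2 ∧
      ∀ u v : ℝ, 0 ≤ u → u ≤ v → v ≤ 1 → v - u ≤ M * (r v - r u) ∧ κ * (r v - r u) ≤ v - u := by
  constructor
  · rintro ⟨al, B, Q⟩
    have O := l6p_ok_box (M := M) hκ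
    exact ⟨Q.left B O, Q.right B O, fun u v hu huv hv => ⟨Q.lower B O hu huv hv, Q.upper B O hu huv hv⟩⟩
  · rintro ⟨h0, h1, hsl⟩
    have hM : 0 < M := by
      have := (hsl 0 1 le_rfl zero_le_one le_rfl).1
      rw [h0, h1] at this
      linarith
    have B' : TlBox (fun _ : ℝ => 1 / M) (fun _ : ℝ => 1 / κ) 0 1 0 2 r := by
      refine ⟨h0, h1, fun s t hs hst ht => ?_, fun s t hs hst ht => ?_⟩
      · rw [intervalIntegral.integral_const, smul_eq_mul, mul_one_div, div_le_iff₀ hM, mul_comm]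
        exact (hsl s t hs hst ht).1
      · rw [intervalIntegral.integral_const, smul_eq_mul, mul_one_div, le_div_iff₀ hκ, mul_comm]
        exact (hsl s t hs hst ht).2
    have O' : TlOk (fun _ : ℝ => 1 / M) (fun _ : ℝ => 1 / κ) 0 1 0 2 (1 / M) (1 / κ) :=
      ⟨zero_le_one, by positivity, intervalIntegrable_const, fun _ _ => le_rfl, continuousOn_const, fun _ _ => le_rfl⟩
    have Q' := B'.tlInv_isQ O'
    refine ⟨tlInv r 0 1, ⟨Q'.left B' O', Q'.right B' O', fun s t hs hst ht => ?_, fun s t hs hst ht => ?_⟩,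
      ⟨fun u hu => B'.mem O' hu, fun u hu => Q'.r_al B' O' hu⟩⟩
    · rw [intervalIntegral.integral_const, smul_eq_mul]
      have := Q'.lower B' O' hs hst ht
      rw [one_div, inv_mul_eq_div, le_div_iff₀ hκ] at this
      linarith
    · rw [intervalIntegral.integral_const, smul_eq_mul]
      have := Q'.upper B' O' hs hst ht
      rw [one_div, inv_mul_eq_div, div_le_iff₀ hM] at this
      linarith

/-- members of the box are clocks with values in `[0,2]` -/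
theorem l6p_cls_clk {κ M : ℝ} (hκ : 0 < κ) {r : ℝ → ℝ} (hr : r ∈ l6pCls κ M) :
    MvClk r ∧ ∀ u ∈ Icc (0:ℝ) 1, r u ≤ 2 := by
  obtain ⟨al, B, Q⟩ := hr
  exact ⟨⟨Q.monoOn B (l6p_ok_box hκ), (Q.mem 0 ⟨le_rfl, zero_le_one⟩).1⟩, fun u hu => (Q.mem u hu).2⟩

/-- bounds of the integral of a monotone function -/
theorem l6p_mono_int {g : ℝ → ℝ} (hg : Monotone g) {s t : ℝ} (hst : s ≤ t) :
    g s * (t - s) ≤ ∫ y in s..t, g y ∧ ∫ y in s..t, g y ≤ g t * (t - s) := by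
  have hi : IntervalIntegrable g volume s t := hg.intervalIntegrable
  constructor
  · have := intervalIntegral.integral_mono_on hst (intervalIntegrable_const (c := g s)) hi (fun y hy => hg hy.1)
    rw [intervalIntegral.integral_const, smul_eq_mul] at this
    linarith
  · have := intervalIntegral.integral_mono_on hst hi (intervalIntegrable_const (c := g t)) (fun y hy => hg hy.2)
    rw [intervalIntegral.integral_const, smul_eq_mul] at this
    linarith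

/-- BOX (06-global l.155-157).      Construction: `re = 0` on `(-∞,0)`, `= r` on `[0,1]`, `= 2` on `(1,∞)`; `w = 4 κ`; `rw v = w⁻¹ ∫_{l v}^{l v + w} re`, `l v = (1+w) v - w`;
`r' = (1 - a) rw + 2 a v`, `a = 1/(2M)`.      Slopes: `≥ 2a = 1/M`, `≤ 2(1+w)/w + 1 ≤ 1/κ`.      `re (v-w) ≤ rw v, r v ≤ re (v+w)`, `∫₀¹ (re (v+w) - re (v-w)) ≤ 4 w`. -/
theorem l6p_box {κ M : ℝ} (hκ : 0 < κ) (hκ' : κ ≤ 1 / 8) (hM : 1 ≤ M) {r : ℝ → ℝ} (hr : MvQt r) :
    ∃ r' ∈ l6pCls κ M, ∫ u in (0:ℝ)..1, |r' u - r u| ≤ 16 * κ + 1 / M := by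
  obtain ⟨re, hre⟩ : ∃ re : ℝ → ℝ, re = fun v => if v ≤ 0 then 0 else if v < 1 then r v else 2 := ⟨_, rfl⟩
  have re_neg : ∀ v, v ≤ 0 → re v = 0 := fun v hv => by rw [hre]; simp [hv]
  have re_mid : ∀ v, 0 < v → v < 1 → re v = r v := fun v h0 h1 => by rw [hre]; simp [not_le.2 h0, h1]
  have re_top : ∀ v, 1 ≤ v → re v = 2 := fun v hv => by
    rw [hre]; simp [not_le.2 (zero_lt_one.trans_le hv), not_lt.2 hv]
  have re_mem : ∀ v, 0 ≤ re v ∧ re v ≤ 2 := by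
    intro v
    rcases le_or_gt v 0 with h | h
    · rw [re_neg v h]; norm_num
    · rcases lt_or_ge v 1 with h' | h'
      · rw [re_mid v h h']
        have := hr.mem (u := v) ⟨h.le, h'.le⟩
        exact ⟨this.1, this.2.trans one_le_two⟩
      · rw [re_top v h']; norm_num
  have re_mono : Monotone re := by
    intro u v huv
    rcases le_or_gt u 0 with h | h
    · rw [re_neg u h]; exact (re_mem v).1
    · rcases lt_or_ge v 1 with h' | h'
      · rw [re_mid u h (huv.trans_lt h'), re_mid v (h.trans_le huv) h']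
        exact hr.1.1 ⟨h.le, (huv.trans_lt h').le⟩ ⟨(h.trans_le huv).le, h'.le⟩ huv
      · rw [re_top v h']; exact (re_mem u).2
  have hii : ∀ s t : ℝ, IntervalIntegrable re volume s t := fun s t => re_mono.intervalIntegrable
  obtain ⟨F, hF⟩ : ∃ F : ℝ → ℝ, F = fun t => ∫ y in (0:ℝ)..t, re y := ⟨_, rfl⟩
  have hFs : ∀ s t : ℝ, ∫ y in s..t, re y = F t - F s := fun s t => by
    rw [hF]; exact (intervalIntegral.integral_interval_sub_left (hii 0 t) (hii 0 s)).symm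
  have F_lo : ∀ s t : ℝ, s ≤ t → re s * (t - s) ≤ F t - F s := fun s t hst => by
    rw [← hFs]; exact (l6p_mono_int re_mono hst).1
  have F_hi : ∀ s t : ℝ, s ≤ t → F t - F s ≤ re t * (t - s) := fun s t hst => by
    rw [← hFs]; exact (l6p_mono_int re_mono hst).2
  have F_nn : ∀ s t : ℝ, s ≤ t → 0 ≤ F t - F s := fun s t hst =>
    (mul_nonneg (re_mem s).1 (sub_nonneg.2 hst)).trans (F_lo s t hst)
  have F_2 : ∀ s t : ℝ, s ≤ t → F t - F s ≤ 2 * (t - s) := fun s t hst =>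
    (F_hi s t hst).trans (mul_le_mul_of_nonneg_right (re_mem t).2 (sub_nonneg.2 hst))
  obtain ⟨w, hw⟩ : ∃ w : ℝ, w = 4 * κ := ⟨_, rfl⟩
  have hw0 : 0 < w := by rw [hw]; positivity
  have F_sh : ∀ s t : ℝ, s ≤ t → F t - F s ≤ F (t + w) - F (s + w) := fun s t hst => by
    rw [← hFs, ← hFs, ← intervalIntegral.integral_comp_add_right (fun y => re y) w]
    exact intervalIntegral.integral_mono_on hst (hii s t)
      ((re_mono.comp (fun a b hab => by simpa using hab : Monotone fun y : ℝ => y + w)).intervalIntegrable)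
      (fun y _ => re_mono (by linarith))
  obtain ⟨l, hl⟩ : ∃ l : ℝ → ℝ, l = fun v => (1 + w) * v - w := ⟨_, rfl⟩
  have l_mono : ∀ u v : ℝ, u ≤ v → l u ≤ l v := fun u v huv => by
    rw [hl]; simp only; nlinarith
  have l_sub : ∀ u v : ℝ, l v - l u = (1 + w) * (v - u) := fun u v => by rw [hl]; simp only; ring
  obtain ⟨rw', hrw⟩ : ∃ rw' : ℝ → ℝ, rw' = fun v => w⁻¹ * (F (l v + w) - F (l v)) := ⟨_, rfl⟩
  obtain ⟨a, ha⟩ : ∃ a : ℝ, a = 1 / (2 * M) := ⟨_, rfl⟩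
  have hM0 : 0 < M := zero_lt_one.trans_le hM
  have ha0 : 0 < a := by rw [ha]; positivity
  have ha1 : a ≤ 1 / 2 := by
    rw [ha, div_le_div_iff₀ (by positivity) (by norm_num)]; linarith
  have haM : 2 * a = 1 / M := by rw [ha]; field_simp
  have rw_zero : rw' 0 = 0 := by
    have e : l 0 = -w := by rw [hl]; simp
    have h1 := F_lo (-w) 0 (by linarith)
    have h2 := F_hi (-w) 0 (by linarith)
    rw [re_neg (-w) (by linarith)] at h1
    rw [re_neg 0 le_rfl] at h2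
    rw [hrw]; simp only
    rw [e, neg_add_cancel]
    have : F 0 - F (-w) = 0 := by linarith
    rw [this, mul_zero]
  have rw_one : rw' 1 = 2 := by
    have e : l 1 = 1 := by rw [hl]; simp
    have h1 := F_lo 1 (1 + w) (by linarith)
    have h2 := F_hi 1 (1 + w) (by linarith)
    rw [re_top 1 le_rfl] at h1
    rw [re_top (1 + w) (by linarith)] at h2
    rw [hrw]; simp only
    rw [e]
    have : F (1 + w) - F 1 = 2 * w := by linarith
    rw [this]; field_simp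
  have rw_lo : ∀ u v : ℝ, u ≤ v → 0 ≤ rw' v - rw' u := fun u v huv => by
    have h1 := F_sh (l u) (l v) (l_mono u v huv)
    have e : rw' v - rw' u = w⁻¹ * ((F (l v + w) - F (l u + w)) - (F (l v) - F (l u))) := by
      rw [hrw]; simp only; ring
    rw [e]
    exact mul_nonneg (inv_nonneg.2 hw0.le) (by linarith)
  have rw_hi : ∀ u v : ℝ, u ≤ v → w * (rw' v - rw' u) ≤ 2 * ((1 + w) * (v - u)) := fun u v huv => by
    have h1 := F_2 (l u + w) (l v + w) (by linarith [l_mono u v huv])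
    have h2 := F_nn (l u) (l v) (l_mono u v huv)
    have e : w * (rw' v - rw' u) = (F (l v + w) - F (l u + w)) - (F (l v) - F (l u)) := by
      rw [hrw]; simp only; field_simp; ring
    rw [e, ← l_sub u v]
    linarith
  obtain ⟨r', hr'⟩ : ∃ r' : ℝ → ℝ, r' = fun v => (1 - a) * rw' v + 2 * a * v := ⟨_, rfl⟩
  have hcls : r' ∈ l6pCls κ M := by
    rw [l6p_cls_iff hκ]
    refine ⟨by rw [hr']; simp [rw_zero], by rw [hr']; simp only; rw [rw_one]; ring, fun u v hu huv hv => ?_⟩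
    have e : r' v - r' u = (1 - a) * (rw' v - rw' u) + 2 * a * (v - u) := by rw [hr']; simp only; ring
    have h1 := rw_lo u v huv
    have h2 := rw_hi u v huv
    have h3 : 0 ≤ v - u := sub_nonneg.2 huv
    have h4 : 0 ≤ (1 - a) * (rw' v - rw' u) := mul_nonneg (by linarith) h1
    constructor
    · rw [e, mul_add]
      have : M * (2 * a * (v - u)) = v - u := by rw [← mul_assoc, haM]; field_simp
      have h5 : 0 ≤ M * ((1 - a) * (rw' v - rw' u)) := mul_nonneg hM0.le h4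
      linarith
    · rw [e]
      have h5 : (1 - a) * (rw' v - rw' u) ≤ rw' v - rw' u := by nlinarith
      have h6 : 4 * κ * (rw' v - rw' u) ≤ 2 * ((1 + 4 * κ) * (v - u)) := by rw [← hw]; exact h2
      have h7 : κ * (2 * a * (v - u)) ≤ κ * (v - u) := by
        apply mul_le_mul_of_nonneg_left _ hκ.le
        nlinarith
      have h8 : κ * ((1 - a) * (rw' v - rw' u)) ≤ κ * (rw' v - rw' u) := mul_le_mul_of_nonneg_left h5 hκ.le
      nlinarith
  refine ⟨r', hcls, ?_⟩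
  obtain ⟨hc1, hc2⟩ := l6p_cls_clk hκ hcls
  -- pointwise bound on the open interval
  have hpt : ∀ v ∈ Ioo (0:ℝ) 1, |r' v - r v| ≤ (re (v + w) - re (v - w)) + 1 / M := by
    intro v hv
    have hl1 : v - w ≤ l v := by rw [hl]; simp only; nlinarith [hv.1]
    have hl2 : l v + w ≤ v + w := by rw [hl]; simp only; nlinarith [hv.2]
    have h1 := F_lo (l v) (l v + w) (by linarith)
    have h2 := F_hi (l v) (l v + w) (by linarith)
    have h3 : re (v - w) ≤ re (l v) := re_mono hl1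
    have h4 : re (l v + w) ≤ re (v + w) := re_mono hl2
    have e1 : l v + w - l v = w := by ring
    rw [e1] at h1 h2
    have h5 : re (v - w) ≤ rw' v := by
      rw [hrw]; simp only
      rw [inv_mul_eq_div, le_div_iff₀ hw0]
      nlinarith
    have h6 : rw' v ≤ re (v + w) := by
      rw [hrw]; simp only
      rw [inv_mul_eq_div, div_le_iff₀ hw0]
      nlinarith
    have h7 : re (v - w) ≤ r v := by rw [← re_mid v hv.1 hv.2]; exact re_mono (by linarith)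
    have h8 : r v ≤ re (v + w) := by rw [← re_mid v hv.1 hv.2]; exact re_mono (by linarith)
    have h9 := hr.mem (u := v) ⟨hv.1.le, hv.2.le⟩
    have e : r' v - r v = (1 - a) * (rw' v - r v) + a * (2 * v - r v) := by rw [hr']; simp only; ring
    have h10 : |rw' v - r v| ≤ re (v + w) - re (v - w) := by rw [abs_le]; constructor <;> linarith
    have h11 : |2 * v - r v| ≤ 2 := by rw [abs_le]; constructor <;> linarith [hv.1, hv.2, h9.1, h9.2]
    rw [e]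
    refine (abs_add_le _ _).trans ?_
    rw [abs_mul, abs_mul, abs_of_nonneg (by linarith : 0 ≤ 1 - a), abs_of_nonneg ha0.le, ← haM]
    have h12 : (1 - a) * |rw' v - r v| ≤ |rw' v - r v| := by nlinarith [abs_nonneg (rw' v - r v)]
    nlinarith
  have m1 : MvBM (fun v => re (v + w)) :=
    MvBM.of_mono ((re_mono.comp (fun a b hab => by simpa using hab : Monotone fun y : ℝ => y + w)).monotoneOn _)
  have m2 : MvBM (fun v => re (v - w)) :=
    MvBM.of_mono ((re_mono.comp (fun a b hab => by simpa using hab : Monotone fun y : ℝ => y - w)).monotoneOn _)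
  have hmono := mv_int_mono ((hc1.bm.sub hr.1.bm).comp (φ := fun x => |x|) (by fun_prop))
    ((m1.sub m2).add (MvBM.const (1 / M))) le_rfl zero_le_one le_rfl (Filter.Eventually.of_forall fun v hv => hpt v hv)
  refine hmono.trans ?_
  have h0 : (0:ℝ) ∈ Icc (0:ℝ) 1 := ⟨le_rfl, zero_le_one⟩
  have h1 : (1:ℝ) ∈ Icc (0:ℝ) 1 := ⟨zero_le_one, le_rfl⟩
  rw [intervalIntegral.integral_add ((m1.sub m2).ii h0 h1) intervalIntegrable_const,
    intervalIntegral.integral_sub (m1.ii h0 h1) (m2.ii h0 h1),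
    intervalIntegral.integral_comp_add_right (fun y => re y) w, intervalIntegral.integral_comp_sub_right (fun y => re y) w,
    hFs, hFs, intervalIntegral.integral_const, smul_eq_mul]
  have k1 := F_2 (1 - w) (1 + w) (by linarith)
  have k2 := F_nn (0 - w) (0 + w) (by linarith)
  rw [hw] at k1 k2 ⊢
  linarith

/-! ## the clocks -/

section clocks

variable {b hs q : ℝ → ℝ} {e0 κ M : ℝ}

theorem l6pE_clk (H : L6pOk b hs q e0 κ M) {θ : ℝ} (hθ : θ ∈ Icc (0:ℝ) 1) : MvClk (l6pE b e0 θ) :=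
  (MvClk.const (mul_nonneg (sub_nonneg.2 hθ.2) H.e0_pos.le)).add (H.hb.const_mul hθ.1)

theorem l6pB_eq (b : ℝ → ℝ) (e0 θ : ℝ) : l6pB b e0 θ = fun u => (1 - θ) * (b u - e0) := by
  funext u; simp only [l6pB, l6pE]; ring

theorem l6pB_clk (H : L6pOk b hs q e0 κ M) {θ : ℝ} (hθ : θ ∈ Icc (0:ℝ) 1) : MvClk (l6pB b e0 θ) := by
  rw [l6pB_eq]
  refine MvClk.const_mul ⟨fun u hu v hv huv => ?_, ?_⟩ (sub_nonneg.2 hθ.2)
  · have := H.hb.1 hu hv huv
    linarith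
  · have := H.e0_le
    linarith

theorem l6pH_clk (H : L6pOk b hs q e0 κ M) {θ : ℝ} (hθ : θ ∈ Icc (0:ℝ) 1) {r : ℝ → ℝ} (hr : MvClk r) :
    MvClk (l6pH b hs e0 θ r) :=
  H.hh.add ((l6pE_clk H hθ).mul hr)

/-- `0 ≤ e ≤ b 1` -/
theorem l6pE_le (H : L6pOk b hs q e0 κ M) {θ : ℝ} (hθ : θ ∈ Icc (0:ℝ) 1) {u : ℝ} (hu : u ∈ Icc (0:ℝ) 1) :
    0 ≤ l6pE b e0 θ u ∧ l6pE b e0 θ u ≤ b 1 := by
  refine ⟨(l6pE_clk H hθ).nonneg hu, ?_⟩
  have h1 : b u ≤ b 1 := H.hb.le_one hu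
  have h2 : e0 ≤ b 1 := H.e0_le.trans (H.hb.le_one ⟨le_rfl, zero_le_one⟩)
  have h3 := mul_le_mul_of_nonneg_left h2 (sub_nonneg.2 hθ.2)
  have h4 := mul_le_mul_of_nonneg_left h1 hθ.1
  simp only [l6pE]
  nlinarith

end clocks

/-! ## the objective -/

section objective

variable {m : ℕ} (I : MvIface m) {b hs q : ℝ → ℝ} {e0 κ M : ℝ}

theorem l6pE_one (b : ℝ → ℝ) (e0 : ℝ) : l6pE b e0 1 = b := by funext u; simp [l6pE]

theorem l6p_sq_bm {r : ℝ → ℝ} (hr : MvClk r) : MvBM (fun u => r u ^ 2) :=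
  hr.bm.comp (φ := fun x => x ^ 2) (by fun_prop)

theorem l6p_int_mono {f g : ℝ → ℝ} (hf : MvBM f) (hg : MvBM g) (h : ∀ u ∈ Icc (0:ℝ) 1, f u ≤ g u) :
    ∫ u in (0:ℝ)..1, f u ≤ ∫ u in (0:ℝ)..1, g u :=
  mv_int_mono hf hg le_rfl zero_le_one le_rfl (Filter.Eventually.of_forall fun u hu => h u ⟨hu.1.le, hu.2.le⟩)

theorem l6p_abs_bm {f : ℝ → ℝ} (hf : MvBM f) : MvBM (fun u => |f u|) := hf.comp (φ := fun x => |x|) (by fun_prop)

theorem l6p_b1_nonneg (H : L6pOk b hs q e0 κ M) : 0 ≤ b 1 := H.hb.nonneg ⟨zero_le_one, le_rfl⟩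

theorem l6p_b_sub (H : L6pOk b hs q e0 κ M) {u : ℝ} (hu : u ∈ Icc (0:ℝ) 1) : 0 ≤ b u - e0 ∧ b u - e0 ≤ b 1 := by
  have h1 : b 0 ≤ b u := H.hb.1 ⟨le_rfl, zero_le_one⟩ hu hu.1
  have h2 : b u ≤ b 1 := H.hb.le_one hu
  exact ⟨by linarith [H.e0_le], by linarith [H.e0_pos]⟩

theorem l6p_cls_nonempty (H : L6pOk b hs q e0 κ M) : ∃ al, TlBox (fun _ : ℝ => κ) (fun _ : ℝ => M) 0 2 0 1 al := by
  refine ⟨fun s => s / 2, by simp, by norm_num, fun s t _ hst _ => ?_, fun s t _ hst _ => ?_⟩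
  · rw [intervalIntegral.integral_const, smul_eq_mul]
    nlinarith [H.κ_le]
  · rw [intervalIntegral.integral_const, smul_eq_mul]
    nlinarith [H.M_ge]

/-- (A1): right derivative in `θ` of the frozen objective.      Copy of `mvObj_deriv` (`Macro/Interp.lean`) with base `(b - e0, h_* + e0 r)`, target `(0, h_* + b r)`, trial `r` (only `MvClk r` is used). -/
theorem l6p_J_deriv (H : L6pOk b hs q e0 κ M) {r : ℝ → ℝ} (hr : MvClk r) {θ : ℝ} (hθ : θ ∈ Ico (0:ℝ) 1) :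
    HasDerivWithinAt (fun s => l6pJ I b hs e0 s r) (l6pDer I b hs e0 θ r) (Ici θ) θ := by
  have hθm : θ ∈ Icc (0:ℝ) 1 := ⟨hθ.1, hθ.2.le⟩
  have h0 : (0:ℝ) ∈ Icc (0:ℝ) 1 := ⟨le_rfl, zero_le_one⟩
  have h1 : (1:ℝ) ∈ Icc (0:ℝ) 1 := ⟨zero_le_one, le_rfl⟩
  have hB0 : MvClk (fun u => b u - e0) := by
    have := l6pB_clk H h0
    rw [l6pB_eq] at this
    simpa using this
  have hH0 : MvClk (fun u => hs u + e0 * r u) := H.hh.add (hr.const_mul H.e0_pos.le)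
  have hH1 : MvClk (fun u => hs u + b u * r u) := H.hh.add (H.hb.mul hr)
  have hD := I.seg_deriv hB0 hH0 (MvClk.const (le_refl (0:ℝ))) hH1 hθ
  have eB : ∀ s : ℝ, (fun u => (b u - e0) + s * (0 - (b u - e0))) = l6pB b e0 s := by
    intro s; funext u; simp only [l6pB, l6pE]; ring
  have eH : ∀ s : ℝ, (fun u => (hs u + e0 * r u) + s * ((hs u + b u * r u) - (hs u + e0 * r u))) = l6pH b hs e0 s r := by
    intro s; funext u; simp only [l6pH, l6pE]; ring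
  simp only [eB, eH] at hD
  have hr2 : MvBM (fun u => r u ^ 2) := l6p_sq_bm hr
  have j1 : IntervalIntegrable (fun u => e0 * r u ^ 2) volume 0 1 := ((MvBM.const e0).mul hr2).ii h0 h1
  have j2 : IntervalIntegrable (fun u => (b u - e0) * r u ^ 2) volume 0 1 := (hB0.bm.mul hr2).ii h0 h1
  have hpen : ∀ s : ℝ, 1 / 4 * ∫ u in (0:ℝ)..1, l6pE b e0 s u * r u ^ 2
      = 1 / 4 * (∫ u in (0:ℝ)..1, e0 * r u ^ 2) + s * (1 / 4 * ∫ u in (0:ℝ)..1, (b u - e0) * r u ^ 2) := by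
    intro s
    have : ∫ u in (0:ℝ)..1, l6pE b e0 s u * r u ^ 2
        = (∫ u in (0:ℝ)..1, e0 * r u ^ 2) + s * ∫ u in (0:ℝ)..1, (b u - e0) * r u ^ 2 := by
      rw [← intervalIntegral.integral_const_mul, ← intervalIntegral.integral_add j1 (j2.const_mul s)]
      refine intervalIntegral.integral_congr fun u _ => ?_
      simp only [l6pE]; ring
    rw [this]; ring
  have hlin : HasDerivWithinAt (fun s : ℝ => 1 / 4 * (∫ u in (0:ℝ)..1, e0 * r u ^ 2) + s * (1 / 4 * ∫ u in (0:ℝ)..1, (b u - e0) * r u ^ 2))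
      (1 / 4 * ∫ u in (0:ℝ)..1, (b u - e0) * r u ^ 2) (Ici θ) θ := by
    simpa using (((hasDerivAt_id θ).mul_const (1 / 4 * ∫ u in (0:ℝ)..1, (b u - e0) * r u ^ 2)).const_add
      (1 / 4 * (∫ u in (0:ℝ)..1, e0 * r u ^ 2))).hasDerivWithinAt
  have hsum := hD.add hlin
  have hfun : (fun s => l6pJ I b hs e0 s r) = fun s => I.f (l6pB b e0 s) (l6pH b hs e0 s r)
      + (1 / 4 * (∫ u in (0:ℝ)..1, e0 * r u ^ 2) + s * (1 / 4 * ∫ u in (0:ℝ)..1, (b u - e0) * r u ^ 2)) := by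
    funext s
    rw [l6pJ, hpen]
  rw [hfun]
  refine hsum.congr_deriv ?_
  obtain ⟨St, hSt⟩ : ∃ St, St = I.S (l6pB b e0 θ) (l6pH b hs e0 θ r) := ⟨_, rfl⟩
  obtain ⟨Bt, hBt⟩ : ∃ Bt, Bt = I.B (l6pB b e0 θ) (l6pH b hs e0 θ r) := ⟨_, rfl⟩
  have hS : MvBM St := hSt ▸ MvBM.of_mono (I.S_mono _ _ (l6pB_clk H hθm) (l6pH_clk H hθm hr))
  have hB : MvBM Bt := hBt ▸ MvBM.of_mono (I.B_mono _ _ (l6pB_clk H hθm) (l6pH_clk H hθm hr))
  have hbb : MvBM (fun u => b u - e0) := hB0.bm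
  have hzb : MvBM r := hr.bm
  have i1 : IntervalIntegrable (fun u => Bt u * (b u - e0)) volume 0 1 := (hB.mul hbb).ii h0 h1
  have i2 : IntervalIntegrable (fun u => St u * ((b u - e0) * r u)) volume 0 1 := (hS.mul (hbb.mul hzb)).ii h0 h1
  have e1 : ∫ u in (0:ℝ)..1, Bt u * (0 - (b u - e0)) = - ∫ u in (0:ℝ)..1, Bt u * (b u - e0) := by
    rw [← intervalIntegral.integral_neg]
    refine intervalIntegral.integral_congr fun u _ => ?_
    ring
  have e2 : ∫ u in (0:ℝ)..1, St u * (hs u + b u * r u - (hs u + e0 * r u)) = ∫ u in (0:ℝ)..1, St u * ((b u - e0) * r u) := by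
    refine intervalIntegral.integral_congr fun u _ => ?_
    ring
  have e3 : ∫ u in (0:ℝ)..1, (b u - e0) * ((Bt u - St u ^ 2) + (St u - r u) ^ 2)
      = (∫ u in (0:ℝ)..1, Bt u * (b u - e0)) - 2 * (∫ u in (0:ℝ)..1, St u * ((b u - e0) * r u)) + ∫ u in (0:ℝ)..1, (b u - e0) * r u ^ 2 := by
    rw [← intervalIntegral.integral_const_mul, ← intervalIntegral.integral_sub i1 (i2.const_mul 2),
      ← intervalIntegral.integral_add (i1.sub (i2.const_mul 2)) j2]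
    refine intervalIntegral.integral_congr fun u _ => ?_
    ring
  rw [l6pDer, ← hSt, ← hBt, e1, e2, e3]
  ring

/-- the envelope derivative is nonnegative (`I.dnn`, `b ≥ e0`).      Copy of `mvRem_nonneg`. -/
theorem l6p_der_nonneg (H : L6pOk b hs q e0 κ M) {r : ℝ → ℝ} (hr : MvClk r) {θ : ℝ} (hθ : θ ∈ Icc (0:ℝ) 1) :
    0 ≤ l6pDer I b hs e0 θ r := by
  have h0 : (0:ℝ) ∈ Icc (0:ℝ) 1 := ⟨le_rfl, zero_le_one⟩
  have hB0 : MvClk (fun u => b u - e0) := by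
    have := l6pB_clk H h0
    rw [l6pB_eq] at this
    simpa using this
  have hS : MvBM (I.S (l6pB b e0 θ) (l6pH b hs e0 θ r)) := MvBM.of_mono (I.S_mono _ _ (l6pB_clk H hθ) (l6pH_clk H hθ hr))
  have hB : MvBM (I.B (l6pB b e0 θ) (l6pH b hs e0 θ r)) := MvBM.of_mono (I.B_mono _ _ (l6pB_clk H hθ) (l6pH_clk H hθ hr))
  have hint : MvBM (fun u => (b u - e0) * ((I.B (l6pB b e0 θ) (l6pH b hs e0 θ r) u - I.S (l6pB b e0 θ) (l6pH b hs e0 θ r) u ^ 2)
      + (I.S (l6pB b e0 θ) (l6pH b hs e0 θ r) u - r u) ^ 2)) :=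
    hB0.bm.mul ((hB.sub (hS.comp (φ := fun x => x ^ 2) (by fun_prop))).add
      ((hS.sub hr.bm).comp (φ := fun x => x ^ 2) (by fun_prop)))
  have hdn := I.dnn _ _ (l6pB_clk H hθ) (l6pH_clk H hθ hr)
  have key := mv_int_mono (MvBM.const 0) hint le_rfl zero_le_one le_rfl (by
    filter_upwards [hdn] with u hu hu'
    have hbu : 0 ≤ b u - e0 := hB0.nonneg ⟨hu'.1.le, hu'.2.le⟩
    exact mul_nonneg hbu (add_nonneg (sub_nonneg.2 hu) (sq_nonneg _)))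
  rw [l6pDer]
  simp only [intervalIntegral.integral_zero] at key
  linarith

/-- Lipschitz in `θ`, uniformly in the box (`I.lip`; `|Δe| ≤ b 1 |Δθ|`, `r ≤ 2`: `¼ + 1 + 1`).      Copy of `mvObj_lip_t`. -/
theorem l6p_J_lip_th (H : L6pOk b hs q e0 κ M) {r : ℝ → ℝ} (hr : MvClk r) (hr2 : ∀ u ∈ Icc (0:ℝ) 1, r u ≤ 2) {s t : ℝ}
    (hs' : s ∈ Icc (0:ℝ) 1) (ht : t ∈ Icc (0:ℝ) 1) :
    |l6pJ I b hs e0 s r - l6pJ I b hs e0 t r| ≤ 9 / 4 * b 1 * |s - t| := by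
  have hb1 : 0 ≤ b 1 := l6p_b1_nonneg H
  have hl := I.lip _ _ _ _ (l6pB_clk H hs') (l6pH_clk H hs' hr) (l6pB_clk H ht) (l6pH_clk H ht hr)
  have A1 : ∫ u in (0:ℝ)..1, |l6pB b e0 s u - l6pB b e0 t u| ≤ b 1 * |s - t| := by
    refine mv_int_le_const (l6p_abs_bm ((l6pB_clk H hs').bm.sub (l6pB_clk H ht).bm)) fun u hu => ?_
    have e : l6pB b e0 s u - l6pB b e0 t u = -((s - t) * (b u - e0)) := by simp only [l6pB, l6pE]; ring
    obtain ⟨a1, a2⟩ := l6p_b_sub H hu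
    rw [e, abs_neg, abs_mul, abs_of_nonneg a1, mul_comm]
    gcongr
  have A2 : ∫ u in (0:ℝ)..1, |l6pH b hs e0 s r u - l6pH b hs e0 t r u| ≤ 2 * (b 1 * |s - t|) := by
    refine mv_int_le_const (l6p_abs_bm ((l6pH_clk H hs' hr).bm.sub (l6pH_clk H ht hr).bm)) fun u hu => ?_
    have e : l6pH b hs e0 s r u - l6pH b hs e0 t r u = (s - t) * ((b u - e0) * r u) := by simp only [l6pH, l6pE]; ring
    obtain ⟨a1, a2⟩ := l6p_b_sub H hu
    have a3 : 0 ≤ r u := hr.nonneg hu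
    have a4 : (b u - e0) * r u ≤ b 1 * 2 := mul_le_mul a2 (hr2 u hu) a3 hb1
    rw [e, abs_mul, abs_of_nonneg (mul_nonneg a1 a3)]
    nlinarith [abs_nonneg (s - t)]
  have hE : ∀ θ ∈ Icc (0:ℝ) 1, MvBM (fun u => l6pE b e0 θ u * r u ^ 2) := fun θ hθ =>
    (l6pE_clk H hθ).bm.mul (l6p_sq_bm hr)
  have A3 : |(∫ u in (0:ℝ)..1, l6pE b e0 s u * r u ^ 2) - ∫ u in (0:ℝ)..1, l6pE b e0 t u * r u ^ 2| ≤ 4 * (b 1 * |s - t|) := by
    refine mv_int_abs_sub_le (hE s hs') (hE t ht) fun u hu => ?_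
    have e : l6pE b e0 s u * r u ^ 2 - l6pE b e0 t u * r u ^ 2 = (s - t) * ((b u - e0) * r u ^ 2) := by simp only [l6pE]; ring
    obtain ⟨a1, a2⟩ := l6p_b_sub H hu
    have a3 : 0 ≤ r u := hr.nonneg hu
    have a5 : r u ^ 2 ≤ 4 := by nlinarith [hr2 u hu]
    have a4 : (b u - e0) * r u ^ 2 ≤ b 1 * 4 := mul_le_mul a2 a5 (sq_nonneg _) hb1
    rw [e, abs_mul, abs_of_nonneg (mul_nonneg a1 (sq_nonneg _))]
    nlinarith [abs_nonneg (s - t)]
  have e : l6pJ I b hs e0 s r - l6pJ I b hs e0 t r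
      = (I.f (l6pB b e0 s) (l6pH b hs e0 s r) - I.f (l6pB b e0 t) (l6pH b hs e0 t r))
        + 1 / 4 * ((∫ u in (0:ℝ)..1, l6pE b e0 s u * r u ^ 2) - ∫ u in (0:ℝ)..1, l6pE b e0 t u * r u ^ 2) := by
    simp only [l6pJ]; ring
  rw [e]
  refine (abs_add_le _ _).trans ?_
  rw [abs_mul, abs_of_nonneg (by norm_num : (0:ℝ) ≤ 1 / 4)]
  linarith

/-- `L¹`-Lipschitz in the quantile (`I.lip`; `e ≤ b 1`, `r + r' ≤ 4`: `½ + 1`). -/
theorem l6p_J_lip_r (H : L6pOk b hs q e0 κ M) {r r' : ℝ → ℝ} (hr : MvClk r) (hr2 : ∀ u ∈ Icc (0:ℝ) 1, r u ≤ 2)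
    (hr' : MvClk r') (hr2' : ∀ u ∈ Icc (0:ℝ) 1, r' u ≤ 2) {θ : ℝ} (hθ : θ ∈ Icc (0:ℝ) 1) :
    |l6pJ I b hs e0 θ r - l6pJ I b hs e0 θ r'| ≤ 3 / 2 * b 1 * ∫ u in (0:ℝ)..1, |r u - r' u| := by
  have h0 : (0:ℝ) ∈ Icc (0:ℝ) 1 := ⟨le_rfl, zero_le_one⟩
  have h1 : (1:ℝ) ∈ Icc (0:ℝ) 1 := ⟨zero_le_one, le_rfl⟩
  have hb1 : 0 ≤ b 1 := l6p_b1_nonneg H
  have hl := I.lip _ _ _ _ (l6pB_clk H hθ) (l6pH_clk H hθ hr) (l6pB_clk H hθ) (l6pH_clk H hθ hr')
  have hd : MvBM (fun u => |r u - r' u|) := l6p_abs_bm (hr.bm.sub hr'.bm)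
  have A1 : ∫ u in (0:ℝ)..1, |l6pB b e0 θ u - l6pB b e0 θ u| = 0 := by simp
  have A2 : ∫ u in (0:ℝ)..1, |l6pH b hs e0 θ r u - l6pH b hs e0 θ r' u| ≤ b 1 * ∫ u in (0:ℝ)..1, |r u - r' u| := by
    rw [← intervalIntegral.integral_const_mul]
    refine l6p_int_mono (l6p_abs_bm ((l6pH_clk H hθ hr).bm.sub (l6pH_clk H hθ hr').bm)) ((MvBM.const (b 1)).mul hd) fun u hu => ?_
    have e : l6pH b hs e0 θ r u - l6pH b hs e0 θ r' u = l6pE b e0 θ u * (r u - r' u) := by simp only [l6pH]; ring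
    obtain ⟨a1, a2⟩ := l6pE_le H hθ hu
    rw [e, abs_mul, abs_of_nonneg a1]
    gcongr
  have hE : ∀ ρ : ℝ → ℝ, MvClk ρ → MvBM (fun u => l6pE b e0 θ u * ρ u ^ 2) := fun ρ hρ =>
    (l6pE_clk H hθ).bm.mul (l6p_sq_bm hρ)
  have A3 : |(∫ u in (0:ℝ)..1, l6pE b e0 θ u * r u ^ 2) - ∫ u in (0:ℝ)..1, l6pE b e0 θ u * r' u ^ 2|
      ≤ 4 * (b 1 * ∫ u in (0:ℝ)..1, |r u - r' u|) := by
    rw [← intervalIntegral.integral_sub ((hE r hr).ii h0 h1) ((hE r' hr').ii h0 h1), ← intervalIntegral.integral_const_mul,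
      ← intervalIntegral.integral_const_mul]
    refine (intervalIntegral.abs_integral_le_integral_abs zero_le_one).trans ?_
    refine l6p_int_mono (l6p_abs_bm ((hE r hr).sub (hE r' hr'))) ((MvBM.const 4).mul ((MvBM.const (b 1)).mul hd)) fun u hu => ?_
    have e : l6pE b e0 θ u * r u ^ 2 - l6pE b e0 θ u * r' u ^ 2 = l6pE b e0 θ u * ((r u - r' u) * (r u + r' u)) := by ring
    obtain ⟨a1, a2⟩ := l6pE_le H hθ hu
    have a3 : 0 ≤ r u := hr.nonneg hu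
    have a4 : 0 ≤ r' u := hr'.nonneg hu
    rw [e, abs_mul, abs_mul, abs_of_nonneg a1, abs_of_nonneg (add_nonneg a3 a4)]
    have a5 : r u + r' u ≤ 4 := by linarith [hr2 u hu, hr2' u hu]
    have a6 : |r u - r' u| * (r u + r' u) ≤ |r u - r' u| * 4 := by gcongr
    calc l6pE b e0 θ u * (|r u - r' u| * (r u + r' u)) ≤ b 1 * (|r u - r' u| * 4) :=
          mul_le_mul a2 a6 (mul_nonneg (abs_nonneg _) (add_nonneg a3 a4)) hb1
      _ = 4 * (b 1 * |r u - r' u|) := by ring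
  have e : l6pJ I b hs e0 θ r - l6pJ I b hs e0 θ r'
      = (I.f (l6pB b e0 θ) (l6pH b hs e0 θ r) - I.f (l6pB b e0 θ) (l6pH b hs e0 θ r'))
        + 1 / 4 * ((∫ u in (0:ℝ)..1, l6pE b e0 θ u * r u ^ 2) - ∫ u in (0:ℝ)..1, l6pE b e0 θ u * r' u ^ 2) := by
    simp only [l6pJ]; ring
  rw [e]
  refine (abs_add_le _ _).trans ?_
  rw [abs_mul, abs_of_nonneg (by norm_num : (0:ℝ) ≤ 1 / 4)]
  rw [A1] at hl
  linarith

/-- (l.163) the density box is compact at fixed size: the minimum is attained.      `tl_252_exists_min_Q` + `l6p_J_lip_r`; nonempty: `al s = s/2`. -/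
theorem l6p_value (H : L6pOk b hs q e0 κ M) :
    Tl12Value (l6pJ I b hs e0) (l6pCls κ M) (l6pPhi I b hs e0 κ M) (Icc (0:ℝ) 1) := by
  have O := l6p_ok_box (M := M) H.κ_pos
  have hb1 : 0 ≤ b 1 := l6p_b1_nonneg H
  have key : ∀ θ ∈ Icc (0:ℝ) 1, ∃ r ∈ l6pCls κ M, ∀ r' ∈ l6pCls κ M, l6pJ I b hs e0 θ r ≤ l6pJ I b hs e0 θ r' := by
    intro θ hθ
    obtain ⟨al, r, B, Q, hmin⟩ := tl_252_exists_min_Q O (l6p_cls_nonempty H) (l6pJ I b hs e0 θ) (by
      intro a ρ al r hB hQ B Q hlim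
      have hrc := l6p_cls_clk H.κ_pos (⟨al, B, Q⟩ : r ∈ l6pCls κ M)
      have hρc := fun j => l6p_cls_clk H.κ_pos (⟨a j, hB j, hQ j⟩ : ρ j ∈ l6pCls κ M)
      rw [Metric.tendsto_atTop]
      intro ε hε
      rw [Metric.tendstoUniformlyOn_iff] at hlim
      have hδ : 0 < ε / (3 / 2 * b 1 + 1) := by positivity
      obtain ⟨N, hN⟩ := eventually_atTop.1 (hlim _ hδ)
      refine ⟨N, fun j hj => ?_⟩
      have h1 := l6p_J_lip_r I H (hρc j).1 (hρc j).2 hrc.1 hrc.2 hθ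
      have h2 : ∫ u in (0:ℝ)..1, |ρ j u - r u| ≤ ε / (3 / 2 * b 1 + 1) := by
        refine mv_int_le_const (l6p_abs_bm ((hρc j).1.bm.sub hrc.1.bm)) fun u hu => ?_
        have := hN j hj u hu
        rw [Real.dist_eq, abs_sub_comm] at this
        exact this.le
      rw [Real.dist_eq]
      calc |l6pJ I b hs e0 θ (ρ j) - l6pJ I b hs e0 θ r| ≤ 3 / 2 * b 1 * (ε / (3 / 2 * b 1 + 1)) :=
            h1.trans (mul_le_mul_of_nonneg_left h2 (by positivity))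
        _ < (3 / 2 * b 1 + 1) * (ε / (3 / 2 * b 1 + 1)) := by
            apply mul_lt_mul_of_pos_right _ hδ
            linarith
        _ = ε := by field_simp)
    exact ⟨r, ⟨al, B, Q⟩, fun r' ⟨al', B', Q'⟩ => hmin al' r' B' Q'⟩
  constructor
  · intro θ hθ s hs'
    obtain ⟨r, hr, hmin⟩ := key θ hθ
    exact csInf_le ⟨l6pJ I b hs e0 θ r, by rintro y ⟨s', hs'', rfl⟩; exact hmin s' hs''⟩ ⟨s, hs', rfl⟩
  · intro θ hθ
    obtain ⟨r, hr, hmin⟩ := key θ hθ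
    refine ⟨r, hr, le_antisymm ?_ ?_⟩
    · exact le_csInf ⟨_, r, hr, rfl⟩ (by rintro y ⟨s', hs'', rfl⟩; exact hmin s' hs'')
    · exact csInf_le ⟨l6pJ I b hs e0 θ r, by rintro y ⟨s', hs'', rfl⟩; exact hmin s' hs''⟩ ⟨r, hr, rfl⟩

/-- at `θ = 1` the matrix is removed completely -/
theorem l6p_J_one (fspin : (ℝ → ℝ) → ℝ) (hsp : ∀ K, MvClk K → I.f (fun _ => 0) K = fspin K)
    (H : L6pOk b hs q e0 κ M) {r : ℝ → ℝ} (hr : MvClk r) : l6pJ I b hs e0 1 r = mvG fspin b hs r := by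
  have e1 : l6pE b e0 1 = b := l6pE_one b e0
  have e2 : l6pB b e0 1 = fun _ => 0 := by funext u; simp [l6pB, e1]
  have e3 : l6pH b hs e0 1 r = fun u => hs u + b u * r u := by funext u; simp [l6pH, e1]
  rw [l6pJ, e2, e3, e1, hsp _ (H.hh.add (H.hb.mul hr)), mvG]

/-- (l.167-169) replacing the remaining matrix by the field `(b - e) q`: `mv_guerra` for `(b - e, h_* + e q)` with the trial `q`; `e q² + (b - e) q² = b q²`. -/
theorem l6p_J_guerra (fspin : (ℝ → ℝ) → ℝ) (hsp : ∀ K, MvClk K → I.f (fun _ => 0) K = fspin K)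
    (H : L6pOk b hs q e0 κ M) {θ : ℝ} (hθ : θ ∈ Icc (0:ℝ) 1) : l6pJ I b hs e0 θ q ≤ mvG fspin b hs q := by
  have h0 : (0:ℝ) ∈ Icc (0:ℝ) 1 := ⟨le_rfl, zero_le_one⟩
  have h1 : (1:ℝ) ∈ Icc (0:ℝ) 1 := ⟨zero_le_one, le_rfl⟩
  have hg := mv_guerra I fspin hsp (l6pB_clk H hθ) (l6pH_clk H hθ H.hq.1) H.hq
  have e1 : (fun u => l6pH b hs e0 θ q u + l6pB b e0 θ u * q u) = fun u => hs u + b u * q u := by
    funext u; simp only [l6pH, l6pB]; ring
  have i1 : IntervalIntegrable (fun u => l6pB b e0 θ u * q u ^ 2) volume 0 1 :=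
    ((l6pB_clk H hθ).bm.mul (l6p_sq_bm H.hq.1)).ii h0 h1
  have i2 : IntervalIntegrable (fun u => l6pE b e0 θ u * q u ^ 2) volume 0 1 :=
    ((l6pE_clk H hθ).bm.mul (l6p_sq_bm H.hq.1)).ii h0 h1
  have e2 : (∫ u in (0:ℝ)..1, l6pB b e0 θ u * q u ^ 2) + ∫ u in (0:ℝ)..1, l6pE b e0 θ u * q u ^ 2
      = ∫ u in (0:ℝ)..1, b u * q u ^ 2 := by
    rw [← intervalIntegral.integral_add i1 i2]
    refine intervalIntegral.integral_congr fun u _ => ?_
    simp only [l6pB]; ring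
  simp only [mvG] at hg ⊢
  rw [e1] at hg
  simp only [l6pJ]
  linarith

/-! ## glue -/

theorem L6pMin.eq (H : L6pOk b hs q e0 κ M) {θ : ℝ} (hθ : θ ∈ Icc (0:ℝ) 1) {r : ℝ → ℝ} (hr : L6pMin I b hs e0 κ M θ r) :
    l6pJ I b hs e0 θ r = l6pPhi I b hs e0 κ M θ := by
  have V := l6p_value I H
  obtain ⟨r0, hr0, e⟩ := V.att θ hθ
  exact le_antisymm (e ▸ hr.2 r0 hr0) (V.le θ hθ r hr.1)

theorem l6p_min_iff (H : L6pOk b hs q e0 κ M) {θ : ℝ} (hθ : θ ∈ Icc (0:ℝ) 1) {r : ℝ → ℝ} :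
    L6pMin I b hs e0 κ M θ r ↔ r ∈ l6pCls κ M ∧ l6pJ I b hs e0 θ r = l6pPhi I b hs e0 κ M θ :=
  ⟨fun h => ⟨h.1, h.eq I H hθ⟩, fun h => ⟨h.1, fun r' hr' => h.2 ▸ (l6p_value I H).le θ hθ r' hr'⟩⟩

/-- a minimiser exists at every `θ` -/
theorem l6p_exists_min (H : L6pOk b hs q e0 κ M) {θ : ℝ} (hθ : θ ∈ Icc (0:ℝ) 1) : ∃ r, L6pMin I b hs e0 κ M θ r := by
  obtain ⟨r, hr, e⟩ := (l6p_value I H).att θ hθ
  exact ⟨r, (l6p_min_iff I H hθ).2 ⟨hr, e⟩⟩

theorem l6p_J_lipOn (H : L6pOk b hs q e0 κ M) {r : ℝ → ℝ} (hr : r ∈ l6pCls κ M) :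
    LipschitzOnWith (9 / 4 * b 1).toNNReal (fun θ => l6pJ I b hs e0 θ r) (Icc (0:ℝ) 1) := by
  obtain ⟨h1, h2⟩ := l6p_cls_clk H.κ_pos hr
  refine LipschitzOnWith.of_dist_le_mul fun s hs' t ht => ?_
  rw [Real.dist_eq, Real.dist_eq, Real.coe_toNNReal _ (mul_nonneg (by norm_num) (l6p_b1_nonneg H))]
  exact l6p_J_lip_th I H h1 h2 hs' ht

/-- the frozen objectives are nondecreasing in `θ` -/
theorem l6p_J_mono (H : L6pOk b hs q e0 κ M) {r : ℝ → ℝ} (hr : r ∈ l6pCls κ M) :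
    MonotoneOn (fun θ => l6pJ I b hs e0 θ r) (Icc (0:ℝ) 1) := by
  obtain ⟨h1, -⟩ := l6p_cls_clk H.κ_pos hr
  intro s hs' t ht hst
  have hcont : ContinuousOn (fun θ => l6pJ I b hs e0 θ r) (Icc s t) :=
    (l6p_J_lipOn I H hr).continuousOn.mono (Icc_subset_Icc hs'.1 ht.2)
  have key := image_le_of_deriv_right_le_deriv_boundary (f := fun _ => l6pJ I b hs e0 s r) (f' := fun _ => 0)
    (a := s) (b := t) continuousOn_const (fun x _ => hasDerivWithinAt_const _ _ _)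
    (B := fun θ => l6pJ I b hs e0 θ r) (B' := fun θ => l6pDer I b hs e0 θ r) le_rfl hcont
    (fun x hx => l6p_J_deriv I H h1 ⟨hs'.1.trans hx.1, hx.2.trans_le ht.2⟩)
    (fun x hx => l6p_der_nonneg I H h1 ⟨hs'.1.trans hx.1, (hx.2.trans_le ht.2).le⟩)
  exact key (x := t) ⟨hst, le_rfl⟩

/-- (l.164) `Φ` is nondecreasing -/
theorem l6p_phi_mono (H : L6pOk b hs q e0 κ M) : MonotoneOn (l6pPhi I b hs e0 κ M) (Icc (0:ℝ) 1) :=
  tl_12_mono (l6p_value I H) fun _ hr => l6p_J_mono I H hr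

/-- (l.164) `Φ` is Lipschitz -/
theorem l6p_phi_lip (H : L6pOk b hs q e0 κ M) :
    LipschitzOnWith (9 / 4 * b 1).toNNReal (l6pPhi I b hs e0 κ M) (Icc (0:ℝ) 1) :=
  tl_12_lipschitz (l6p_value I H) fun _ hr => l6p_J_lipOn I H hr

/-- (l.165) **the envelope inequality, integrated**: it is enough to bound the envelope derivative at ONE minimiser for a.e. `θ` -/
theorem l6p_env (H : L6pOk b hs q e0 κ M) {η : ℝ}
    (hη : ∀ θ ∈ Ioo (0:ℝ) 1, ∃ r, L6pMin I b hs e0 κ M θ r ∧ l6pDer I b hs e0 θ r ≤ η) :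
    l6pPhi I b hs e0 κ M 1 - l6pPhi I b hs e0 κ M 0 ≤ η := by
  have key := tl_12_integrated_right (dF := fun θ r => l6pDer I b hs e0 θ r) (g := fun _ => η) zero_le_one
    (l6p_value I H) (l6p_phi_lip I H) intervalIntegrable_const (Eventually.of_forall fun θ hθ => by
      obtain ⟨r, hr, hle⟩ := hη θ hθ
      have hθ' : θ ∈ Icc (0:ℝ) 1 := ⟨hθ.1.le, hθ.2.le⟩
      exact ⟨r, hr.1, hr.eq I H hθ',
        (l6p_J_deriv I H (l6p_cls_clk H.κ_pos hr.1).1 ⟨hθ.1.le, hθ.2⟩).mono Ioi_subset_Ici_self, hle⟩)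
  simpa using key

/-- passage to the box: a quantile `[0,1] → [0,1]` is a competitor up to the loss -/
theorem l6p_phi_le_of_qt (H : L6pOk b hs q e0 κ M) {θ : ℝ} (hθ : θ ∈ Icc (0:ℝ) 1) {r : ℝ → ℝ} (hr : MvQt r) :
    l6pPhi I b hs e0 κ M θ ≤ l6pJ I b hs e0 θ r + l6pLoss b κ M := by
  obtain ⟨r', hr', hd⟩ := l6p_box H.κ_pos H.κ_le H.M_ge hr
  obtain ⟨h1, h2⟩ := l6p_cls_clk H.κ_pos hr'
  have h3 := l6p_J_lip_r I H h1 h2 hr.1 (fun u hu => (hr.mem hu).2.trans one_le_two) hθ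
  have h4 := (l6p_value I H).le θ hθ r' hr'
  have h5 : 3 / 2 * b 1 * (∫ u in (0:ℝ)..1, |r' u - r u|) ≤ l6pLoss b κ M :=
    mul_le_mul_of_nonneg_left hd (mul_nonneg (by norm_num) (l6p_b1_nonneg H))
  have h6 := le_abs_self (l6pJ I b hs e0 θ r' - l6pJ I b hs e0 θ r)
  linarith

/-- (l.166) the left end point, from the PE comparison [S1] -/
theorem l6p_phi_zero (H : L6pOk b hs q e0 κ M) {E' : ℝ} (hS1 : ∃ r, MvQt r ∧ l6pJ I b hs e0 0 r ≤ I.f b hs + E') :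
    l6pPhi I b hs e0 κ M 0 ≤ I.f b hs + E' + l6pLoss b κ M := by
  obtain ⟨r, hr, h1⟩ := hS1
  have := l6p_phi_le_of_qt I H ⟨le_rfl, zero_le_one⟩ hr
  linarith

/-- (l.167) the right end point, from the scalar coercivity (G2) -/
theorem l6p_phi_one (fspin : (ℝ → ℝ) → ℝ) (hsp : ∀ K, MvClk K → I.f (fun _ => 0) K = fspin K) (H : L6pOk b hs q e0 κ M)
    (hG2 : ∀ r ∈ l6pCls κ M, mvG fspin b hs q ≤ mvG fspin b hs r) : mvG fspin b hs q ≤ l6pPhi I b hs e0 κ M 1 :=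
  tl_12_lower (l6p_value I H) ⟨zero_le_one, le_rfl⟩ fun r hr => by
    rw [l6p_J_one I fspin hsp H (l6p_cls_clk H.κ_pos hr).1]
    exact hG2 r hr

/-- (l.167-170) `Φ(θ) ≤ F_* + O(κ + 1/M)` at every `θ` -/
theorem l6p_phi_le (fspin : (ℝ → ℝ) → ℝ) (hsp : ∀ K, MvClk K → I.f (fun _ => 0) K = fspin K) (H : L6pOk b hs q e0 κ M)
    {θ : ℝ} (hθ : θ ∈ Icc (0:ℝ) 1) : l6pPhi I b hs e0 κ M θ ≤ mvG fspin b hs q + l6pLoss b κ M := by
  have h1 := l6p_phi_le_of_qt I H hθ H.hq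
  have h2 := l6p_J_guerra I fspin hsp H hθ
  linarith

/-- **(G1), NON-ASYMPTOTIC GLUE.**      `F_* = mvG fspin b hs q`, `f_m^0 = I.f b hs`. -/
theorem l6p_main (fspin : (ℝ → ℝ) → ℝ) (hsp : ∀ K, MvClk K → I.f (fun _ => 0) K = fspin K) (H : L6pOk b hs q e0 κ M) {E' η : ℝ}
    (hS1 : ∃ r, MvQt r ∧ l6pJ I b hs e0 0 r ≤ I.f b hs + E')
    (hG2 : ∀ r ∈ l6pCls κ M, mvG fspin b hs q ≤ mvG fspin b hs r)
    (hη : ∀ θ ∈ Ioo (0:ℝ) 1, ∃ r, L6pMin I b hs e0 κ M θ r ∧ l6pDer I b hs e0 θ r ≤ η) :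
    0 ≤ mvG fspin b hs q - I.f b hs ∧ mvG fspin b hs q - I.f b hs ≤ E' + l6pLoss b κ M + η := by
  refine ⟨sub_nonneg.2 (mv_guerra I fspin hsp H.hb H.hh H.hq), ?_⟩
  have h1 := l6p_phi_zero I H hS1
  have h2 := l6p_phi_one I fspin hsp H hG2
  have h3 := l6p_env I H hη
  linarith

end objective

end

end Claimed.Agent.R286
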