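import Claimed.Agent.R286.Macro.Quant
import Claimed.Agent.R286.Glob.Det
import Claimed.Agent.R286.Bud.GeoBath
import Claimed.Agent.R286.Bud.GeoQ
import Claimed.Agent.R286.Tool.Box252
import Claimed.Agent.R286.Tool.Pot106
import Claimed.Agent.R286.LL06.Phi

/-!
# Row 286 (S0533), LL Section 6 (06-global.tex l.170-222): THE POTENTIAL AT A MINIMISER OF THE CONSTANT BOX

Owner: helper261 (co-architect LL06 under 291).   Prefix `l6o_`, types `L6*`.   TEX[LL:global:trial-gap]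

Vocabulary: `MvIface n` (Macro/Iface, 67) = the planted calculus of general clocks; `TlBox (fun _ => κ) (fun _ => M) 0 2 0 1 al` + `TlQ al 0 2 0 1 r` (Tool/Box252, 252) = onto
inverse paths `α : [0,2] → [0,1]`, `κ ≤ α' ≤ M`, with quantile `r = α⁻¹`; `GlPot` (Glob/Det, 292) = deterministic data at a minimiser.

* `l6oJ I b hs e r = f(b - e, hs + e r) + ¼ ∫ e r²`      the objective of `Φ(θ)` (`e = (1-θ) e₀ + θ b`).
* `L6Fr κ M em ep b hs e`      the frame (clocks, `e ∈ [em,ep]`).      INSTANCE: LL06/Contract (291) from (P2)-(P4).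
* `L6Min I κ M b hs e al r`    `r` minimises `l6oJ` over the box.      INSTANCE: `tl_252_exists_min_Q` + `I.lip` (58, LL06/Phi).
* **`l6o_pot`**  = INSTANCE of `GlPot` at ANY minimiser, with a density `a` of `α` (`Tl106Cov al a 0 2`, `κ ≤ a ≤ M` a.e.).
* `l6o_mismatch`  `∫_0^1 (S - r)² dv ≤ 1/M² + 8 κ`.
* BRIDGE to `LL06/PhiDefs` (58): `l6o_fr_of_p` (`L6pOk ⟹ L6Fr`, sharp `em, ep`), `l6o_ratio_of_p` (`ep/em ≤ b 1/b 0`), `l6o_min_of_p` (`L6pMin ⟹ L6Min`), `l6o_mis_p` (= `ll06_mis`).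

## Proof of `l6o_pot` (differs from the paper: NO continuity of the statistics in the clock is used)
The class of quantiles `r` (`r 0 = 0`, `r 1 = 2`, slopes in `[1/M, 1/κ]`) is CONVEX, and `θ ↦ (b - e, hs + e (r + θ (r' - r)))` is an affine segment of clocks, so `I.deriv` gives the
Gateaux inequality `0 ≤ ∫_0^1 g (r' - r) dv`, `g = e (r - S)` (`l6o_gateaux`).   The bathtub principle (`bud_bathtub`, 109/86) in the MASS coordinate, for the density `r'/2`, gives `c₀` such that with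
`Ht v = ∫_0^v g + c₀`:  `r' = 1/κ` a.e. on `{Ht > 0}`, `r' = 1/M` a.e. on `{Ht < 0}`.   Put `Hm = Ht⁺/κ - Ht⁻/M`: Lipschitz, same sign as `Ht`, and `Hm' = g r'` a.e. (on `{Ht = 0}`: `g = 0` a.e.).
Then `H s = Hm (α s)` satisfies `H t - H s = ∫_{α s}^{α t} g r' dv = ∫_s^t g(α x) dx` (change of variables by `r`), which is the potential of the paper.
-/

set_option autoImplicit false

namespace Claimed.Agent.R286

open MeasureTheory Set Filter Topology

noncomputable section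

/-- the objective of `Φ(θ)`: `f(b - e, hs + e r) + ¼ ∫ e r²`.   TEX[LL:global:trial-gap] -/
def l6oJ {n : ℕ} (I : MvIface n) (b hs e r : ℝ → ℝ) : ℝ :=
  I.f (fun v => b v - e v) (fun v => hs v + e v * r v) + 1 / 4 * ∫ v in (0:ℝ)..1, e v * r v ^ 2

/-- the frame of the constrained interpolation: constants of the box, remaining matrix clock, field clock, removed clock.
INSTANCE: LL06/Contract (291), from (P2)-(P4), `e = (1-θ) e₀ + θ b`, `em = e₀`, `ep = e₀ + θ b(1)`.   TEX[LL:global:trial-gap] -/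
structure L6Fr (κ M em ep : ℝ) (b hs e : ℝ → ℝ) : Prop where
  hκ : 0 < κ
  hM : 2 ≤ M
  hem : 0 < em
  btC : MvClk (fun v => b v - e v)
  hsC : MvClk hs
  eC : MvClk e
  e_mem : ∀ v ∈ Icc (0:ℝ) 1, e v ∈ Icc em ep

/-- `r` (inverse of `al`) minimises the objective over the constant box.
INSTANCE: `tl_252_exists_min_Q` + `I.lip` (58, LL06/Phi).   TEX[LL:global:trial-gap] -/
structure L6Min {n : ℕ} (I : MvIface n) (κ M : ℝ) (b hs e al r : ℝ → ℝ) : Prop where
  box : TlBox (fun _ => κ) (fun _ => M) 0 2 0 1 al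
  inv : TlQ al 0 2 0 1 r
  min : ∀ al' r' : ℝ → ℝ, TlBox (fun _ => κ) (fun _ => M) 0 2 0 1 al' → TlQ al' 0 2 0 1 r' → l6oJ I b hs e r ≤ l6oJ I b hs e r'

/-- `S` at the changed path, as a function of the mass -/
def l6oS {n : ℕ} (I : MvIface n) (b hs e r : ℝ → ℝ) : ℝ → ℝ :=
  I.S (fun v => b v - e v) (fun v => hs v + e v * r v)

theorem l6o_ok {κ : ℝ} (M : ℝ) (hκ : 0 < κ) : TlOk (fun _ => κ) (fun _ => M) 0 2 0 1 κ M :=
  ⟨by norm_num, hκ, intervalIntegrable_const, fun _ _ => le_rfl, continuousOn_const, fun _ _ => le_rfl⟩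

/-- the class of quantiles of the constant box, by slopes: a CONVEX class -/
structure L6R (κ M : ℝ) (r : ℝ → ℝ) : Prop where
  left : r 0 = 0
  right : r 1 = 2
  lo : ∀ u v : ℝ, 0 ≤ u → u ≤ v → v ≤ 1 → v - u ≤ M * (r v - r u)
  hi : ∀ u v : ℝ, 0 ≤ u → u ≤ v → v ≤ 1 → κ * (r v - r u) ≤ v - u

theorem l6o_R_of_box {κ M : ℝ} {al r : ℝ → ℝ} (hκ : 0 < κ) (B : TlBox (fun _ => κ) (fun _ => M) 0 2 0 1 al)
    (Q : TlQ al 0 2 0 1 r) : L6R κ M r :=
  ⟨Q.left B (l6o_ok M hκ), Q.right B (l6o_ok M hκ), fun _ _ hu huv hv => Q.lower B (l6o_ok M hκ) hu huv hv,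
    fun _ _ hu huv hv => Q.upper B (l6o_ok M hκ) hu huv hv⟩

theorem l6o_box_of_R {κ M : ℝ} {r : ℝ → ℝ} (hκ : 0 < κ) (hM : 0 < M) (R : L6R κ M r) :
    ∃ al : ℝ → ℝ, TlBox (fun _ => κ) (fun _ => M) 0 2 0 1 al ∧ TlQ al 0 2 0 1 r := by
  have O : TlOk (fun _ => 1 / M) (fun _ => 1 / κ) 0 1 0 2 (1 / M) (1 / κ) :=
    ⟨by norm_num, by positivity, intervalIntegrable_const, fun _ _ => le_rfl, continuousOn_const, fun _ _ => le_rfl⟩
  have B : TlBox (fun _ => 1 / M) (fun _ => 1 / κ) 0 1 0 2 r := by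
    refine ⟨R.left, R.right, ?_, ?_⟩
    · intro s t hs hst ht
      rw [intervalIntegral.integral_const, smul_eq_mul, mul_one_div, div_le_iff₀ hM]
      have := R.lo s t hs hst ht
      linarith
    · intro s t hs hst ht
      rw [intervalIntegral.integral_const, smul_eq_mul, mul_one_div, le_div_iff₀ hκ]
      have := R.hi s t hs hst ht
      linarith
  have Q := B.tlInv_isQ O
  refine ⟨tlInv r 0 1, ⟨Q.left B O, Q.right B O, ?_, ?_⟩, ⟨fun u hu => B.mem O hu, fun u hu => Q.r_al B O hu⟩⟩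
  · intro s t hs hst ht
    rw [intervalIntegral.integral_const, smul_eq_mul]
    have := Q.lower B O hs hst ht
    rw [one_div, inv_mul_eq_div, le_div_iff₀ hκ] at this
    linarith
  · intro s t hs hst ht
    rw [intervalIntegral.integral_const, smul_eq_mul]
    have := Q.upper B O hs hst ht
    rw [one_div, inv_mul_eq_div, div_le_iff₀ hM] at this
    linarith

theorem L6R.seg {κ M : ℝ} {r r' : ℝ → ℝ} (R : L6R κ M r) (R' : L6R κ M r') {θ : ℝ} (hθ : θ ∈ Icc (0:ℝ) 1) :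
    L6R κ M (fun v => r v + θ * (r' v - r v)) := by
  refine ⟨by simp [R.left, R'.left], by simp [R.right, R'.right], ?_, ?_⟩
  · intro u v hu huv hv
    have h1 := R.lo u v hu huv hv
    have h2 := R'.lo u v hu huv hv
    have e : M * (r v + θ * (r' v - r v) - (r u + θ * (r' u - r u)))
        = (1 - θ) * (M * (r v - r u)) + θ * (M * (r' v - r' u)) := by ring
    rw [e]
    have h3 := mul_le_mul_of_nonneg_left h1 (by linarith [hθ.2] : (0:ℝ) ≤ 1 - θ)
    have h4 := mul_le_mul_of_nonneg_left h2 hθ.1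
    linarith
  · intro u v hu huv hv
    have h1 := R.hi u v hu huv hv
    have h2 := R'.hi u v hu huv hv
    have e : κ * (r v + θ * (r' v - r v) - (r u + θ * (r' u - r u)))
        = (1 - θ) * (κ * (r v - r u)) + θ * (κ * (r' v - r' u)) := by ring
    rw [e]
    have h3 := mul_le_mul_of_nonneg_left h1 (by linarith [hθ.2] : (0:ℝ) ≤ 1 - θ)
    have h4 := mul_le_mul_of_nonneg_left h2 hθ.1
    linarith

theorem L6R.mono {κ M : ℝ} {r : ℝ → ℝ} (R : L6R κ M r) (hM : 0 < M) : MonotoneOn r (Icc 0 1) := by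
  intro u hu v hv huv
  have := R.lo u v hu.1 huv hv.2
  by_contra hcon
  push Not at hcon
  have h2 : M * (r v - r u) < 0 := mul_neg_of_pos_of_neg hM (by linarith)
  linarith

theorem L6R.clk {κ M : ℝ} {r : ℝ → ℝ} (R : L6R κ M r) (hM : 0 < M) : MvClk r := ⟨R.mono hM, by rw [R.left]⟩

theorem L6Fr.M_pos {κ M em ep : ℝ} {b hs e : ℝ → ℝ} (F : L6Fr κ M em ep b hs e) : 0 < M := by linarith [F.hM]

theorem L6Fr.hClk {κ M em ep : ℝ} {b hs e r : ℝ → ℝ} (F : L6Fr κ M em ep b hs e) (hr : MvClk r) :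
    MvClk (fun v => hs v + e v * r v) := F.hsC.add (F.eC.mul hr)

/-- **Gateaux inequality** at a minimiser, in the convex class of quantiles -/
theorem l6o_gateaux {n : ℕ} (I : MvIface n) {κ M em ep : ℝ} {b hs e al r r' : ℝ → ℝ} (F : L6Fr κ M em ep b hs e)
    (m : L6Min I κ M b hs e al r) (R' : L6R κ M r') :
    0 ≤ ∫ v in (0:ℝ)..1, e v * (r v - l6oS I b hs e r v) * (r' v - r v) := by
  have hMp := F.M_pos
  have R : L6R κ M r := l6o_R_of_box F.hκ m.box m.inv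
  have cr := R.clk hMp
  have cr' := R'.clk hMp
  have cB := F.btC
  have cH := F.hClk cr
  have cH' := F.hClk cr'
  have hD := I.deriv _ _ _ _ cB cH cB cH'
  have me : MvBM e := F.eC.bm
  have mr : MvBM r := cr.bm
  have mr' : MvBM r' := cr'.bm
  have mS : MvBM (l6oS I b hs e r) := MvBM.of_mono (I.S_mono _ _ cB cH)
  set S := l6oS I b hs e r with hSdef
  set A0 := ∫ u in (0:ℝ)..1, e u * r u ^ 2 with hA0
  set A1 := ∫ u in (0:ℝ)..1, e u * r u * (r' u - r u) with hA1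
  set A2 := ∫ u in (0:ℝ)..1, e u * (r' u - r u) ^ 2 with hA2
  set A3 := ∫ u in (0:ℝ)..1, S u * (e u * (r' u - r u)) with hA3
  have i0 : IntervalIntegrable (fun u => e u * r u ^ 2) volume 0 1 := (me.mul (mr.comp (continuous_pow 2))).ii01
  have i1 : IntervalIntegrable (fun u => e u * r u * (r' u - r u)) volume 0 1 := ((me.mul mr).mul (mr'.sub mr)).ii01
  have i2 : IntervalIntegrable (fun u => e u * (r' u - r u) ^ 2) volume 0 1 :=
    (me.mul ((mr'.sub mr).comp (continuous_pow 2))).ii01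
  have i3 : IntervalIntegrable (fun u => S u * (e u * (r' u - r u))) volume 0 1 := (mS.mul (me.mul (mr'.sub mr))).ii01
  have hg : ∀ θ : ℝ, l6oJ I b hs e (fun v => r v + θ * (r' v - r v))
      = I.f (fun u => (b u - e u) + θ * ((b u - e u) - (b u - e u)))
          (fun u => (hs u + e u * r u) + θ * ((hs u + e u * r' u) - (hs u + e u * r u)))
        + 1 / 4 * (A0 + θ * (2 * A1) + θ ^ 2 * A2) := by
    intro θ
    unfold l6oJ
    congr 2
    · funext u; ring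
    · funext u; ring
    · have e1 : (fun u => e u * (r u + θ * (r' u - r u)) ^ 2)
          = fun u => e u * r u ^ 2 + θ * (2 * (e u * r u * (r' u - r u))) + θ ^ 2 * (e u * (r' u - r u) ^ 2) := by
        funext u; ring
      rw [e1, intervalIntegral.integral_add (i0.add ((i1.const_mul 2).const_mul θ)) (i2.const_mul _),
        intervalIntegral.integral_add i0 ((i1.const_mul 2).const_mul θ)]
      simp only [intervalIntegral.integral_const_mul]
      rfl
  have hP : HasDerivAt (fun θ : ℝ => 1 / 4 * (A0 + θ * (2 * A1) + θ ^ 2 * A2)) (1 / 4 * (2 * A1)) 0 := by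
    have h1 : HasDerivAt (fun θ : ℝ => θ * (2 * A1)) (2 * A1) 0 := by simpa using (hasDerivAt_id (0:ℝ)).mul_const (2 * A1)
    have h2 : HasDerivAt (fun θ : ℝ => θ ^ 2 * A2) 0 0 := by simpa using (hasDerivAt_pow 2 (0:ℝ)).mul_const A2
    have h3 := (((hasDerivAt_const (0:ℝ) A0).add h1).add h2).const_mul (1 / 4)
    simpa using h3
  have hG := hD.add hP.hasDerivWithinAt
  have hnn := mv_deriv_nonneg (g := fun θ => I.f (fun u => (b u - e u) + θ * ((b u - e u) - (b u - e u)))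
          (fun u => (hs u + e u * r u) + θ * ((hs u + e u * r' u) - (hs u + e u * r u)))
        + 1 / 4 * (A0 + θ * (2 * A1) + θ ^ 2 * A2)) hG (by
      intro θ hθ
      rw [← hg θ, ← hg 0]
      obtain ⟨al', B', Q'⟩ := l6o_box_of_R F.hκ hMp (R.seg R' hθ)
      have := m.min _ _ B' Q'
      have e0 : (fun v => r v + 0 * (r' v - r v)) = r := by funext v; ring
      rw [e0]; exact this)
  have e2 : (∫ u in (0:ℝ)..1, I.B (fun v => b v - e v) (fun v => hs v + e v * r v) u * ((b u - e u) - (b u - e u))) = 0 := by simp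
  have e3 : (∫ u in (0:ℝ)..1, I.S (fun v => b v - e v) (fun v => hs v + e v * r v) u * ((hs u + e u * r' u) - (hs u + e u * r u))) = A3 := by
    rw [hA3]
    congr 1; funext u; rw [hSdef]; simp only [l6oS]; ring
  rw [e2, e3] at hnn
  have e4 : (∫ u in (0:ℝ)..1, e u * (r u - S u) * (r' u - r u)) = A1 - A3 := by
    rw [hA1, hA3, ← intervalIntegral.integral_sub i1 i3]
    congr 1; funext u; ring
  rw [e4]
  linarith

theorem l6o_boxok {κ M : ℝ} (hκ : 0 < κ) (hκM : κ ≤ M) : BudBoxOk (fun _ => 1 / (2 * M)) (1 / (2 * κ)) (1 / (2 * M)) := by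
  have hM : 0 < M := hκ.trans_le hκM
  refine ⟨measurable_const, by positivity, fun _ => le_rfl, fun _ => ?_⟩
  exact one_div_le_one_div_of_le (by positivity) (by linarith)

/-- the density `r'/2` of a quantile of the class -/
theorem l6o_dens {κ M : ℝ} {r : ℝ → ℝ} (hκ : 0 < κ) (hκM : κ ≤ M) (R : L6R κ M r) :
    ∃ ρ : ℝ → ℝ, BudDens (fun _ => 1 / (2 * M)) (1 / (2 * κ)) ρ ∧ ∀ v ∈ Icc (0:ℝ) 1, budAl ρ v = r v / 2 := by
  have hM : 0 < M := hκ.trans_le hκM
  have := bud_dens_of_slopes (l6o_boxok hκ hκM) (g := fun v => r v / 2) (by simp [R.left]) (by simp [R.right]) ?_ ?_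
  · exact ⟨_, this.1, this.2⟩
  · intro s t hs hst ht
    rw [intervalIntegral.integral_const, smul_eq_mul, mul_one_div, div_le_iff₀ (by positivity)]
    have := R.lo s t hs hst ht
    linarith
  · intro s t hs hst ht
    have := R.hi s t hs hst ht
    rw [one_div, inv_mul_eq_div, le_div_iff₀ (by positivity)]
    linarith

/-- a density of the box gives a quantile of the class -/
theorem l6o_R_of_dens {κ M : ℝ} {ρ : ℝ → ℝ} (hκ : 0 < κ) (hκM : κ ≤ M) (hρ : BudDens (fun _ => 1 / (2 * M)) (1 / (2 * κ)) ρ) :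
    L6R κ M (fun v => 2 * budAl ρ v) := by
  have hM : 0 < M := hκ.trans_le hκM
  refine ⟨by simp [budAl_zero], by simp [budAl_one hρ], ?_, ?_⟩
  · intro u v hu huv hv
    have := (budAl_slope (l6o_boxok hκ hκM) hρ hu huv hv).1
    rw [one_div, inv_mul_eq_div, div_le_iff₀ (by positivity)] at this
    linarith
  · intro u v hu huv hv
    have := (budAl_slope (l6o_boxok hκ hκM) hρ hu huv hv).2
    rw [one_div, inv_mul_eq_div, le_div_iff₀ (by positivity)] at this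
    linarith

/-- a function monotone on `[0,1]`, cut off outside, is measurable -/
theorem l6o_meas_ind {f : ℝ → ℝ} (hf : MonotoneOn f (Icc (0:ℝ) 1)) : Measurable ((Icc (0:ℝ) 1).indicator f) := by
  have h1 : Monotone (fun x : ℝ => f (projIcc (0:ℝ) 1 zero_le_one x)) := by
    intro x y hxy
    exact hf (projIcc (0:ℝ) 1 zero_le_one x).2 (projIcc (0:ℝ) 1 zero_le_one y).2 (monotone_projIcc _ hxy)
  have h2 : (Icc (0:ℝ) 1).indicator f = (Icc (0:ℝ) 1).indicator (fun x : ℝ => f (projIcc (0:ℝ) 1 zero_le_one x)) := by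
    funext x
    by_cases hx : x ∈ Icc (0:ℝ) 1
    · rw [indicator_of_mem hx, indicator_of_mem hx, projIcc_of_mem _ hx]
    · rw [indicator_of_notMem hx, indicator_of_notMem hx]
  rw [h2]
  exact h1.measurable.indicator measurableSet_Icc

/-- the variation density `g = e (r - S)` in the mass coordinate, cut off outside `[0,1]` -/
def l6oG {n : ℕ} (I : MvIface n) (b hs e r : ℝ → ℝ) : ℝ → ℝ :=
  (Icc (0:ℝ) 1).indicator (fun v => e v * (r v - l6oS I b hs e r v))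

theorem l6oG_of_mem {n : ℕ} (I : MvIface n) (b hs e r : ℝ → ℝ) {v : ℝ} (hv : v ∈ Icc (0:ℝ) 1) :
    l6oG I b hs e r v = e v * (r v - l6oS I b hs e r v) := indicator_of_mem hv _

theorem l6o_S_mono {n : ℕ} (I : MvIface n) {κ M em ep : ℝ} {b hs e r : ℝ → ℝ} (F : L6Fr κ M em ep b hs e) (hr : MvClk r) :
    MonotoneOn (l6oS I b hs e r) (Icc 0 1) := I.S_mono _ _ F.btC (F.hClk hr)

theorem l6o_S_mem {n : ℕ} (I : MvIface n) {κ M em ep : ℝ} {b hs e r : ℝ → ℝ} (F : L6Fr κ M em ep b hs e) (hr : MvClk r)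
    {v : ℝ} (hv : v ∈ Icc (0:ℝ) 1) : l6oS I b hs e r v ∈ Icc (0:ℝ) 1 := I.S_mem _ _ F.btC (F.hClk hr) v hv

theorem l6o_G_meas {n : ℕ} (I : MvIface n) {κ M em ep : ℝ} {b hs e r : ℝ → ℝ} (F : L6Fr κ M em ep b hs e) (hr : MvClk r) :
    Measurable (l6oG I b hs e r) := by
  have h : l6oG I b hs e r = fun v => (Icc (0:ℝ) 1).indicator e v *
      ((Icc (0:ℝ) 1).indicator r v - (Icc (0:ℝ) 1).indicator (l6oS I b hs e r) v) := by
    funext v
    by_cases hv : v ∈ Icc (0:ℝ) 1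
    · simp only [l6oG, indicator_of_mem hv]
    · simp only [l6oG, indicator_of_notMem hv]; simp
  rw [h]
  exact (l6o_meas_ind F.eC.1).mul ((l6o_meas_ind hr.1).sub (l6o_meas_ind (l6o_S_mono I F hr)))

theorem L6R.mem {κ M : ℝ} {r : ℝ → ℝ} (R : L6R κ M r) (hM : 0 < M) {v : ℝ} (hv : v ∈ Icc (0:ℝ) 1) : r v ∈ Icc (0:ℝ) 2 := by
  constructor
  · rw [← R.left]; exact R.mono hM (left_mem_Icc.2 zero_le_one) hv hv.1
  · rw [← R.right]; exact R.mono hM hv (right_mem_Icc.2 zero_le_one) hv.2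

theorem l6o_G_bd {n : ℕ} (I : MvIface n) {κ M em ep : ℝ} {b hs e r : ℝ → ℝ} (F : L6Fr κ M em ep b hs e) (R : L6R κ M r)
    (v : ℝ) : |l6oG I b hs e r v| ≤ 2 * ep := by
  have hep : 0 < ep := F.hem.trans_le ((F.e_mem 0 (by simp)).1.trans (F.e_mem 0 (by simp)).2)
  by_cases hv : v ∈ Icc (0:ℝ) 1
  · rw [l6oG_of_mem I b hs e r hv, abs_mul]
    have h1 := F.e_mem v hv
    have h2 := R.mem F.M_pos hv
    have h3 := l6o_S_mem I F (R.clk F.M_pos) hv
    have h4 : |e v| ≤ ep := by rw [abs_of_nonneg (F.hem.le.trans h1.1)]; exact h1.2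
    have h5 : |r v - l6oS I b hs e r v| ≤ 2 := by rw [abs_le]; constructor <;> linarith [h2.1, h2.2, h3.1, h3.2]
    calc |e v| * |r v - l6oS I b hs e r v| ≤ ep * 2 := mul_le_mul h4 h5 (abs_nonneg _) hep.le
      _ = 2 * ep := by ring
  · simp only [l6oG, indicator_of_notMem hv, abs_zero]; positivity

theorem L6Min.kM {n : ℕ} {I : MvIface n} {κ M : ℝ} {b hs e al r : ℝ → ℝ} (m : L6Min I κ M b hs e al r) (hκ : 0 < κ) :
    κ ≤ 1 / 2 := by
  have := m.box.lower (l6o_ok M hκ) le_rfl (by norm_num : (0:ℝ) ≤ 2) le_rfl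
  rw [m.box.left, m.box.right] at this
  linarith

/-- **the bathtub principle in the mass coordinate** -/
theorem l6o_bath {n : ℕ} (I : MvIface n) {κ M em ep : ℝ} {b hs e al r ρ : ℝ → ℝ} (F : L6Fr κ M em ep b hs e)
    (m : L6Min I κ M b hs e al r) (hρ : BudDens (fun _ => 1 / (2 * M)) (1 / (2 * κ)) ρ)
    (hρr : ∀ v ∈ Icc (0:ℝ) 1, budAl ρ v = r v / 2) :
    ∃ c0 : ℝ,
      (∀ᵐ v ∂volume, v ∈ Ioo (0:ℝ) 1 → 0 < (∫ t in (0:ℝ)..v, l6oG I b hs e r t) + c0 → ρ v = 1 / (2 * κ)) ∧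
      (∀ᵐ v ∂volume, v ∈ Ioo (0:ℝ) 1 → (∫ t in (0:ℝ)..v, l6oG I b hs e r t) + c0 < 0 → ρ v = 1 / (2 * M)) := by
  have hMp := F.M_pos
  have hκM : κ ≤ M := (m.kM F.hκ).trans (by linarith [F.hM])
  have R : L6R κ M r := l6o_R_of_box F.hκ m.box m.inv
  have hFV : BudFV (fun v => - l6oG I b hs e r v) (fun _ => 1 / (2 * M)) (1 / (2 * κ)) ρ := by
    intro ρ' hρ'
    have h1 := l6o_gateaux I F m (l6o_R_of_dens F.hκ hκM hρ')
    have h2 : ∫ v in (0:ℝ)..1, e v * (r v - l6oS I b hs e r v) * (2 * budAl ρ' v - r v)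
        = ∫ v in (0:ℝ)..1, (-2 : ℝ) * (- l6oG I b hs e r v * (budAl ρ' v - budAl ρ v)) := by
      apply intervalIntegral.integral_congr
      intro v hv
      rw [uIcc_of_le zero_le_one] at hv
      simp only
      rw [l6oG_of_mem I b hs e r hv, hρr v hv]
      ring
    rw [h2, intervalIntegral.integral_const_mul] at h1
    linarith
  obtain ⟨c0, h1, h2⟩ := bud_bathtub (fun v => - l6oG I b hs e r v) (fun _ => 1 / (2 * M)) (1 / (2 * κ)) (2 * ep) ρ
    (l6o_G_meas I F (R.clk hMp)).neg (fun v _ => by rw [abs_neg]; exact l6o_G_bd I F R v) measurable_const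
    (fun _ => by positivity) (fun _ => (l6o_boxok F.hκ hκM).kb_le 0) hρ hFV
  refine ⟨c0, ?_, ?_⟩
  · filter_upwards [h1] with v hv hvI hpos
    apply hv hvI
    rw [intervalIntegral.integral_neg]
    linarith
  · filter_upwards [h2] with v hv hvI hneg
    apply hv hvI
    rw [intervalIntegral.integral_neg]
    linarith

/-- the piecewise linear change of the potential: slope `1/κ` on the positive side, `1/M` on the negative side -/
def l6oPhi (κ M y : ℝ) : ℝ := max y 0 / κ + min y 0 / M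

theorem l6oPhi_pos {κ M y : ℝ} (hy : 0 ≤ y) : l6oPhi κ M y = y / κ := by
  simp [l6oPhi, max_eq_left hy, min_eq_right hy]

theorem l6oPhi_neg {κ M y : ℝ} (hy : y ≤ 0) : l6oPhi κ M y = y / M := by
  simp [l6oPhi, max_eq_right hy, min_eq_left hy]

theorem l6oPhi_lt_iff {κ M y : ℝ} (hκ : 0 < κ) (hM : 0 < M) : l6oPhi κ M y < 0 ↔ y < 0 := by
  rcases le_or_gt 0 y with h | h
  · rw [l6oPhi_pos h]
    constructor
    · intro h2; have : 0 ≤ y / κ := by positivity
      linarith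
    · intro h2; linarith
  · rw [l6oPhi_neg h.le]
    exact ⟨fun _ => h, fun _ => div_neg_of_neg_of_pos h hM⟩

theorem l6oPhi_pos_iff {κ M y : ℝ} (hκ : 0 < κ) (hM : 0 < M) : 0 < l6oPhi κ M y ↔ 0 < y := by
  rcases le_or_gt y 0 with h | h
  · rw [l6oPhi_neg h]
    constructor
    · intro h2; have : y / M ≤ 0 := div_nonpos_of_nonpos_of_nonneg h hM.le
      linarith
    · intro h2; linarith
  · rw [l6oPhi_pos h.le]
    exact ⟨fun _ => h, fun _ => div_pos h hκ⟩

theorem l6oPhi_lip {κ M : ℝ} (hκ : 0 < κ) (hM : 0 < M) (y y' : ℝ) :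
    |l6oPhi κ M y - l6oPhi κ M y'| ≤ (1 / κ + 1 / M) * |y - y'| := by
  have h1 : |max y 0 - max y' 0| ≤ |y - y'| := abs_max_sub_max_le_abs y y' 0
  have h2 : |min y 0 - min y' 0| ≤ |y - y'| := by
    simpa using abs_min_sub_min_le_max y 0 y' 0
  have e : l6oPhi κ M y - l6oPhi κ M y' = (max y 0 - max y' 0) / κ + (min y 0 - min y' 0) / M := by
    unfold l6oPhi; ring
  rw [e]
  refine (abs_add_le _ _).trans ?_
  rw [abs_div, abs_div, abs_of_pos hκ, abs_of_pos hM, add_mul, one_div_mul_eq_div, one_div_mul_eq_div]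
  gcongr

/-- **the changed potential is a primitive of `g d`**, `d = 1/κ` on `{Ht > 0}`, `d = 1/M` on `{Ht < 0}` -/
theorem l6o_phi_prim {g d Ht : ℝ → ℝ} {κ M K : ℝ} (hκ : 0 < κ) (hM : 0 < M)
    (hg : IntervalIntegrable g volume 0 1) (hgb : ∀ v, |g v| ≤ K)
    (hHt : ∀ s t : ℝ, 0 ≤ s → s ≤ t → t ≤ 1 → Ht t - Ht s = ∫ x in s..t, g x)
    (hpos : ∀ᵐ v, v ∈ Ioo (0:ℝ) 1 → 0 < Ht v → d v = 1 / κ)
    (hneg : ∀ᵐ v, v ∈ Ioo (0:ℝ) 1 → Ht v < 0 → d v = 1 / M) :
    ∀ s t : ℝ, 0 ≤ s → s ≤ t → t ≤ 1 → l6oPhi κ M (Ht t) - l6oPhi κ M (Ht s) = ∫ x in s..t, g x * d x := by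
  have hK : 0 ≤ K := (abs_nonneg _).trans (hgb 0)
  have hL0 : 0 ≤ (1 / κ + 1 / M) * K := by positivity
  have hHl : ∀ x ∈ Icc (0:ℝ) 1, ∀ y ∈ Icc (0:ℝ) 1, |Ht x - Ht y| ≤ K * |x - y| := by
    have key : ∀ x ∈ Icc (0:ℝ) 1, ∀ y ∈ Icc (0:ℝ) 1, x ≤ y → |Ht y - Ht x| ≤ K * |y - x| := by
      intro x hx y hy hxy
      rw [hHt x y hx.1 hxy hy.2, ← Real.norm_eq_abs]
      exact intervalIntegral.norm_integral_le_of_norm_le_const (fun v _ => by rw [Real.norm_eq_abs]; exact hgb v)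
    intro x hx y hy
    rcases le_total x y with h | h
    · rw [abs_sub_comm, abs_sub_comm x y]; exact key x hx y hy h
    · exact key y hy x hx h
  have hlip : LipschitzOnWith (Real.toNNReal ((1 / κ + 1 / M) * K)) (fun v => l6oPhi κ M (Ht v)) (Icc 0 1) := by
    refine LipschitzOnWith.of_dist_le_mul fun x hx y hy => ?_
    rw [Real.dist_eq, Real.dist_eq, Real.coe_toNNReal _ hL0]
    refine (l6oPhi_lip hκ hM _ _).trans ?_
    rw [mul_assoc]
    exact mul_le_mul_of_nonneg_left (hHl x hx y hy) (by positivity)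
  have hder : ∀ᵐ x, x ∈ Ioo (0:ℝ) 1 → deriv (fun v => l6oPhi κ M (Ht v)) x = g x * d x := by
    filter_upwards [tl_106_ae_hasDerivAt hg hHt, tl_106_ae_zero_level hg hHt 0, hpos, hneg] with x h1 h2 h3 h4 hx
    have hd := h1 hx
    rcases lt_trichotomy (Ht x) 0 with h | h | h
    · rw [h4 hx h]
      have hev : (fun v => l6oPhi κ M (Ht v)) =ᶠ[𝓝 x] fun v => Ht v / M := by
        filter_upwards [hd.continuousAt.eventually (gt_mem_nhds h)] with v hv
        exact l6oPhi_neg hv.le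
      rw [((hd.div_const M).congr_of_eventuallyEq hev).deriv]
      ring
    · have hg0 : g x = 0 := h2 (Ioo_subset_Icc_self hx) h
      rw [hg0] at hd ⊢
      rw [zero_mul]
      apply HasDerivAt.deriv
      rw [hasDerivAt_iff_isLittleO] at hd ⊢
      refine Asymptotics.IsBigO.trans_isLittleO ?_ hd
      refine Asymptotics.IsBigO.of_bound (1 / κ + 1 / M) (Eventually.of_forall fun v => ?_)
      simp only [smul_zero, sub_zero, Real.norm_eq_abs]
      exact l6oPhi_lip hκ hM _ _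
    · rw [h3 hx h]
      have hev : (fun v => l6oPhi κ M (Ht v)) =ᶠ[𝓝 x] fun v => Ht v / κ := by
        filter_upwards [hd.continuousAt.eventually (lt_mem_nhds h)] with v hv
        exact l6oPhi_pos hv.le
      rw [((hd.div_const κ).congr_of_eventuallyEq hev).deriv]
      ring
  intro s t hs hst ht
  have hac : AbsolutelyContinuousOnInterval (fun v => l6oPhi κ M (Ht v)) s t := by
    apply LipschitzOnWith.absolutelyContinuousOnInterval (K := Real.toNNReal ((1 / κ + 1 / M) * K))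
    rw [uIcc_of_le hst]
    exact hlip.mono (Icc_subset_Icc hs ht)
  rw [← hac.integral_deriv_eq_sub]
  apply intervalIntegral.integral_congr_ae
  have hne : ∀ᵐ x : ℝ, x ≠ t := by simp [ae_iff, measure_singleton]
  filter_upwards [hder, hne] with x hx hxt hxI
  rw [uIoc_of_le hst] at hxI
  exact hx ⟨hs.trans_lt hxI.1, (lt_of_le_of_ne hxI.2 hxt).trans_le ht⟩

/-- change of variables by the quantile `r : [0,1] → [0,2]`, density `2 ρ` -/
theorem l6o_cov_r {κ M : ℝ} {r ρ : ℝ → ℝ} (hκ : 0 < κ) (hκM : κ ≤ M) (R : L6R κ M r)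
    (hρ : BudDens (fun _ => 1 / (2 * M)) (1 / (2 * κ)) ρ) (hρr : ∀ v ∈ Icc (0:ℝ) 1, budAl ρ v = r v / 2)
    {v₁ v₂ : ℝ} (h1 : 0 ≤ v₁) (h12 : v₁ ≤ v₂) (h2 : v₂ ≤ 1) : Tl106Cov r (fun v => 2 * ρ v) v₁ v₂ := by
  have hM : 0 < M := hκ.trans_le hκM
  have hB := l6o_boxok hκ hκM
  have hv₁ : v₁ ∈ Icc (0:ℝ) 1 := ⟨h1, h12.trans h2⟩
  have hv₂ : v₂ ∈ Icc (0:ℝ) 1 := ⟨h1.trans h12, h2⟩
  refine ⟨h12, (hρ.intervalIntegrable hB hv₁ hv₂).const_mul 2, ?_, ?_, ?_⟩
  · filter_upwards [hρ.ae_bounds hB] with x hx hxI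
    have := (hx ⟨h1.trans hxI.1, hxI.2.trans h2⟩).1
    have h3 : 0 < 1 / (2 * M) := by positivity
    linarith
  · intro s t hs hst ht
    have hs' : s ∈ Icc (0:ℝ) 1 := ⟨h1.trans hs, (hst.trans ht).trans h2⟩
    have ht' : t ∈ Icc (0:ℝ) 1 := ⟨(h1.trans hs).trans hst, ht.trans h2⟩
    rw [intervalIntegral.integral_const_mul, ← budAl_sub hB hρ hs' ht', hρr s hs', hρr t ht']
    ring
  · intro s hs t ht hst
    have := R.lo s t (h1.trans hs.1) hst.le (ht.2.trans h2)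
    by_contra hcon
    push Not at hcon
    have h3 : M * (r t - r s) ≤ 0 := mul_nonpos_of_nonneg_of_nonpos hM.le (by linarith)
    linarith

/-- **transfer of a.e. statements from the mass to the radius** -/
theorem l6o_ae_comp {κ M : ℝ} {al r ρ : ℝ → ℝ} (hκ : 0 < κ) (hκM : κ ≤ M) (B : TlBox (fun _ => κ) (fun _ => M) 0 2 0 1 al)
    (Q : TlQ al 0 2 0 1 r) (hρ : BudDens (fun _ => 1 / (2 * M)) (1 / (2 * κ)) ρ) (hρr : ∀ v ∈ Icc (0:ℝ) 1, budAl ρ v = r v / 2)
    {p : ℝ → Prop} (hp : ∀ᵐ v, v ∈ Icc (0:ℝ) 1 → p v) : ∀ᵐ s, s ∈ Icc (0:ℝ) 2 → p (al s) := by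
  have O := l6o_ok M hκ
  have C := l6o_cov_r hκ hκM (l6o_R_of_box hκ B Q) hρ hρr le_rfl zero_le_one le_rfl
  rw [ae_iff] at hp ⊢
  set N := {v | ¬(v ∈ Icc (0:ℝ) 1 → p v)} with hN
  set N' := toMeasurable volume N ∩ Icc (0:ℝ) 1 with hN'
  have hN'm : MeasurableSet N' := (measurableSet_toMeasurable _ _).inter measurableSet_Icc
  have hN'0 : volume N' = 0 := measure_mono_null inter_subset_left (by rw [measure_toMeasurable]; exact hp)
  have h1 : volume (r '' N') = 0 := by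
    rw [C.volume_image hN'm inter_subset_right]
    exact setLIntegral_measure_zero _ _ hN'0
  refine measure_mono_null ?_ h1
  intro s hs
  simp only [mem_ofPred_eq, Classical.not_imp] at hs
  refine ⟨al s, ⟨subset_toMeasurable _ _ ?_, B.mem O hs.1⟩, Q.r_al B O hs.1⟩
  rw [hN]
  simp only [mem_ofPred_eq, Classical.not_imp]
  exact ⟨B.mem O hs.1, hs.2⟩

/-- a measurable function of the mass, composed with the inverse path, bounded a.e.: integrable on every subinterval of `[0,2]` -/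
theorem l6o_comp_int {κ M : ℝ} {al f : ℝ → ℝ} (hκ : 0 < κ) (B : TlBox (fun _ => κ) (fun _ => M) 0 2 0 1 al) (hf : Measurable f)
    {C : ℝ} (hb : ∀ᵐ s, s ∈ Icc (0:ℝ) 2 → |f (al s)| ≤ C) : IntegrableOn (fun s => f (al s)) (Icc 0 2) volume := by
  have h1 : AEMeasurable al (volume.restrict (Icc (0:ℝ) 2)) := (B.continuousOn (l6o_ok M hκ)).aemeasurable measurableSet_Icc
  refine Integrable.of_bound (hf.comp_aemeasurable h1).aestronglyMeasurable C ?_
  rw [ae_restrict_iff' measurableSet_Icc]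
  filter_upwards [hb] with s hs hsI
  rw [Real.norm_eq_abs]
  exact hs hsI

/-- **the potential at a minimiser** (LL 06 l.193-222): instance of `GlPot`.   TEX[LL:global:trial-gap] -/
theorem l6o_pot {n : ℕ} (I : MvIface n) {κ M em ep : ℝ} {b hs e al r : ℝ → ℝ} (F : L6Fr κ M em ep b hs e)
    (m : L6Min I κ M b hs e al r) :
    ∃ a H : ℝ → ℝ, Tl106Cov al a 0 2 ∧ (∀ᵐ s, s ∈ Icc (0:ℝ) 2 → a s ∈ Icc κ M) ∧
      GlPot κ M em ep a (fun s => l6oS I b hs e r (al s)) (fun s => e (al s)) H := by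
  have hκ := F.hκ
  have hMp := F.M_pos
  have hκM : κ ≤ M := (m.kM hκ).trans (by linarith [F.hM])
  have O := l6o_ok M hκ
  have B := m.box
  have Q := m.inv
  have R : L6R κ M r := l6o_R_of_box hκ B Q
  have cr := R.clk hMp
  have hBx := l6o_boxok hκ hκM
  obtain ⟨ρ, hρ, hρr⟩ := l6o_dens hκ hκM R
  obtain ⟨c0, hb1, hb2⟩ := l6o_bath I F m hρ hρr
  set g := l6oG I b hs e r with hg
  have hgm : Measurable g := l6o_G_meas I F cr
  have hgb : ∀ v, |g v| ≤ 2 * ep := l6o_G_bd I F R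
  have hgi : ∀ x y : ℝ, IntervalIntegrable g volume x y := fun x y => by
    rw [intervalIntegrable_iff]
    exact Measure.integrableOn_of_bounded (M := 2 * ep) (by simp) hgm.aestronglyMeasurable
      (Eventually.of_forall fun v => by rw [Real.norm_eq_abs]; exact hgb v)
  set Ht : ℝ → ℝ := fun v => (∫ t in (0:ℝ)..v, g t) + c0 with hHt
  have hHt' : ∀ s t : ℝ, 0 ≤ s → s ≤ t → t ≤ 1 → Ht t - Ht s = ∫ x in s..t, g x := by
    intro s t _ _ _
    simp only [hHt]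
    rw [← intervalIntegral.integral_add_adjacent_intervals (hgi 0 s) (hgi s t)]
    ring
  have hpos : ∀ᵐ v, v ∈ Ioo (0:ℝ) 1 → 0 < Ht v → 2 * ρ v = 1 / κ := by
    filter_upwards [hb1] with v hv hvI h
    rw [hv hvI h]; field_simp
  have hneg : ∀ᵐ v, v ∈ Ioo (0:ℝ) 1 → Ht v < 0 → 2 * ρ v = 1 / M := by
    filter_upwards [hb2] with v hv hvI h
    rw [hv hvI h]; field_simp
  have hprim := l6o_phi_prim (d := fun v => 2 * ρ v) hκ hMp (hgi 0 1) hgb hHt' hpos hneg
  -- a.e. facts in the radius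
  have hne0 : ∀ᵐ x : ℝ, x ≠ 0 := by simp [ae_iff, measure_singleton]
  have hne1 : ∀ᵐ x : ℝ, x ≠ 1 := by simp [ae_iff, measure_singleton]
  have tr := fun {p : ℝ → Prop} (hp : ∀ᵐ v, v ∈ Icc (0:ℝ) 1 → p v) => l6o_ae_comp hκ hκM B Q hρ hρr hp
  have hab : ∀ᵐ s, s ∈ Icc (0:ℝ) 2 → 1 / (2 * ρ (al s)) ∈ Icc κ M := by
    refine tr (p := fun v => 1 / (2 * ρ v) ∈ Icc κ M) ?_
    filter_upwards [hρ.ae_bounds hBx] with v hv hvI
    obtain ⟨h1, h2⟩ := hv hvI
    have h3 : 0 < 1 / (2 * M) := by positivity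
    have h4 : 0 < ρ v := h3.trans_le h1
    constructor
    · rw [le_div_iff₀ (by positivity)]
      rw [le_div_iff₀ (by positivity)] at h2
      linarith
    · rw [div_le_iff₀ (by positivity)]
      rw [div_le_iff₀ (by positivity)] at h1
      linarith
  set a : ℝ → ℝ := fun s => 1 / (2 * ρ (al s)) with ha
  have ham : Measurable (fun v => 1 / (2 * ρ v)) := (measurable_const.mul hρ.meas).const_div 1
  have haI : IntegrableOn a (Icc 0 2) volume := by
    refine l6o_comp_int (f := fun v => 1 / (2 * ρ v)) hκ B ham (C := M) ?_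
    filter_upwards [hab] with s hs hsI
    rw [abs_of_nonneg (hκ.le.trans (hs hsI).1)]
    exact (hs hsI).2
  have hgI : IntegrableOn (fun s => g (al s)) (Icc 0 2) volume :=
    l6o_comp_int hκ B hgm (C := 2 * ep) (Eventually.of_forall fun s _ => hgb _)
  -- change of variables on `[al s, al t]`
  have hcov : ∀ s t : ℝ, 0 ≤ s → s ≤ t → t ≤ 2 → ∀ G : ℝ → ℝ, IntegrableOn G (Icc 0 2) volume →
      ∫ u in s..t, G u = ∫ x in (al s)..(al t), G (r x) * (2 * ρ x) := by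
    intro s t hs hst ht G hG
    have hs' : s ∈ Icc (0:ℝ) 2 := ⟨hs, hst.trans ht⟩
    have ht' : t ∈ Icc (0:ℝ) 2 := ⟨hs.trans hst, ht⟩
    have C := l6o_cov_r hκ hκM R hρ hρr (B.mem O hs').1 (B.monoOn O hs' ht' hst) (B.mem O ht').2
    have := C.integral_cov (g := G) (by
      rw [Q.r_al B O hs', Q.r_al B O ht']
      exact (hG.mono_set (Icc_subset_Icc hs ht)).aestronglyMeasurable)
    rwa [Q.r_al B O hs', Q.r_al B O ht'] at this
  have hsub : ∀ s t : ℝ, 0 ≤ s → s ≤ t → t ≤ 2 → uIcc (al s) (al t) ⊆ Icc (0:ℝ) 1 := by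
    intro s t hs hst ht
    exact uIcc_subset_Icc (B.mem O ⟨hs, hst.trans ht⟩) (B.mem O ⟨hs.trans hst, ht⟩)
  have haprim : ∀ s t : ℝ, 0 ≤ s → s ≤ t → t ≤ 2 → al t - al s = ∫ x in s..t, a x := by
    intro s t hs hst ht
    rw [hcov s t hs hst ht a haI]
    have : ∫ x in (al s)..(al t), a (r x) * (2 * ρ x) = ∫ _x in (al s)..(al t), (1:ℝ) := by
      apply intervalIntegral.integral_congr_ae
      filter_upwards [hρ.ae_bounds hBx] with v hv hvI
      have hvI' : v ∈ Icc (0:ℝ) 1 := hsub s t hs hst ht (uIoc_subset_uIcc hvI)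
      have h3 : 0 < 1 / (2 * M) := by positivity
      have h4 : 0 < ρ v := h3.trans_le (hv hvI').1
      simp only [ha]
      rw [Q.al_r v hvI']
      field_simp
    rw [this]
    simp
  have hC : Tl106Cov al a 0 2 := by
    refine ⟨by norm_num, (intervalIntegrable_iff_integrableOn_Icc_of_le (by norm_num)).2 haI, ?_, haprim, B.strictMonoOn O⟩
    filter_upwards [hab] with s hs hsI
    exact hκ.le.trans (hs hsI).1
  set H : ℝ → ℝ := fun s => l6oPhi κ M (Ht (al s)) with hH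
  have hgal : ∀ u ∈ Icc (0:ℝ) 2, g (al u) = e (al u) * (u - l6oS I b hs e r (al u)) := by
    intro u hu
    rw [hg, l6oG_of_mem I b hs e r (B.mem O hu), Q.r_al B O hu]
  have hHle : ∀ s t : ℝ, 0 ≤ s → s ≤ t → t ≤ 2 →
      H t - H s = ∫ u in s..t, e (al u) * (u - l6oS I b hs e r (al u)) := by
    intro s t hs0 hst ht
    have hs' : s ∈ Icc (0:ℝ) 2 := ⟨hs0, hst.trans ht⟩
    have ht' : t ∈ Icc (0:ℝ) 2 := ⟨hs0.trans hst, ht⟩
    simp only [hH]
    rw [hprim (al s) (al t) (B.mem O hs').1 (B.monoOn O hs' ht' hst) (B.mem O ht').2]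
    have e1 : ∫ u in s..t, e (al u) * (u - l6oS I b hs e r (al u)) = ∫ u in s..t, g (al u) := by
      apply intervalIntegral.integral_congr
      intro u hu
      rw [uIcc_of_le hst] at hu
      exact (hgal u ⟨hs0.trans hu.1, hu.2.trans ht⟩).symm
    rw [e1, hcov s t hs0 hst ht _ hgI]
    apply intervalIntegral.integral_congr
    intro v hv
    simp only
    rw [Q.al_r v (hsub s t hs0 hst ht hv)]
  refine ⟨a, H, hC, hab, ?_⟩
  refine ⟨F.hM, F.hem, hC.int, hC.nn, ?_, ?_, ?_, ?_, ?_, ?_, ?_, ?_⟩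
  · rw [← haprim 0 2 le_rfl (by norm_num) le_rfl, B.left, B.right]; norm_num
  · intro s hs t ht hst
    exact l6o_S_mono I F cr (B.mem O hs) (B.mem O ht) (B.monoOn O hs ht hst)
  · intro s hs
    exact l6o_S_mem I F cr (B.mem O hs)
  · intro s hs
    exact F.e_mem _ (B.mem O hs)
  · rw [intervalIntegrable_iff_integrableOn_Icc_of_le (by norm_num)]
    exact hgI.congr_fun (fun u hu => hgal u hu) measurableSet_Icc
  · intro s hs t ht
    rcases le_total s t with h | h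
    · exact hHle s t hs.1 h ht.2
    · rw [intervalIntegral.integral_symm, ← hHle t s ht.1 h hs.2]; ring
  · have : ∀ᵐ s, s ∈ Icc (0:ℝ) 2 → (Ht (al s) < 0 → 2 * ρ (al s) = 1 / M) := by
      refine tr (p := fun v => Ht v < 0 → 2 * ρ v = 1 / M) ?_
      filter_upwards [hneg, hne0, hne1] with v hv h0 h1 hvI
      exact hv ⟨lt_of_le_of_ne hvI.1 (Ne.symm h0), lt_of_le_of_ne hvI.2 h1⟩
    filter_upwards [this] with s hs hsI hlt
    simp only [ha]
    rw [hs hsI ((l6oPhi_lt_iff hκ hMp).1 hlt)]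
    field_simp
  · have : ∀ᵐ s, s ∈ Icc (0:ℝ) 2 → (0 < Ht (al s) → 2 * ρ (al s) = 1 / κ) := by
      refine tr (p := fun v => 0 < Ht v → 2 * ρ v = 1 / κ) ?_
      filter_upwards [hpos, hne0, hne1] with v hv h0 h1 hvI
      exact hv ⟨lt_of_le_of_ne hvI.1 (Ne.symm h0), lt_of_le_of_ne hvI.2 h1⟩
    filter_upwards [this] with s hs hsI hlt
    simp only [ha]
    rw [hs hsI ((l6oPhi_pos_iff hκ hMp).1 hlt)]
    field_simp

/-- **cap/floor mismatch in the mass coordinate**.   TEX[LL:global:trial-gap] -/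
theorem l6o_mismatch {n : ℕ} (I : MvIface n) {κ M em ep : ℝ} {b hs e al r : ℝ → ℝ} (F : L6Fr κ M em ep b hs e)
    (m : L6Min I κ M b hs e al r) :
    ∫ v in (0:ℝ)..1, (l6oS I b hs e r v - r v) ^ 2 ≤ 1 / M ^ 2 + 8 * κ := by
  obtain ⟨a, H, hC, -, P⟩ := l6o_pot I F m
  have O := l6o_ok M F.hκ
  have R : L6R κ M r := l6o_R_of_box F.hκ m.box m.inv
  have cr := R.clk F.M_pos
  have mS : MvBM (l6oS I b hs e r) := MvBM.of_mono (l6o_S_mono I F cr)
  have mg : MvBM (fun v => (l6oS I b hs e r v - r v) ^ 2) := (mS.sub cr.bm).comp (continuous_pow 2)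
  have h1 := hC.integral_cov (g := fun v => (l6oS I b hs e r v - r v) ^ 2) (by
    rw [m.box.left, m.box.right, ← Measure.restrict_congr_set (Ioc_ae_eq_Icc (μ := volume) (a := (0:ℝ)) (b := 1))]
    exact mg.1)
  rw [m.box.left, m.box.right] at h1
  rw [h1]
  refine le_trans (le_of_eq ?_) (P.mismatch F.hκ.le)
  apply intervalIntegral.integral_congr
  intro s hs'
  rw [uIcc_of_le (by norm_num)] at hs'
  simp only
  rw [m.inv.r_al m.box O hs']

/-! ## bridge to the vocabulary of `LL06/PhiDefs.lean` (58) -/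

/-- the frame at `e = (1-θ) e0 + θ b`, with the SHARP bounds `em = (1-θ) e0 + θ b 0`, `ep = (1-θ) e0 + θ b 1` (so `ep / em ≤ b 1 / b 0`) -/
theorem l6o_fr_of_p {b hs q : ℝ → ℝ} {e0 κ M θ : ℝ} (H : L6pOk b hs q e0 κ M) (hM : 2 ≤ M) (hθ : θ ∈ Icc (0:ℝ) 1) :
    L6Fr κ M ((1 - θ) * e0 + θ * b 0) ((1 - θ) * e0 + θ * b 1) b hs (l6pE b e0 θ) := by
  have hb0 : 0 < b 0 := H.e0_pos.trans_le H.e0_le
  refine ⟨H.κ_pos, hM, ?_, l6pB_clk H hθ, H.hh, l6pE_clk H hθ, ?_⟩
  · rcases eq_or_lt_of_le hθ.1 with h | h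
    · rw [← h]; simpa using H.e0_pos
    · have h1 : 0 ≤ (1 - θ) * e0 := mul_nonneg (sub_nonneg.2 hθ.2) H.e0_pos.le
      have h2 : 0 < θ * b 0 := mul_pos h hb0
      linarith
  · intro v hv
    have h1 : b 0 ≤ b v := H.hb.1 (left_mem_Icc.2 zero_le_one) hv hv.1
    have h2 : b v ≤ b 1 := H.hb.le_one hv
    simp only [l6pE]
    exact ⟨by have := mul_le_mul_of_nonneg_left h1 hθ.1; linarith, by have := mul_le_mul_of_nonneg_left h2 hθ.1; linarith⟩

/-- the ratio of the sharp bounds -/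
theorem l6o_ratio_of_p {b hs q : ℝ → ℝ} {e0 κ M θ : ℝ} (H : L6pOk b hs q e0 κ M) (hθ : θ ∈ Icc (0:ℝ) 1) :
    ((1 - θ) * e0 + θ * b 1) / ((1 - θ) * e0 + θ * b 0) ≤ b 1 / b 0 := by
  have hb0 : 0 < b 0 := H.e0_pos.trans_le H.e0_le
  have h01 : b 0 ≤ b 1 := H.hb.le_one (left_mem_Icc.2 zero_le_one)
  have hpos : 0 < (1 - θ) * e0 + θ * b 0 := by
    rcases eq_or_lt_of_le hθ.1 with h | h
    · rw [← h]; simpa using H.e0_pos
    · have h1 : 0 ≤ (1 - θ) * e0 := mul_nonneg (sub_nonneg.2 hθ.2) H.e0_pos.le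
      have h2 : 0 < θ * b 0 := mul_pos h hb0
      linarith
  rw [div_le_div_iff₀ hpos hb0]
  have h1 : 0 ≤ (1 - θ) * e0 := mul_nonneg (sub_nonneg.2 hθ.2) H.e0_pos.le
  nlinarith [mul_le_mul_of_nonneg_left h01 h1]

theorem l6o_min_of_p {m : ℕ} {I : MvIface m} {b hs : ℝ → ℝ} {e0 κ M θ : ℝ} {r : ℝ → ℝ} (hr : L6pMin I b hs e0 κ M θ r) :
    ∃ al : ℝ → ℝ, L6Min I κ M b hs (l6pE b e0 θ) al r := by
  obtain ⟨⟨al, B, Q⟩, hmin⟩ := hr
  exact ⟨al, B, Q, fun al' r' B' Q' => hmin r' ⟨al', B', Q'⟩⟩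

/-- **(POT iii)** in the vocabulary of `LL06/PhiDefs.lean` = `ll06_mis` -/
theorem l6o_mis_p {m : ℕ} (I : MvIface m) {b hs q : ℝ → ℝ} {e0 κ M : ℝ} (H : L6pOk b hs q e0 κ M) (hM : 2 ≤ M) {θ : ℝ} (hθ : θ ∈ Icc (0 : ℝ) 1)
    {r : ℝ → ℝ} (hr : L6pMin I b hs e0 κ M θ r) :
    ∫ u in (0 : ℝ)..1, (I.S (l6pB b e0 θ) (l6pH b hs e0 θ r) u - r u) ^ 2 ≤ 1 / M ^ 2 + 8 * κ := by
  obtain ⟨al, hm⟩ := l6o_min_of_p hr
  exact l6o_mismatch I (l6o_fr_of_p H hM hθ) hm

end

end Claimed.Agent.R286
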