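import Claimed.Agent.R286.LL06.Var
import Claimed.Agent.R286.Inv.PairDefs
import Claimed.Agent.R286.Cmp.InstNum
import Claimed.Agent.R286.Brg.PrLeaf
import Claimed.Agent.R286.Macro.Contract
import Claimed.Agent.R286.Fd.Contract
import Claimed.Agent.R286.Brg.PrSk
import Claimed.Agent.R286.Sc.Contract
import Claimed.Agent.R286.Sc.App
import Claimed.Agent.R286.Glob.Det
import Claimed.Agent.R286.Brg.StatFin

/-!
# Row 286 (S0533), LL Section 6, file LL06/VarMin : THE STEP <-> PATH GLUE OF LEVEL 2 OF (G1)  (S11 + S13 of the DAG)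
owner helper200 (LL06); prefix `l6x_`, types `L6x*`.      Source: LL 06-global.tex l.553-566 (gap), l.617-632 (nonstep paths, absorption).      Part of TEX[LL:global:trial-gap].
NON-ASYMPTOTIC: one size `n`, one pair of clocks `b, h` on `[0,1]` (in the application `b = b~ = (1-θ)(b - e0)`, `h = h_* + e r` at a minimiser `r`).      Board: origin/helper200:notes/R286/L06_contracts.md sec. 6.

* chains: `P_F = ckStp 1 b h (ghPs 1 F)`, `F` a finite set of positions;  `l6xStp n P` = the fine LL path of the step path `P` with ITS OWN empirical scalar clock `K_t = H_t + B_t S_t` as reference (`l6x_emp`).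
* **`l6x_main`** (GLUE, proved): if FREQUENTLY in `F` the chain is good (`L6xGood`: gap `e` at ALL levels; tails `≤ pfl` off a set of levels of mass `≤ μ`) and `C e^(-n0) θ ≤ 1/2`, then
  `∫_0^1 (B - S²) du ≤ 2 C e^(-n0) (1/n + pfl + μ)`.      From `l6v_absorb` (S12, LL06/Var, 156) and `l6x_lim`.
* **`l6x_good`** (GLUE, proved): `L6xGood` eventually, from the three junctions
   (J1) `hJ1`  PATH level gap at the base response `G1 = Γ'_t`, at all POSITIONS, robust in the time `s` (only a lower bound of `K^emp` is used)      SUPPLIER: 291 (LL06/Contract2) from (P2), (P3), (G3);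
   (J2) `hJ2`  (G3) in quantile form + `L6xStab` (scalar `L¹` stability at common time)                                                          SUPPLIER: 261 (`Ll06G3`), BOX-C / LL03 kit (`l6x_stab_inst`);
   (J3) `L6xConc n b h U θ pfl`  CHAIN level concentration at the cuts of all masses `u ∉ U` (`U` = floor, mass coordinates)                       SUPPLIER: LL06/Conc (130 / 200).
## LEAVES (claim by Lean name, prove IN PLACE; each has its plan in the docstring)
 A (lists, easy): `l6x_mat`, `l6x_cumK`, `l6x_K_mono`, `l6x_adm`, `l6x_top`, `l6x_pi`      B (limit): `l6x_gap_eq`, `l6x_lim`      C (floor): `l6x_tail`      D (gap): `l6x_cum_at`, `l6x_clk_idx`, `l6x_clk_close`, `l6x_gap`, `l6x_chi2`, `l6x_stab_inst`.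
-/

set_option autoImplicit false

namespace Claimed.Agent.R286

open MeasureTheory Set Filter Topology

noncomputable section

/-! ## 0. definitions -/

/-- the empirical scalar clock of a step path after `t` revelations: `K_t = H_t + B_t S_t` -/
def l6xK (n : ℕ) (P : SkStp) (t : ℕ) : ℝ := skCumH P t + skCumB P t * obS n 1 P 0 t

/-- the fine LL path of a step path, with its OWN empirical scalar clock as reference -/
def l6xStp (n : ℕ) (P : SkStp) : LlStp := P.mapIdx fun j e => ⟨e.m, e.db, e.dh, l6xK n P (j + 1) - l6xK n P j⟩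

/-- the hypotheses of S12 on one step path: gap `e` at ALL levels; tails `≤ pfl` off a set of levels of mass `≤ μ` -/
def L6xGood (n : ℕ) (P : SkStp) (e θ pfl μ : ℝ) : Prop :=
  (∀ t ≤ P.length, e ≤ 1 - skCumB P t * l6vChi2 (l6xStp n P) t) ∧
    ∃ Fl : Finset ℕ, (∀ t ∈ Fl, t ≤ P.length) ∧ ∑ t ∈ Fl, skGap 1 P t ≤ μ ∧
      ∀ t ≤ P.length, t ∉ Fl → l6vTail n (l6xStp n P) θ t ≤ pfl

/-- **(J3)** CHAIN level concentration: on all fine chains, at the cut of every mass `u ∉ U`, `ν[|Q - S| > θ] ≤ pfl` for two branches which fork there -/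
def L6xConc (n : ℕ) (b h : ℝ → ℝ) (U : Set ℝ) (θ pfl : ℝ) : Prop :=
  ∀ᶠ F : Finset GhPos in atTop, ∀ u ∈ Ico (0:ℝ) 1, u ∉ U →
    l6vTail n (l6xStp n (ckStp 1 b h (ghPs 1 F))) θ (ghIdx (ghPs 1 F) ((ghPosA u : GhPos) : WithTop GhPos)) ≤ pfl

/-- the clock (function of the mass, right continuous) of a scalar profile `π = [(mass, variance)]` -/
def l6xClk (π : List (ℝ × ℝ)) (u : ℝ) : ℝ := ((π.filter fun p => decide (p.1 ≤ u)).map Prod.snd).sum

/-- scalar `L¹` stability of `E χ²` at COMMON TIME around the base clock `ts` (`G1 = Γ'` of the base clock, annealed extension after its top) -/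
def L6xStab (G1 ts : ℝ → ℝ) (Q0 C : ℝ) : Prop :=
  ∀ π : List (ℝ × ℝ), ScAdm 1 π → ScInc π → scLen π ≤ Q0 → ∀ s ∈ Icc 0 (scLen π),
    |scM2 (scLC 1) π s - G1 s| ≤ C * ∫ u in (0:ℝ)..1, |l6xClk π u - ts u|

theorem l6x_eqns_cite : True := by
  have := @l6xK.eq_1
  have := @l6xStp.eq_1
  have := @L6xGood.eq_1
  have := @L6xConc.eq_1
  have := @l6xClk.eq_1
  have := @L6xStab.eq_1
  trivial

/-! ## A. the fine LL path of a step path -/

theorem l6x_length (n : ℕ) (P : SkStp) : (l6xStp n P).length = P.length := by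
  simp [l6xStp]

/-- **LEAF** `List.map_mapIdx` / `List.ext_getElem`. -/
theorem l6x_mat (n : ℕ) (P : SkStp) : llMat (l6xStp n P) = P := by
  unfold llMat l6xStp
  apply List.ext_getElem
  · simp
  · intro i h1 h2
    simp

theorem l6x_K_zero (n : ℕ) (P : SkStp) : l6xK n P 0 = 0 := by
  simp [l6xK, skCumH, skCumB]

/-- **LEAF** telescoping: induction on `t` (`List.take_succ`, `List.getElem?_mapIdx`), `l6x_K_zero`. -/
theorem l6x_cumK (n : ℕ) (P : SkStp) {t : ℕ} (ht : t ≤ P.length) : llCumK (l6xStp n P) t = l6xK n P t := by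
  induction t with
  | zero => simp [llCumK, l6x_K_zero]
  | succ t ih =>
    have ht' : t < P.length := ht
    have h1 : t < (l6xStp n P).length := by rw [l6x_length]; exact ht'
    unfold llCumK at ih ⊢
    rw [List.take_succ_eq_append_getElem h1, List.map_append, List.sum_append, ih ht'.le]
    simp [l6xStp]

/-- the reference clock is the empirical scalar clock -/
theorem l6x_emp (n : ℕ) (P : SkStp) : L6vEmp n (l6xStp n P) := by
  intro t ht
  rw [l6x_length] at ht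
  rw [l6x_cumK n P ht, l6vS, l6x_mat]
  rfl

/-- partial sums of a list of nonnegative numbers -/
theorem l6x_take_mono {l : List ℝ} (h : ∀ x ∈ l, 0 ≤ x) {s t : ℕ} (hst : s ≤ t) : (l.take s).sum ≤ (l.take t).sum := by
  have e : l.take t = l.take s ++ (l.take t).drop s := by
    conv_lhs => rw [← List.take_append_drop s (l.take t)]
    rw [List.take_take, min_eq_left hst]
  rw [e, List.sum_append]
  have : 0 ≤ ((l.take t).drop s).sum :=
    List.sum_nonneg fun x hx => h x (List.mem_of_mem_take (List.mem_of_mem_drop hx))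
  linarith

theorem l6x_take_le {l : List ℝ} (h : ∀ x ∈ l, 0 ≤ x) (t : ℕ) : (l.take t).sum ≤ l.sum := by
  have h1 := l6x_take_mono h (le_max_left t l.length)
  rwa [List.take_of_length_le (le_max_right t l.length)] at h1

theorem l6x_take_nonneg {l : List ℝ} (h : ∀ x ∈ l, 0 ≤ x) (t : ℕ) : 0 ≤ (l.take t).sum :=
  List.sum_nonneg fun x hx => h x (List.mem_of_mem_take hx)

theorem l6x_db_nonneg {a : ℝ} {P : SkStp} (hP : SkAdm a P) : ∀ x ∈ P.map SkInc.db, 0 ≤ x := by
  intro x hx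
  obtain ⟨e, he, rfl⟩ := List.mem_map.1 hx
  exact (hP.2 e he).2.2.1

theorem l6x_dh_nonneg {a : ℝ} {P : SkStp} (hP : SkAdm a P) : ∀ x ∈ P.map SkInc.dh, 0 ≤ x := by
  intro x hx
  obtain ⟨e, he, rfl⟩ := List.mem_map.1 hx
  exact (hP.2 e he).2.2.2

/-- **LEAF** `skCumH`, `skCumB` are nondecreasing and `≥ 0` (increments `≥ 0`: `hP.2`), `obS` is nondecreasing and `≥ 0` (`fd_S_mono`, `fd_S_range`). -/
theorem l6x_K_mono {n : ℕ} (hn : 0 < n) {P : SkStp} (hP : SkAdm 1 P) {s t : ℕ} (hst : s ≤ t) : l6xK n P s ≤ l6xK n P t := by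
  unfold l6xK skCumH skCumB
  simp only [List.map_take]
  have h1 := l6x_take_mono (l6x_dh_nonneg hP) hst
  have h2 := l6x_take_mono (l6x_db_nonneg hP) hst
  have h3 := l6x_take_nonneg (l6x_db_nonneg hP) s
  have h4 := fd_S_mono hn one_pos P hP 0 hst
  have h5 := (fd_S_range hn one_pos P hP 0 s).1
  have h6 := (fd_S_range hn one_pos P hP 0 t).1
  nlinarith [mul_le_mul h2 h4 h5 (h3.trans h2)]

/-- **LEAF** `llMat = P` (`l6x_mat`); `llSc`: same masses, `db = 0`, `dK ≥ 0` by `l6x_K_mono`. -/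
theorem l6x_adm {n : ℕ} (hn : 0 < n) {P : SkStp} (hP : SkAdm 1 P) : LlStpAdm 1 (l6xStp n P) := by
  refine ⟨by rw [l6x_mat]; exact hP, ?_, ?_⟩
  · unfold llSc l6xStp
    rw [List.pairwise_iff_getElem]
    intro i j hi hj hij
    have h := List.pairwise_iff_getElem.1 hP.1 i j (by simpa using hi) (by simpa using hj) hij
    simpa using h
  · intro e he
    unfold llSc l6xStp at he
    obtain ⟨i, hi, rfl⟩ := List.mem_iff_getElem.1 he
    have hi' : i < P.length := by simpa using hi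
    have h := hP.2 P[i] (List.getElem_mem hi')
    simp only [List.getElem_map, List.getElem_mapIdx]
    exact ⟨h.1, h.2.1, le_rfl, sub_nonneg.2 (l6x_K_mono hn hP (Nat.le_succ i))⟩

/-- **LEAF** `K_t ≤ H_top + B_top` (`obS ≤ 1`: `fd_S_range`; `skCumH P t ≤ skTotH P`). -/
theorem l6x_top {n : ℕ} (hn : 0 < n) {P : SkStp} (hP : SkAdm 1 P) (t : ℕ) : l6xK n P t ≤ skTotH P + skTotB P := by
  unfold l6xK skCumH skCumB skTotH skTotB
  simp only [List.map_take]
  have h1 := l6x_take_le (l6x_dh_nonneg hP) t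
  have h2 := l6x_take_le (l6x_db_nonneg hP) t
  have h3 := l6x_take_nonneg (l6x_db_nonneg hP) t
  have h5 := fd_S_range hn one_pos P hP 0 t
  nlinarith [mul_le_mul_of_nonneg_left h5.2 h3]

theorem l6x_len_pi (P : LlStp) : scLen (pkPi P) = llCumK P P.length := by
  unfold llCumK
  rw [List.take_length]
  induction P with
  | nil => rfl
  | cons e P ih =>
    simp only [pkPi, List.map_cons, scLen, List.sum_cons] at ih ⊢
    rw [ih]

/-- **LEAF** the scalar profile of `l6xStp`: admissible, nondecreasing masses, length `K_top`.      From `l6x_adm`, `l6x_cumK` (`scLen (pkPi P') = llCumK P' P'.length`: induction). -/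
theorem l6x_pi {n : ℕ} (hn : 0 < n) {P : SkStp} (hP : SkAdm 1 P) :
    ScAdm 1 (pkPi (l6xStp n P)) ∧ ScInc (pkPi (l6xStp n P)) ∧ scLen (pkPi (l6xStp n P)) = l6xK n P P.length := by
  have hadm := (l6x_adm hn hP).2
  refine ⟨?_, ?_, ?_⟩
  · intro p hp
    obtain ⟨e, he, rfl⟩ := List.mem_map.1 hp
    have := hadm.2 ⟨e.m, 0, e.dK⟩ (List.mem_map.2 ⟨e, he, rfl⟩)
    exact ⟨this.1, this.2.1, this.2.2.2⟩
  · have h := hadm.1
    unfold llSc at h
    unfold ScInc pkPi
    rw [List.pairwise_map] at h ⊢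
    exact h
  · rw [l6x_len_pi, l6x_length, l6x_cumK n P le_rfl]

/-! ## B. the limit of the integrated variance -/

theorem l6x_ck {b h : ℝ → ℝ} (hb : MvClk b) (hh : MvClk h) : CkAdm 1 b h := ⟨hb, hh⟩

/-- chains of admissible clocks are admissible step paths -/
theorem l6x_chain_adm {b h : ℝ → ℝ} (hb : MvClk b) (hh : MvClk h) (F : Finset GhPos) : SkAdm 1 (ckStp 1 b h (ghPs 1 F)) :=
  cmk_chain_adm (l6x_ck hb hh) F

theorem l6x_chain_m (a : ℝ) (b h : ℝ → ℝ) (ps : List GhPos) (b0 h0 : ℝ) :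
    (skCStp a b h b0 h0 ps).map SkInc.m = ps.map GhPos.u := by
  induction ps generalizing b0 h0 with
  | nil => rfl
  | cons p ps ih => simp only [skCStp, List.map_cons, ih]

theorem l6x_ms_eq (b h : ℝ → ℝ) (ps : List GhPos) (j : ℕ) : skMs 1 (ckStp 1 b h ps) j = brgMs 1 ps j := by
  unfold skMs brgMs ckStp
  rw [l6x_chain_m, List.getD_eq_getElem?_getD, List.getElem?_map]

/-- **LEAF** the two codings of the gaps agree: `skMs 1 (skCStp ..) j = brgMs 1 ps j` (induction on `ps`, generalising `b0 h0`, cases on `j`). -/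
theorem l6x_gap_eq (b h : ℝ → ℝ) (ps : List GhPos) (j : ℕ) : skGap 1 (ckStp 1 b h ps) j = brgGap 1 ps j := by
  unfold skGap brgGap
  rw [l6x_ms_eq, l6x_ms_eq]

theorem l6x_chain_length (b h : ℝ → ℝ) (ps : List GhPos) : (ckStp 1 b h ps).length = ps.length := by
  have : ∀ (ps : List GhPos) (b0 h0 : ℝ), (skCStp 1 b h b0 h0 ps).length = ps.length := by
    intro ps
    induction ps with
    | nil => intro _ _; rfl
    | cons p ps ih => intro b0 h0; simp [skCStp, ih]
  exact this ps 0 0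

theorem l6x_int_eq (n : ℕ) (b h : ℝ → ℝ) (F : Finset GhPos) :
    l6vInt n (l6xStp n (ckStp 1 b h (ghPs 1 F)))
      = ∫ u in (0:ℝ)..1, obD2 n 1 (ckStp 1 b h (ghPs 1 F)) 0 (ghIdx (ghPs 1 F) ((ghPosA u : GhPos) : WithTop GhPos)) := by
  rw [← brg_sum_gap zero_le_one F (fun t => obD2 n 1 (ckStp 1 b h (ghPs 1 F)) 0 t)]
  unfold l6vInt l6vG l6vD2
  rw [l6x_length, l6x_mat, l6x_chain_length]
  exact Finset.sum_congr rfl fun t _ => by rw [l6x_gap_eq]

/-- **LEAF** `∑_t gap_t D²_t → ∫_0^1 D²`.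
PLAN: `l6vInt n (l6xStp n P) = ∑_{t ≤ L} skGap 1 P t * obD2 n 1 P 0 t` (`l6x_mat`, `l6x_length`) `= ∫_0^1 obD2 n 1 P 0 (ghIdx ps (ghPosA u)) du` (`l6x_gap_eq`, `l6x_chain_length`, `brg_sum_gap`, `brg_step_intble`);
`cmk_unif_stat` at `p = ghPosA u` (`mac_posA_ok`): `|obS - skCS| ≤ δ`, `|obB - skCB| ≤ δ`, all in `[0,1]`, so `|obD2 - (skCB - skCS²)| ≤ 3 δ` for ALL `u ∈ [0,1]`; integrate (`exit_clk_intble`, `norm_integral_le_of_norm_le_const`);
`Metric.tendsto_atTop`-style with `Filter.eventually_atTop` (`F0 ⊆ F`). -/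
theorem l6x_lim {n : ℕ} (hn : 0 < n) {b h : ℝ → ℝ} (hb : MvClk b) (hh : MvClk h) :
    Tendsto (fun F : Finset GhPos => l6vInt n (l6xStp n (ckStp 1 b h (ghPs 1 F)))) atTop
      (𝓝 (∫ u in (0:ℝ)..1, (skCB n 1 b h (ghPosA u) - skCS n 1 b h (ghPosA u) ^ 2))) := by
  have H : CkAdm 1 b h := l6x_ck hb hh
  have hiS := gh_pk_CS_intble (n := n) one_pos H
  have hiB := gh_pk_CB_intble (n := n) one_pos H
  have hiS2 : IntervalIntegrable (fun u => skCS n 1 b h (ghPosA u) ^ 2) volume 0 1 := by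
    have := gh_pk_mul_intble zero_le_one hiS hiS (C := 1) fun u hu => gh_pk_CS_abs hn one_pos H (gh_os_posA_ok hu.1 hu.2)
    simpa [sq] using this
  rw [Metric.tendsto_atTop]
  intro ε hε
  obtain ⟨F0, hF0⟩ := cmk_unif_stat n hn H (δ := ε / 4) (by positivity)
  refine ⟨F0, fun F hF => ?_⟩
  rw [Real.dist_eq, l6x_int_eq, ← intervalIntegral.integral_sub (brg_step_intble F _) (hiB.sub hiS2)]
  have hb3 := intervalIntegral.norm_integral_le_of_norm_le_const (a := 0) (b := 1) (C := 3 * (ε / 4))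
    (f := fun u => obD2 n 1 (ckStp 1 b h (ghPs 1 F)) 0 (ghIdx (ghPs 1 F) ((ghPosA u : GhPos) : WithTop GhPos))
      - (skCB n 1 b h (ghPosA u) - skCS n 1 b h (ghPosA u) ^ 2)) (fun u hu => ?_)
  · rw [Real.norm_eq_abs] at hb3
    refine lt_of_le_of_lt hb3 ?_
    simp only [sub_zero, abs_one, mul_one]
    linarith
  · rw [uIoc_of_le zero_le_one] at hu
    have hu' : u ∈ Icc (0:ℝ) 1 := ⟨hu.1.le, hu.2⟩
    obtain ⟨h1, h2, -, -⟩ := hF0 F hF u hu'
    have h3 := fd_S_range hn one_pos _ (l6x_chain_adm hb hh F) 0 (ghIdx (ghPs 1 F) ((ghPosA u : GhPos) : WithTop GhPos))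
    have h4 := abs_le.1 (gh_pk_CS_abs hn one_pos H (gh_os_posA_ok hu'.1 hu'.2))
    rw [Real.norm_eq_abs]
    unfold obD2
    rw [abs_le] at h1 h2 ⊢
    constructor <;> nlinarith [h1.1, h1.2, h2.1, h2.2, h3.1, h3.2, h4.1, h4.2]

/-- **LEAF** total clocks of a chain: `skTotB (ckStp 1 b h (ghPs 1 F)) ≤ b 1` and the same for `h`.      As in `lnb_sk_chain` (LL04/Nb.lean: `lnb_sk_chain_totB`, `gh_os_at_le_top`, `gh_os_at_top`). -/
theorem l6x_chain_tot {b h : ℝ → ℝ} (hb : MvClk b) (hh : MvClk h) (F : Finset GhPos) :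
    skTotB (ckStp 1 b h (ghPs 1 F)) ≤ b 1 ∧ skTotH (ckStp 1 b h (ghPs 1 F)) ≤ h 1 := by
  have hpos : (0 : ℝ) ≤ (ghPosA 1).lam := by simp [ghPosA, GhPos.lam]
  have H : CkAdm 1 b h := l6x_ck hb hh
  have h1 := gh_pk_tot_lo zero_le_one H (ghPs 1 F) 0 0 (fun p hp => (gh_os_ps_mem.1 hp).2)
    (gh_os_at_nonneg zero_le_one H.1 hpos) (gh_os_at_nonneg zero_le_one H.2 hpos)
  rw [gh_os_at_top 1 b zero_le_one, gh_os_at_top 1 h zero_le_one, zero_add, zero_add] at h1
  exact h1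

/-! ## C. the main glue -/

/-- **S13, GLUE.**      `C`, `n0` depend only on the bound `Kb` of the clocks (they are those of `l6v_absorb`). -/
theorem l6x_main (Kb : ℝ) : ∃ (C : ℝ) (n0 : ℕ), 0 ≤ C ∧ ∀ (n : ℕ) (b h : ℝ → ℝ), 1 ≤ n → MvClk b → MvClk h → h 1 + b 1 ≤ Kb →
    ∀ e θ pfl μ : ℝ, 0 < e → e ≤ 1 → 0 ≤ θ → 0 ≤ pfl → C / e ^ n0 * θ ≤ 1 / 2 →
      (∃ᶠ F : Finset GhPos in atTop, L6xGood n (ckStp 1 b h (ghPs 1 F)) e θ pfl μ) →
      ∫ u in (0:ℝ)..1, (skCB n 1 b h (ghPosA u) - skCS n 1 b h (ghPosA u) ^ 2) ≤ 2 * (C / e ^ n0) * (1 / n + pfl + μ) := by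
  obtain ⟨C, n0, hC⟩ := l6v_absorb Kb
  refine ⟨max C 0, n0, le_max_right _ _, ?_⟩
  intro n b h hn hb hh hK e θ pfl μ he he1 hθ hpfl habs hfr
  have hn0 : 0 < n := hn
  refine le_of_tendsto_of_frequently (l6x_lim hn0 hb hh) (hfr.mono ?_)
  intro F hF
  obtain ⟨hgap, Fl, hFlL, hFl, htail⟩ := hF
  set P := ckStp 1 b h (ghPs 1 F) with hP
  have hadm : SkAdm 1 P := l6x_chain_adm hb hh F
  have htot := l6x_chain_tot hb hh F
  have hh1 : 0 ≤ h 1 := hh.nonneg (by simp)
  have hb1 : 0 ≤ b 1 := hb.nonneg (by simp)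
  have key := hC n (l6xStp n P) hn (l6x_adm hn0 hadm) (l6x_emp n P)
    (by rw [l6x_mat]; linarith [htot.1])
    (by rw [l6x_length, l6x_cumK n P le_rfl]; linarith [l6x_top hn0 hadm P.length, htot.1, htot.2])
    e he he1
    (by intro t ht; rw [l6x_length] at ht; rw [l6x_mat]; exact hgap t ht)
    θ pfl Fl hθ hpfl
    (by intro t ht ht2; rw [l6x_length] at ht; exact htail t ht ht2)
  have hG : ∑ t ∈ Fl, l6vG (l6xStp n P) t ≤ μ := by
    simpa only [l6vG, l6x_mat] using hFl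
  set I := l6vInt n (l6xStp n P) with hI
  have hpos : 0 < e ^ n0 := pow_pos he n0
  have hCC : C / e ^ n0 ≤ max C 0 / e ^ n0 := div_le_div_of_nonneg_right (le_max_left _ _) hpos.le
  set A := max C 0 / e ^ n0 with hA
  have hA0 : 0 ≤ A := div_nonneg (le_max_right _ _) hpos.le
  -- nonnegativity of the bracket
  have hI0 : 0 ≤ I := by
    rw [hI, l6vInt]
    refine Finset.sum_nonneg fun t ht => ?_
    rw [l6vG, l6vD2, l6x_mat, l6x_length] at *
    have ht' : t ≤ P.length := by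
      have := Finset.mem_range.1 ht
      omega
    refine mul_nonneg ?_ ?_
    · rw [hP, l6x_gap_eq]
      refine brg_gap_nonneg zero_le_one F t ?_
      rw [hP, l6x_chain_length] at ht'
      exact ht'
    · have := (fd_B_range hn0 one_pos P hadm 0 t).1
      unfold obD2
      linarith
  have hGn : 0 ≤ ∑ t ∈ Fl, l6vG (l6xStp n P) t := by
    refine Finset.sum_nonneg fun t ht => ?_
    rw [l6vG, l6x_mat, hP, l6x_gap_eq]
    refine brg_gap_nonneg zero_le_one F t ?_
    have := hFlL t ht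
    rw [hP, l6x_chain_length] at this
    exact this
  have hn1 : (0:ℝ) ≤ 1 / n := by positivity
  have hbr : 0 ≤ 1 / (n:ℝ) + pfl + ∑ t ∈ Fl, l6vG (l6xStp n P) t + θ * I := by
    have := mul_nonneg hθ hI0
    linarith
  have k2 : I ≤ A * (1 / n + pfl + μ + θ * I) := by
    calc I ≤ C / e ^ n0 * (1 / n + pfl + ∑ t ∈ Fl, l6vG (l6xStp n P) t + θ * I) := key
      _ ≤ A * (1 / n + pfl + ∑ t ∈ Fl, l6vG (l6xStp n P) t + θ * I) := mul_le_mul_of_nonneg_right hCC hbr
      _ ≤ A * (1 / n + pfl + μ + θ * I) := by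
          apply mul_le_mul_of_nonneg_left _ hA0
          linarith
  have k3 : A * θ * I ≤ 1 / 2 * I := mul_le_mul_of_nonneg_right habs hI0
  nlinarith

/-! ## D. from the cuts of the masses to the levels (the floor) -/

/-- **LEAF** levels all of whose masses lie in `U` have total gap `≤ |U ∩ [0,1]|`; at the other levels use the hypothesis at one mass `u ∉ U` of the level.
PLAN (classical): `L = (ghPs 1 F).length`, `idx u = ghIdx (ghPs 1 F) (ghPosA u)`, `Fl := (Finset.range (L+1)).filter fun t => ∀ u ∈ Ico 0 1, idx u = t → u ∈ U`.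
`∑_{t ∈ Fl} gap_t = ∑_{t ≤ L} gap_t * 1[t ∈ Fl] = ∫_0^1 1[idx u ∈ Fl] du` (`Finset.sum_filter`, `l6x_gap_eq`, `l6x_chain_length`, `brg_sum_gap`) `≤ ∫_0^1 1_U(u) du` (`intervalIntegral.integral_mono_on`-type on `Ioo`/a.e., `brg_step_intble`, `hU`)
`= (volume (U ∩ Ioc 0 1)).toReal ≤ (volume (U ∩ Icc 0 1)).toReal`. -/
theorem l6x_tail {n : ℕ} {b h : ℝ → ℝ} {U : Set ℝ} (hU : MeasurableSet U) {θ pfl : ℝ} (F : Finset GhPos)
    (hT : ∀ u ∈ Ico (0:ℝ) 1, u ∉ U →
      l6vTail n (l6xStp n (ckStp 1 b h (ghPs 1 F))) θ (ghIdx (ghPs 1 F) ((ghPosA u : GhPos) : WithTop GhPos)) ≤ pfl) :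
    ∃ Fl : Finset ℕ, (∀ t ∈ Fl, t ≤ (ckStp 1 b h (ghPs 1 F)).length) ∧
      ∑ t ∈ Fl, skGap 1 (ckStp 1 b h (ghPs 1 F)) t ≤ (volume (U ∩ Icc (0:ℝ) 1)).toReal ∧
      ∀ t ≤ (ckStp 1 b h (ghPs 1 F)).length, t ∉ Fl → l6vTail n (l6xStp n (ckStp 1 b h (ghPs 1 F))) θ t ≤ pfl := by
  classical
  let idx : ℝ → ℕ := fun u => ghIdx (ghPs 1 F) ((ghPosA u : GhPos) : WithTop GhPos)
  let cond : ℕ → Prop := fun t => ∀ u ∈ Ico (0:ℝ) 1, idx u = t → u ∈ U
  refine ⟨(Finset.range ((ghPs 1 F).length + 1)).filter cond, ?_, ?_, ?_⟩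
  · intro t ht
    rw [l6x_chain_length]
    have := Finset.mem_range.1 (Finset.mem_filter.1 ht).1
    omega
  · have e1 : ∑ t ∈ (Finset.range ((ghPs 1 F).length + 1)).filter cond, skGap 1 (ckStp 1 b h (ghPs 1 F)) t
        = ∑ t ∈ Finset.range ((ghPs 1 F).length + 1), brgGap 1 (ghPs 1 F) t * (if cond t then 1 else 0) := by
      rw [Finset.sum_filter]
      refine Finset.sum_congr rfl fun t _ => ?_
      rw [l6x_gap_eq]
      split_ifs <;> simp
    rw [e1, brg_sum_gap zero_le_one F (fun t => if cond t then (1:ℝ) else 0),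
      intervalIntegral.integral_of_le zero_le_one, integral_Ioc_eq_integral_Ioo]
    have hint : IntegrableOn (fun u => if cond (idx u) then (1:ℝ) else 0) (Ioo 0 1) :=
      (intervalIntegrable_iff_integrableOn_Ioo_of_le zero_le_one).1 (brg_step_intble F fun t => if cond t then (1:ℝ) else 0)
    have hind : IntegrableOn (U.indicator fun _ => (1:ℝ)) (Ioo 0 1) :=
      (integrableOn_const (by simp) : IntegrableOn (fun _ : ℝ => (1:ℝ)) (Ioo 0 1)).indicator hU
    calc ∫ u in Ioo (0:ℝ) 1, (if cond (idx u) then (1:ℝ) else 0) ≤ ∫ u in Ioo (0:ℝ) 1, U.indicator (fun _ => (1:ℝ)) u := by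
          refine setIntegral_mono_on hint hind measurableSet_Ioo fun u hu => ?_
          by_cases hc : cond (idx u)
          · have huU : u ∈ U := hc u ⟨hu.1.le, hu.2⟩ rfl
            simp [hc, huU]
          · simp only [hc, if_false]
            exact indicator_nonneg (fun _ _ => zero_le_one) u
      _ = (volume (Ioo (0:ℝ) 1 ∩ U)).toReal := by
          rw [setIntegral_indicator hU, setIntegral_const, smul_eq_mul, mul_one]
          rfl
      _ ≤ (volume (U ∩ Icc (0:ℝ) 1)).toReal := by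
          refine ENNReal.toReal_mono ?_ (measure_mono fun x hx => ⟨hx.2, Ioo_subset_Icc_self hx.1⟩)
          exact ne_top_of_le_ne_top (by simp) (measure_mono inter_subset_right)
  · intro t ht htn
    rw [l6x_chain_length] at ht
    have hnc : ¬ cond t := fun hc => htn (Finset.mem_filter.2 ⟨Finset.mem_range.2 (by omega), hc⟩)
    simp only [cond, not_forall] at hnc
    obtain ⟨u, hu, hidx, huU⟩ := hnc
    have := hT u hu huU
    rw [show ghIdx (ghPs 1 F) ((ghPosA u : GhPos) : WithTop GhPos) = t from hidx] at this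
    exact this

/-! ## E. the gap on the chains (S11, chain level) -/

theorem l6x_cum_at_aux (a : ℝ) (b h : ℝ → ℝ) : ∀ (ps : List GhPos) (b0 h0 : ℝ) (t : ℕ) (ht : t < ps.length),
    skCumB (skCStp a b h b0 h0 ps) (t + 1) = ghAt a b ps[t] - b0 ∧ skCumH (skCStp a b h b0 h0 ps) (t + 1) = ghAt a h ps[t] - h0
  | [], _, _, t, ht => absurd ht (Nat.not_lt_zero _)
  | p :: ps, b0, h0, 0, _ => by simp [skCStp, skCumB, skCumH]
  | p :: ps, b0, h0, t + 1, ht => by
      have ht' : t < ps.length := by simpa using ht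
      have ih := l6x_cum_at_aux a b h ps (ghAt a b p) (ghAt a h p) t ht'
      unfold skCumB skCumH at ih ⊢
      simp only [skCStp, List.take_succ_cons, List.map_cons, List.sum_cons, List.getElem_cons_succ]
      rw [ih.1, ih.2]
      constructor <;> ring

/-- **LEAF** what a chain has revealed after `t + 1` revelations = the clocks at its position number `t`.      Telescoping: prove `skCumB (skCStp 1 b h b0 h0 ps) (t+1) = ghAt 1 b ps[t] - b0` by induction on `ps`, generalising `b0 h0 t`. -/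
theorem l6x_cum_at (b h : ℝ → ℝ) (ps : List GhPos) {t : ℕ} (ht : t < ps.length) :
    skCumB (ckStp 1 b h ps) (t + 1) = ghAt 1 b ps[t] ∧ skCumH (ckStp 1 b h ps) (t + 1) = ghAt 1 h ps[t] := by
  have := l6x_cum_at_aux 1 b h ps 0 0 t ht
  simpa [ckStp] using this

theorem l6x_idx_at_aux (ps : List GhPos) (hps : ps.Pairwise (· < ·)) {t : ℕ} (ht : t < ps.length) :
    (ps.filter fun x : GhPos => decide (x ≤ ps[t])).length = t + 1 := by
  have hs := List.pairwise_iff_getElem.1 hps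
  obtain ⟨y, hy⟩ : ∃ y, y = ps[t] := ⟨_, rfl⟩
  rw [← hy]
  have e : ps.filter (fun x : GhPos => decide (x ≤ y))
      = (ps.take (t + 1)).filter (fun x : GhPos => decide (x ≤ y)) ++ (ps.drop (t + 1)).filter (fun x : GhPos => decide (x ≤ y)) := by
    rw [← List.filter_append, List.take_append_drop]
  have h1 : (ps.take (t + 1)).filter (fun x : GhPos => decide (x ≤ y)) = ps.take (t + 1) := by
    rw [List.filter_eq_self]
    intro x hx
    obtain ⟨i, hi, rfl⟩ := List.mem_iff_getElem.1 hx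
    have hi' : i < t + 1 := by
      have := hi
      rw [List.length_take] at this
      omega
    rw [List.getElem_take, hy]
    rcases Nat.lt_succ_iff_lt_or_eq.1 hi' with h | h
    · simpa using (hs i t _ ht h).le
    · subst h; simp
  have h2 : (ps.drop (t + 1)).filter (fun x : GhPos => decide (x ≤ y)) = [] := by
    rw [List.filter_eq_nil_iff]
    intro x hx
    obtain ⟨i, hi, rfl⟩ := List.mem_iff_getElem.1 hx
    rw [List.getElem_drop, hy]
    have hi' : t + 1 + i < ps.length := by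
      have := hi
      rw [List.length_drop] at this
      omega
    simpa using hs t (t + 1 + i) ht hi' (by omega)
  rw [e, h1, h2, List.append_nil, List.length_take]
  omega

/-- **LEAF** the index of the position number `t` of a chain is `t + 1` (`ghPs` is strictly sorted: `Finset.sort`, `gh_os_ps_pairwise`, `Finset.sort_nodup`; the filter `· ≤ ps[t]` of a strictly sorted list is `ps.take (t+1)`). -/
theorem l6x_idx_at (F : Finset GhPos) {t : ℕ} (ht : t < (ghPs 1 F).length) :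
    ghIdx (ghPs 1 F) (((ghPs 1 F)[t] : GhPos) : WithTop GhPos) = t + 1 := by
  rw [brg_idx_coe]
  exact l6x_idx_at_aux _ (gh_os_ps_lt 1 F) ht

/-- a sorted list: the filter `f x ≤ u` is an initial segment -/
theorem l6x_filter_take {α : Type} (f : α → ℝ) (u : ℝ) : ∀ (l : List α), l.Pairwise (fun x y => f x ≤ f y) →
    l.filter (fun x => decide (f x ≤ u)) = l.take (l.filter fun x => decide (f x ≤ u)).length
  | [], _ => rfl
  | x :: l, h => by
      have hl := (List.pairwise_cons.1 h).2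
      by_cases hx : f x ≤ u
      · rw [List.filter_cons_of_pos (by simpa using hx), List.length_cons, List.take_succ_cons, ← l6x_filter_take f u l hl]
      · have h0 : l.filter (fun x => decide (f x ≤ u)) = [] := by
          rw [List.filter_eq_nil_iff]
          intro y hy
          have := (List.pairwise_cons.1 h).1 y hy
          simp only [decide_eq_true_eq, not_le]
          exact lt_of_lt_of_le (not_le.1 hx) this
        rw [List.filter_cons_of_neg (by simpa using hx), h0]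
        rfl

theorem l6x_pi_fst (n : ℕ) (P : SkStp) : (pkPi (l6xStp n P)).map Prod.fst = P.map SkInc.m := by
  conv_rhs => rw [← l6x_mat n P]
  unfold pkPi llMat
  simp only [List.map_map]
  rfl

/-- **LEAF** the clock of the scalar profile of a chain at the mass `u` is `K` at the cut of `u`.
PLAN: the masses of `pkPi (l6xStp n P)` are those of `ps` (nondecreasing), so the filter `mass ≤ u` is `take (idx u)`, `idx u = ` number of positions of mass `≤ u` (`brg_idx_posA`); the sum of the `dK` of `take j` is `llCumK _ j = l6xK n P j` (`l6x_cumK`, `brg_idx_le`). -/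
theorem l6x_clk_idx (n : ℕ) (b h : ℝ → ℝ) (F : Finset GhPos) (u : ℝ) :
    l6xClk (pkPi (l6xStp n (ckStp 1 b h (ghPs 1 F)))) u
      = l6xK n (ckStp 1 b h (ghPs 1 F)) (ghIdx (ghPs 1 F) ((ghPosA u : GhPos) : WithTop GhPos)) := by
  set P := ckStp 1 b h (ghPs 1 F) with hP
  have hfst : (pkPi (l6xStp n P)).map Prod.fst = (ghPs 1 F).map GhPos.u := by
    rw [l6x_pi_fst, hP]; exact l6x_chain_m 1 b h _ 0 0
  have hsort : (pkPi (l6xStp n P)).Pairwise (fun x y => x.1 ≤ y.1) := by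
    have h1 := brg_ps_mass_sorted 1 F
    rw [← List.pairwise_map (f := GhPos.u) (R := (· ≤ ·)), ← hfst, List.pairwise_map] at h1
    exact h1
  have hlen : ((pkPi (l6xStp n P)).filter fun p => decide (p.1 ≤ u)).length
      = ghIdx (ghPs 1 F) ((ghPosA u : GhPos) : WithTop GhPos) := by
    rw [brg_idx_posA]
    have e1 : ((pkPi (l6xStp n P)).filter fun p => decide (p.1 ≤ u)).length
        = (((pkPi (l6xStp n P)).map Prod.fst).filter fun x => decide (x ≤ u)).length := by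
      rw [List.filter_map, List.length_map]; rfl
    have e2 : ((ghPs 1 F).filter fun p => decide (p.u ≤ u)).length
        = (((ghPs 1 F).map GhPos.u).filter fun x => decide (x ≤ u)).length := by
      rw [List.filter_map, List.length_map]; rfl
    rw [e1, e2, hfst]
  unfold l6xClk
  rw [l6x_filter_take Prod.fst u _ hsort, hlen]
  have hle : ghIdx (ghPs 1 F) ((ghPosA u : GhPos) : WithTop GhPos) ≤ P.length := by
    rw [hP, l6x_chain_length]; exact brg_idx_le _ _
  rw [← l6x_cumK n P hle]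
  unfold llCumK pkPi
  rw [← List.map_take, List.map_map]
  rfl

/-- what a chain has revealed after `j` revelations, in the vocabulary of Brg/PrDefs -/
theorem l6x_cum_last (a : ℝ) (b h : ℝ → ℝ) : ∀ (ps : List GhPos) (b0 h0 : ℝ) (j : ℕ),
    b0 + skCumB (skCStp a b h b0 h0 ps) j = ((ps.take j).getLast?.map fun p => ghAt a b p).getD b0 ∧
    h0 + skCumH (skCStp a b h b0 h0 ps) j = ((ps.take j).getLast?.map fun p => ghAt a h p).getD h0
  | [], b0, h0, j => by simp [skCStp, skCumB, skCumH]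
  | p :: ps, b0, h0, 0 => by simp [skCumB, skCumH]
  | p :: ps, b0, h0, j + 1 => by
      have ih := l6x_cum_last a b h ps (ghAt a b p) (ghAt a h p) j
      rw [List.take_succ_cons, brg_last_cons, brg_last_cons, ← ih.1, ← ih.2]
      unfold skCumB skCumH
      simp only [skCStp, List.take_succ_cons, List.map_cons, List.sum_cons]
      constructor <;> ring

theorem l6x_held {b h : ℝ → ℝ} (hb : MvClk b) (hh : MvClk h) (F : Finset GhPos) {u : ℝ} (hu : u ∈ Icc (0:ℝ) 1)
    (hne : ∀ p ∈ F, p.u ≠ u) :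
    (0 ≤ ghAt 1 b (ghPosA u) - skCumB (ckStp 1 b h (ghPs 1 F)) (ghIdx (ghPs 1 F) ((ghPosA u : GhPos) : WithTop GhPos)) ∧
      ghAt 1 b (ghPosA u) - skCumB (ckStp 1 b h (ghPs 1 F)) (ghIdx (ghPs 1 F) ((ghPosA u : GhPos) : WithTop GhPos))
        ≤ ghOsc 1 b 0 (ghPs 1 F)) ∧
    (0 ≤ ghAt 1 h (ghPosA u) - skCumH (ckStp 1 b h (ghPs 1 F)) (ghIdx (ghPs 1 F) ((ghPosA u : GhPos) : WithTop GhPos)) ∧
      ghAt 1 h (ghPosA u) - skCumH (ckStp 1 b h (ghPs 1 F)) (ghIdx (ghPs 1 F) ((ghPosA u : GhPos) : WithTop GhPos))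
        ≤ ghOsc 1 h 0 (ghPs 1 F)) := by
  have e := l6x_cum_last 1 b h (ghPs 1 F) 0 0 (ghIdx (ghPs 1 F) ((ghPosA u : GhPos) : WithTop GhPos))
  rw [zero_add, zero_add] at e
  have h1 := brg_held (ι := Unit) zero_le_one (v := fun _ => b) (fun _ => hb) F hu hne ()
  have h2 := brg_held (ι := Unit) zero_le_one (v := fun _ => h) (fun _ => hh) F hu hne ()
  unfold brgCum at h1 h2
  unfold ckStp
  rw [e.1, e.2]
  exact ⟨h1, h2⟩

/-- **LEAF** `L¹` closeness of the empirical clock of the chains to the empirical clock of the path.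
PLAN: `l6x_clk_idx`.   For `u ∈ (0,1)` which is not a mass of `F` (a.e. `u`): `skCumH P (idx u) = brgCum ..` (`l6x_cum_at`) and `brg_held` (family `![b, h]`): `0 ≤ ghAt 1 h (ghPosA u) - H_{idx u} ≤ ghOsc 1 h 0 ps`, the same for `b`;
`ghAt 1 h (ghPosA u) = h u` a.e. (`brg_at_ae`); the oscillations are `≤ ε` eventually (`gh_os_eventually`, Brg/Osc); `|obS (idx u) - skCS (ghPosA u)| ≤ ε` eventually, uniformly (`cmk_unif_stat`); `0 ≤ obS ≤ 1`, `b u ≤ b 1`.
So the integrand is `≤ ε (2 + b 1)` a.e.; measurability: both functions are monotone in `u` / step functions (`brg_step_intble`, `exit_clk_intble`, `MvClk.bm`). -/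
theorem l6x_clk_close {n : ℕ} (hn : 0 < n) {b h : ℝ → ℝ} (hb : MvClk b) (hh : MvClk h) {δ : ℝ} (hδ : 0 < δ) :
    ∀ᶠ F : Finset GhPos in atTop,
      ∫ u in (0:ℝ)..1, |l6xClk (pkPi (l6xStp n (ckStp 1 b h (ghPs 1 F)))) u - (h u + b u * skCS n 1 b h (ghPosA u))| ≤ δ := by
  classical
  have H : CkAdm 1 b h := l6x_ck hb hh
  have hb1 : 0 ≤ b 1 := hb.nonneg (by simp)
  set ε : ℝ := δ / (2 + b 1) with hε
  have hε0 : 0 < ε := by positivity
  obtain ⟨F1, hF1⟩ := gh_os_eventually zero_le_one H.1 hε0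
  obtain ⟨F2, hF2⟩ := gh_os_eventually zero_le_one H.2 hε0
  obtain ⟨F3, hF3⟩ := cmk_unif_stat n hn H hε0
  refine eventually_atTop.2 ⟨F1 ∪ F2 ∪ F3, fun F hF => ?_⟩
  have hF1' := hF1 F (Finset.subset_union_left.trans (Finset.subset_union_left.trans hF))
  have hF2' := hF2 F (Finset.subset_union_right.trans (Finset.subset_union_left.trans hF))
  have hF3' := hF3 F (Finset.subset_union_right.trans hF)
  have hnull : ∀ᵐ u ∂(volume : Measure ℝ), u ∉ ((F.image GhPos.u : Finset ℝ) : Set ℝ) :=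
    measure_eq_zero_iff_ae_notMem.1 ((Finset.finite_toSet _).measure_zero volume)
  have key := intervalIntegral.norm_integral_le_of_norm_le_const_ae (a := 0) (b := 1) (C := δ)
    (f := fun u => |l6xClk (pkPi (l6xStp n (ckStp 1 b h (ghPs 1 F)))) u - (h u + b u * skCS n 1 b h (ghPosA u))|) ?_
  · rw [sub_zero, abs_one, mul_one] at key
    exact (le_abs_self _).trans key
  · filter_upwards [hnull, gh_pk_at_ae zero_le_one H.1, gh_pk_at_ae zero_le_one H.2] with u hu1 hu2 hu3 hu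
    rw [uIoc_of_le zero_le_one] at hu
    have hu' : u ∈ Icc (0:ℝ) 1 := ⟨hu.1.le, hu.2⟩
    have hne : ∀ p ∈ F, p.u ≠ u := fun p hp e => hu1 (by
      rw [Finset.mem_coe, Finset.mem_image]; exact ⟨p, hp, e⟩)
    obtain ⟨⟨a1, a2⟩, ⟨a3, a4⟩⟩ := l6x_held hb hh F hu' hne
    rw [hu2 hu] at a1 a2
    rw [hu3 hu] at a3 a4
    have a5 := abs_le.1 (hF3' u hu').1
    have a6 := fd_S_range hn one_pos _ (l6x_chain_adm hb hh F) 0 (ghIdx (ghPs 1 F) ((ghPosA u : GhPos) : WithTop GhPos))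
    have a7 : 0 ≤ b u := hb.nonneg hu'
    have a8 : b u ≤ b 1 := hb.le_one hu'
    rw [l6x_clk_idx, Real.norm_eq_abs, abs_abs]
    unfold l6xK
    set HH := skCumH (ckStp 1 b h (ghPs 1 F)) (ghIdx (ghPs 1 F) ((ghPosA u : GhPos) : WithTop GhPos))
    set BB := skCumB (ckStp 1 b h (ghPs 1 F)) (ghIdx (ghPs 1 F) ((ghPosA u : GhPos) : WithTop GhPos))
    set SS := obS n 1 (ckStp 1 b h (ghPs 1 F)) 0 (ghIdx (ghPs 1 F) ((ghPosA u : GhPos) : WithTop GhPos))
    set CS := skCS n 1 b h (ghPosA u)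
    have hδe : δ = ε * (2 + b 1) := by rw [hε]; field_simp
    have e1 : HH + BB * SS - (h u + b u * CS) = -(h u - HH) - (b u - BB) * SS + b u * (SS - CS) := by ring
    have b1 : |(b u - BB) * SS| ≤ ε := by
      rw [abs_mul, abs_of_nonneg a1, abs_of_nonneg a6.1]
      calc (b u - BB) * SS ≤ ε * 1 := mul_le_mul (a2.trans hF1') a6.2 a6.1 hε0.le
        _ = ε := mul_one _
    have b2 : |b u * (SS - CS)| ≤ b 1 * ε := by
      rw [abs_mul, abs_of_nonneg a7]
      exact mul_le_mul a8 (abs_le.2 a5) (abs_nonneg _) hb1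
    have b3 : |h u - HH| ≤ ε := by
      rw [abs_of_nonneg a3]; exact a4.trans hF2'
    rw [e1, hδe]
    calc |-(h u - HH) - (b u - BB) * SS + b u * (SS - CS)|
        ≤ |h u - HH| + |(b u - BB) * SS| + |b u * (SS - CS)| := by
          have t1 := abs_add_le (-(h u - HH) - (b u - BB) * SS) (b u * (SS - CS))
          have t2 := abs_sub (-(h u - HH)) ((b u - BB) * SS)
          rw [abs_neg] at t2
          linarith
      _ ≤ ε + ε + b 1 * ε := add_le_add (add_le_add b3 b1) b2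
      _ = ε * (2 + b 1) := by ring

/-- **LEAF** integrability of the empirical clock of a chain minus a clock (step function minus monotone function) -/
theorem l6x_clk_intble (n : ℕ) (b h : ℝ → ℝ) (F : Finset GhPos) {g : ℝ → ℝ} (hg : IntervalIntegrable g volume 0 1) :
    IntervalIntegrable (fun u => |l6xClk (pkPi (l6xStp n (ckStp 1 b h (ghPs 1 F)))) u - g u|) volume 0 1 := by
  simp_rw [l6x_clk_idx]
  exact ((brg_step_intble F fun t => l6xK n (ckStp 1 b h (ghPs 1 F)) t).sub hg).abs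

theorem l6x_obY : (obY (0 : Fin 1) : SkCfg 1 → ℝ) = slkSp := by
  funext σ
  simp [obY, slkSp, skY]

theorem l6x_slkPi (P : LlStp) : slkPi (llSc P) = pkPi P := by
  simp [slkPi, llSc, pkPi, List.map_map, Function.comp_def]

theorem l6x_slkT (P : LlStp) (t : ℕ) : slkT (llSc P) t = llCumK P t := by
  rw [slk_T_eq]
  simp [skCumH, llCumK, llSc, List.map_take, List.map_map, Function.comp_def]

/-- `l6vChi2 := pkX2 1` in LL06/Var (156) -/
theorem l6x_chi2 {P : LlStp} (_hP : LlStpAdm 1 P) {t : ℕ} (_ht : t ≤ P.length) : l6vChi2 P t = pkX2 1 P t := rfl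

/-- SANITY (225): `pkX2 1 P t` is `E tr H²` of the one-site model with the clock `K` at the cut `t` (`slk_H`, `slk_Fld_time` of Sc/Link (102)). -/
theorem l6x_chi2_ob {P : LlStp} (hP : LlStpAdm 1 P) {t : ℕ} (_ht : t ≤ P.length) : obTrH2 1 1 (llSc P) 0 t = pkX2 1 P t := by
  set Q := llSc P with hQ
  have hok : SlkOk Q := by
    intro e he
    obtain ⟨e', _, rfl⟩ := List.mem_map.1 he
    rfl
  have hm : ∀ e ∈ Q, 0 ≤ e.m := fun e he => (hP.2.2 e he).1
  have hh : ∀ e ∈ Q, 0 ≤ e.dh := fun e he => (hP.2.2 e he).2.2.2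
  have hB := slk_base_ok (a := 1) one_pos
  set φ : (SkCfg 1 → ℝ) → ℝ := fun z => ∑ i : Fin 1, ∑ k : Fin 1, obH 1 1 (Q.drop t) z i k ^ 2 with hφ
  have e1 : ∀ y, φ (slkZ y) = scD 2 (scLC 1) (slkPi Q) (slkT Q t) y ^ 2 := by
    intro y
    simp only [hφ, Finset.univ_unique, Fin.default_eq_zero, Finset.sum_singleton, obH, l6x_obY]
    rw [slk_H one_pos (fun e he => hok e (List.mem_of_mem_drop he)) (fun e he => hm e (List.mem_of_mem_drop he)), scD, slkT,
      slk_Pi_take, slk_Vt_take _ (slk_pos hh), slk_Pi_drop]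
  have hE : ScE 0 fun y => φ (slkZ y) := by
    simp only [e1]
    exact (sc_D_E (sc_logcosh_BI 1) 2 0 _ _).pow 2
  have h1 : obTrH2 1 1 Q 0 t = ghPath (skBase 1 1) (skLvs 1 Q) 0 (fun ξ _ => φ (0 + ghPre (skLvs 1 Q) ξ t)) := rfl
  rw [h1, obu_path_field hB (slk_nn hm), ← brg_sf_fld, ← slk_Z_zero, slk_Fld_time 1 hE hok hh]
  simp only [e1]
  rw [l6x_slkPi, l6x_slkT]
  rfl

theorem l6x_emp_intble {n : ℕ} {b h : ℝ → ℝ} (hb : MvClk b) (hh : MvClk h) :
    IntervalIntegrable (fun u => h u + b u * skCS n 1 b h (ghPosA u)) volume 0 1 := by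
  have H : CkAdm 1 b h := l6x_ck hb hh
  refine (gh_pk_clk_intble zero_le_one H.2).add
    (gh_pk_mul_intble zero_le_one (gh_pk_clk_intble zero_le_one H.1) (gh_pk_CS_intble one_pos H) (C := b 1) fun u hu => ?_)
  rw [abs_of_nonneg (hb.nonneg hu)]
  exact hb.le_one hu

/-- **S11 on the chains.**      **LEAF** (glue of the leaves above).
PLAN.  Fix `ε > 0` with `b 1 * C * (η + ε) ≤ e` and `δ > 0` with `b 1 * δ ≤ ρ`.   Eventually in `F`: `l6x_clk_close` at `ε`, `cmk_unif_stat` at `δ`.   Let `P = P_F`, `t ≤ L`.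
`t = 0`: `skCumB P 0 = 0`, `e ≤ 1`.   `t = t' + 1`: `p = ps[t']` is valid (`gh_os_ps_mem`), `skCumB P t = ghAt 1 b p`, `skCumH P t = ghAt 1 h p` (`l6x_cum_at`), `ghIdx ps p = t` (`l6x_idx_at`), so `|obS n 1 P 0 t - skCS n 1 b h p| ≤ δ` and
`s := llCumK (l6xStp n P) t = l6xK n P t ≥ ghAt 1 h p + ghAt 1 b p * skCS .. p - ρ` (`0 ≤ ghAt 1 b p ≤ b 1`: `gh_os_at_nonneg`, `gh_os_at_le_top`, `gh_os_at_top`), `s ≥ 0`: `hJ1` gives `2 e ≤ 1 - B_t G1 s`.
`hst` at `π = pkPi (l6xStp n P)` (`l6x_pi`, `l6x_top`, `l6x_chain_tot`, `l6x_K_mono`: `s ∈ [0, scLen π]`, `scLen π ≤ Q0`): `|pkX2 1 _ t - G1 s| ≤ C ∫ |l6xClk π - ts| ≤ C (ε + η)` (triangle inequality in `L¹`, `l6x_clk_intble`).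
Hence `1 - B_t pkX2 ≥ 2 e - b 1 C (η + ε) ≥ e`. -/
theorem l6x_gap {n : ℕ} (hn : 0 < n) {b h ts G1 : ℝ → ℝ} (hb : MvClk b) (hh : MvClk h) (hts : MvClk ts) {Q0 C e ρ η : ℝ}
    (hQ : h 1 + b 1 ≤ Q0) (hC : 0 ≤ C) (hst : L6xStab G1 ts Q0 C) (hρ : 0 < ρ) (he1 : e ≤ 1)
    (hJ1 : ∀ p : GhPos, p.Ok 1 → ∀ s : ℝ, 0 ≤ s → ghAt 1 h p + ghAt 1 b p * skCS n 1 b h p - ρ ≤ s → 2 * e ≤ 1 - ghAt 1 b p * G1 s)
    (hJ2 : ∫ u in (0:ℝ)..1, |h u + b u * skCS n 1 b h (ghPosA u) - ts u| ≤ η) (hη : b 1 * C * η < e) :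
    ∀ᶠ F : Finset GhPos in atTop, ∀ t ≤ (ckStp 1 b h (ghPs 1 F)).length,
      e ≤ 1 - skCumB (ckStp 1 b h (ghPs 1 F)) t * pkX2 1 (l6xStp n (ckStp 1 b h (ghPs 1 F))) t := by
  have H : CkAdm 1 b h := l6x_ck hb hh
  have hb1 : 0 ≤ b 1 := hb.nonneg (by simp)
  have hbC : 0 ≤ b 1 * C := mul_nonneg hb1 hC
  set ε : ℝ := (e - b 1 * C * η) / (b 1 * C + 1) with hε
  have hε0 : 0 < ε := div_pos (by linarith) (by linarith)
  have hεe : b 1 * C * (η + ε) ≤ e := by
    have h1 : (b 1 * C + 1) * ε = e - b 1 * C * η := by rw [hε]; field_simp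
    nlinarith
  set δ : ℝ := ρ / (b 1 + 1) with hδ
  have hδ0 : 0 < δ := div_pos hρ (by linarith)
  have hδρ : b 1 * δ ≤ ρ := by
    have h1 : (b 1 + 1) * δ = ρ := by rw [hδ]; field_simp
    nlinarith
  obtain ⟨F0, hF0⟩ := cmk_unif_stat_all n hn H hδ0
  filter_upwards [l6x_clk_close hn hb hh hε0, eventually_ge_atTop F0] with F hclose hF t ht
  have hadm : SkAdm 1 (ckStp 1 b h (ghPs 1 F)) := l6x_chain_adm hb hh F
  cases t with
  | zero =>
    have : skCumB (ckStp 1 b h (ghPs 1 F)) 0 = 0 := by simp [skCumB]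
    rw [this, zero_mul, sub_zero]
    exact he1
  | succ t' =>
    have hlen := l6x_chain_length b h (ghPs 1 F)
    have ht' : t' < (ghPs 1 F).length := by rw [hlen] at ht; exact ht
    obtain ⟨p, hp⟩ : ∃ p, p = (ghPs 1 F)[t'] := ⟨_, rfl⟩
    have hpok : p.Ok 1 := by rw [hp]; exact (gh_os_ps_mem.1 (List.getElem_mem ht')).2
    have hcum := l6x_cum_at b h (ghPs 1 F) ht'
    rw [← hp] at hcum
    have hidx := l6x_idx_at F ht'
    rw [← hp] at hidx
    have hS := (hF0 F hF p hpok).1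
    rw [hidx] at hS
    have hBp := gh_pk_at_bd zero_le_one H.1 hpok
    -- the time
    have hs : llCumK (l6xStp n (ckStp 1 b h (ghPs 1 F))) (t' + 1) = l6xK n (ckStp 1 b h (ghPs 1 F)) (t' + 1) := l6x_cumK n _ ht
    have hsK : l6xK n (ckStp 1 b h (ghPs 1 F)) (t' + 1)
        = ghAt 1 h p + ghAt 1 b p * obS n 1 (ckStp 1 b h (ghPs 1 F)) 0 (t' + 1) := by
      unfold l6xK; rw [hcum.1, hcum.2]
    have hs0 : 0 ≤ l6xK n (ckStp 1 b h (ghPs 1 F)) (t' + 1) := by
      have := l6x_K_mono hn hadm (Nat.zero_le (t' + 1))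
      rwa [l6x_K_zero] at this
    have hslow : ghAt 1 h p + ghAt 1 b p * skCS n 1 b h p - ρ ≤ l6xK n (ckStp 1 b h (ghPs 1 F)) (t' + 1) := by
      rw [hsK]
      have a1 := (abs_le.1 hS).1
      nlinarith [mul_le_mul_of_nonneg_right hBp.2 hδ0.le, mul_nonneg hBp.1 (by linarith : 0 ≤ obS n 1 (ckStp 1 b h (ghPs 1 F)) 0 (t' + 1) - skCS n 1 b h p + δ)]
    have hgap := hJ1 p hpok _ hs0 hslow
    -- the stability
    obtain ⟨hπ1, hπ2, hπ3⟩ := l6x_pi hn hadm
    have htot := l6x_chain_tot hb hh F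
    have hlenQ : scLen (pkPi (l6xStp n (ckStp 1 b h (ghPs 1 F)))) ≤ Q0 := by
      rw [hπ3]
      linarith [l6x_top hn hadm (ckStp 1 b h (ghPs 1 F)).length, htot.1, htot.2]
    have hsmem : l6xK n (ckStp 1 b h (ghPs 1 F)) (t' + 1) ∈ Icc 0 (scLen (pkPi (l6xStp n (ckStp 1 b h (ghPs 1 F))))) := by
      rw [hπ3]; exact ⟨hs0, l6x_K_mono hn hadm ht⟩
    have hstab := hst _ hπ1 hπ2 hlenQ _ hsmem
    have hiE := l6x_emp_intble (n := n) hb hh
    have hiT : IntervalIntegrable ts volume 0 1 := gh_pk_clk_intble zero_le_one hts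
    have hL1 : ∫ u in (0:ℝ)..1, |l6xClk (pkPi (l6xStp n (ckStp 1 b h (ghPs 1 F)))) u - ts u| ≤ ε + η := by
      calc ∫ u in (0:ℝ)..1, |l6xClk (pkPi (l6xStp n (ckStp 1 b h (ghPs 1 F)))) u - ts u|
          ≤ ∫ u in (0:ℝ)..1, (|l6xClk (pkPi (l6xStp n (ckStp 1 b h (ghPs 1 F)))) u - (h u + b u * skCS n 1 b h (ghPosA u))|
              + |h u + b u * skCS n 1 b h (ghPosA u) - ts u|) := by
            refine intervalIntegral.integral_mono_on zero_le_one (l6x_clk_intble n b h F hiT)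
              ((l6x_clk_intble n b h F hiE).add (hiE.sub hiT).abs) fun u _ => ?_
            exact abs_sub_le _ _ _
        _ = (∫ u in (0:ℝ)..1, |l6xClk (pkPi (l6xStp n (ckStp 1 b h (ghPs 1 F)))) u - (h u + b u * skCS n 1 b h (ghPosA u))|)
              + ∫ u in (0:ℝ)..1, |h u + b u * skCS n 1 b h (ghPosA u) - ts u| :=
            intervalIntegral.integral_add (l6x_clk_intble n b h F hiE) (hiE.sub hiT).abs
        _ ≤ ε + η := add_le_add hclose hJ2
    have hX : |pkX2 1 (l6xStp n (ckStp 1 b h (ghPs 1 F))) (t' + 1) - G1 (l6xK n (ckStp 1 b h (ghPs 1 F)) (t' + 1))| ≤ C * (ε + η) := by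
      unfold pkX2
      rw [hs]
      exact hstab.trans (mul_le_mul_of_nonneg_left hL1 hC)
    rw [hcum.1]
    have a2 := abs_le.1 hX
    have a3 : ghAt 1 b p * (pkX2 1 (l6xStp n (ckStp 1 b h (ghPs 1 F))) (t' + 1) - G1 (l6xK n (ckStp 1 b h (ghPs 1 F)) (t' + 1)))
        ≤ b 1 * (C * (ε + η)) := by
      have hCe : 0 ≤ C * (ε + η) := (abs_nonneg _).trans hX
      calc _ ≤ ghAt 1 b p * (C * (ε + η)) := mul_le_mul_of_nonneg_left a2.2 hBp.1
        _ ≤ b 1 * (C * (ε + η)) := mul_le_mul_of_nonneg_right hBp.2 hCe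
    nlinarith

/-! ### the instance of `L6xStab` in the vocabulary of BOX-C -/

/-- **LEAF** padding with the terminal mass does not change `E χ²` before the old end.
PLAN: `scVt F (π ++ ρ) s = scVt (scV F ρ) π s` for `s ≤ scLen π`; `scV (scLC 1) [(1, d)] = scLC 1 + const` (`sc_V_logcosh`); additive constants: `sc_V_add_const`, `sc_P_add_const` (derivatives and transition operators do not see them). -/
theorem l6x_st_pad {π : List (ℝ × ℝ)} (_hπ : ScAdm 1 π) {d : ℝ} (hd : 0 ≤ d) {s : ℝ} (hs : s ∈ Icc 0 (scLen π)) :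
    scM2 (scLC 1) (π ++ [(1, d)]) s = scM2 (scLC 1) π s := by
  unfold scM2
  rw [sc_ann_Ex one_ne_zero hd π hs.2, sc_ann_D one_ne_zero hd 1 π hs.1 hs.2]

theorem l6x_clk_cons (p : ℝ × ℝ) (π : List (ℝ × ℝ)) (u : ℝ) :
    l6xClk (p :: π) u = (if p.1 ≤ u then p.2 else 0) + l6xClk π u := by
  unfold l6xClk
  by_cases h : p.1 ≤ u <;> simp [h]

theorem l6x_clk_append (π ρ : List (ℝ × ℝ)) (u : ℝ) : l6xClk (π ++ ρ) u = l6xClk π u + l6xClk ρ u := by
  simp [l6xClk]

theorem l6x_clk_nonneg {π : List (ℝ × ℝ)} (hπ : ScPos π) (u : ℝ) : 0 ≤ l6xClk π u := by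
  induction π with
  | nil => simp [l6xClk]
  | cons p π ih =>
    rw [l6x_clk_cons]
    have h1 := hπ p List.mem_cons_self
    have h2 := ih hπ.of_cons
    split_ifs <;> linarith

theorem l6x_clk_of_lt {π : List (ℝ × ℝ)} {u : ℝ} (h : ∀ q ∈ π, u < q.1) : l6xClk π u = 0 := by
  induction π with
  | nil => simp [l6xClk]
  | cons p π ih =>
    rw [l6x_clk_cons, if_neg (not_le.2 (h p List.mem_cons_self)), ih fun q hq => h q (List.mem_cons_of_mem _ hq), add_zero]

theorem l6x_clk_mono {π : List (ℝ × ℝ)} (hπ : ScPos π) : Monotone (l6xClk π) := by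
  induction π with
  | nil => intro u v _; simp [l6xClk]
  | cons p π ih =>
    intro u v huv
    rw [l6x_clk_cons, l6x_clk_cons]
    have h1 := hπ p List.mem_cons_self
    have h2 := ih hπ.of_cons huv
    by_cases hu : p.1 ≤ u
    · rw [if_pos hu, if_pos (hu.trans huv)]; linarith
    · rw [if_neg hu]
      split_ifs <;> linarith

theorem l6x_clk_le {π : List (ℝ × ℝ)} (hπ : ScPos π) (u : ℝ) : l6xClk π u ≤ scLen π := by
  induction π with
  | nil => simp [l6xClk, scLen]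
  | cons p π ih =>
    rw [l6x_clk_cons]
    simp only [scLen]
    have h1 := hπ p List.mem_cons_self
    have h2 := ih hπ.of_cons
    split_ifs <;> linarith

/-- pointwise form: equality at EVERY time `r ∈ [0, scLen π)` -/
theorem l6x_st_al_pt : ∀ {π : List (ℝ × ℝ)}, ScAdm 1 π → ScInc π → ∀ r : ℝ, 0 ≤ r → r < scLen π →
    scAl π r = scAlK 1 (l6xClk π) r
  | [], _, _, r, h0, h1 => by simp only [scLen] at h1; linarith
  | p :: π, hπ, hi, r, h0, h1 => by
    have hp := hπ p List.mem_cons_self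
    have hle : ∀ q ∈ π, p.1 ≤ q.1 := (List.pairwise_cons.1 hi).1
    simp only [scLen] at h1
    by_cases h : p.2 ≤ r
    · simp only [scAl, if_pos h]
      rw [l6x_st_al_pt hπ.of_cons hi.of_cons (r - p.2) (by linarith) (by linarith)]
      unfold scAlK
      congr 2
      ext v
      simp only [Set.mem_ofPred_eq]
      refine and_congr_right fun _ => ?_
      rw [l6x_clk_cons]
      by_cases hv : p.1 ≤ v
      · rw [if_pos hv]
        constructor <;> intro <;> linarith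
      · rw [if_neg hv, l6x_clk_of_lt fun q hq => (not_le.1 hv).trans_le (hle q hq)]
        constructor <;> intro <;> linarith
    · simp only [scAl, if_neg h]
      unfold scAlK
      have e : {v : ℝ | v ∈ Ioo (0:ℝ) 1 ∧ l6xClk (p :: π) v ≤ r} = Ioo 0 p.1 := by
        ext v
        simp only [Set.mem_ofPred_eq, mem_Ioo]
        rw [l6x_clk_cons]
        by_cases hv : p.1 ≤ v
        · rw [if_pos hv]
          have := l6x_clk_nonneg hπ.of_cons.pos v
          constructor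
          · rintro ⟨_, h3⟩; exfalso; linarith
          · rintro ⟨_, h3⟩; exfalso; linarith
        · rw [if_neg hv, l6x_clk_of_lt fun q hq => (not_le.1 hv).trans_le (hle q hq)]
          constructor
          · rintro ⟨⟨h3, _⟩, _⟩; exact ⟨h3, not_le.1 hv⟩
          · rintro ⟨h3, h4⟩; exact ⟨⟨h3, by linarith [hp.2.1]⟩, by linarith⟩
      rw [e, Real.volume_Ioo, sub_zero, ENNReal.toReal_ofReal hp.1]

/-- **LEAF** the mass profile of a step profile is the distribution function of its clock, off the break points.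
PLAN: induction on `π` is painful; direct: for `r ∈ [K_{j}, K_{j+1})` (cumulative variances) both sides are the mass of the step `j` (masses nondecreasing in `[0,1]`; `{v ∈ (0,1) | l6xClk π v ≤ r} = (0, m_j)` up to a null set); the finitely many break points are null. -/
theorem l6x_st_al {π : List (ℝ × ℝ)} (hπ : ScAdm 1 π) (hi : ScInc π) :
    ∀ᵐ r ∂(volume.restrict (Icc 0 (scLen π))), scAl π r = scAlK 1 (l6xClk π) r := by
  rw [ae_restrict_iff' measurableSet_Icc]
  have h : ∀ᵐ r : ℝ, r ≠ scLen π := by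
    rw [ae_iff]; simp
  filter_upwards [h] with r hr hrI
  exact l6x_st_al_pt hπ hi r hrI.1 (lt_of_le_of_ne hrI.2 hr)

/-- **LEAF** a step profile is its own limit, for `E χ²`.
PLAN: the constant sequence `fun _ => π` is `ScApx 1 Q0 (scAlK 1 (l6xClk π))` (`l6x_st_al`: the `L¹` distance is `0`; `sc_x_alK`); `scM2 (scLC 1) π s = scPt (scLC 1) π 0 s (fun z => scD 2 .. z ^ 2) 0`;
`sc_x_D_lim` (`k = 2`: for a constant sequence it gives `scD 2 (scLC 1) π s = scaD 2 ..`) and `sc_x_P_lim` (limit of a constant sequence, `tendsto_nhds_unique`). -/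
theorem l6x_st_gen {π : List (ℝ × ℝ)} (hπ : ScAdm 1 π) (hi : ScInc π) {Q0 : ℝ} (hQ : 0 < Q0) (hl : scLen π = Q0) {s : ℝ} (hs : s ∈ Icc 0 Q0) :
    scM2 (scLC 1) π s = scaM2 (scLC 1) (scAlK 1 (l6xClk π)) Q0 s := by
  have hα : ScCoef 1 Q0 (scAlK 1 (l6xClk π)) := sc_x_alK one_pos _
  have hint : IntervalIntegrable (scAlK 1 (l6xClk π)) volume 0 Q0 := by
    have := hα.1
    rw [← uIcc_of_le hQ.le] at this
    exact this.intervalIntegrable
  have hz : ∫ r in (0 : ℝ)..Q0, |scAl π r - scAlK 1 (l6xClk π) r| = 0 := by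
    rw [intervalIntegral.integral_of_le hQ.le]
    have h := l6x_st_al hπ hi
    rw [hl] at h
    have h' : ∀ᵐ r ∂(volume.restrict (Ioc 0 Q0)), scAl π r = scAlK 1 (l6xClk π) r :=
      ae_restrict_of_ae_restrict_of_subset Ioc_subset_Icc_self h
    rw [integral_eq_zero_of_ae]
    filter_upwards [h'] with r hr
    simp [hr]
  have hap : ScApx 1 Q0 (scAlK 1 (l6xClk π)) (fun _ => π) :=
    ⟨zero_le_one, fun _ => hπ, fun _ => hi, fun _ => hl, hint, by simp only [hz]; exact tendsto_const_nhds⟩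
  have hD : scD 2 (scLC 1) π s = scaD 2 (scLC 1) (scAlK 1 (l6xClk π)) Q0 s := by
    funext z
    have h := sc_x_D_lim one_pos hQ hα hap 2
    refine eq_of_abs_sub_le_all fun ε hε => ?_
    obtain ⟨n, hn⟩ := (h ε hε).exists
    exact hn s hs z
  have hE : ScE 0 (fun z => scD 2 (scLC 1) π s z ^ 2) := (sc_D_E (sc_logcosh_BI 1) 2 0 π s).pow 2
  have hP := sc_x_P_lim one_pos hQ hα hap hE le_rfl hs.1 hs.2 0
  have := tendsto_nhds_unique hP tendsto_const_nhds
  unfold scM2 scaM2 scEx scaEx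
  rw [← hD]
  exact this.symm

/-- **LEAF** (glue) the instance of the scalar stability: `G1 = E χ²` of the base clock `ts`, horizon `Q0`.
PLAN: `C` from `sc_x_stab one_pos hQ 2` (third clause).   Given `π`: `π' = π ++ [(1, Q0 - scLen π)]` is admissible, nondecreasing, of length `Q0`; `l6x_st_pad`, `l6x_st_gen`; `sc_x_alK`;
`∫_0^Q0 |scAlK 1 (l6xClk π') - scAlK 1 ts| = ∫_0^1 |l6xClk π' - ts|` (`gl_det_qt`, Glob/Det, PROVED) and `l6xClk π' u = l6xClk π u` for `u < 1`. -/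
theorem l6x_stab_inst {Q0 : ℝ} (hQ : 0 < Q0) : ∃ C : ℝ, 0 ≤ C ∧ ∀ ts : ℝ → ℝ, MvClk ts → ts 1 ≤ Q0 →
    L6xStab (scaM2 (scLC 1) (scAlK 1 ts) Q0) ts Q0 C := by
  obtain ⟨C, hC⟩ := sc_x_stab one_pos hQ 2
  refine ⟨max C 0, le_max_right _ _, fun ts hts htQ π hπ hi hl s hs => ?_⟩
  set d := Q0 - scLen π with hd
  have hd0 : 0 ≤ d := sub_nonneg.2 hl
  set π' := π ++ [(1, d)] with hπ'
  have hadm : ScAdm 1 π' := by
    intro p hp
    rcases List.mem_append.1 hp with h | h
    · exact hπ p h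
    · rw [List.mem_singleton] at h
      subst h
      exact ⟨zero_le_one, le_rfl, hd0⟩
  have hinc : ScInc π' := by
    refine List.pairwise_append.2 ⟨hi, List.pairwise_singleton _ _, fun p hp q hq => ?_⟩
    rw [List.mem_singleton] at hq
    subst hq
    exact (hπ p hp).2.1
  have hlen : scLen π' = Q0 := by
    rw [hπ', sc_len_append]
    simp only [scLen]
    rw [hd]; ring
  have hsQ : s ∈ Icc 0 Q0 := ⟨hs.1, hs.2.trans hl⟩
  rw [← l6x_st_pad hπ hd0 hs, l6x_st_gen hadm hinc hQ hlen hsQ]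
  have h1 := (hC (scAlK 1 ts) (scAlK 1 (l6xClk π')) (sc_x_alK one_pos _) (sc_x_alK one_pos _) s hsQ).2.2
  have h2 : ∫ r in (0:ℝ)..Q0, |scAlK 1 (l6xClk π') r - scAlK 1 ts r| = ∫ v in (0:ℝ)..1, |l6xClk π' v - ts v| := by
    refine gl_det_qt hQ.le ((l6x_clk_mono hadm.pos).monotoneOn _) (hts.1.mono Ioo_subset_Icc_self)
      (fun v _ => ⟨l6x_clk_nonneg hadm.pos v, hlen ▸ l6x_clk_le hadm.pos v⟩) (fun v hv => ⟨?_, ?_⟩)
    · exact hts.2.trans (hts.1 (by simp) (Ioo_subset_Icc_self hv) hv.1.le)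
    · exact (hts.1 (Ioo_subset_Icc_self hv) (by simp) hv.2.le).trans htQ
  have h3 : ∫ v in (0:ℝ)..1, |l6xClk π' v - ts v| = ∫ v in (0:ℝ)..1, |l6xClk π v - ts v| := by
    rw [intervalIntegral.integral_of_le zero_le_one, intervalIntegral.integral_of_le zero_le_one,
      integral_Ioc_eq_integral_Ioo, integral_Ioc_eq_integral_Ioo]
    refine setIntegral_congr_fun measurableSet_Ioo fun v hv => ?_
    have : l6xClk π' v = l6xClk π v := by
      rw [hπ', l6x_clk_append]
      simp [l6xClk, not_le.2 hv.2]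
    simp only [this]
  rw [h2, h3] at h1
  refine h1.trans (mul_le_mul_of_nonneg_right (le_max_left _ _) ?_)
  exact intervalIntegral.integral_nonneg zero_le_one fun _ _ => abs_nonneg _

/-! ## F. the chains are good -/

/-- **GLUE**: the three junctions give `L6xGood` on all fine chains. -/
theorem l6x_good {n : ℕ} (hn : 0 < n) {b h ts G1 : ℝ → ℝ} (hb : MvClk b) (hh : MvClk h) (hts : MvClk ts) {Q0 C e ρ η : ℝ}
    (hQ : h 1 + b 1 ≤ Q0) (hC : 0 ≤ C) (hst : L6xStab G1 ts Q0 C) (hρ : 0 < ρ) (he1 : e ≤ 1)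
    (hJ1 : ∀ p : GhPos, p.Ok 1 → ∀ s : ℝ, 0 ≤ s → ghAt 1 h p + ghAt 1 b p * skCS n 1 b h p - ρ ≤ s → 2 * e ≤ 1 - ghAt 1 b p * G1 s)
    (hJ2 : ∫ u in (0:ℝ)..1, |h u + b u * skCS n 1 b h (ghPosA u) - ts u| ≤ η) (hη : b 1 * C * η < e)
    {U : Set ℝ} (hU : MeasurableSet U) {θ pfl : ℝ} (hJ3 : L6xConc n b h U θ pfl) :
    ∀ᶠ F : Finset GhPos in atTop, L6xGood n (ckStp 1 b h (ghPs 1 F)) e θ pfl (volume (U ∩ Icc (0:ℝ) 1)).toReal := by
  filter_upwards [l6x_gap hn hb hh hts hQ hC hst hρ he1 hJ1 hJ2 hη, hJ3] with F h1 h3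
  refine ⟨fun t ht => ?_, l6x_tail hU F h3⟩
  rw [l6x_chi2 (l6x_adm hn (l6x_chain_adm hb hh F)) (by rw [l6x_length]; exact ht)]
  exact h1 t ht

/-- **S13 = level 2 of (G1), non-asymptotic.**      GLUE of `l6x_main` and `l6x_good`, in the vocabulary of `macI n`. -/
theorem l6x_var (Kb : ℝ) : ∃ (C : ℝ) (n0 : ℕ), 0 ≤ C ∧ ∀ (n : ℕ) (b h ts G1 : ℝ → ℝ), 1 ≤ n → MvClk b → MvClk h → MvClk ts → h 1 + b 1 ≤ Kb →
    ∀ Cs e ρ η θ pfl : ℝ, 0 ≤ Cs → L6xStab G1 ts Kb Cs → 0 < ρ → 0 < e → e ≤ 1 → 0 ≤ θ → 0 ≤ pfl → C / e ^ n0 * θ ≤ 1 / 2 →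
      (∀ p : GhPos, p.Ok 1 → ∀ s : ℝ, 0 ≤ s → ghAt 1 h p + ghAt 1 b p * skCS n 1 b h p - ρ ≤ s → 2 * e ≤ 1 - ghAt 1 b p * G1 s) →
      (∫ u in (0:ℝ)..1, |h u + b u * skCS n 1 b h (ghPosA u) - ts u| ≤ η) → b 1 * Cs * η < e →
      ∀ U : Set ℝ, MeasurableSet U → L6xConc n b h U θ pfl →
      ∫ u in (0:ℝ)..1, ((macI n).B b h u - (macI n).S b h u ^ 2) ≤ 2 * (C / e ^ n0) * (1 / n + pfl + (volume (U ∩ Icc (0:ℝ) 1)).toReal) := by
  obtain ⟨C, n0, hC0, hC⟩ := l6x_main Kb
  refine ⟨C, n0, hC0, ?_⟩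
  intro n b h ts G1 hn hb hh hts hK Cs e ρ η θ pfl hCs hst hρ he he1 hθ hpfl habs hJ1 hJ2 hη U hU hJ3
  have hn0 : 0 < n := hn
  have key := hC n b h hn hb hh hK e θ pfl _ he he1 hθ hpfl habs
    (l6x_good hn0 hb hh hts hK hCs hst hρ he1 hJ1 hJ2 hη hU hJ3).frequently
  have e1 : ∫ u in (0:ℝ)..1, ((macI n).B b h u - (macI n).S b h u ^ 2)
      = ∫ u in (0:ℝ)..1, (skCB n 1 b h (ghPosA u) - skCS n 1 b h (ghPosA u) ^ 2) := by
    rw [intervalIntegral.integral_of_le zero_le_one, intervalIntegral.integral_of_le zero_le_one,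
      integral_Ioc_eq_integral_Ioo, integral_Ioc_eq_integral_Ioo]
    refine setIntegral_congr_fun measurableSet_Ioo fun u hu => ?_
    have hs := Classical.choose_spec (mac_supply_iface n hn0)
    have hI : macI n = Classical.choose (mac_supply_iface n hn0) := by
      unfold macI
      rw [dif_pos hn0]
    simp only [hI]
    rw [hs.2.1 b h hb hh u hu, hs.2.2 b h hb hh u hu]
  rw [e1]
  exact key

end

end Claimed.Agent.R286
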