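import Claimed.Agent.R286.LL06.Conc
import Claimed.Agent.R286.LL06.VarMin
import Claimed.Agent.R286.LL06.Pot
import Claimed.Agent.R286.L08.SPI

/-!
# Row 286 (S0533), LL Section 6, file LL06/ConcCh : ROUGH CONCENTRATION ON THE CHAINS OF A PATH  (S9 + S10 of the DAG of (G1), part D: the SK instance) and LEVEL 2, non-asymptotic
owner helper200 (LL06); prefix `l6d_`, defs `l6d*`.      Source: LL 06-global.tex l.467-567.      Part of TEX[LL:global:trial-gap].
NON-ASYMPTOTIC: one size `n`, clocks `b, h` on `[0,1]`, an inverse path `al : [0,2] → [0,1]` of the constant box with quantile `r`, `h - e0 r` a clock.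
The abstract single path is `LL06/Conc.lean` (130, PROVED): `l6c_moment`, `l6c_floor`, `l6c_markov`.      Here `P = skSP n 1 (ckStp 1 b h (ghPs 1 F))` (L08/SPI, PROVED), radius grid `dr k = r(v_k) - r(v_{k-1})`.
* `l6d_in`      (GLUE, proved) the analytic inputs `L6cIn` from `l8i_ok`, `l8i_proj`, `l8i_pin`.
* `l6d_grid`    (GLUE, proved) `L6cGrid` eventually in `F`          from the leaves `l6d_mesh`, `l6d_slope`.
* `l6d_samp`    (GLUE, proved) `L6cSamp` eventually in `F`          from the leaf `l6d_levy`.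
* `l6d_main`    (GLUE, proved) `L6cGeo` (261: LL06/Geo) + numerical conditions `⟹` the tails part of `L6xGood` eventually in `F`, floor levels of mass `≤ 2 κ`.
* `l6d_var`     (GLUE, proved) LEVEL 2 of (G1), non-asymptotic: (J1) + (J2) + `L6xStab` + `L6cGeo` + numerical conditions `⟹ ∫ (B - S²) ≤ 2 C e^(-n0) (1/n + pfl + 2 κ)`.      REPLACES `l6x_var` (no fixed set `U`; `L6xConc`, `l6x_tail` are not used any more).
## LEAVES (claim by Lean name, prove IN PLACE): `l6d_at_cont`, `l6d_at_add`, `l6d_ms`, `l6d_dh`, `l6d_osc_idx`, `l6d_mesh`, `l6d_slope`, `l6d_idx_lt`, `l6d_idx_ge`, `l6d_levy`, `l6d_Q`, `l6d_tail`.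
-/

set_option autoImplicit false

namespace Claimed.Agent.R286

open MeasureTheory Set Filter Topology

noncomputable section

/-! ## 0. the radius grid of a step path -/

/-- radius increment of the revelation `k` (= radius length of the cut `k`) of a step path, along the quantile `r` -/
def l6dDr (r : ℝ → ℝ) (P : SkStp) (k : ℕ) : ℝ := r (skMs 1 P k) - if k = 0 then 0 else r (skMs 1 P (k - 1))

theorem l6d_eqns_cite : True := by
  have := @l6dDr.eq_1
  trivial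

/-- the radius of the cut `k + 1` is the radius of the mass of the revelation `k` -/
theorem l6d_R_succ (r : ℝ → ℝ) (P : SkStp) (k : ℕ) : l6cR (l6dDr r P) (k + 1) = r (skMs 1 P k) := by
  induction k with
  | zero => simp [l6cR_succ, l6cR_zero, l6dDr]
  | succ k ih => rw [l6cR_succ, ih]; simp [l6dDr]

/-- masses of an admissible step path -/
theorem l6d_v_mem {n : ℕ} (hn : 1 ≤ n) {P : SkStp} (hP : SkAdm 1 P) (k : ℕ) : skMs 1 P k ∈ Icc (0:ℝ) 1 := by
  have h := l8i_ok n hn 1 one_pos P hP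
  refine ⟨h.v_nonneg k, ?_⟩
  have h1 := h.v_mono (le_max_left k P.length)
  have h2 := h.v_term (max k P.length) (le_max_right _ _)
  exact h1.trans h2.le

theorem l6d_v_mono {n : ℕ} (hn : 1 ≤ n) {P : SkStp} (hP : SkAdm 1 P) : Monotone (skMs 1 P) :=
  (l8i_ok n hn 1 one_pos P hP).v_mono

theorem l6d_v_term (P : SkStp) {k : ℕ} (hk : P.length ≤ k) : skMs 1 P k = 1 := by
  unfold skMs
  rw [List.getD_eq_default]
  simpa using hk

/-! ## A. the analytic inputs -/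

/-- **GLUE**: (A3) of the three orders and (A1) line 3 for all SK step paths; the constants depend on the orders only. -/
theorem l6d_in {q q' : ℕ} (hq : 1 ≤ q) (hq' : 1 ≤ q') : ∃ c1 cR c : ℝ, 0 < c1 ∧ 0 < cR ∧ 0 < c ∧
    ∀ (n : ℕ) (P : SkStp), 1 ≤ n → SkAdm 1 P → ∀ vmin hmin : ℝ, 0 < vmin → 0 < hmin →
      (skSP n 1 P).L6cIn q q' c1 cR c ((1 + (2 * q : ℝ) ^ 2 / 3) ^ q) vmin hmin := by
  obtain ⟨c1, hc1, h1⟩ := l8i_proj 1 le_rfl
  obtain ⟨cR, hcR, hR⟩ := l8i_proj (q' * q) (Nat.mul_pos hq' hq)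
  obtain ⟨c, hc, h⟩ := l8i_proj q hq
  refine ⟨c1, cR, c, hc1, hcR, hc, fun n P hn hP vmin hmin hv hh => ?_⟩
  exact ⟨l8i_ok n hn 1 one_pos P hP, hc1.le, hcR.le, hc.le, by positivity,
    h1 n 1 P hn one_pos (by norm_num) hP vmin hmin hv hh, hR n 1 P hn one_pos (by norm_num) hP vmin hmin hv hh,
    h n 1 P hn one_pos (by norm_num) hP vmin hmin hv hh, l8i_pin n hn 1 one_pos P hP q hq⟩

/-! ## B. the grid -/

/-- the clamped radius is Lipschitz -/
theorem l6d_clamp_lip {κ M : ℝ} {r : ℝ → ℝ} (hκ : 0 < κ) (hM : 0 < M) (R : L6R κ M r) {u v : ℝ} (huv : u ≤ v) :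
    |ghClamp 1 r v - ghClamp 1 r u| ≤ (v - u) / κ := by
  have hmono := gh_os_clamp_mono zero_le_one (R.clk hM)
  rw [abs_of_nonneg (sub_nonneg.2 (hmono huv)), le_div_iff₀ hκ, mul_comm]
  unfold ghClamp
  by_cases hv : v < 0
  · rw [if_pos hv, if_pos (lt_of_le_of_lt huv hv)]
    simp only [sub_self, mul_zero]
    linarith
  · rw [if_neg hv]
    push Not at hv
    by_cases hu : u < 0
    · rw [if_pos hu]
      have := R.hi 0 (min v 1) le_rfl (le_min hv zero_le_one) (min_le_right _ _)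
      rw [R.left] at this
      have h2 : min v 1 ≤ v := min_le_left _ _
      linarith
    · rw [if_neg hu]
      push Not at hu
      have := R.hi (min u 1) (min v 1) (le_min hu zero_le_one) (min_le_min_right _ huv) (min_le_right _ _)
      have h2 : min v 1 - min u 1 ≤ v - u := by
        rcases le_total v 1 with h | h
        · rw [min_eq_left h, min_eq_left (huv.trans h)]
        · rw [min_eq_right h]
          rcases le_total u 1 with h' | h'
          · rw [min_eq_left h']; linarith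
          · rw [min_eq_right h']; linarith
      linarith

theorem l6d_clamp_cont {κ M : ℝ} {r : ℝ → ℝ} (hκ : 0 < κ) (hM : 0 < M) (R : L6R κ M r) : Continuous (ghClamp 1 r) := by
  have hL : LipschitzWith (Real.toNNReal (1 / κ)) (ghClamp 1 r) := by
    refine LipschitzWith.of_dist_le_mul fun x y => ?_
    rw [Real.dist_eq, Real.dist_eq, Real.coe_toNNReal _ (by positivity)]
    rcases le_total x y with h | h
    · rw [abs_sub_comm, abs_sub_comm x y, abs_of_nonneg (sub_nonneg.2 h)]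
      refine (l6d_clamp_lip hκ hM R h).trans (le_of_eq ?_)
      ring
    · rw [abs_of_nonneg (sub_nonneg.2 h)]
      refine (l6d_clamp_lip hκ hM R h).trans (le_of_eq ?_)
      ring
  exact hL.continuous

theorem l6d_clamp_left {κ M : ℝ} {r : ℝ → ℝ} (hκ : 0 < κ) (hM : 0 < M) (R : L6R κ M r) (u : ℝ) :
    Function.leftLim (ghClamp 1 r) u = ghClamp 1 r u :=
  (l6d_clamp_cont hκ hM R).continuousWithinAt.leftLim_eq

theorem l6d_clamp_right {κ M : ℝ} {r : ℝ → ℝ} (hκ : 0 < κ) (hM : 0 < M) (R : L6R κ M r) (u : ℝ) :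
    Function.rightLim (ghClamp 1 r) u = ghClamp 1 r u :=
  (l6d_clamp_cont hκ hM R).continuousWithinAt.rightLim_eq

theorem l6d_clamp_mem (r : ℝ → ℝ) {u : ℝ} (h0 : 0 ≤ u) (h1 : u ≤ 1) : ghClamp 1 r u = r u := by
  unfold ghClamp
  rw [if_neg (not_lt.2 h0), min_eq_left h1]

/-- **LEAF** a continuous clock with `r 0 = 0` is read at the mass of the position.
PLAN: `g = ghClamp 1 r` is continuous on `ℝ` (`= 0` on `u < 0`, `r (min u 1)` on `u ≥ 0`, `r 0 = 0`; `r` is Lipschitz on `[0,1]`: `R.hi`, `R.mono`): `Continuous.if_le` or directly `|g u - g v| ≤ |u - v| / κ`;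
then `leftLim g u = g u = rightLim g u` (`ContinuousAt.leftLim_eq`/`(h.tendsto.mono_left nhdsWithin_le_nhds)` + `leftLim_eq_of_tendsto`), and `ghAt = g p.u + lam * 0`, `g p.u = r p.u` for `0 ≤ p.u ≤ 1`. -/
theorem l6d_at_cont {κ M : ℝ} {r : ℝ → ℝ} (hκ : 0 < κ) (hM : 0 < M) (R : L6R κ M r) {p : GhPos} (hp : p.Ok 1) : ghAt 1 r p = r p.u := by
  unfold ghAt
  rw [l6d_clamp_left hκ hM R, l6d_clamp_right hκ hM R, sub_self, mul_zero, add_zero, l6d_clamp_mem r hp.1 hp.2.1]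

/-- **LEAF** additivity of the reading at a position.
PLAN: `ghClamp 1 h = ghClamp 1 g + e0 • ghClamp 1 r` pointwise (`g = h - e0 r`); left and right limits of monotone functions exist (`Monotone.tendsto_leftLim`, `Monotone.tendsto_rightLim`, `gh_os_clamp_mono`), limits add
(`leftLim_eq_of_tendsto`, `Tendsto.add`, `Tendsto.const_mul`); then `l6d_at_cont` and `ring`. -/
theorem l6d_at_add {κ M e0 : ℝ} {h r : ℝ → ℝ} (hκ : 0 < κ) (hM : 0 < M) (R : L6R κ M r) (_hh : MvClk h) (hs : MvClk fun u => h u - e0 * r u)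
    {p : GhPos} (hp : p.Ok 1) : ghAt 1 h p = ghAt 1 (fun u => h u - e0 * r u) p + e0 * r p.u := by
  have hg := gh_os_clamp_mono zero_le_one (show GhClk1 1 (fun u => h u - e0 * r u) from hs)
  have e : ghClamp 1 h = fun u => ghClamp 1 (fun u => h u - e0 * r u) u + e0 * ghClamp 1 r u := by
    funext u
    unfold ghClamp
    split_ifs <;> ring
  have hc := l6d_clamp_cont hκ hM R
  have hl : Function.leftLim (ghClamp 1 h) p.u = Function.leftLim (ghClamp 1 (fun u => h u - e0 * r u)) p.u + e0 * ghClamp 1 r p.u := by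
    rw [e]
    refine leftLim_eq_of_tendsto ?_
    exact (hg.tendsto_leftLim p.u).add ((hc.tendsto p.u).mono_left nhdsWithin_le_nhds |>.const_mul e0)
  have hr : Function.rightLim (ghClamp 1 h) p.u = Function.rightLim (ghClamp 1 (fun u => h u - e0 * r u)) p.u + e0 * ghClamp 1 r p.u := by
    rw [e]
    refine rightLim_eq_of_tendsto ?_
    exact (hg.tendsto_rightLim p.u).add ((hc.tendsto p.u).mono_left nhdsWithin_le_nhds |>.const_mul e0)
  unfold ghAt
  rw [hl, hr, l6d_clamp_mem r hp.1 hp.2.1]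
  ring

/-- **LEAF** the masses of a chain.      Induction on `ps`, generalising `b0 h0`, cases on `k` (it is the first step of `l6x_gap_eq`). -/
theorem l6d_ms (b h : ℝ → ℝ) (ps : List GhPos) (k : ℕ) : skMs 1 (ckStp 1 b h ps) k = brgMs 1 ps k :=
  l6x_ms_eq b h ps k

theorem l6d_dh_aux (b h : ℝ → ℝ) : ∀ (ps : List GhPos) (b0 h0 : ℝ) (k : ℕ) (hk : k < ps.length),
    ((skCStp 1 b h b0 h0 ps).map SkInc.dh).getD k 0 = ghAt 1 h ps[k] - if h0' : k = 0 then h0 else ghAt 1 h (ps[k - 1]'(by omega)) := by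
  intro ps
  induction ps with
  | nil => intro b0 h0 k hk; simp at hk
  | cons p ps ih =>
    intro b0 h0 k hk
    cases k with
    | zero => simp [skCStp]
    | succ k =>
      have hk' : k < ps.length := by simpa using hk
      simp only [skCStp, List.map_cons, List.getD_cons_succ, ih _ _ k hk', List.getElem_cons_succ]
      cases k with
      | zero => simp
      | succ k => simp

/-- **LEAF** the field increment of the revelation `k` of a chain.      From `l6x_cum_at` (`skCumH (k+1) - skCumH k`, `List.take_succ`) or directly by induction on `ps`, generalising `b0 h0 k`. -/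
theorem l6d_dh (b h : ℝ → ℝ) (ps : List GhPos) {k : ℕ} (hk : k < ps.length) :
    ((ckStp 1 b h ps).map SkInc.dh).getD k 0 = ghAt 1 h ps[k] - if h0 : k = 0 then 0 else ghAt 1 h (ps[k - 1]'(by omega)) :=
  l6d_dh_aux b h ps 0 0 k hk

/-- **LEAF** the oscillation controls every gap of the chain.      Induction on `ps`, generalising `c0`, cases on `k` (`ghOsc`: `le_max_left`, `le_max_right`); at `k = ps.length`: `brgMs = 1`, `leftLim ≤ ghAt (ghPosA 1)` (`gh_os_at_posA`, `Monotone.leftLim_le_rightLim`). -/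
theorem l6d_osc_idx {c : ℝ → ℝ} (hc : GhClk1 1 c) (ps : List GhPos) (c0 : ℝ) {k : ℕ} (hk : k ≤ ps.length) :
    Function.leftLim (ghClamp 1 c) (brgMs 1 ps k) - (if h0 : k = 0 then c0 else ghAt 1 c (ps[k - 1]'(by omega))) ≤ ghOsc 1 c c0 ps := by
  induction ps generalizing c0 k with
  | nil =>
    have : k = 0 := by simpa using hk
    subst this
    simp only [ghOsc, brgMs, gh_os_at_posA]
    have := (gh_os_clamp_mono zero_le_one hc).leftLim_le_rightLim (le_refl (1:ℝ))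
    simpa using this
  | cons p ps ih =>
    cases k with
    | zero =>
      simp only [ghOsc, brgMs]
      exact le_trans (by simp) (le_max_left _ _)
    | succ k =>
      have hk' : k ≤ ps.length := by simpa using hk
      have h := ih (ghAt 1 c p) hk'
      simp only [ghOsc]
      refine le_trans (le_of_eq ?_) (h.trans (le_max_right _ _))
      have e1 : brgMs 1 (p :: ps) (k + 1) = brgMs 1 ps k := by simp [brgMs]
      rw [e1]
      cases k with
      | zero => simp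
      | succ k => simp

theorem l6d_bms_lt (a : ℝ) (ps : List GhPos) {k : ℕ} (hk : k < ps.length) : brgMs a ps k = ps[k].u := by
  unfold brgMs
  rw [List.getElem?_eq_getElem hk]
  rfl

theorem l6d_bms_ge (a : ℝ) (ps : List GhPos) {k : ℕ} (hk : ps.length ≤ k) : brgMs a ps k = a := by
  unfold brgMs
  rw [List.getElem?_eq_none hk]
  rfl

theorem l6d_ps_ok (F : Finset GhPos) {k : ℕ} (hk : k < (ghPs 1 F).length) : (ghPs 1 F)[k].Ok 1 :=
  (gh_os_ps_mem.1 (List.getElem_mem hk)).2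

theorem l6d_bms_mem (F : Finset GhPos) (k : ℕ) : brgMs 1 (ghPs 1 F) k ∈ Icc (0:ℝ) 1 := by
  rcases lt_or_ge k (ghPs 1 F).length with hk | hk
  · rw [l6d_bms_lt 1 _ hk]
    exact ⟨(l6d_ps_ok F hk).1, (l6d_ps_ok F hk).2.1⟩
  · rw [l6d_bms_ge 1 _ hk]
    exact ⟨zero_le_one, le_rfl⟩

/-- **LEAF** the radius mesh of the fine chains.
PLAN: `gh_os_eventually zero_le_one (R.clk hM) hδ` (`MvClk r` is `GhClk1 1 r`), `Filter.eventually_atTop` (`F0 ⊆ F`).   `k > L`: both masses are `1` (`l6d_v_term`), `dr = 0`.   `k ≤ L`: `l6d_ms`, `l6d_osc_idx` at `c0 = 0`;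
`leftLim (ghClamp 1 r) u = r u` for `u ∈ [0,1]` (as in `l6d_at_cont`), `ghAt 1 r ps[k-1] = r ps[k-1].u` (`l6d_at_cont`, `gh_os_ps_mem`), `brgMs 1 ps (k-1) = ps[k-1].u`. -/
theorem l6d_mesh {κ M : ℝ} {r : ℝ → ℝ} (hκ : 0 < κ) (hM : 0 < M) (R : L6R κ M r) (b h : ℝ → ℝ) {δm : ℝ} (hδ : 0 < δm) :
    ∀ᶠ F : Finset GhPos in atTop, ∀ k, l6dDr r (ckStp 1 b h (ghPs 1 F)) k ≤ δm := by
  obtain ⟨F0, hF0⟩ := gh_os_eventually zero_le_one (show GhClk1 1 r from R.clk hM) hδ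
  filter_upwards [eventually_ge_atTop F0] with F hF k
  have ho := hF0 F hF
  unfold l6dDr
  simp only [l6d_ms]
  rcases le_or_gt k (ghPs 1 F).length with hk | hk
  · have h1 := l6d_osc_idx (show GhClk1 1 r from R.clk hM) (ghPs 1 F) 0 hk
    rw [l6d_clamp_left hκ hM R, l6d_clamp_mem r (l6d_bms_mem F k).1 (l6d_bms_mem F k).2] at h1
    refine le_trans (le_of_eq ?_) (h1.trans ho)
    by_cases h0 : k = 0
    · simp [h0]
    · have hk1 : k - 1 < (ghPs 1 F).length := by omega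
      rw [if_neg h0, dif_neg h0, l6d_at_cont hκ hM R (l6d_ps_ok F hk1), l6d_bms_lt 1 _ hk1]
  · rw [if_neg (by omega), l6d_bms_ge 1 _ hk.le, l6d_bms_ge 1 _ (by omega : (ghPs 1 F).length ≤ k - 1)]
    linarith

/-- **LEAF** the field slope on ALL chains.
PLAN: `l6d_dh`, `l6d_ms` (`brgMs 1 ps k = ps[k].u` for `k < L`), `l6d_at_add` at `ps[k]`, `ps[k-1]` (valid: `gh_os_ps_mem`), `gh_os_at_mono` for the clock `h - e0 r` (`ps[k-1] ≤ ps[k]`: `gh_os_ps_pairwise`, `List.pairwise_iff_getElem`); `k = 0`: `gh_os_at_nonneg`. -/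
theorem l6d_slope {κ M e0 : ℝ} {h r : ℝ → ℝ} (hκ : 0 < κ) (hM : 0 < M) (R : L6R κ M r) (hh : MvClk h) (hs : MvClk fun u => h u - e0 * r u)
    (b : ℝ → ℝ) (F : Finset GhPos) {k : ℕ} (hk : k < (ghPs 1 F).length) :
    e0 * l6dDr r (ckStp 1 b h (ghPs 1 F)) k ≤ ((ckStp 1 b h (ghPs 1 F)).map SkInc.dh).getD k 0 := by
  rw [l6d_dh b h _ hk]
  unfold l6dDr
  simp only [l6d_ms]
  rw [l6d_bms_lt 1 _ hk, l6d_at_add hκ hM R hh hs (l6d_ps_ok F hk)]
  by_cases h0 : k = 0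
  · rw [if_pos h0, dif_pos h0]
    have := gh_os_at_nonneg zero_le_one (show GhClk1 1 (fun u => h u - e0 * r u) from hs) (l6d_ps_ok F hk).2.2.1
    linarith
  · have hk1 : k - 1 < (ghPs 1 F).length := by omega
    rw [if_neg h0, dif_neg h0, l6d_bms_lt 1 _ hk1, l6d_at_add hκ hM R hh hs (l6d_ps_ok F hk1)]
    have hle : (ghPs 1 F)[k - 1] ≤ (ghPs 1 F)[k] :=
      List.pairwise_iff_getElem.1 (gh_os_ps_pairwise 1 F) (k - 1) k hk1 hk (by omega)
    have := gh_os_at_mono zero_le_one (show GhClk1 1 (fun u => h u - e0 * r u) from hs) (l6d_ps_ok F hk1).2.2.2 (l6d_ps_ok F hk).2.2.1 hle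
    linarith

/-- the radius increments of an admissible step path: nonnegative, density floor -/
theorem l6d_dr_nn {n : ℕ} (hn : 1 ≤ n) {κ M : ℝ} {r : ℝ → ℝ} (hM : 0 < M) (R : L6R κ M r) {P : SkStp} (hP : SkAdm 1 P) (k : ℕ) : 0 ≤ l6dDr r P k := by
  unfold l6dDr
  split_ifs with h0
  · have := R.mono hM (left_mem_Icc.2 zero_le_one) (l6d_v_mem hn hP k) (l6d_v_mem hn hP k).1
    rw [R.left] at this
    linarith
  · have := R.mono hM (l6d_v_mem hn hP (k - 1)) (l6d_v_mem hn hP k) (l6d_v_mono hn hP (Nat.sub_le k 1))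
    linarith

theorem l6d_dr_floor {n : ℕ} (hn : 1 ≤ n) {κ M : ℝ} {r : ℝ → ℝ} (R : L6R κ M r) {P : SkStp} (hP : SkAdm 1 P) (k : ℕ) : κ * l6dDr r P k ≤ skGap 1 P k := by
  unfold l6dDr skGap
  split_ifs with h0
  · have := R.hi 0 _ le_rfl (l6d_v_mem hn hP k).1 (l6d_v_mem hn hP k).2
    rw [R.left] at this
    linarith
  · exact R.hi _ _ (l6d_v_mem hn hP (k - 1)).1 (l6d_v_mono hn hP (Nat.sub_le k 1)) (l6d_v_mem hn hP k).2

/-- **GLUE**: the radius grid of the fine chains -/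
theorem l6d_grid {n : ℕ} (hn : 1 ≤ n) {κ M e0 : ℝ} {b h r : ℝ → ℝ} (hκ : 0 < κ) (hM : 0 < M) (R : L6R κ M r) (hb : MvClk b) (hh : MvClk h)
    (hs : MvClk fun u => h u - e0 * r u) {δm : ℝ} (hδ : 0 < δm) :
    ∀ᶠ F : Finset GhPos in atTop,
      (skSP n 1 (ckStp 1 b h (ghPs 1 F))).L6cGrid (l6dDr r (ckStp 1 b h (ghPs 1 F))) e0 κ δm := by
  filter_upwards [l6d_mesh hκ hM R b h hδ] with F hF
  have hP := l6x_chain_adm hb hh F
  refine ⟨l6d_dr_nn hn hM R hP, hF, fun k hk => ?_, fun k _ => l6d_dr_floor hn R hP k⟩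
  refine l6d_slope hκ hM R hh hs b F ?_
  have : k < (ckStp 1 b h (ghPs 1 F)).length := hk
  rwa [l6x_chain_length] at this

/-! ## C. the sampled chain against the path -/

/-- **LEAF** positions of mass `> u` come after the cut of `u`.      `brg_idx_posA`: the index is the number of positions of mass `≤ u`; the masses are sorted (`brg_ps_mass_sorted`), so the filter is a prefix: if `l ≤ idx u` then `ps[l-1].u ≤ u`.
(`List.filter` of a sorted list by a downward closed predicate `= takeWhile`; or: the `idx u` positions of mass `≤ u` are the first ones, by contradiction with `List.Pairwise`.) -/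
theorem l6d_idx_lt (F : Finset GhPos) {u : ℝ} {l : ℕ} (hl : l < (ghPs 1 F).length) (hu : u < brgMs 1 (ghPs 1 F) l) :
    ghIdx (ghPs 1 F) ((ghPosA u : GhPos) : WithTop GhPos) ≤ l := by
  rw [brg_idx_posA, l6d_bms_lt 1 _ hl] at *
  have hs := brg_ps_mass_sorted 1 F
  generalize ghPs 1 F = ps at *
  conv_lhs => rw [← List.take_append_drop l ps]
  rw [List.filter_append, List.length_append]
  have h2 : (List.drop l ps).filter (fun p => decide (p.u ≤ u)) = [] := by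
    rw [List.filter_eq_nil_iff]
    intro a ha
    obtain ⟨i, hi, rfl⟩ := List.mem_iff_getElem.1 ha
    rw [List.getElem_drop]
    have hi' : l + i < ps.length := by
      rw [List.length_drop] at hi; omega
    have : ps[l].u ≤ ps[l + i].u := by
      rcases Nat.eq_zero_or_pos i with h0 | h0
      · subst h0; exact le_rfl
      · exact List.pairwise_iff_getElem.1 hs l (l + i) hl hi' (by omega)
    simp only [decide_eq_true_eq, not_le]
    linarith
  rw [h2, List.length_nil, add_zero]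
  exact (List.length_filter_le _ _).trans (by rw [List.length_take]; exact min_le_left _ _)

/-- **LEAF** positions of mass `≤ u` come before the cut of `u`: the first `l + 1` positions have mass `≤ brgMs l ≤ u`, so the filter has at least `l + 1` elements (`List.Sublist.length_le`, `List.take_sublist`, `List.filter_sublist`…). -/
theorem l6d_idx_ge (F : Finset GhPos) {u : ℝ} {l : ℕ} (hl : l < (ghPs 1 F).length) (hu : brgMs 1 (ghPs 1 F) l ≤ u) :
    l + 1 ≤ ghIdx (ghPs 1 F) ((ghPosA u : GhPos) : WithTop GhPos) := by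
  rw [brg_idx_posA, l6d_bms_lt 1 _ hl] at *
  have hs := brg_ps_mass_sorted 1 F
  generalize ghPs 1 F = ps at *
  conv_rhs => rw [← List.take_append_drop (l + 1) ps]
  rw [List.filter_append, List.length_append]
  have h2 : (List.take (l + 1) ps).filter (fun p => decide (p.u ≤ u)) = List.take (l + 1) ps := by
    rw [List.filter_eq_self]
    intro a ha
    obtain ⟨i, hi, rfl⟩ := List.mem_iff_getElem.1 ha
    rw [List.getElem_take]
    have hi' : i < l + 1 := by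
      rw [List.length_take] at hi; omega
    have hi2 : i < ps.length := by omega
    have : ps[i].u ≤ ps[l].u := by
      rcases Nat.lt_or_ge i l with h0 | h0
      · exact List.pairwise_iff_getElem.1 hs i l hi2 hl h0
      · have : i = l := by omega
        subst this; exact le_rfl
    simp only [decide_eq_true_eq]
    linarith
  rw [h2, List.length_take, min_eq_left (by omega)]
  omega

/-- **LEAF** Levy closeness of `S` of the fine chains (as a function of the radius of the cut) to `S` of the path.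
PLAN: `cmk_unif_stat n hn (l6x_ck hb hh)` at `ρ / 2`; `P = P_F`, `R_l = l6cR dr l` (`R_0 = 0`, `R_(j+1) = r (brgMs j)`: `l6d_R_succ`, `l6d_ms`), `al` strictly increasing on `[0,2]` (`B.strictMonoOn`), `al (r u) = u` (`Q.al_r`), `obS` nondecreasing in the level (`fd_S_mono`).
(lo) `s + ρ ≤ R_l`: so `l = j + 1`.  Let `s' = s + ρ/2 ∈ (0,2)`, `u = al s' < al (R_l) = brgMs j`;   if `j < L`: `idx u ≤ j` (`l6d_idx_lt`); if `j = L`: `idx u ≤ L` (`brg_idx_le`).   `St s ≤ St s' = skCS (ghPosA u) ≤ obS (idx u) + ρ/2 ≤ obS l + ρ/2`.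
(hi) `R_l + ρ ≤ s`: `s' = s - ρ/2 ∈ (0,2)`, `u = al s'`; `l = 0`: `obS 0 ≤ obS (idx u)`; `l = j + 1` (`j < L` as `l ≤ L`): `brgMs j = al (R_l) ≤ u`, `l ≤ idx u` (`l6d_idx_ge`).   `obS l ≤ obS (idx u) ≤ skCS (ghPosA u) + ρ/2 = St s' + ρ/2 ≤ St s + ρ/2`. -/
theorem l6d_levy {n : ℕ} (hn : 0 < n) {κ M : ℝ} {b h r al St : ℝ → ℝ} (hκ : 0 < κ) (B : TlBox (fun _ => κ) (fun _ => M) 0 2 0 1 al) (Q : TlQ al 0 2 0 1 r)
    (hb : MvClk b) (hh : MvClk h) (hSt1 : MonotoneOn St (Icc 0 2)) (hSt2 : ∀ s ∈ Ioo (0:ℝ) 2, St s = skCS n 1 b h (ghPosA (al s))) {ρ : ℝ} (hρ : 0 < ρ) :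
    ∀ᶠ F : Finset GhPos in atTop, ∀ l ≤ (ghPs 1 F).length, ∀ s ∈ Icc (0:ℝ) 2,
      (s + ρ ≤ l6cR (l6dDr r (ckStp 1 b h (ghPs 1 F))) l → St s - ρ ≤ obS n 1 (ckStp 1 b h (ghPs 1 F)) 0 l) ∧
      (l6cR (l6dDr r (ckStp 1 b h (ghPs 1 F))) l + ρ ≤ s → obS n 1 (ckStp 1 b h (ghPs 1 F)) 0 l ≤ St s + ρ) := by
  obtain ⟨F0, hF0⟩ := cmk_unif_stat n hn (l6x_ck hb hh) (half_pos hρ)
  have hal := B.strictMonoOn (l6o_ok M hκ)
  have hal01 : ∀ s ∈ Icc (0:ℝ) 2, al s ∈ Icc (0:ℝ) 1 := by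
    intro s hs
    constructor
    · rw [← B.left]; exact hal.monotoneOn (left_mem_Icc.2 (by norm_num)) hs hs.1
    · rw [← B.right]; exact hal.monotoneOn hs (right_mem_Icc.2 (by norm_num)) hs.2
  filter_upwards [eventually_ge_atTop F0] with F hF l hl s hs
  have hP := l6x_chain_adm hb hh F
  have hst : ∀ u ∈ Icc (0:ℝ) 1, |obS n 1 (ckStp 1 b h (ghPs 1 F)) 0 (ghIdx (ghPs 1 F) ((ghPosA u : GhPos) : WithTop GhPos)) - skCS n 1 b h (ghPosA u)| ≤ ρ / 2 :=
    fun u hu => (hF0 F hF u hu).1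
  have hmono : ∀ {j j' : ℕ}, j ≤ j' → obS n 1 (ckStp 1 b h (ghPs 1 F)) 0 j ≤ obS n 1 (ckStp 1 b h (ghPs 1 F)) 0 j' :=
    fun hj => fd_S_mono hn one_pos _ hP 0 hj
  constructor
  · intro h1
    cases l with
    | zero => rw [l6cR_zero] at h1; linarith [hs.1]
    | succ j =>
      rw [l6d_R_succ, l6d_ms] at h1
      have hj : j < (ghPs 1 F).length := hl
      have hm := l6d_bms_mem F j
      have hr := Q.mem _ hm
      have hs' : s + ρ / 2 ∈ Ioo (0:ℝ) 2 := ⟨by linarith [hs.1], by linarith [hr.2]⟩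
      have hu : al (s + ρ / 2) < brgMs 1 (ghPs 1 F) j := by
        have := hal (Ioo_subset_Icc_self hs') hr (by linarith : s + ρ / 2 < r (brgMs 1 (ghPs 1 F) j))
        rwa [Q.al_r _ hm] at this
      have hidx := l6d_idx_lt F hj hu
      have h2 := hSt1 hs (Ioo_subset_Icc_self hs') (by linarith : s ≤ s + ρ / 2)
      rw [hSt2 _ hs'] at h2
      have h3 := abs_le.1 (hst _ (hal01 _ (Ioo_subset_Icc_self hs')))
      have h4 := hmono (hidx.trans (Nat.le_succ j))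
      linarith [h3.1]
  · intro h1
    have hR0 : 0 ≤ l6cR (l6dDr r (ckStp 1 b h (ghPs 1 F))) l := by
      cases l with
      | zero => rw [l6cR_zero]
      | succ j => rw [l6d_R_succ, l6d_ms]; exact (Q.mem _ (l6d_bms_mem F j)).1
    have hs' : s - ρ / 2 ∈ Ioo (0:ℝ) 2 := ⟨by linarith, by linarith [hs.2]⟩
    have hidx : l ≤ ghIdx (ghPs 1 F) ((ghPosA (al (s - ρ / 2)) : GhPos) : WithTop GhPos) := by
      cases l with
      | zero => exact Nat.zero_le _
      | succ j =>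
        rw [l6d_R_succ, l6d_ms] at h1
        have hj : j < (ghPs 1 F).length := hl
        have hm := l6d_bms_mem F j
        have hr := Q.mem _ hm
        have := hal.monotoneOn hr (Ioo_subset_Icc_self hs') (by linarith : r (brgMs 1 (ghPs 1 F) j) ≤ s - ρ / 2)
        rw [Q.al_r _ hm] at this
        exact l6d_idx_ge F hj this
    have h2 := hSt1 (Ioo_subset_Icc_self hs') hs (by linarith : s - ρ / 2 ≤ s)
    rw [hSt2 _ hs'] at h2
    have h3 := abs_le.1 (hst _ (hal01 _ (Ioo_subset_Icc_self hs')))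
    have h4 := hmono hidx
    linarith [h3.2]

/-- **GLUE**: the fine chains sample the path -/
theorem l6d_samp {n : ℕ} (hn : 1 ≤ n) {κ M : ℝ} {b h r al St : ℝ → ℝ} (hκ : 0 < κ) (B : TlBox (fun _ => κ) (fun _ => M) 0 2 0 1 al) (Q : TlQ al 0 2 0 1 r)
    (hb : MvClk b) (hh : MvClk h) (hSt1 : MonotoneOn St (Icc 0 2)) (hSt2 : ∀ s ∈ Ioo (0:ℝ) 2, St s = skCS n 1 b h (ghPosA (al s))) {ρ : ℝ} (hρ : 0 < ρ) :
    ∀ᶠ F : Finset GhPos in atTop,
      (skSP n 1 (ckStp 1 b h (ghPs 1 F))).L6cSamp (l6dDr r (ckStp 1 b h (ghPs 1 F))) St al ρ := by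
  filter_upwards [l6d_levy hn hκ B Q hb hh hSt1 hSt2 hρ] with F hF
  have hP := l6x_chain_adm hb hh F
  have hlen : (skSP n 1 (ckStp 1 b h (ghPs 1 F))).n = (ghPs 1 F).length := l6x_chain_length b h _
  refine ⟨?_, fun k _ => ?_, fun l hl s hs h1 => ?_, fun l hl s hs h1 => ?_⟩
  · rw [l6d_R_succ, l6d_v_term (ckStp 1 b h (ghPs 1 F)) (k := (skSP n 1 (ckStp 1 b h (ghPs 1 F))).n) le_rfl]
    exact Q.right B (l6o_ok M hκ)
  · rw [l6d_R_succ]
    exact (Q.al_r _ (l6d_v_mem hn hP k)).symm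
  · rw [l8i_S n 1 one_pos _ hP l hl]
    exact (hF l (hlen ▸ hl) s hs).1 h1
  · rw [l8i_S n 1 one_pos _ hP l hl]
    exact (hF l (hlen ▸ hl) s hs).2 h1

/-! ## D. the tails -/

/-- **LEAF** the overlap.      `skY σ i = skSp σ i / √n`, `√n * √n = n` (`Real.mul_self_sqrt`), `Finset.sum_div`. -/
theorem l6d_Q (n : ℕ) (P : SkStp) (p : SkOm n × SkOm n) : (skSP n 1 P).Q p = skOv p.1.2 p.2.2 := by
  show ∑ i, skY p.1.2 i * skY p.2.2 i = _
  unfold skOv skY
  rw [Finset.sum_div]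
  refine Finset.sum_congr rfl fun i _ => ?_
  rw [div_mul_div_comm, Real.mul_self_sqrt (Nat.cast_nonneg n)]

/-- **LEAF** the tail of S12 is the tail under the fork law.
PLAN: `unfold l6vTail l6vS`, `l6x_mat`; `l8i_fork n 1 one_pos P hP t ht T` at `T ξ σ = if θ < |skOv (σ 0) (σ 1) - obS n 1 P 0 t| then 1 else 0` (`c = 1`), read from right to left; `skSp2 p 0 = p.1.2`, `skSp2 p 1 = p.2.2` (`simp [skSp2]`), `l6d_Q`, `l8i_S`;
measurability: the integrand is a function of `(p.1.2, p.2.2)`, a finite discrete space (`measurable_from_top`/`Measurable.of_discrete` composed with `measurable_snd.comp measurable_fst`, ..); the two `Decidable` instances: `congr`/`split_ifs`. -/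
theorem l6d_tail {n : ℕ} (_hn : 1 ≤ n) {P : SkStp} (hP : SkAdm 1 P) (θ : ℝ) {t : ℕ} (ht : t ≤ P.length) :
    l6vTail n (l6xStp n P) θ t
      = ∫ p, (if θ < |(skSP n 1 P).Q p - (skSP n 1 P).S t| then (1 : ℝ) else 0) ∂((skSP n 1 P).fork t) := by
  classical
  generalize hs : obS n 1 P 0 t = s
  have a0 : ∀ p : SkOm n × SkOm n, skSp2 p 0 = p.1.2 := fun p => by simp [skSp2]
  have a1 : ∀ p : SkOm n × SkOm n, skSp2 p 1 = p.2.2 := fun p => by simp [skSp2]
  obtain ⟨g, hg⟩ : ∃ g : SkCfg n × SkCfg n → ℝ, g = fun q => if θ < |skOv q.1 q.2 - s| then (1:ℝ) else 0 := ⟨_, rfl⟩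
  have hg1 : ∀ q, |g q| ≤ 1 := fun q => by rw [hg]; dsimp only; split_ifs <;> simp
  have hm : Measurable fun p : SkOm n × SkOm n =>
      (fun (_ : ℕ → Fin 2 → SkDr n → ℝ) (σ : Fin 2 → SkCfg n) => g (σ 0, σ 1)) (skDr2 p) (skSp2 p) := by
    simp only [a0, a1]
    have h1 : Measurable g := Measurable.of_discrete
    have h2 : Measurable fun p : SkOm n × SkOm n => (p.1.2, p.2.2) :=
      (measurable_snd.comp measurable_fst).prodMk (measurable_snd.comp measurable_snd)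
    exact h1.comp h2
  have h := l8i_fork n 1 one_pos P hP t ht (fun (_ : ℕ → Fin 2 → SkDr n → ℝ) (σ : Fin 2 → SkCfg n) => g (σ 0, σ 1)) hm 1
    (fun ξ σ => hg1 _)
  have e1 : l6vTail n (l6xStp n P) θ t = (obT2 t).nu (skBase n 1) (skLvs n P) 0
      (fun (_ : ℕ → Fin 2 → SkDr n → ℝ) (σ : Fin 2 → SkCfg n) => g (σ 0, σ 1)) := by
    unfold l6vTail l6vS
    rw [l6x_mat, hs, hg]
  rw [e1, ← h]
  refine integral_congr_ae (Eventually.of_forall fun p => ?_)
  simp only [l6d_Q, l8i_S n 1 one_pos P hP t ht, a0, a1, hs, hg]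

/-! ## E. the main glue -/

open Classical in
/-- **S9 + S10 on the chains, GLUE.**      `q` = half of the moment order, `q'` = the order of the truncation in (G4), `bb` = number of doubling blocks; `c1, cR, c` depend on `q, q'` only.
USER: `ll06_var` (LL06/VarTop) with `δ = x^ag`, `hh = δ²`, `vmin = c δ`, `ε = hh`, `l0 = 2^(1-bb) ≈ x^5`, `τ = x^(-small)`, `θ = x^(ag/4)`, `q ≥ 5/ag`. -/
theorem l6d_main {q q' : ℕ} (hq : 1 ≤ q) (hq' : 1 ≤ q') : ∃ c1 cR c : ℝ, 0 < c1 ∧ 0 < cR ∧ 0 < c ∧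
    ∀ (n : ℕ) (b h r al St : ℝ → ℝ) (NF : Set ℝ) (κ M e0 δ hh ηL vmin C1 l0 τ ε ρ θ : ℝ) (bb : ℕ), 1 ≤ n → MvClk b → MvClk h → 0 < κ → 0 < M →
      TlBox (fun _ => κ) (fun _ => M) 0 2 0 1 al → TlQ al 0 2 0 1 r → 0 < e0 → MvClk (fun u => h u - e0 * r u) →
      MonotoneOn St (Icc 0 2) → (∀ s ∈ Ioo (0:ℝ) 2, St s = skCS n 1 b h (ghPosA (al s))) →
      L6cGeo NF St al κ δ hh ηL vmin C1 →
      0 < vmin → 0 < l0 → 0 < τ → 0 < hh → 0 ≤ ηL → 0 ≤ ε → l0 ≤ hh → 0 < ρ → ρ ≤ hh → 4 * hh ≤ δ → 2 ≤ bb →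
      5 / 4 + 4 * hh + l0 * 2 ^ (bb - 2) ≤ 2 → 2 * hh ≤ 3 * (l0 * 2 ^ (bb - 2)) →
      (1 + (2 * q : ℝ) ^ 2 / 3) ^ q / (hh ^ 2 * κ) ^ q * l6cW q q' bb 1 c1 cR vmin n e0 l0 τ (2 * hh) ≤ ε ^ (2 * q) → 0 < θ →
      ∀ᶠ F : Finset GhPos in atTop, ∃ Fl : Finset ℕ, (∀ t ∈ Fl, t ≤ (ckStp 1 b h (ghPs 1 F)).length) ∧
        ∑ t ∈ Fl, skGap 1 (ckStp 1 b h (ghPs 1 F)) t ≤ 2 * κ ∧
        ∀ t ≤ (ckStp 1 b h (ghPs 1 F)).length, t ∉ Fl →
          l6vTail n (l6xStp n (ckStp 1 b h (ghPs 1 F))) θ t ≤ l6cB q c vmin n e0 hh (ηL + ρ) ε (C1 * δ) / θ ^ (2 * q) := by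
  obtain ⟨c1, cR, c, h1, hR, hc, hin⟩ := l6d_in hq hq'
  refine ⟨c1, cR, c, h1, hR, hc, ?_⟩
  intro n b h r al St NF κ M e0 δ hh ηL vmin C1 l0 τ ε ρ θ bb hn hb hhc hκ hM B Q he0 hs hSt1 hSt2 Y hvmin hl0 hτ hhh hηL hε hlh hρ hρh h4 hbb
    hroom hI3 hε2 hθ
  have R := l6o_R_of_box hκ B Q
  filter_upwards [l6d_grid hn hκ hM R hb hhc hs (half_pos hl0), l6d_samp hn hκ B Q hb hhc hSt1 hSt2 hρ] with F G X
  have hP := l6x_chain_adm hb hhc F
  have A := hin n _ hn hP vmin (e0 * l0) hvmin (mul_pos he0 hl0)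
  refine ⟨(Finset.range ((ckStp 1 b h (ghPs 1 F)).length + 1)).filter (fun k => ¬ ∃ s0 ∈ NF,
    l6cR (l6dDr r (ckStp 1 b h (ghPs 1 F))) k ≤ s0 ∧ s0 ≤ l6cR (l6dDr r (ckStp 1 b h (ghPs 1 F))) k + l6dDr r (ckStp 1 b h (ghPs 1 F)) k), ?_, ?_, ?_⟩
  · intro t ht
    have := Finset.mem_range.1 (Finset.mem_filter.1 ht).1
    omega
  · exact L8P.l6c_floor hκ.le G X Y
  · intro t ht htF
    have hnf : ∃ s0 ∈ NF, l6cR (l6dDr r (ckStp 1 b h (ghPs 1 F))) t ≤ s0 ∧
        s0 ≤ l6cR (l6dDr r (ckStp 1 b h (ghPs 1 F))) t + l6dDr r (ckStp 1 b h (ghPs 1 F)) t := by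
      by_contra hcon
      exact htF (Finset.mem_filter.2 ⟨Finset.mem_range.2 (by omega), hcon⟩)
    rw [l6d_tail hn hP θ ht]
    exact L8P.l6c_markov A.ok t q hθ (L8P.l6c_moment hn hq hq' hbb hvmin he0 hκ hl0 hτ hhh hηL hε A G X Y (by linarith) hlh (by linarith)
      hρ.le hρh h4 hroom hI3 hε2 hnf)

/-- **GLUE**: (J1) + (J2) + stability + tails `⟹` the fine chains are good -/
theorem l6d_good {n : ℕ} (hn : 0 < n) {b h ts G1 : ℝ → ℝ} (hb : MvClk b) (hh : MvClk h) (hts : MvClk ts) {Q0 C e ρ η : ℝ}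
    (hQ : h 1 + b 1 ≤ Q0) (hC : 0 ≤ C) (hst : L6xStab G1 ts Q0 C) (hρ : 0 < ρ) (he1 : e ≤ 1)
    (hJ1 : ∀ p : GhPos, p.Ok 1 → ∀ s : ℝ, 0 ≤ s → ghAt 1 h p + ghAt 1 b p * skCS n 1 b h p - ρ ≤ s → 2 * e ≤ 1 - ghAt 1 b p * G1 s)
    (hJ2 : ∫ u in (0:ℝ)..1, |h u + b u * skCS n 1 b h (ghPosA u) - ts u| ≤ η) (hη : b 1 * C * η < e) {θ pfl μ : ℝ}
    (hJ3 : ∀ᶠ F : Finset GhPos in atTop, ∃ Fl : Finset ℕ, (∀ t ∈ Fl, t ≤ (ckStp 1 b h (ghPs 1 F)).length) ∧
        ∑ t ∈ Fl, skGap 1 (ckStp 1 b h (ghPs 1 F)) t ≤ μ ∧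
        ∀ t ≤ (ckStp 1 b h (ghPs 1 F)).length, t ∉ Fl → l6vTail n (l6xStp n (ckStp 1 b h (ghPs 1 F))) θ t ≤ pfl) :
    ∀ᶠ F : Finset GhPos in atTop, L6xGood n (ckStp 1 b h (ghPs 1 F)) e θ pfl μ := by
  filter_upwards [l6x_gap hn hb hh hts hQ hC hst hρ he1 hJ1 hJ2 hη, hJ3] with F h1 h3
  refine ⟨fun t ht => ?_, h3⟩
  rw [l6x_chi2 (l6x_adm hn (l6x_chain_adm hb hh F)) (by rw [l6x_length]; exact ht)]
  exact h1 t ht

/-- the integrated variance in the vocabulary of `macI n` -/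
theorem l6d_mac {n : ℕ} (hn : 0 < n) {b h : ℝ → ℝ} (hb : MvClk b) (hh : MvClk h) :
    ∫ u in (0:ℝ)..1, ((macI n).B b h u - (macI n).S b h u ^ 2)
      = ∫ u in (0:ℝ)..1, (skCB n 1 b h (ghPosA u) - skCS n 1 b h (ghPosA u) ^ 2) := by
  rw [intervalIntegral.integral_of_le zero_le_one, intervalIntegral.integral_of_le zero_le_one,
    integral_Ioc_eq_integral_Ioo, integral_Ioc_eq_integral_Ioo]
  refine setIntegral_congr_fun measurableSet_Ioo fun u hu => ?_
  have hs := Classical.choose_spec (mac_supply_iface n hn)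
  have hI : macI n = Classical.choose (mac_supply_iface n hn) := by
    unfold macI
    rw [dif_pos hn]
  simp only [hI]
  rw [hs.2.1 b h hb hh u hu, hs.2.2 b h hb hh u hu]

/-- `S` of the interface at the masses of the open interval -/
theorem l6d_mac_S {n : ℕ} (hn : 0 < n) {b h : ℝ → ℝ} (hb : MvClk b) (hh : MvClk h) {u : ℝ} (hu : u ∈ Ioo (0:ℝ) 1) :
    (macI n).S b h u = skCS n 1 b h (ghPosA u) := by
  have hs := Classical.choose_spec (mac_supply_iface n hn)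
  have hI : macI n = Classical.choose (mac_supply_iface n hn) := by
    unfold macI
    rw [dif_pos hn]
  simp only [hI]
  exact hs.2.1 b h hb hh u hu

/-- **S13 = level 2 of (G1), non-asymptotic, final form.**      GLUE of `l6x_main` and `l6d_good`. -/
theorem l6d_var (Kb : ℝ) : ∃ (C : ℝ) (n0 : ℕ), 0 ≤ C ∧ ∀ (n : ℕ) (b h ts G1 : ℝ → ℝ), 1 ≤ n → MvClk b → MvClk h → MvClk ts → h 1 + b 1 ≤ Kb →
    ∀ Cs e ρ η θ pfl μ : ℝ, 0 ≤ Cs → L6xStab G1 ts Kb Cs → 0 < ρ → 0 < e → e ≤ 1 → 0 ≤ θ → 0 ≤ pfl → C / e ^ n0 * θ ≤ 1 / 2 →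
      (∀ p : GhPos, p.Ok 1 → ∀ s : ℝ, 0 ≤ s → ghAt 1 h p + ghAt 1 b p * skCS n 1 b h p - ρ ≤ s → 2 * e ≤ 1 - ghAt 1 b p * G1 s) →
      (∫ u in (0:ℝ)..1, |h u + b u * skCS n 1 b h (ghPosA u) - ts u| ≤ η) → b 1 * Cs * η < e →
      (∀ᶠ F : Finset GhPos in atTop, ∃ Fl : Finset ℕ, (∀ t ∈ Fl, t ≤ (ckStp 1 b h (ghPs 1 F)).length) ∧
        ∑ t ∈ Fl, skGap 1 (ckStp 1 b h (ghPs 1 F)) t ≤ μ ∧
        ∀ t ≤ (ckStp 1 b h (ghPs 1 F)).length, t ∉ Fl → l6vTail n (l6xStp n (ckStp 1 b h (ghPs 1 F))) θ t ≤ pfl) →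
      ∫ u in (0:ℝ)..1, ((macI n).B b h u - (macI n).S b h u ^ 2) ≤ 2 * (C / e ^ n0) * (1 / n + pfl + μ) := by
  obtain ⟨C, n0, hC0, hC⟩ := l6x_main Kb
  refine ⟨C, n0, hC0, ?_⟩
  intro n b h ts G1 hn hb hh hts hK Cs e ρ η θ pfl μ hCs hst hρ he he1 hθ hpfl habs hJ1 hJ2 hη hJ3
  rw [l6d_mac hn hb hh]
  exact hC n b h hn hb hh hK e θ pfl μ he he1 hθ hpfl habs (l6d_good hn hb hh hts hK hCs hst hρ he1 hJ1 hJ2 hη hJ3).frequently

end

end Claimed.Agent.R286
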