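import Claimed.Agent.R286.LL06.G3Exit
import Claimed.Agent.R286.LL06.ConcCh

/-!
# Row 286 (S0533), unit LL06 = LL Sec. 6, file LL06/Top : THE GLUE OF (G1)      (head helper291; prefix `ll06_`, `Ll06`)
Source: LL 06-global.tex, whole section.      Part of TEX[LL:global:trial-gap].      The exit itself: `Exit/G1.lean` (`exit_g1`).

## DAG (`[..]` = owner)
```
exit_g1  ⟸ ll06_g1 ⟸  Ll06Nrm           ⟸ exit_l06_nrm (`Exit/L06Nrm.lean`)                [53, proved]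
                       Ll06S1Exit        ⟸ ll06_s1_exit (`LL06/S1Exit.lean`)                [53, proved from exit_prop, exit_p6_min, l6s_s1]
                       Ll06G2Exit        ⟸ l6j_g2 (`LL06/Junc.lean`, llBase)                [58; needs the field (PROF) of `LlSec3`: 253]
                       Ll06VarExit       ⟸ ll06_var ⟸ Ll06G3Exit   ⟸ ll06_g3 (261, proved)
                                                       Ll06GapExit  ⟸ ll06_gap (292, `LL06/Gap.lean`, proved) ⟸ Ll06GapB (253: FIELD of `LlSec3`)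
                                                       Ll06StabExit ⟸ ll06_inst_stab (llBase)  [229: `l6x_stab_inst` (225, proved); link `Gam1N = scaM2`: `llMod_id`, (PROF)]
                                                       Ll06ConcExit ⟸ ll06_conc (`LL06/ConcTop.lean`) [130; `l6d_main` 200, `ll06_geo` 261]
                                                       l6d_var (200, glue proved) ⟸ l6v_absorb (S12, 156)
  point level: ll06_nrm_pt (54, proved), ll06_der_le, ll06_g1_arith, ll06_var_pt, ll06_ar_* (proved)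
```
-/

set_option autoImplicit false

namespace Claimed.Agent.R286

open MeasureTheory Set Filter Topology

noncomputable section

/-! ## 0. junctions of level 2 which are not in the Contract -/

/-- (J2b) scalar `L¹` stability of `E χ²` at common time around the normalised reference clock, response `Γ̂'` of the base -/
def Ll06Stab (𝔹 : LlBase) (F : LlFix) (Q0 Cs : ℝ) : Prop :=
  LlUnif F fun p => p.sm = false → p.tN F 𝔹 1 ≤ Q0 → L6xStab (p.Gam1N F 𝔹) (p.tN F 𝔹) Q0 Cs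

/-- **(STAB)**: every horizon `Q0` (above the top of the reference clock); the constant BEFORE the exponents.      OWNER: 200 (`l6x_stab_inst`) + link `Γ̂' = scaM2 (scLC 1) (scAlK 1 t) Q0` on `[0,Q0]` (183 / 272: `llMod_id`, `Ll06Prof`). -/
def Ll06StabExit (𝔹 : LlBase) (F0 : LlFix) : Prop :=
  ∀ Q0 : ℝ, 0 < Q0 → ∃ Cs : ℝ, 0 ≤ Cs ∧ ∀ sS eta pS : ℝ, LlExpOk sS eta pS → Ll06Stab 𝔹 (F0.wExp sS eta pS) Q0 Cs

/-- (J3) rough concentration at the nonfloor splits of the changed path of a minimiser, INDEX form (200, 130): on all fine chains, off a set `Fl` of levels of total mass `≤ x^(4+3/16)` (floor: `≤ 2 κ`), `ν[|Q - S| > x^th] ≤ x^5`.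
= the last hypothesis of `l6d_var` (`LL06/ConcCh.lean`) -/
def Ll06Conc (𝔹 : LlBase) (F : LlFix) (dg th : ℝ) : Prop :=
  Ll06UM 𝔹 F dg fun p m θ r => ∀ᶠ Fs : Finset GhPos in atTop, ∃ Fl : Finset ℕ,
    (∀ t ∈ Fl, t ≤ (ckStp 1 (p.bG F 𝔹 dg θ) (p.hG F 𝔹 dg θ r) (ghPs 1 Fs)).length) ∧
    ∑ t ∈ Fl, skGap 1 (ckStp 1 (p.bG F 𝔹 dg θ) (p.hG F 𝔹 dg θ r) (ghPs 1 Fs)) t ≤ p.x ^ (4 + 3 / 16 : ℝ) ∧
    ∀ t ≤ (ckStp 1 (p.bG F 𝔹 dg θ) (p.hG F 𝔹 dg θ r) (ghPs 1 Fs)).length, t ∉ Fl →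
      l6vTail m (l6xStp m (ckStp 1 (p.bG F 𝔹 dg θ) (p.hG F 𝔹 dg θ r) (ghPs 1 Fs))) (p.x ^ th) t ≤ p.x ^ (5 : ℝ)

/-- **(CONC)** (06 l.318-552, 567-616): the exponent `th` of the window BEFORE `dg`.      OWNER: 130 (`LL06/Conc`), 261 (`LL06/Geo`), 200 (`LL06/Fine`). -/
def Ll06ConcExit (𝔹 : LlBase) (F0 : LlFix) : Prop :=
  ∃ th d1 s0 : ℝ, 0 < th ∧ 0 < d1 ∧ s0 < 1 / 2 ∧ ∀ dg : ℝ, 0 < dg → dg ≤ d1 → ∀ sS eta pS : ℝ, LlExpOk sS eta pS → s0 ≤ sS →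
    Ll06Conc 𝔹 (F0.wExp sS eta pS) dg th

theorem ll06_top_eqns_cite : True := by
  have := @Ll06Stab.eq_1
  have := @Ll06StabExit.eq_1
  have := @Ll06Conc.eq_1
  have := @Ll06ConcExit.eq_1
  trivial

/-! ## 1. level 1: the glue of (G1) -/

/-- two functions which agree on `(0,1)` have the same integral over `[0,1]` -/
theorem ll06_int_congr {f g : ℝ → ℝ} (h : ∀ u ∈ Ioo (0:ℝ) 1, f u = g u) : ∫ u in (0:ℝ)..1, f u = ∫ u in (0:ℝ)..1, g u := by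
  rw [intervalIntegral.integral_of_le zero_le_one, intervalIntegral.integral_of_le zero_le_one, integral_Ioc_eq_integral_Ioo,
    integral_Ioc_eq_integral_Ioo]
  exact setIntegral_congr_fun measurableSet_Ioo h

/-- the one-site pressure reads its clock on the open interval -/
theorem ll06_spin_congr {K K' : ℝ → ℝ} (hK : MvClk K) (hK' : MvClk K') (h : ∀ u ∈ Ioo (0:ℝ) 1, K u = K' u) : macSpin K = macSpin K' := by
  have h0 : MvClk (fun _ : ℝ => (0:ℝ)) := MvClk.const le_rfl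
  have key := (macI 1).lip (fun _ => 0) K (fun _ => 0) K' h0 hK h0 hK'
  rw [macI_spin 1 K hK, macI_spin 1 K' hK'] at key
  have e1 : ∫ u in (0:ℝ)..1, |K u - K' u| = ∫ u in (0:ℝ)..1, (0:ℝ) := ll06_int_congr fun u hu => by rw [h u hu, sub_self, abs_zero]
  rw [e1] at key
  simp only [sub_self, abs_zero, intervalIntegral.integral_const, smul_eq_mul, mul_zero, add_zero] at key
  exact sub_eq_zero.1 (abs_nonpos_iff.1 key)

theorem l6Nr_zero (a : ℝ) : l6Nr a 0 = fun _ => 0 := by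
  funext u
  have : l6Nr a 0 u ∈ Icc (0:ℝ) 0 := by
    unfold l6Nr
    exact l6Cl_mem (fun u _ => by simp) u
  exact le_antisymm this.2 this.1

/-- **(NRM at a point)** (06 l.31-33), PROVED (helper54): `ℓ (F_* - f_m(b,h_*)) = G(q) - f_m^{(1)}(b^N, h^N)`.
PLAN. At a direct point with `LlAdm` (`IsClock p.a` of `b, h_*, K`: monotone, bounded on `Icc`), `1 ≤ a = ℓ`, `1 ≤ m` (`p.N ≤ 2 m`, `2 ≤ N`):
`a f_m(b,h_*) = skCPr m 1 bN hN = (macI m).f bN hN` (`hN`, `macI_f`, clocks from `ll06_ok`);   `a f_spin(K) = a pres 1 a 0 K = skCPr 1 1 (l6Nr a 0) tN`, `l6Nr a 0 = fun _ => 0` (`l6Cl` of a constant), so `= macSpin tN`;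
`macSpin tN = macSpin (hN + bN qN)`: the two clocks agree on `Ioo 0 1` (`K = h_* + b q`, `l6Nr_of_mem`, `l6Cl_of_mem`), hence `(macI 1).lip` with zero `L¹` distance (`macI_spin`);
`a ∫_0^a b q² = ∫_0^1 bN qN²`: `intervalIntegral.integral_comp_mul_left`-type substitution `v = a u`, integrands agree on `Ioo 0 1`. -/
theorem ll06_nrm_pt {𝔹 : LlBase} {F : LlFix} (hN : Ll06Nrm 𝔹) (h3 : LlSec3 𝔹 F) :
    Ll06U F fun p m => p.a * (p.Fst F 𝔹 - p.f00 F 𝔹 m)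
      = mvG macSpin (p.bN F 𝔹) (p.hN F 𝔹) (p.qN F 𝔹) - (macI m).f (p.bN F 𝔹) (p.hN F 𝔹) := by
  obtain ⟨c, C, hc, hadm⟩ := h3.adm
  obtain ⟨c1, C1, hc1, hok⟩ := ll06_ok h3
  refine (hadm.and (hok 1 one_pos)).mono fun p hp h hsm m hm1 _ => ?_
  obtain ⟨⟨mb, -, mhS, mK, -, hbd, -, -⟩, hpt⟩ := h
  have hpt := hpt hsm
  have ha : p.a = p.ell := by simp [LlPt.a, hsm]
  have hell : 1 ≤ p.a := by rw [ha]; exact hp.ell1
  have ha0 : 0 < p.a := by linarith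
  have hm : 1 ≤ m := by have := hp.N2; omega
  have sub : Ioo 0 p.a ⊆ Icc 0 p.a := Ioo_subset_Icc_self
  have aIcc : p.a ∈ Icc 0 p.a := ⟨ha0.le, le_rfl⟩
  have cb : IsClock p.a (p.b F 𝔹) := ⟨mb.mono sub, fun v hv => hc.le.trans (hbd v (sub hv)).1, ⟨C, fun v hv => (hbd v (sub hv)).2.1⟩⟩
  have ch : IsClock p.a (p.hS F 𝔹) := ⟨mhS.mono sub, fun v hv => (hbd v (sub hv)).2.2.2.1, ⟨_, fun v hv => mhS (sub hv) aIcc hv.2.le⟩⟩
  have cK : IsClock p.a (p.K F 𝔹) := ⟨mK.mono sub, fun v hv => (hbd v (sub hv)).2.2.2.2, ⟨_, fun v hv => mK (sub hv) aIcc hv.2.le⟩⟩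
  have c0 : IsClock p.a (0 : ℝ → ℝ) := ⟨fun _ _ _ _ _ => le_rfl, fun _ _ => le_rfl, ⟨0, fun _ _ => le_rfl⟩⟩
  have hmem : ∀ u ∈ Ioo (0:ℝ) 1, p.a * u ∈ Ioo 0 p.a := fun u hu =>
    ⟨mul_pos ha0 hu.1, by have := mul_lt_mul_of_pos_left hu.2 ha0; linarith⟩
  -- the pressure
  have e1 : p.a * p.f00 F 𝔹 m = (macI m).f (p.bN F 𝔹) (p.hN F 𝔹) := by
    rw [macI_f hm hpt.ok.hb hpt.ok.hh]
    exact hN m p.a _ _ hm hell cb ch
  -- the one-site pressure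
  have e2 : p.a * 𝔹.fspin p.a (p.K F 𝔹) = macSpin (fun u => p.hN F 𝔹 u + p.bN F 𝔹 u * p.qN F 𝔹 u) := by
    have h1 : p.a * 𝔹.fspin p.a (p.K F 𝔹) = macSpin (p.tN F 𝔹) := by
      have := hN 1 p.a 0 (p.K F 𝔹) le_rfl hell c0 cK
      rw [l6Nr_zero] at this
      exact this
    rw [h1]
    refine ll06_spin_congr hpt.t_clk (hpt.ok.hh.add (hpt.ok.hb.mul hpt.ok.hq.1)) fun u hu => ?_
    simp only [LlPt.tN, LlPt.hN, LlPt.bN, LlPt.qN]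
    rw [l6Nr_of_mem _ _ hu, l6Nr_of_mem _ _ hu, l6Nr_of_mem _ _ hu, l6Cl_of_mem _ hu]
    simp only [LlPt.hS]
    ring
  -- the penalty
  have e3 : p.a * ∫ v in (0 : ℝ)..p.a, p.b F 𝔹 v * p.q F 𝔹 v ^ 2 = ∫ u in (0:ℝ)..1, p.bN F 𝔹 u * p.qN F 𝔹 u ^ 2 := by
    have h1 : ∫ u in (0:ℝ)..1, p.bN F 𝔹 u * p.qN F 𝔹 u ^ 2
        = ∫ u in (0:ℝ)..1, p.a ^ 2 * (fun v => p.b F 𝔹 v * p.q F 𝔹 v ^ 2) (p.a * u) := ll06_int_congr fun u hu => by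
      simp only [LlPt.bN, LlPt.qN]
      rw [l6Nr_of_mem _ _ hu, l6Cl_of_mem _ hu]
      ring
    have h2 := intervalIntegral.integral_comp_mul_left (a := (0:ℝ)) (b := 1) (fun v => p.b F 𝔹 v * p.q F 𝔹 v ^ 2) ha0.ne'
    rw [h1, intervalIntegral.integral_const_mul, h2, mul_zero, mul_one, smul_eq_mul]
    field_simp
  simp only [LlPt.Fst, mvG]
  rw [← e1, ← e2, ← e3]
  ring

/-- **LEAF** the envelope derivative is at most `¼ b(1) (∫ D² + ∫ (S - r)²)`.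
PLAN: `0 ≤ b u - e0 ≤ b 1` (`l6p_b_sub`), the bracket is `≥ 0` a.e. (`I.dnn`, `sq_nonneg`); `intervalIntegral.integral_mono_ae`-type with `MvBM` integrability (`l6pB_clk`, `l6pH_clk`, `I.S_mono`, `I.B_mono`: as in `l6p_der_nonneg`), then `integral_const_mul`, `integral_add`. -/
theorem ll06_der_le {m : ℕ} (I : MvIface m) {b hs q : ℝ → ℝ} {e0 κ M : ℝ} (H : L6pOk b hs q e0 κ M) {θ : ℝ} (hθ : θ ∈ Icc (0:ℝ) 1)
    {r : ℝ → ℝ} (hr : MvClk r) :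
    l6pDer I b hs e0 θ r ≤ 1 / 4 * b 1 *
      ((∫ u in (0:ℝ)..1, (I.B (l6pB b e0 θ) (l6pH b hs e0 θ r) u - I.S (l6pB b e0 θ) (l6pH b hs e0 θ r) u ^ 2))
        + ∫ u in (0:ℝ)..1, (I.S (l6pB b e0 θ) (l6pH b hs e0 θ r) u - r u) ^ 2) := by
  have h0 : (0:ℝ) ∈ Icc (0:ℝ) 1 := ⟨le_rfl, zero_le_one⟩
  have hB0 : MvClk (fun u => b u - e0) := by
    have := l6pB_clk H h0
    rw [l6pB_eq] at this
    simpa using this
  have hS : MvBM (I.S (l6pB b e0 θ) (l6pH b hs e0 θ r)) := MvBM.of_mono (I.S_mono _ _ (l6pB_clk H hθ) (l6pH_clk H hθ hr))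
  have hB : MvBM (I.B (l6pB b e0 θ) (l6pH b hs e0 θ r)) := MvBM.of_mono (I.B_mono _ _ (l6pB_clk H hθ) (l6pH_clk H hθ hr))
  have hD : MvBM (fun u => I.B (l6pB b e0 θ) (l6pH b hs e0 θ r) u - I.S (l6pB b e0 θ) (l6pH b hs e0 θ r) u ^ 2) :=
    hB.sub (hS.comp (φ := fun x => x ^ 2) (by fun_prop))
  have hR : MvBM (fun u => (I.S (l6pB b e0 θ) (l6pH b hs e0 θ r) u - r u) ^ 2) :=
    (hS.sub hr.bm).comp (φ := fun x => x ^ 2) (by fun_prop)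
  have hdn := I.dnn _ _ (l6pB_clk H hθ) (l6pH_clk H hθ hr)
  have key := mv_int_mono (hB0.bm.mul (hD.add hR)) ((MvBM.const (b 1)).mul (hD.add hR)) le_rfl zero_le_one le_rfl (by
    filter_upwards [hdn] with u hu hu'
    exact mul_le_mul_of_nonneg_right (l6p_b_sub H ⟨hu'.1.le, hu'.2.le⟩).2 (add_nonneg (sub_nonneg.2 hu) (sq_nonneg _)))
  rw [intervalIntegral.integral_const_mul, intervalIntegral.integral_add hD.ii01 hR.ii01] at key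
  rw [l6pDer]
  linarith

/-- **LEAF** the powers of `x` in (G1): `c_G = min(dg/8, 1/4, c)/2`. -/
theorem ll06_g1_arith {x dg c C b1 : ℝ} (hx : 0 < x) (hx1 : x ≤ 1) (hb0 : 0 ≤ b1) (hb1 : b1 ≤ C)
    (hs : (1 + 28 * C) * x ^ (min (min (dg / 8) (1 / 4)) c / 2) ≤ 1) :
    x ^ (4 + dg / 8) + 3 / 2 * b1 * (16 * x ^ (17 / 4 : ℝ) + 1 / x ^ (-10 : ℝ))
        + 1 / 4 * b1 * (x ^ (4 + c) + (1 / (x ^ (-10 : ℝ)) ^ 2 + 8 * x ^ (17 / 4 : ℝ)))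
      ≤ x ^ (4 + min (min (dg / 8) (1 / 4)) c / 2) := by
  obtain ⟨g, hg⟩ : ∃ g : ℝ, g = min (min (dg / 8) (1 / 4)) c / 2 := ⟨_, rfl⟩
  rw [← hg] at hs ⊢
  have g1 : 2 * g ≤ dg / 8 := by rw [hg]; linarith [min_le_left (min (dg / 8) (1 / 4)) c, min_le_left (dg / 8) (1 / 4 : ℝ)]
  have g2 : 2 * g ≤ 1 / 4 := by rw [hg]; linarith [min_le_left (min (dg / 8) (1 / 4)) c, min_le_right (dg / 8) (1 / 4 : ℝ)]
  have g3 : 2 * g ≤ c := by rw [hg]; linarith [min_le_right (min (dg / 8) (1 / 4)) c]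
  have pw : ∀ s : ℝ, 4 + 2 * g ≤ s → x ^ s ≤ x ^ (4 + 2 * g) := fun s hs => Real.rpow_le_rpow_of_exponent_ge hx hx1 hs
  have hy : 0 < x ^ (4 + 2 * g) := Real.rpow_pos_of_pos hx _
  have t1 := pw (4 + dg / 8) (by linarith)
  have t2 := pw (17 / 4) (by linarith)
  have e3 : 1 / x ^ (-10 : ℝ) = x ^ (10 : ℝ) := by rw [Real.rpow_neg hx.le, one_div, inv_inv]
  have t3 := pw 10 (by linarith)
  have t5 := pw (4 + c) (by linarith)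
  have e4 : 1 / (x ^ (-10 : ℝ)) ^ 2 = x ^ (10 : ℝ) * x ^ (10 : ℝ) := by
    rw [← e3]; ring
  have h10 : x ^ (10 : ℝ) ≤ 1 := Real.rpow_le_one hx.le hx1 (by norm_num)
  have h10' : 0 < x ^ (10 : ℝ) := Real.rpow_pos_of_pos hx _
  have t4 : x ^ (10 : ℝ) * x ^ (10 : ℝ) ≤ x ^ (4 + 2 * g) := by nlinarith
  rw [e3, e4]
  have e5 : x ^ (4 + 2 * g) = x ^ g * x ^ (4 + g) := by
    rw [← Real.rpow_add hx]; congr 1; ring
  have hz : 0 < x ^ (4 + g) := Real.rpow_pos_of_pos hx _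
  have s1 : 3 / 2 * b1 * (16 * x ^ (17 / 4 : ℝ) + x ^ (10 : ℝ)) ≤ 3 / 2 * b1 * (17 * x ^ (4 + 2 * g)) :=
    mul_le_mul_of_nonneg_left (by linarith) (by positivity)
  have s2 : 1 / 4 * b1 * (x ^ (4 + c) + (x ^ (10 : ℝ) * x ^ (10 : ℝ) + 8 * x ^ (17 / 4 : ℝ))) ≤ 1 / 4 * b1 * (10 * x ^ (4 + 2 * g)) :=
    mul_le_mul_of_nonneg_left (by linarith) (by positivity)
  have s3 : b1 * x ^ (4 + 2 * g) ≤ C * x ^ (4 + 2 * g) := mul_le_mul_of_nonneg_right hb1 hy.le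
  have s4 : (1 + 28 * C) * x ^ g * x ^ (4 + g) ≤ 1 * x ^ (4 + g) := mul_le_mul_of_nonneg_right hs hz.le
  calc x ^ (4 + dg / 8) + 3 / 2 * b1 * (16 * x ^ (17 / 4 : ℝ) + x ^ (10 : ℝ))
        + 1 / 4 * b1 * (x ^ (4 + c) + (x ^ (10 : ℝ) * x ^ (10 : ℝ) + 8 * x ^ (17 / 4 : ℝ)))
      ≤ (1 + 28 * C) * x ^ (4 + 2 * g) := by nlinarith
    _ = (1 + 28 * C) * x ^ g * x ^ (4 + g) := by rw [e5]; ring
    _ ≤ x ^ (4 + g) := by linarith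

/-- **(G1) = LL Prop. 6.1, GLUE of level 1.**      TEX[LL:global:trial-gap] -/
theorem ll06_g1 (𝔹 : LlBase) (T : ℝ) (hN : Ll06Nrm 𝔹)
    (hS1 : ∀ F0 : LlFix, F0.T = T → LlBaseProfile 𝔹 T → LlcP 𝔹 F0 → Ll06S1Exit 𝔹 F0)
    (hG2 : ∀ F0 : LlFix, F0.T = T → LlBaseProfile 𝔹 T → LlcP 𝔹 F0 → Ll06G2Exit 𝔹 F0)
    (hVar : ∀ F0 : LlFix, F0.T = T → LlBaseProfile 𝔹 T → LlcP 𝔹 F0 → Ll06VarExit 𝔹 F0) : Ll06G1Exit 𝔹 T := by
  intro F0 hT hprof hP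
  obtain ⟨d1, hd1, hS⟩ := hS1 F0 hT hprof hP
  obtain ⟨c2, Q0, hc2, hQ0, hG⟩ := hG2 F0 hT hprof hP
  obtain ⟨dg, c, s0, hdg, hdg1, hc, hs0, hV⟩ := hVar F0 hT hprof hP d1 hd1
  have hcG : 0 < min (min (dg / 8) (1 / 4)) c / 2 := by
    have : 0 < min (min (dg / 8) (1 / 4)) c := lt_min (lt_min (by positivity) (by norm_num)) hc
    positivity
  refine ⟨min (min (dg / 8) (1 / 4)) c / 2, s0, hcG, hs0, fun sS eta pS hE hs => ?_⟩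
  have h3 := (hP sS eta pS hE).sec3
  obtain ⟨cl, C, hcl, hok⟩ := ll06_ok h3
  set F := F0.wExp sS eta pS with hF
  have hU := ((((hok dg hdg).and (hG sS eta pS hE)).and (show LlUnif F _ from hS dg hdg hdg1 sS eta pS hE)).and
    (show LlUnif F _ from hV sS eta pS hE hs)).and ((show LlUnif F _ from ll06_nrm_pt hN h3).and
      (ll06_unif_pow F hcG (ε := 1 / (1 + 28 * |C|)) (by positivity)))
  refine hU.mono fun p hp h hsm m hm1 hm2 => ?_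
  obtain ⟨⟨⟨⟨P, G⟩, S1⟩, V⟩, Nr, hy⟩ := h
  have P := P hsm
  have G := G hsm
  have S1 := S1 hsm m hm1 hm2
  have V := V hsm m hm1 hm2
  have Nr := Nr hsm m hm1 hm2
  have hx := P.x0
  have hx1 : p.x ≤ 1 := by linarith [P.x1]
  have H := P.ok
  have h01 : p.bN F 𝔹 0 ≤ p.bN F 𝔹 1 := H.hb.le_one (left_mem_Icc.2 zero_le_one)
  have hC : 0 < C := hcl.trans_le (P.b_lo.trans (h01.trans P.b_hi))
  have hb1 : 0 ≤ p.bN F 𝔹 1 := by linarith [P.b_lo]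
  -- (G2) on the class
  have hG2' : ∀ r ∈ l6pCls p.kapG p.McG, mvG macSpin (p.bN F 𝔹) (p.hN F 𝔹) (p.qN F 𝔹) ≤ mvG macSpin (p.bN F 𝔹) (p.hN F 𝔹) r := by
    intro r hr
    obtain ⟨cr, hr2⟩ := l6p_cls_clk H.κ_pos hr
    have hK : MvClk (fun u => p.hN F 𝔹 u + p.bN F 𝔹 u * r u) := H.hh.add (H.hb.mul cr)
    have h1 := (G r (fun u hu => ⟨cr.nonneg hu, hr2 u hu⟩) (l6g_z_int hcl H.hb P.b_lo H.hh hK) hK).2
    have h0 : 0 ≤ c2 * ∫ s in (0:ℝ)..Q0, (∫ y in s..Q0, (scAlK 1 (fun u => p.hN F 𝔹 u + p.bN F 𝔹 u * r u) y - scAlK 1 (p.tN F 𝔹) y)) ^ 2 :=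
      mul_nonneg hc2.le (intervalIntegral.integral_nonneg hQ0.le fun s _ => sq_nonneg _)
    linarith
  -- the envelope derivative at a minimiser
  have hη : ∀ θ ∈ Ioo (0:ℝ) 1, ∃ r, L6pMin (macI m) (p.bN F 𝔹) (p.hN F 𝔹) (p.e0G dg) p.kapG p.McG θ r ∧
      l6pDer (macI m) (p.bN F 𝔹) (p.hN F 𝔹) (p.e0G dg) θ r ≤ 1 / 4 * p.bN F 𝔹 1 * (p.x ^ (4 + c) + (1 / p.McG ^ 2 + 8 * p.kapG)) := by
    intro θ hθ
    have hθ' : θ ∈ Icc (0:ℝ) 1 := ⟨hθ.1.le, hθ.2.le⟩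
    obtain ⟨r, hr⟩ := l6p_exists_min (macI m) H hθ'
    refine ⟨r, hr, (ll06_der_le (macI m) H hθ' (l6p_cls_clk H.κ_pos hr.1).1).trans ?_⟩
    have v := V θ hθ r hr
    have ms := ll06_mis (macI m) H P.M2 hθ hr
    exact mul_le_mul_of_nonneg_left (add_le_add v ms) (by positivity)
  have key := l6p_main (macI m) macSpin (macI_spin m) H S1 hG2' hη
  rw [← Nr] at key
  have ha : p.a = p.ell := by simp [LlPt.a, hsm]
  have ha1 : 1 ≤ p.a := by rw [ha]; exact hp.ell1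
  have ar := ll06_g1_arith (dg := dg) (c := c) hx hx1 hb1 P.b_hi (by
    rw [abs_of_pos hC, le_div_iff₀ (by positivity)] at hy
    linarith)
  have k2 : p.a * (p.Fst F 𝔹 - p.f00 F 𝔹 m) ≤ p.x ^ (4 + min (min (dg / 8) (1 / 4)) c / 2) := key.2.trans ar
  have k0 : 0 ≤ p.Fst F 𝔹 - p.f00 F 𝔹 m := by
    by_contra hneg
    push Not at hneg
    nlinarith [key.1]
  exact ⟨k0, by nlinarith⟩

/-! ## 2. level 2: the integrated variance -/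

/-- the choice of `dg` -/
theorem ll06_var_dg {d0 d1 d2 d3 c1 th : ℝ} (n0 : ℕ) (hd0 : 0 < d0) (hd1 : 0 < d1) (hd2 : 0 < d2) (hd3 : 0 < d3) (hc1 : 0 < c1) (hth : 0 < th) :
    ∃ dg : ℝ, 0 < dg ∧ dg ≤ d0 ∧ dg ≤ d1 ∧ dg ≤ d2 ∧ dg ≤ d3 ∧ dg ≤ c1 / 2 ∧ dg * n0 ≤ th / 2 ∧ dg * n0 ≤ 1 / 32 := by
  have hn1 : (0:ℝ) < (n0:ℝ) + 1 := by positivity
  refine ⟨min (min (min d0 d1) (min d2 d3)) (min (c1 / 2) (min (th / (2 * ((n0:ℝ) + 1))) (1 / (32 * ((n0:ℝ) + 1))))), ?_, ?_, ?_, ?_, ?_, ?_, ?_, ?_⟩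
  · exact lt_min (lt_min (lt_min hd0 hd1) (lt_min hd2 hd3)) (lt_min (by positivity) (lt_min (by positivity) (by positivity)))
  · exact (min_le_left _ _).trans ((min_le_left _ _).trans (min_le_left _ _))
  · exact (min_le_left _ _).trans ((min_le_left _ _).trans (min_le_right _ _))
  · exact (min_le_left _ _).trans ((min_le_right _ _).trans (min_le_left _ _))
  · exact (min_le_left _ _).trans ((min_le_right _ _).trans (min_le_right _ _))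
  · exact (min_le_right _ _).trans (min_le_left _ _)
  · obtain ⟨dg, hdg⟩ : ∃ dg : ℝ, dg = min (min (min d0 d1) (min d2 d3)) (min (c1 / 2) (min (th / (2 * ((n0:ℝ) + 1))) (1 / (32 * ((n0:ℝ) + 1))))) := ⟨_, rfl⟩
    rw [← hdg]
    have h0 : 0 < dg := by
      rw [hdg]
      exact lt_min (lt_min (lt_min hd0 hd1) (lt_min hd2 hd3)) (lt_min (by positivity) (lt_min (by positivity) (by positivity)))
    have h : dg ≤ th / (2 * ((n0:ℝ) + 1)) := by rw [hdg]; exact (min_le_right _ _).trans ((min_le_right _ _).trans (min_le_left _ _))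
    rw [le_div_iff₀ (by positivity)] at h
    nlinarith
  · obtain ⟨dg, hdg⟩ : ∃ dg : ℝ, dg = min (min (min d0 d1) (min d2 d3)) (min (c1 / 2) (min (th / (2 * ((n0:ℝ) + 1))) (1 / (32 * ((n0:ℝ) + 1))))) := ⟨_, rfl⟩
    rw [← hdg]
    have h0 : 0 < dg := by
      rw [hdg]
      exact lt_min (lt_min (lt_min hd0 hd1) (lt_min hd2 hd3)) (lt_min (by positivity) (lt_min (by positivity) (by positivity)))
    have h : dg ≤ 1 / (32 * ((n0:ℝ) + 1)) := by rw [hdg]; exact (min_le_right _ _).trans ((min_le_right _ _).trans (min_le_right _ _))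
    rw [le_div_iff₀ (by positivity)] at h
    nlinarith

/-- `C_v / e^n0 = A / x^(dg n0)`, `e = cg x^dg / 2`, `A = C_v / (cg/2)^n0` -/
theorem ll06_ar_e {x cg dg Cv : ℝ} (n0 : ℕ) (hx : 0 < x) :
    Cv / (cg * x ^ dg / 2) ^ n0 = Cv / (cg / 2) ^ n0 / x ^ (dg * n0) := by
  rw [show cg * x ^ dg / 2 = cg / 2 * x ^ dg by ring, mul_pow, ← Real.rpow_natCast (x ^ dg), ← Real.rpow_mul hx.le, div_div]

/-- the absorption condition of `l6d_var` -/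
theorem ll06_ar_abs {x cg dg Cv th A : ℝ} (n0 : ℕ) (hx : 0 < x) (hx1 : x ≤ 1) (hA : A = Cv / (cg / 2) ^ n0) (hA0 : 0 ≤ A) (b5 : dg * n0 ≤ th / 2)
    (y2 : x ^ (th / 2) ≤ 1 / (2 * (A + 1))) : Cv / (cg * x ^ dg / 2) ^ n0 * x ^ th ≤ 1 / 2 := by
  have hxn : 0 < x ^ (dg * n0) := Real.rpow_pos_of_pos hx _
  rw [ll06_ar_e n0 hx, ← hA, div_mul_eq_mul_div, div_le_iff₀ hxn]
  have h1 : x ^ th = x ^ (th / 2) * x ^ (th / 2) := by rw [← Real.rpow_add hx]; congr 1; ring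
  have h2 : x ^ (th / 2) ≤ x ^ (dg * n0) := Real.rpow_le_rpow_of_exponent_ge hx hx1 b5
  have h3 : (A + 1) * x ^ (th / 2) ≤ 1 / 2 := by
    rw [le_div_iff₀ (by positivity)] at y2
    linarith
  have h4 : 0 < x ^ (th / 2) := Real.rpow_pos_of_pos hx _
  rw [h1]
  calc A * (x ^ (th / 2) * x ^ (th / 2)) ≤ (A + 1) * x ^ (th / 2) * x ^ (th / 2) := by nlinarith
    _ ≤ 1 / 2 * x ^ (th / 2) := mul_le_mul_of_nonneg_right h3 h4.le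
    _ ≤ 1 / 2 * x ^ (dg * n0) := by linarith

/-- the stability error is below the gap -/
theorem ll06_ar_eta {x cg dg c1 Cs Q0 b1 : ℝ} (hx : 0 < x) (hx1 : x ≤ 1) (hcg : 0 < cg) (hCs : 0 ≤ Cs) (hQ0 : 0 < Q0) (hb1 : b1 ≤ Q0) (b4 : dg ≤ c1 / 2)
    (y3 : x ^ (c1 / 2) ≤ cg / (4 * (Q0 * Cs + 1))) : b1 * Cs * x ^ c1 < cg * x ^ dg / 2 := by
  have hxd : 0 < x ^ dg := Real.rpow_pos_of_pos hx _
  have h1 : x ^ c1 = x ^ (c1 - dg) * x ^ dg := by rw [← Real.rpow_add hx]; congr 1; ring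
  have h2 : x ^ (c1 - dg) ≤ x ^ (c1 / 2) := Real.rpow_le_rpow_of_exponent_ge hx hx1 (by linarith)
  have h3 : (Q0 * Cs + 1) * x ^ (c1 / 2) ≤ cg / 4 := by
    rw [le_div_iff₀ (by positivity)] at y3
    linarith
  have h4 : 0 < x ^ (c1 - dg) := Real.rpow_pos_of_pos hx _
  have h5 : b1 * Cs ≤ Q0 * Cs := mul_le_mul_of_nonneg_right hb1 hCs
  have h6 : b1 * Cs * x ^ (c1 - dg) ≤ cg / 4 := by
    calc b1 * Cs * x ^ (c1 - dg) ≤ (Q0 * Cs + 1) * x ^ (c1 - dg) := mul_le_mul_of_nonneg_right (by linarith) h4.le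
      _ ≤ (Q0 * Cs + 1) * x ^ (c1 / 2) := mul_le_mul_of_nonneg_left h2 (by positivity)
      _ ≤ cg / 4 := h3
  rw [h1]
  calc b1 * Cs * (x ^ (c1 - dg) * x ^ dg) = b1 * Cs * x ^ (c1 - dg) * x ^ dg := by ring
    _ ≤ cg / 4 * x ^ dg := mul_le_mul_of_nonneg_right h6 hxd.le
    _ < cg * x ^ dg / 2 := by nlinarith

/-- the final powers -/
theorem ll06_ar_fin {x cg dg Cv A im vol : ℝ} (n0 : ℕ) (hx : 0 < x) (hx1 : x ≤ 1) (hA : A = Cv / (cg / 2) ^ n0) (hA0 : 0 ≤ A) (b6 : dg * n0 ≤ 1 / 32)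
    (y4 : x ^ (1 / 32 : ℝ) ≤ 1 / (8 * (A + 1))) (him : im ≤ 2 * x ^ (6:ℝ)) (hvol : vol ≤ x ^ (4 + 3 / 16 : ℝ)) :
    2 * (Cv / (cg * x ^ dg / 2) ^ n0) * (im + x ^ (5:ℝ) + vol) ≤ x ^ (4 + 1 / 8 : ℝ) := by
  have hxn : 0 < x ^ (dg * n0) := Real.rpow_pos_of_pos hx _
  have z : ∀ s : ℝ, 4 + 3 / 16 ≤ s → x ^ s ≤ x ^ (4 + 3 / 16 : ℝ) := fun s hs => Real.rpow_le_rpow_of_exponent_ge hx hx1 hs
  have z6 := z 6 (by norm_num)
  have z5 := z 5 (by norm_num)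
  have hw : 0 < x ^ (4 + 3 / 16 : ℝ) := Real.rpow_pos_of_pos hx _
  have sum : im + x ^ (5:ℝ) + vol ≤ 4 * x ^ (4 + 3 / 16 : ℝ) := by linarith
  rw [ll06_ar_e n0 hx, ← hA]
  have e2 : x ^ (4 + 3 / 16 : ℝ) = x ^ (1 / 32 : ℝ) * x ^ (1 / 32 : ℝ) * x ^ (4 + 1 / 8 : ℝ) := by
    rw [← Real.rpow_add hx, ← Real.rpow_add hx]; congr 1; norm_num
  have h2 : x ^ (1 / 32 : ℝ) ≤ x ^ (dg * n0) := Real.rpow_le_rpow_of_exponent_ge hx hx1 b6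
  have h3 : (A + 1) * x ^ (1 / 32 : ℝ) ≤ 1 / 8 := by
    rw [le_div_iff₀ (by positivity)] at y4
    linarith
  have h4 : 0 < x ^ (1 / 32 : ℝ) := Real.rpow_pos_of_pos hx _
  have h5 : 0 < x ^ (4 + 1 / 8 : ℝ) := Real.rpow_pos_of_pos hx _
  have hAx : A / x ^ (dg * n0) * x ^ (1 / 32 : ℝ) ≤ A := by
    rw [div_mul_eq_mul_div, div_le_iff₀ hxn]
    exact mul_le_mul_of_nonneg_left h2 hA0
  have hAx0 : 0 ≤ A / x ^ (dg * n0) := by positivity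
  calc 2 * (A / x ^ (dg * n0)) * (im + x ^ (5:ℝ) + vol)
      ≤ 2 * (A / x ^ (dg * n0)) * (4 * x ^ (4 + 3 / 16 : ℝ)) := mul_le_mul_of_nonneg_left sum (by positivity)
    _ = 8 * (A / x ^ (dg * n0) * x ^ (1 / 32 : ℝ)) * x ^ (1 / 32 : ℝ) * x ^ (4 + 1 / 8 : ℝ) := by rw [e2]; ring
    _ ≤ 8 * A * x ^ (1 / 32 : ℝ) * x ^ (4 + 1 / 8 : ℝ) := by
        refine mul_le_mul_of_nonneg_right (mul_le_mul_of_nonneg_right (by linarith) h4.le) h5.le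
    _ ≤ 1 * x ^ (4 + 1 / 8 : ℝ) := by
        refine mul_le_mul_of_nonneg_right ?_ h5.le
        nlinarith
    _ = x ^ (4 + 1 / 8 : ℝ) := one_mul _

/-- `1/m ≤ 2 x^6` on the dyad -/
theorem ll06_inv_m {p : LlPt} (hN : 2 ≤ p.N) {m : ℕ} (hm : p.N ≤ 2 * m) : 1 / (m:ℝ) ≤ 2 * p.x ^ (6:ℝ) := by
  have hN0 : (0:ℝ) ≤ (p.N : ℝ) := Nat.cast_nonneg _
  have hNpos : (0:ℝ) < (p.N : ℝ) := by exact_mod_cast (by omega : 0 < p.N)
  have e : p.x ^ (6:ℝ) = 1 / (p.N : ℝ) := by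
    have e6 : (-(1 / 6) : ℝ) * 6 = -1 := by norm_num
    rw [LlPt.x, ← Real.rpow_mul hN0, e6, Real.rpow_neg_one, one_div]
  have h7 : (p.N : ℝ) ≤ 2 * (m : ℝ) := by exact_mod_cast hm
  have hmpos : (0:ℝ) < m := by exact_mod_cast (by omega : 0 < m)
  rw [e, div_le_iff₀ hmpos]
  have : 2 * (1 / (p.N:ℝ)) * m = 2 * m / p.N := by ring
  rw [this, le_div_iff₀ hNpos]
  linarith

/-- (G3) in the vocabulary of `l6d_var` -/
theorem ll06_J2 {m : ℕ} (hm : 0 < m) {b h ts : ℝ → ℝ} (hb : MvClk b) (hh : MvClk h) :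
    ∫ u in (0:ℝ)..1, |h u + b u * skCS m 1 b h (ghPosA u) - ts u| = ∫ u in (0:ℝ)..1, |h u + b u * (macI m).S b h u - ts u| := by
  rw [intervalIntegral.integral_of_le zero_le_one, intervalIntegral.integral_of_le zero_le_one,
    integral_Ioc_eq_integral_Ioo, integral_Ioc_eq_integral_Ioo]
  refine setIntegral_congr_fun measurableSet_Ioo fun u hu => ?_
  simp only [l6d_mac_S hm hb hh hu]

/-- the clocks of the changed path stay below `h_*(1) + 2 b(1)` -/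
theorem ll06_top_le {b hs q : ℝ → ℝ} {e0 κ M : ℝ} (H : L6pOk b hs q e0 κ M) {θ : ℝ} (hθ : θ ∈ Icc (0:ℝ) 1) {r : ℝ → ℝ} (hr2 : r 1 ≤ 2) :
    l6pH b hs e0 θ r 1 + l6pB b e0 θ 1 ≤ hs 1 + b 1 * 2 := by
  have one : (1:ℝ) ∈ Icc (0:ℝ) 1 := right_mem_Icc.2 zero_le_one
  have hE1 := l6pE_le H hθ one
  have e : l6pH b hs e0 θ r 1 + l6pB b e0 θ 1 = hs 1 + b 1 + l6pE b e0 θ 1 * (r 1 - 1) := by
    simp only [l6pH, l6pB]; ring
  rw [e]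
  have := mul_le_mul_of_nonneg_left (by linarith : r 1 - 1 ≤ 1) hE1.1
  linarith [hE1.2]

/-- **(VAR) at one scene**, non-asymptotic: `l6d_var` + the powers of `x` -/
theorem ll06_var_pt {Q0 Cv : ℝ} {n0 : ℕ}
    (hvar : ∀ (n : ℕ) (b h ts G1 : ℝ → ℝ), 1 ≤ n → MvClk b → MvClk h → MvClk ts → h 1 + b 1 ≤ Q0 →
      ∀ Cs e ρ η θ pfl μ : ℝ, 0 ≤ Cs → L6xStab G1 ts Q0 Cs → 0 < ρ → 0 < e → e ≤ 1 → 0 ≤ θ → 0 ≤ pfl → Cv / e ^ n0 * θ ≤ 1 / 2 →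
      (∀ p : GhPos, p.Ok 1 → ∀ s : ℝ, 0 ≤ s → ghAt 1 h p + ghAt 1 b p * skCS n 1 b h p - ρ ≤ s → 2 * e ≤ 1 - ghAt 1 b p * G1 s) →
      (∫ u in (0:ℝ)..1, |h u + b u * skCS n 1 b h (ghPosA u) - ts u| ≤ η) → b 1 * Cs * η < e →
      (∀ᶠ F : Finset GhPos in atTop, ∃ Fl : Finset ℕ, (∀ t ∈ Fl, t ≤ (ckStp 1 b h (ghPs 1 F)).length) ∧
        ∑ t ∈ Fl, skGap 1 (ckStp 1 b h (ghPs 1 F)) t ≤ μ ∧
        ∀ t ≤ (ckStp 1 b h (ghPs 1 F)).length, t ∉ Fl → l6vTail n (l6xStp n (ckStp 1 b h (ghPs 1 F))) θ t ≤ pfl) →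
      ∫ u in (0:ℝ)..1, ((macI n).B b h u - (macI n).S b h u ^ 2) ≤ 2 * (Cv / e ^ n0) * (1 / n + pfl + μ))
    {m : ℕ} {b h ts G1 : ℝ → ℝ} {x cg dg rh c1 th Cs A : ℝ} (hm : 1 ≤ m) (hb : MvClk b) (hh : MvClk h) (hts : MvClk ts) (hK : h 1 + b 1 ≤ Q0)
    (hx : 0 < x) (hx1 : x ≤ 1) (hcg : 0 < cg) (hCs : 0 ≤ Cs) (hQ0 : 0 < Q0) (hA : A = Cv / (cg / 2) ^ n0) (hA0 : 0 ≤ A)
    (b4 : dg ≤ c1 / 2) (b5 : dg * n0 ≤ th / 2) (b6 : dg * n0 ≤ 1 / 32)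
    (y1 : x ^ dg ≤ 2 / cg) (y2 : x ^ (th / 2) ≤ 1 / (2 * (A + 1))) (y3 : x ^ (c1 / 2) ≤ cg / (4 * (Q0 * Cs + 1))) (y4 : x ^ (1 / 32 : ℝ) ≤ 1 / (8 * (A + 1)))
    (hmx : 1 / (m:ℝ) ≤ 2 * x ^ (6:ℝ)) (hSt : L6xStab G1 ts Q0 Cs)
    (hJ1 : ∀ P : GhPos, P.Ok 1 → ∀ s : ℝ, 0 ≤ s → ghAt 1 h P + ghAt 1 b P * skCS m 1 b h P - x ^ rh ≤ s → cg * x ^ dg ≤ 1 - ghAt 1 b P * G1 s)
    (hJ2 : ∫ u in (0:ℝ)..1, |h u + b u * (macI m).S b h u - ts u| ≤ x ^ c1)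
    (hJ3 : ∀ᶠ F : Finset GhPos in atTop, ∃ Fl : Finset ℕ, (∀ t ∈ Fl, t ≤ (ckStp 1 b h (ghPs 1 F)).length) ∧
        ∑ t ∈ Fl, skGap 1 (ckStp 1 b h (ghPs 1 F)) t ≤ x ^ (4 + 3 / 16 : ℝ) ∧
        ∀ t ≤ (ckStp 1 b h (ghPs 1 F)).length, t ∉ Fl → l6vTail m (l6xStp m (ckStp 1 b h (ghPs 1 F))) (x ^ th) t ≤ x ^ (5:ℝ)) :
    ∫ u in (0:ℝ)..1, ((macI m).B b h u - (macI m).S b h u ^ 2) ≤ x ^ (4 + 1 / 8 : ℝ) := by
  have one : (1:ℝ) ∈ Icc (0:ℝ) 1 := right_mem_Icc.2 zero_le_one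
  have hxd : 0 < x ^ dg := Real.rpow_pos_of_pos hx _
  have he : 0 < cg * x ^ dg / 2 := by positivity
  have he1 : cg * x ^ dg / 2 ≤ 1 := by
    rw [le_div_iff₀ hcg] at y1
    linarith
  have hb1 : b 1 ≤ Q0 := by linarith [hh.nonneg one]
  have key := hvar m b h ts G1 hm hb hh hts hK Cs (cg * x ^ dg / 2) (x ^ rh) (x ^ c1) (x ^ th) (x ^ (5:ℝ)) (x ^ (4 + 3 / 16 : ℝ)) hCs hSt
    (Real.rpow_pos_of_pos hx _) he he1 (Real.rpow_pos_of_pos hx _).le (Real.rpow_pos_of_pos hx _).le (ll06_ar_abs n0 hx hx1 hA hA0 b5 y2)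
    (fun P' hP' s hs0 hs1 => by
      have := hJ1 P' hP' s hs0 hs1
      linarith)
    (by rw [ll06_J2 hm hb hh]; exact hJ2) (ll06_ar_eta hx hx1 hcg hCs hQ0 hb1 b4 y3) hJ3
  exact key.trans (ll06_ar_fin n0 hx hx1 hA hA0 b6 y4 hmx le_rfl)

/-- **(VAR), GLUE of level 2** (06 l.553-640).
ORDER: `c1, d1` (G3); `cg, rh, d2` (GAP); `th, d3, s0` (CONC); `Q0` (G2: bounds ALL clocks, uniformly in the exponents); `Cs` (STAB at `Q0`); `Cv, n0` (`l6d_var Q0`); then `dg` (`ll06_var_dg`), saving `c = 1/8`.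
At a scene: `ll06_var_pt` with `n = m`, `b = b~`, `h = h~`, `ts = tN`, `G1 = Γ̂'`, `e = cg x^dg / 2`, `ρ = x^rh`, `η = x^c1`, window `x^th`, `pfl = x^5`, `μ = x^(4+3/16)`, `1/m ≤ 2 x^6`. -/
theorem ll06_var (𝔹 : LlBase) (F0 : LlFix) (hP : LlcP 𝔹 F0) (hG2 : Ll06G2Exit 𝔹 F0) (hG3 : Ll06G3Exit 𝔹 F0) (hGap : Ll06GapExit 𝔹 F0)
    (hSt : Ll06StabExit 𝔹 F0) (hCo : Ll06ConcExit 𝔹 F0) : Ll06VarExit 𝔹 F0 := by
  intro d0 hd0
  obtain ⟨c1, d1, hc1, hd1, hG3⟩ := hG3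
  obtain ⟨cg, rh, d2, hcg, hrh, hd2, hGap⟩ := hGap
  obtain ⟨th, d3, s0, hth, hd3, hs0, hCo⟩ := hCo
  obtain ⟨c2, Q0, hc2, hQ0, hG2⟩ := hG2
  obtain ⟨Cs, hCs, hSt⟩ := hSt Q0 hQ0
  obtain ⟨Cv, n0, hCv, hvar⟩ := l6d_var Q0
  obtain ⟨dg, hdg, b0, b1, b2, b3, b4, b5, b6⟩ := ll06_var_dg n0 hd0 hd1 hd2 hd3 hc1 hth
  refine ⟨dg, 1 / 8, s0, hdg, b0, by norm_num, hs0, fun sS eta pS hE hs => ?_⟩
  have h3 := (hP sS eta pS hE).sec3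
  obtain ⟨cl, C, hcl, hok⟩ := ll06_ok h3
  obtain ⟨F, hF⟩ : ∃ F : LlFix, F = F0.wExp sS eta pS := ⟨_, rfl⟩
  rw [← hF] at hok ⊢
  obtain ⟨A, hAdef⟩ : ∃ A : ℝ, A = Cv / (cg / 2) ^ n0 := ⟨_, rfl⟩
  have hA0 : 0 ≤ A := by rw [hAdef]; positivity
  have u1 : LlUnif F _ := hF ▸ hG2 sS eta pS hE
  have u2 : LlUnif F _ := hF ▸ hSt sS eta pS hE
  have u3 : LlUnif F _ := hF ▸ hG3 dg hdg b1 sS eta pS hE
  have u4 : LlUnif F _ := hF ▸ hGap dg hdg b2 sS eta pS hE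
  have u5 : LlUnif F _ := hF ▸ hCo dg hdg b3 sS eta pS hE hs
  have hU := (((((hok dg hdg).and u1).and u2).and (u3.and (u4.and u5)))).and
    (((ll06_unif_pow F hdg (ε := 2 / cg) (by positivity)).and (ll06_unif_pow F (s := th / 2) (ε := 1 / (2 * (A + 1))) (by positivity) (by positivity))).and
      ((ll06_unif_pow F (s := c1 / 2) (ε := cg / (4 * (Q0 * Cs + 1))) (by positivity) (by positivity)).and
        (ll06_unif_pow F (s := 1 / 32) (ε := 1 / (8 * (A + 1))) (by norm_num) (by positivity))))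
  refine hU.mono fun p hp h hsm m hm1 hm2 θ hθ r hr => ?_
  obtain ⟨⟨⟨⟨P, G⟩, St⟩, G3, Gp, Co⟩, ⟨y1, y2⟩, y3, y4⟩ := h
  have P := P hsm
  have G := G hsm
  have H := P.ok
  have hθ' : θ ∈ Icc (0:ℝ) 1 := ⟨hθ.1.le, hθ.2.le⟩
  obtain ⟨cr, hr2⟩ := l6p_cls_clk H.κ_pos hr.1
  have one : (1:ℝ) ∈ Icc (0:ℝ) 1 := right_mem_Icc.2 zero_le_one
  have G2' := (G (fun _ => 2) (fun _ _ => by norm_num) intervalIntegrable_const (H.hh.add (H.hb.mul (MvClk.const (by norm_num))))).1 1 one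
  exact ll06_var_pt hvar (by have := hp.N2; omega) (l6pB_clk H hθ') (l6pH_clk H hθ' cr) P.t_clk ((ll06_top_le H hθ' (hr2 1 one)).trans G2'.2)
    P.x0 (by linarith [P.x1]) hcg hCs hQ0 hAdef hA0 b4 b5 b6 y1 y2 y3 y4 (ll06_inv_m hp.N2 hm1) (St hsm G2'.1)
    (Gp hsm m hm1 hm2 θ hθ r hr) (G3 hsm m hm1 hm2 θ hθ r hr) (Co hsm m hm1 hm2 θ hθ r hr)

end

end Claimed.Agent.R286
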