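import Claimed.Agent.R286.LL06.Geo
import Claimed.Agent.R286.LL06.ConcNum
import Claimed.Agent.R286.LL06.Top

/-!
# Row 286 (S0533), LL Section 6, file LL06/ConcTop : THE JUNCTION (CONC) OF LEVEL 2 OF (G1)      (owner helper130; prefix `l6e_`, `L6e`)
Source: LL 06-global.tex l.318-335, l.467-567 (choice of the scales).      Part of TEX[LL:global:trial-gap].
* **`ll06_conc`** : `LlcP 𝔹 F0 → Ll06G3Exit 𝔹 F0 → Ll06ConcExit 𝔹 F0` (GLUE, 0 sorry) = `ll06_inst_conc` of `Exit/G1.lean` for every base: `ll06_geo_pow` (261, `LL06/Geo`) + `l6d_main` (200, `LL06/ConcCh`) + `l6e_num` (261, `LL06/ConcNum`).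
  SCALES: `ag = min a1 (1/25)`, `δ = x^ag`, `hh = ε = ρ = x^(2 ag)`, slack `sl = ag/4` (`ηL = x^(2ag - ag/4)`, `vmin = x^(ag + ag/4)`, `C1 = x^(-ag/4)`), window `θ = x^(ag/4)`, half order `q ≥ 24/ag`, `q' = 49`,
  `τ = x^(-1/8)`, slope `e0 = x^dg`, `dg ≤ 1/100`.
* `l6e_clocks` (`b~`, `h~`, `h~ - e0 r` are clocks), `l6e_St` (`S` along the inverse path: monotone, `= skCS` on the open interval).
-/

set_option autoImplicit false

namespace Claimed.Agent.R286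

open MeasureTheory Set Filter Topology

noncomputable section

/-! ## 1. the scene -/

/-- the clocks of a scene: `b~`, `h~`, `h~ - e0 r` -/
theorem l6e_clocks {b hs q : ℝ → ℝ} {e0 κ M θ : ℝ} (H : L6pOk b hs q e0 κ M) (hθ : θ ∈ Icc (0:ℝ) 1) {r : ℝ → ℝ} (hr : MvClk r) :
    MvClk (l6pB b e0 θ) ∧ MvClk (l6pH b hs e0 θ r) ∧ MvClk (fun u => l6pH b hs e0 θ r u - e0 * r u) := by
  refine ⟨l6pB_clk H hθ, l6pH_clk H hθ hr, ?_⟩
  have h1 : MvClk (fun u => b u - e0) :=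
    ⟨fun u hu v hv huv => by have := H.hb.1 hu hv huv; linarith, by linarith [H.e0_le]⟩
  have h2 := H.hh.add ((h1.const_mul hθ.1).mul hr)
  have e : (fun u => l6pH b hs e0 θ r u - e0 * r u) = fun u => hs u + θ * (b u - e0) * r u := by
    funext u; simp only [l6pH, l6pE]; ring
  rw [e]; exact h2

/-- `S` of the path along the inverse path -/
theorem l6e_St {n : ℕ} (hn : 0 < n) {κ M : ℝ} {b h al : ℝ → ℝ} (hκ : 0 < κ) (B : TlBox (fun _ => κ) (fun _ => M) 0 2 0 1 al)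
    (hb : MvClk b) (hh : MvClk h) :
    MonotoneOn (fun s => (macI n).S b h (al s)) (Icc 0 2) ∧ ∀ s ∈ Ioo (0:ℝ) 2, (macI n).S b h (al s) = skCS n 1 b h (ghPosA (al s)) := by
  have O := l6o_ok M hκ
  refine ⟨fun s hs t ht hst => (macI n).S_mono b h hb hh (B.mem O hs) (B.mem O ht) (B.monoOn O hs ht hst), fun s hs => ?_⟩
  refine l6d_mac_S hn hb hh ⟨?_, ?_⟩
  · have := B.strictMonoOn O (by simp : (0:ℝ) ∈ Icc (0:ℝ) 2) (Ioo_subset_Icc_self hs) hs.1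
    rwa [B.left] at this
  · have := B.strictMonoOn O (Ioo_subset_Icc_self hs) (by simp : (2:ℝ) ∈ Icc (0:ℝ) 2) hs.2
    rwa [B.right] at this

/-! ## 2. the junction -/

/-- **(CONC)** = `ll06_inst_conc` for every base.      GLUE: `ll06_geo_pow` (261) at `ah = 2 ag`, `sl = ag/4`; `l6d_main` (200) at `q ≥ 24/ag`, `q' = 49`; `l6e_num` (261).      TEX[LL:global:trial-gap] -/
theorem ll06_conc (𝔹 : LlBase) (F0 : LlFix) (hP : LlcP 𝔹 F0) (hG3 : Ll06G3Exit 𝔹 F0) : Ll06ConcExit 𝔹 F0 := by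
  obtain ⟨a1, d1, ha1, hd1, hgeo⟩ := ll06_geo_pow (ll06_geo 𝔹 F0 hP hG3)
  obtain ⟨ag, hagdef⟩ : ∃ ag : ℝ, ag = min a1 (1 / 25) := ⟨_, rfl⟩
  have hag : 0 < ag := by rw [hagdef]; exact lt_min ha1 (by norm_num)
  have hag1 : ag ≤ 1 / 25 := by rw [hagdef]; exact min_le_right _ _
  have haga : ag ≤ a1 := by rw [hagdef]; exact min_le_left _ _
  obtain ⟨q, hq⟩ := exists_nat_ge (24 / ag)
  have hqa : 24 ≤ q * ag := by rwa [div_le_iff₀ hag] at hq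
  have hq1 : 1 ≤ q := by
    by_contra hc
    have : q = 0 := by omega
    rw [this] at hqa
    norm_num at hqa
  obtain ⟨c1, cR, c, hc1, hcR, hc, hmain⟩ := l6d_main (q := q) (q' := 49) hq1 (by norm_num)
  refine ⟨ag / 4, min d1 (1 / 100), 0, by positivity, lt_min hd1 (by norm_num), by norm_num, fun dg hdg hdg1 sS eta pS hE _ => ?_⟩
  have hdg2 : dg ≤ 1 / 100 := hdg1.trans (min_le_right _ _)
  obtain ⟨ε0, hε0, hnum⟩ := l6e_num (q := q) (q' := 49) hq1 le_rfl (c1 := c1) (cR := cR) (c := c) (ag := ag) (dg := dg) (sl := ag / 4) (th := ag / 4)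
    hc1.le hcR.le hc.le hag.le (by positivity) hdg.le (by linarith) (by nlinarith)
  have G := hgeo ag (2 * ag) dg (ag / 4) hag haga (by linarith) (by linarith) hdg (hdg1.trans (min_le_left _ _)) (by positivity) sS eta pS hE
  obtain ⟨c', C', hc', hok⟩ := ll06_ok (hP sS eta pS hE).sec3
  refine ((((LlUnif.and G (hok dg hdg)).and (ll06_unif_pow (F0.wExp sS eta pS) (s := 1 / 40) (by norm_num) hε0)).and
    (ll06_unif_pow (F0.wExp sS eta pS) hag (ε := 1 / 4) (by norm_num))).and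
    (ll06_unif_pow (F0.wExp sS eta pS) (s := 1 / 16) (ε := 1 / 2) (by norm_num) (by norm_num))).mono fun p hp h hsm m hm1 hm2 θ hθ r hr => ?_
  obtain ⟨⟨⟨⟨hG, hPt⟩, hx40⟩, hxa⟩, hx16⟩ := h
  obtain ⟨al, B, Q, NF, -, Y⟩ := hG hsm m hm1 hm2 θ hθ r hr
  have Pt := hPt hsm
  have H := Pt.ok
  have hθ' : θ ∈ Icc (0:ℝ) 1 := ⟨hθ.1.le, hθ.2.le⟩
  have hrc : MvClk r := (l6p_cls_clk H.κ_pos hr.1).1
  obtain ⟨kb, kh, ks⟩ := l6e_clocks H hθ' hrc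
  have hm0 : 1 ≤ m := by have := hp.N2; omega
  obtain ⟨s1, s2⟩ := l6e_St hm0 H.κ_pos B kb kh
  have hxp := Pt.x0
  have hN : p.x ^ (-6 : ℝ) / 2 ≤ (m : ℝ) := by
    have e : p.x ^ (-6 : ℝ) = p.N := by
      unfold LlPt.x
      rw [← Real.rpow_mul (Nat.cast_nonneg _)]
      norm_num
    rw [e]
    have : (p.N : ℝ) ≤ 2 * (m : ℝ) := by exact_mod_cast hm1
    linarith
  obtain ⟨bb, l0, hbb, hl0, n3, n2, n4, n5, n6, n7⟩ := hnum p.x hxp (by linarith [Pt.x1]) hx40 hxa m hN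
  have hpos : ∀ s : ℝ, 0 < p.x ^ s := fun s => Real.rpow_pos_of_pos hxp s
  have n1 : 2 * p.kapG ≤ p.x ^ (4 + 3 / 16 : ℝ) := by
    have h1 : p.kapG = p.x ^ (4 + 3 / 16 : ℝ) * p.x ^ (1 / 16 : ℝ) := by
      unfold LlPt.kapG
      rw [← Real.rpow_add hxp]; norm_num
    rw [h1]
    calc 2 * (p.x ^ (4 + 3 / 16 : ℝ) * p.x ^ (1 / 16 : ℝ)) = p.x ^ (4 + 3 / 16 : ℝ) * (2 * p.x ^ (1 / 16 : ℝ)) := by ring
      _ ≤ p.x ^ (4 + 3 / 16 : ℝ) * 1 := mul_le_mul_of_nonneg_left (by linarith) (hpos _).le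
      _ = p.x ^ (4 + 3 / 16 : ℝ) := mul_one _
  have key := hmain m (p.bG (F0.wExp sS eta pS) 𝔹 dg θ) (p.hG (F0.wExp sS eta pS) 𝔹 dg θ r) r al _ NF p.kapG p.McG (p.e0G dg) (p.x ^ ag) (p.x ^ (2 * ag))
    (p.x ^ (2 * ag - ag / 4)) (p.x ^ (ag + ag / 4)) (p.x ^ (-(ag / 4))) l0 (p.x ^ (-(1 / 8) : ℝ)) (p.x ^ (2 * ag)) (p.x ^ (2 * ag)) (p.x ^ (ag / 4)) bb
    hm0 kb kh H.κ_pos (by linarith [H.M_ge]) B Q H.e0_pos ks s1 s2 Y (hpos _) hl0 (hpos _) (hpos _) (hpos _).le (hpos _).le n3 (hpos _) le_rfl n2 hbb n4 n5 n6 (hpos _)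
  filter_upwards [key] with Fs hFs
  obtain ⟨Fl, f1, f2, f3⟩ := hFs
  exact ⟨Fl, f1, f2.trans n1, fun t ht htF => (f3 t ht htF).trans n7⟩

end

end Claimed.Agent.R286
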