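import Claimed.Agent.R286.LL06.PhiDefs
import Claimed.Agent.R286.Sc.VarL
import Claimed.Agent.R286.Sc.GenDefs

/-!
# Row 286 (S0533), LL Sec. 6 (06-global.tex l.112-137): THE SCALAR COERCIVITY (G2)      (architect helper58; head L05 helper291, ADV helper130; leaves proved by helper197: 0 sorry; prefix `l6g`)

TEX[LL:global:trial-gap] l.112-137.      PURELY SCALAR (no size `m`).      NO Ito calculus, NO control: the route of helper130 / helper67:
      (G2.i)  coercive tangent inequality  `V_{α'}(0,0) ≥ V_α(0,0) + (Q0/2) ∫ (α' - α) Γ_α + 4 c_U ∫ (∫_τ^1 (α' - α))²`   ⟸   (U+) midpoint form (helper159, `Sc/UpMain.lean`, `sk_up_main`) + first variation (fields `var`, `cont` of `SvPkg`);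
      (G2.ii) first variation + penalty change `= ½ ∫ b (z-q)² ∫₀¹ (1-y) [1 - b Γ'(t + y b (z-q))] dy dv ≥ 0`   by (P5)   (layer cake + Taylor with integral remainder; `Γ' = E χ² = M2`).
NORMALISED TIME `τ = s/Q0 ∈ [0,1]`, `Q0` = the fixed clock bound: the scalar package is `S : SvPkg Q0` of helper229 (`Sc/VarL.lean`: `V_τ = -(Q0/2)(V_zz + α V_z²)`, `V(1,z) = log cosh z`).
NO NEW INTERFACE STRUCTURE.      What must be SUPPLIED for the concrete scalar model (three named debts):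
* the INSTANCE of `SvPkg Q0`                        owner helper229 (`Sc/Pkg.lean`), BOX-C chief helper183;
* `L6gU S cU` with `cU = Q0³/16 · e^{-18 Q0}`        = (U+) for ALL monotone profiles: owner helper159 (`Sc/UpMain.lean` `sk_up_main` on step solutions + `L¹`-continuity of `v0`);
* `L6gLink S macSpin`                               `f_spin(K) = V_{α_K}(0,0) - Q0/2`, annealed extension included: owner helper102 (`Sc/Link.lean`, S8).
The hypotheses `hfix` (`q = Γ(t)`) and `hP5` (= (P5) with the weight `1 - y`) of `l6g_G2` are facts of the base paths: owner LL03 (272 / 253).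
In the clock time of the paper `∫₀^{Q0} (∫_s^{Q0} (α_{K'} - α_t))² ds = Q0³ · l6gA`.
-/

set_option autoImplicit false

namespace Claimed.Agent.R286

open MeasureTheory Set Filter Topology

noncomputable section

/-- the time profile of the scalar clock `K`, in the normalised time `τ = s/Q0`; `= 1` after `K(1-)/Q0` (annealed extension) -/
def l6gAl (Q0 : ℝ) (K : ℝ → ℝ) (τ : ℝ) : ℝ := scAlK 1 K (Q0 * τ)

/-- the coercive norm `A = ∫₀¹ (∫_τ^1 (α' - α))² dτ` -/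
def l6gA (α α' : ℝ → ℝ) : ℝ := ∫ τ in (0:ℝ)..1, (∫ σ in τ..1, (α' σ - α σ)) ^ 2

/-- (U+): coercive midpoint convexity of `α ↦ V_α(0,0)` -/
def L6gU {Q0 : ℝ} (S : SvPkg Q0) (cU : ℝ) : Prop :=
  ∀ α1 α2 : ℝ → ℝ, SvCoef α1 → SvCoef α2 → cU * l6gA α1 α2 ≤ (S.v0 α1 + S.v0 α2) / 2 - S.v0 (fun s => (α1 s + α2 s) / 2)

/-- the one-site pressure is the scalar Parisi value of the time profile -/
def L6gLink {Q0 : ℝ} (S : SvPkg Q0) (fspin : (ℝ → ℝ) → ℝ) : Prop :=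
  ∀ K : ℝ → ℝ, MvClk K → K 1 ≤ Q0 → fspin K = S.v0 (l6gAl Q0 K) - Q0 / 2

theorem l6g_eqns_cite : True := by
  have := @l6gAl.eq_1
  have := @l6gA.eq_1
  have := @L6gU.eq_1
  have := @L6gLink.eq_1
  trivial

/-- **LEAF** time profiles are admissible coefficients -/
theorem l6g_al_coef {Q0 : ℝ} (hQ : 0 < Q0) (K : ℝ → ℝ) : SvCoef (l6gAl Q0 K) := by
  have hfin : ∀ τ, volume {v : ℝ | v ∈ Ioo (0:ℝ) 1 ∧ K v ≤ Q0 * τ} ≤ 1 := fun τ => by
    refine (measure_mono (t := Ioo (0:ℝ) 1) fun v hv => hv.1).trans ?_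
    simp
  refine ⟨fun s _ t _ hst => ?_, fun t _ => ⟨ENNReal.toReal_nonneg, ?_⟩⟩
  · unfold l6gAl scAlK
    refine ENNReal.toReal_mono ((hfin t).trans_lt ENNReal.one_lt_top).ne (measure_mono fun v hv => ⟨hv.1, hv.2.trans ?_⟩)
    exact mul_le_mul_of_nonneg_left hst hQ.le
  · unfold l6gAl scAlK
    have := ENNReal.toReal_mono ENNReal.one_ne_top (hfin t)
    simpa using this

/-- scaling of the coercive norm along a segment -/
theorem l6gA_seg (α α' : ℝ → ℝ) (x : ℝ) : l6gA α (fun s => α s + x * (α' s - α s)) = x ^ 2 * l6gA α α' := by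
  unfold l6gA
  rw [← intervalIntegral.integral_const_mul]
  refine intervalIntegral.integral_congr fun τ _ => ?_
  have : ∫ σ in τ..1, (α σ + x * (α' σ - α σ) - α σ) = x * ∫ σ in τ..1, (α' σ - α σ) := by
    rw [← intervalIntegral.integral_const_mul]
    refine intervalIntegral.integral_congr fun σ _ => ?_
    ring
  simp only [this]
  ring

/-- **LEAF** (G2.i).      `φ(θ) = v0 (α + θ η)`, `η = α' - α`, `d_k = 2^k (φ(2^{-k}) - φ(0))`.      (U+) at `(α, α + 2^{1-k} η)`: `d_k ≤ d_{k-1} - 4 cU A 2^{-k}`, so `d_n ≤ d_0 - 4 cU A (1 - 2^{-n})`;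
`S.var` + `S.cont`: `d_k = (Q0/2) ∫₀¹ dθ ∫ η Γ_{α + θ 2^{-k} η} → (Q0/2) ∫ η Γ_α`. -/
theorem l6g_convex {Q0 cU : ℝ} (S : SvPkg Q0) (hU : L6gU S cU) {α α' : ℝ → ℝ} (h : SvCoef α) (h' : SvCoef α') :
    S.v0 α + Q0 / 2 * (∫ τ in (0:ℝ)..1, (α' τ - α τ) * S.Gam α τ) + 4 * cU * l6gA α α' ≤ S.v0 α' := by
  set φ : ℝ → ℝ := fun θ => S.v0 (fun s => α s + θ * (α' s - α s)) with hφ
  set ψ : ℝ → ℝ := fun θ => ∫ t in (0:ℝ)..1, (α' t - α t) * S.Gam (fun s => α s + θ * (α' s - α s)) t with hψ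
  set A := l6gA α α' with hA
  have hψc : ContinuousOn ψ (Icc 0 1) := sv_psi_cont S h h'
  have e0 : φ 0 = S.v0 α := by
    simp only [hφ]; congr 1; funext s; ring
  have e1 : φ 1 = S.v0 α' := by
    simp only [hφ]; congr 1; funext s; ring
  have eψ0 : ψ 0 = ∫ τ in (0:ℝ)..1, (α' τ - α τ) * S.Gam α τ := by
    simp only [hψ]
    have : (fun s => α s + 0 * (α' s - α s)) = α := by funext s; ring
    rw [this]
  -- the variation formula along the segment
  have hvar : ∀ ε ∈ Icc (0:ℝ) 1, φ ε - φ 0 = ε * (Q0 / 2 * ∫ θ in (0:ℝ)..1, ψ (θ * ε)) := by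
    intro ε hε
    have := S.var α _ h (sv_coef_seg h h' hε)
    rw [e0]
    simp only [hφ]
    rw [this]
    have : ∀ θ : ℝ, (∫ t in (0:ℝ)..1, (α t + ε * (α' t - α t) - α t) *
        S.Gam (fun s => α s + θ * (α s + ε * (α' s - α s) - α s)) t) = ε * ψ (θ * ε) := by
      intro θ
      simp only [hψ]
      rw [← intervalIntegral.integral_const_mul]
      have ef : (fun s => α s + θ * (α s + ε * (α' s - α s) - α s)) = fun s => α s + θ * ε * (α' s - α s) := by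
        funext s; ring
      rw [ef]
      refine intervalIntegral.integral_congr fun t _ => ?_
      ring
    simp only [this]
    rw [intervalIntegral.integral_const_mul]
    ring
  -- dyadic difference quotients
  have hp : ∀ n : ℕ, ((1:ℝ) / 2) ^ n ∈ Icc (0:ℝ) 1 := fun n => ⟨by positivity, pow_le_one₀ (by norm_num) (by norm_num)⟩
  have hstep : ∀ n : ℕ, φ ((1 / 2) ^ (n + 1)) - φ 0 ≤ (φ ((1 / 2) ^ n) - φ 0) / 2 - cU * (((1:ℝ) / 2) ^ n) ^ 2 * A := by
    intro n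
    have := hU α _ h (sv_coef_seg h h' (hp n))
    rw [l6gA_seg] at this
    have em : (fun s => (α s + (α s + (1 / 2) ^ n * (α' s - α s))) / 2) = fun s => α s + (1 / 2) ^ (n + 1) * (α' s - α s) := by
      funext s; rw [pow_succ]; ring
    rw [em] at this
    have a1 : S.v0 (fun s => α s + (1 / 2) ^ (n + 1) * (α' s - α s)) = φ ((1 / 2) ^ (n + 1)) := rfl
    have a2 : S.v0 (fun s => α s + (1 / 2) ^ n * (α' s - α s)) = φ ((1 / 2) ^ n) := rfl
    rw [a1, a2, ← e0] at this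
    linarith
  have hind : ∀ n : ℕ, 2 ^ n * (φ ((1 / 2) ^ n) - φ 0) ≤ (φ 1 - φ 0) - 4 * cU * A * (1 - (1 / 2) ^ n) := by
    intro n
    induction n with
    | zero => simp
    | succ n ih =>
      have h2 : (0:ℝ) < 2 ^ (n + 1) := by positivity
      have := mul_le_mul_of_nonneg_left (hstep n) h2.le
      have q1 : (2:ℝ) ^ (n + 1) * ((φ ((1 / 2) ^ n) - φ 0) / 2 - cU * (((1:ℝ) / 2) ^ n) ^ 2 * A)
          = 2 ^ n * (φ ((1 / 2) ^ n) - φ 0) - 2 * cU * A * ((2:ℝ) ^ n * (1 / 2) ^ n) * (1 / 2) ^ n := by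
        rw [pow_succ]; ring
      have q2 : (2:ℝ) ^ n * (1 / 2) ^ n = 1 := by rw [← mul_pow]; norm_num
      rw [q1, q2] at this
      have q3 : 4 * cU * A * (1 - ((1:ℝ) / 2) ^ (n + 1)) = 4 * cU * A * (1 - (1 / 2) ^ n) + 2 * cU * A * (1 / 2) ^ n := by
        rw [pow_succ]; ring
      rw [q3]
      linarith
  -- the limit of the difference quotients
  have hlim : Tendsto (fun n : ℕ => (2:ℝ) ^ n * (φ ((1 / 2) ^ n) - φ 0)) atTop (𝓝 (Q0 / 2 * ψ 0)) := by
    have hq : ∀ n : ℕ, (2:ℝ) ^ n * (φ ((1 / 2) ^ n) - φ 0) = Q0 / 2 * ∫ θ in (0:ℝ)..1, ψ (θ * (1 / 2) ^ n) := by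
      intro n
      rw [hvar _ (hp n), ← mul_assoc, ← mul_pow]
      norm_num
    simp only [hq]
    refine Tendsto.const_mul _ ?_
    rw [Metric.tendsto_atTop]
    intro e he
    have hc0 := hψc 0 ⟨le_rfl, zero_le_one⟩
    rw [Metric.continuousWithinAt_iff] at hc0
    obtain ⟨δ, hδ, hc⟩ := hc0 (e / 2) (half_pos he)
    obtain ⟨N, hN⟩ := ((tendsto_pow_atTop_nhds_zero_of_lt_one (r := (1 / 2 : ℝ)) (by norm_num) (by norm_num)).eventually
      (gt_mem_nhds hδ)).exists_forall_of_atTop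
    refine ⟨N, fun n hn => ?_⟩
    have hmem : ∀ θ ∈ Icc (0:ℝ) 1, θ * (1 / 2) ^ n ∈ Icc (0:ℝ) 1 := fun θ hθ =>
      ⟨mul_nonneg hθ.1 (hp n).1, mul_le_one₀ hθ.2 (hp n).1 (hp n).2⟩
    have hci : ContinuousOn (fun θ : ℝ => ψ (θ * (1 / 2) ^ n)) (Icc 0 1) :=
      hψc.comp (continuous_id.mul continuous_const).continuousOn hmem
    have hi : IntervalIntegrable (fun θ : ℝ => ψ (θ * (1 / 2) ^ n)) volume 0 1 :=
      ContinuousOn.intervalIntegrable (by rw [uIcc_of_le zero_le_one]; exact hci)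
    rw [Real.dist_eq]
    have hc1 : ψ 0 = ∫ _θ in (0:ℝ)..1, ψ 0 := by simp
    rw [hc1, ← intervalIntegral.integral_sub hi intervalIntegrable_const]
    have : ‖∫ θ in (0:ℝ)..1, (ψ (θ * (1 / 2) ^ n) - ψ 0)‖ ≤ e / 2 * |1 - 0| := by
      refine intervalIntegral.norm_integral_le_of_norm_le_const fun θ hθ => ?_
      rw [uIoc_of_le zero_le_one] at hθ
      have hθ' : θ ∈ Icc (0:ℝ) 1 := ⟨hθ.1.le, hθ.2⟩
      have hd : dist (θ * (1 / 2) ^ n) 0 < δ := by
        rw [Real.dist_eq, sub_zero, abs_of_nonneg (hmem θ hθ').1]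
        calc θ * (1 / 2) ^ n ≤ 1 * (1 / 2) ^ n := mul_le_mul_of_nonneg_right hθ.2 (hp n).1
          _ < δ := by rw [one_mul]; exact hN n hn
      have := hc (hmem θ hθ') hd
      rw [Real.dist_eq] at this
      exact this.le
    rw [Real.norm_eq_abs] at this
    simp only [sub_zero, abs_one, mul_one] at this
    linarith
  have hlim2 : Tendsto (fun n : ℕ => (φ 1 - φ 0) - 4 * cU * A * (1 - (1 / 2 : ℝ) ^ n)) atTop
      (𝓝 ((φ 1 - φ 0) - 4 * cU * A * (1 - 0))) :=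
    ((tendsto_pow_atTop_nhds_zero_of_lt_one (r := (1 / 2 : ℝ)) (by norm_num) (by norm_num)).const_sub 1).const_mul _
      |>.const_sub _
  have := le_of_tendsto_of_tendsto' hlim hlim2 hind
  rw [eψ0, e0, e1] at this
  linarith

theorem l6g_clk_mem {Q0 : ℝ} (hQ : 0 < Q0) {K : ℝ → ℝ} (hK : MvClk K) (hKQ : K 1 ≤ Q0) {v : ℝ} (hv : v ∈ Icc (0:ℝ) 1) :
    K v / Q0 ∈ Icc (0:ℝ) 1 :=
  ⟨div_nonneg (hK.nonneg hv) hQ.le, (div_le_one hQ).2 ((hK.le_one hv).trans hKQ)⟩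

/-- layer cake for ONE clock: `∫ α_K g = ∫ dv ∫_{K v / Q0}^1 g` -/
theorem l6g_layer {Q0 : ℝ} (hQ : 0 < Q0) {K : ℝ → ℝ} (hK : MvClk K) (hKQ : K 1 ≤ Q0)
    {g : ℝ → ℝ} (hg : ContinuousOn g (Icc (0:ℝ) 1)) :
    IntervalIntegrable (fun v => ∫ τ in (K v / Q0)..1, g τ) volume 0 1 ∧
      ∫ τ in (0:ℝ)..1, l6gAl Q0 K τ * g τ = ∫ v in (0:ℝ)..1, ∫ τ in (K v / Q0)..1, g τ := by
  set κ : ℝ → ℝ := fun v => IccExtend (zero_le_one' ℝ) (fun x : Icc (0:ℝ) 1 => K x) v / Q0 with hκ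
  have hκm : Monotone κ := by
    intro x y hxy
    refine div_le_div_of_nonneg_right ?_ hQ.le
    have hm : Monotone (fun x : Icc (0:ℝ) 1 => K x) := fun a b hab => hK.1 a.2 b.2 hab
    exact hm.IccExtend (zero_le_one' ℝ) hxy
  have hκe : ∀ v ∈ Icc (0:ℝ) 1, κ v = K v / Q0 := fun v hv => by
    simp only [hκ]; rw [IccExtend_of_mem _ _ hv]
  set ν : Measure ℝ := volume.restrict (Ioo (0:ℝ) 1) with hν
  have : IsProbabilityMeasure ν := ⟨by simp [hν]⟩
  set μ : Measure ℝ := ν.map κ with hμ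
  have : IsProbabilityMeasure μ := Measure.isProbabilityMeasure_map hκm.measurable.aemeasurable
  obtain ⟨hi, hfub⟩ := sv_fubini μ hg
  have hcdf : ∀ τ, svCdf μ τ = l6gAl Q0 K τ := by
    intro τ
    unfold svCdf l6gAl scAlK Measure.real
    congr 1
    rw [hμ, Measure.map_apply hκm.measurable measurableSet_Iic, hν,
      Measure.restrict_apply (hκm.measurable measurableSet_Iic)]
    congr 1
    ext v
    constructor
    · rintro ⟨h1, h2⟩
      refine ⟨h2, ?_⟩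
      have : κ v ≤ τ := h1
      rw [hκe v ⟨h2.1.le, h2.2.le⟩, div_le_iff₀ hQ] at this
      linarith
    · rintro ⟨h1, h2⟩
      refine ⟨?_, h1⟩
      show κ v ≤ τ
      rw [hκe v ⟨h1.1.le, h1.2.le⟩, div_le_iff₀ hQ]
      linarith
  have hcomp : Integrable (fun v => svGraw g (κ v)) ν :=
    (integrable_map_measure hi.aestronglyMeasurable hκm.measurable.aemeasurable).1 hi
  have heq : ∀ v ∈ Ioo (0:ℝ) 1, svGraw g (κ v) = ∫ τ in (K v / Q0)..1, g τ := fun v hv => by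
    have hv' : v ∈ Icc (0:ℝ) 1 := ⟨hv.1.le, hv.2.le⟩
    rw [hκe v hv', sv_Graw_eq (l6g_clk_mem hQ hK hKQ hv')]
  have hcomp2 : IntegrableOn (fun v => ∫ τ in (K v / Q0)..1, g τ) (Ioo (0:ℝ) 1) volume :=
    (integrableOn_congr_fun heq measurableSet_Ioo).1 hcomp
  refine ⟨?_, ?_⟩
  · rw [intervalIntegrable_iff_integrableOn_Ioo_of_le zero_le_one]
    exact hcomp2
  · have e1 : ∫ τ in (0:ℝ)..1, l6gAl Q0 K τ * g τ = ∫ τ in (0:ℝ)..1, svCdf μ τ * g τ := by
      simp only [hcdf]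
    rw [e1, hfub, hμ, integral_map hκm.measurable.aemeasurable hi.aestronglyMeasurable,
      intervalIntegral.integral_of_le zero_le_one, integral_Ioc_eq_integral_Ioo]
    exact setIntegral_congr_fun measurableSet_Ioo heq

/-- **LEAF** layer cake: `α_K(τ) = ∫₀¹ 1[K v ≤ Q0 τ] dv`, Fubini. -/
theorem l6g_first_var {Q0 : ℝ} (hQ : 0 < Q0) {K K' : ℝ → ℝ} (hK : MvClk K) (hKQ : K 1 ≤ Q0) (hK' : MvClk K') (hKQ' : K' 1 ≤ Q0)
    {g : ℝ → ℝ} (hg : ContinuousOn g (Icc (0:ℝ) 1)) :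
    ∫ τ in (0:ℝ)..1, (l6gAl Q0 K' τ - l6gAl Q0 K τ) * g τ = - ∫ v in (0:ℝ)..1, ∫ τ in (K v / Q0)..(K' v / Q0), g τ := by
  obtain ⟨i1, e1⟩ := l6g_layer hQ hK hKQ hg
  obtain ⟨i2, e2⟩ := l6g_layer hQ hK' hKQ' hg
  have h01 : (0:ℝ) ∈ Icc (0:ℝ) 1 := ⟨le_rfl, zero_le_one⟩
  have h11 : (1:ℝ) ∈ Icc (0:ℝ) 1 := ⟨zero_le_one, le_rfl⟩
  have hgu : ContinuousOn g (uIcc (0:ℝ) 1) := by rw [uIcc_of_le zero_le_one]; exact hg
  have j1 : IntervalIntegrable (fun τ => l6gAl Q0 K τ * g τ) volume 0 1 :=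
    (sv_coef_int (l6g_al_coef hQ K) h01 h11).mul_continuousOn hgu
  have j2 : IntervalIntegrable (fun τ => l6gAl Q0 K' τ * g τ) volume 0 1 :=
    (sv_coef_int (l6g_al_coef hQ K') h01 h11).mul_continuousOn hgu
  have s1 : ∫ τ in (0:ℝ)..1, (l6gAl Q0 K' τ - l6gAl Q0 K τ) * g τ =
      (∫ τ in (0:ℝ)..1, l6gAl Q0 K' τ * g τ) - ∫ τ in (0:ℝ)..1, l6gAl Q0 K τ * g τ := by
    rw [← intervalIntegral.integral_sub j2 j1]
    refine intervalIntegral.integral_congr fun τ _ => ?_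
    ring
  rw [s1, e1, e2, ← intervalIntegral.integral_sub i2 i1, ← intervalIntegral.integral_neg]
  refine intervalIntegral.integral_congr fun v hv => ?_
  rw [uIcc_of_le zero_le_one] at hv
  have m1 := l6g_clk_mem hQ hK hKQ hv
  have m2 := l6g_clk_mem hQ hK' hKQ' hv
  have gi : ∀ {x y : ℝ}, x ∈ Icc (0:ℝ) 1 → y ∈ Icc (0:ℝ) 1 → IntervalIntegrable g volume x y := fun hx hy =>
    (hg.mono (uIcc_subset_Icc hx hy)).intervalIntegrable
  have := intervalIntegral.integral_add_adjacent_intervals (gi m1 m2) (gi m2 h11)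
  linarith

/-- Taylor with integral remainder for a primitive, continuous integrand on the line -/
theorem l6g_taylor_aux {f : ℝ → ℝ} (hf : Continuous f) (a b : ℝ) :
    ∫ τ in a..b, (∫ s in a..τ, f s) = (b - a) ^ 2 * ∫ y in (0:ℝ)..1, (1 - y) * f (a + y * (b - a)) := by
  -- integration by parts
  have h1 : ∫ τ in a..b, (∫ s in a..τ, f s) = ∫ τ in a..b, (b - τ) * f τ := by
    have hu : ∀ x ∈ uIcc a b, HasDerivAt (fun τ => ∫ s in a..τ, f s) (f x) x := fun x _ =>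
      intervalIntegral.integral_hasDerivAt_right (hf.intervalIntegrable _ _)
        hf.stronglyMeasurable.stronglyMeasurableAtFilter hf.continuousAt
    have hv : ∀ x ∈ uIcc a b, HasDerivAt (fun τ : ℝ => τ - b) 1 x := fun x _ => (hasDerivAt_id x).sub_const b
    have := intervalIntegral.integral_mul_deriv_eq_deriv_mul hu hv (hf.intervalIntegrable _ _) intervalIntegrable_const
    simp only [mul_one, sub_self, mul_zero, intervalIntegral.integral_same, zero_mul, zero_sub] at this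
    rw [this, ← intervalIntegral.integral_neg]
    refine intervalIntegral.integral_congr fun τ _ => ?_
    ring
  rw [h1]
  by_cases hab : b - a = 0
  · have : b = a := by linarith
    subst this
    simp
  · have h2 := intervalIntegral.integral_comp_add_mul (a := 0) (b := 1) (fun s => (b - s) * f s) hab a
    simp only [mul_zero, add_zero, mul_one, smul_eq_mul] at h2
    have h3 : a + (b - a) = b := by ring
    rw [h3] at h2
    have h4 : ∫ y in (0:ℝ)..1, (1 - y) * f (a + y * (b - a)) =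
        (b - a)⁻¹ * ∫ y in (0:ℝ)..1, (b - (a + (b - a) * y)) * f (a + (b - a) * y) := by
      rw [← intervalIntegral.integral_const_mul]
      refine intervalIntegral.integral_congr fun y _ => ?_
      have : a + y * (b - a) = a + (b - a) * y := by ring
      simp only [this]
      field_simp
      ring
    rw [h4, h2]
    field_simp

/-- **LEAF** Taylor with integral remainder in the clock (`Γ' = Q0 · M2`: fields `Gam_eq`, `M2_cont`) -/
theorem l6g_taylor {Q0 : ℝ} (S : SvPkg Q0) {α : ℝ → ℝ} (h : SvCoef α) {τ0 τ1 : ℝ} (h0 : τ0 ∈ Icc (0:ℝ) 1) (h1 : τ1 ∈ Icc (0:ℝ) 1) :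
    ∫ τ in τ0..τ1, S.Gam α τ = S.Gam α τ0 * (τ1 - τ0) + Q0 * (τ1 - τ0) ^ 2 * ∫ y in (0:ℝ)..1, (1 - y) * S.M2 α (τ0 + y * (τ1 - τ0)) := by
  set f : ℝ → ℝ := IccExtend (zero_le_one' ℝ) (fun x : Icc (0:ℝ) 1 => S.M2 α x) with hf
  have hfc : Continuous f := by
    have := (S.M2_cont α h).domRestrict
    exact this.Icc_extend'
  have hfe : ∀ x ∈ Icc (0:ℝ) 1, f x = S.M2 α x := fun x hx => by
    rw [hf, IccExtend_of_mem _ _ hx]
  have hsub : uIcc τ0 τ1 ⊆ Icc (0:ℝ) 1 := uIcc_subset_Icc h0 h1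
  have hG : ∀ τ ∈ uIcc τ0 τ1, S.Gam α τ = S.Gam α τ0 + Q0 * ∫ s in τ0..τ, f s := by
    intro τ hτ
    have := sv_Gam_sub S h h0 (hsub hτ)
    rw [intervalIntegral.integral_const_mul] at this
    have e : ∫ s in τ0..τ, f s = ∫ s in τ0..τ, S.M2 α s :=
      intervalIntegral.integral_congr fun s hs => hfe s (uIcc_subset_Icc h0 (hsub hτ) hs)
    rw [e]
    linarith
  rw [intervalIntegral.integral_congr hG]
  have hcont : Continuous fun τ => ∫ s in τ0..τ, f s := by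
    refine continuous_iff_continuousAt.2 fun x => ?_
    exact (intervalIntegral.integral_hasDerivAt_right (hfc.intervalIntegrable _ _)
        hfc.stronglyMeasurable.stronglyMeasurableAtFilter hfc.continuousAt).continuousAt
  rw [intervalIntegral.integral_add intervalIntegrable_const ((hcont.const_mul Q0).intervalIntegrable _ _),
    intervalIntegral.integral_const, intervalIntegral.integral_const_mul, l6g_taylor_aux hfc]
  have e2 : ∫ y in (0:ℝ)..1, (1 - y) * f (τ0 + y * (τ1 - τ0)) = ∫ y in (0:ℝ)..1, (1 - y) * S.M2 α (τ0 + y * (τ1 - τ0)) := by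
    refine intervalIntegral.integral_congr fun y hy => ?_
    rw [uIcc_of_le zero_le_one] at hy
    have hm : τ0 + y * (τ1 - τ0) ∈ Icc (0:ℝ) 1 := by
      have e : τ0 + y * (τ1 - τ0) = (1 - y) * τ0 + y * τ1 := by ring
      rw [e]
      constructor
      · nlinarith [mul_nonneg (sub_nonneg.2 hy.2) h0.1, mul_nonneg hy.1 h1.1]
      · nlinarith [mul_le_mul_of_nonneg_left h0.2 (sub_nonneg.2 hy.2), mul_le_mul_of_nonneg_left h1.2 hy.1]
    simp only [hfe _ hm]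
  rw [e2, smul_eq_mul]
  ring

/-- **LEAF** (G2.ii).      Pointwise in `v` (from `l6g_taylor`, `τ0 = t/Q0`, `τ1 - τ0 = b (z - q)/Q0`, `q = Γ(τ0)`):
`-(Q0/2) ∫_{τ0}^{τ1} Γ + ¼ b (z² - q²) = ½ b (z-q)² ∫₀¹ (1-y) (1 - b M2(τ0 + y (τ1-τ0))) dy ≥ 0`; integrate (all integrands are bounded measurable: `MvBM`). -/
theorem l6g_rem_nonneg {Q0 : ℝ} (hQ : 0 < Q0) (S : SvPkg Q0) {b hs q z : ℝ → ℝ} (hb : MvClk b) (hh : MvClk hs) (hq : MvQt q) (hz : MvBM z)
    (ht : hs 1 + b 1 * q 1 ≤ Q0) (hK : MvClk (fun v => hs v + b v * z v)) (hKQ : hs 1 + b 1 * z 1 ≤ Q0)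
    (hfix : ∀ v ∈ Ioo (0:ℝ) 1, q v = S.Gam (l6gAl Q0 fun v => hs v + b v * q v) ((hs v + b v * q v) / Q0))
    (hP5 : ∀ v ∈ Ioo (0:ℝ) 1, 0 ≤ ∫ y in (0:ℝ)..1, (1 - y) *
      (1 - b v * S.M2 (l6gAl Q0 fun v => hs v + b v * q v) ((hs v + b v * q v + y * (b v * (z v - q v))) / Q0))) :
    0 ≤ -(Q0 / 2 * ∫ v in (0:ℝ)..1, ∫ τ in ((hs v + b v * q v) / Q0)..((hs v + b v * z v) / Q0), S.Gam (l6gAl Q0 fun v => hs v + b v * q v) τ)
      + 1 / 4 * (∫ v in (0:ℝ)..1, b v * z v ^ 2) - 1 / 4 * ∫ v in (0:ℝ)..1, b v * q v ^ 2 := by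
  have ht' : MvClk (fun v => hs v + b v * q v) := hh.add (hb.mul hq.1)
  set α : ℝ → ℝ := l6gAl Q0 fun v => hs v + b v * q v with hα
  have hc : SvCoef α := l6g_al_coef hQ _
  have hG : ContinuousOn (S.Gam α) (Icc 0 1) := sv_Gam_cont S hc
  have h01 : (0:ℝ) ∈ Icc (0:ℝ) 1 := ⟨le_rfl, zero_le_one⟩
  have h11 : (1:ℝ) ∈ Icc (0:ℝ) 1 := ⟨zero_le_one, le_rfl⟩
  have gi : ∀ {x y : ℝ}, x ∈ Icc (0:ℝ) 1 → y ∈ Icc (0:ℝ) 1 → IntervalIntegrable (S.Gam α) volume x y := fun hx hy =>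
    (hG.mono (uIcc_subset_Icc hx hy)).intervalIntegrable
  -- integrability
  have i1 := (l6g_layer hQ ht' ht hG).1
  have i2 := (l6g_layer hQ hK hKQ hG).1
  have iI : IntervalIntegrable (fun v => ∫ τ in ((hs v + b v * q v) / Q0)..((hs v + b v * z v) / Q0), S.Gam α τ) volume 0 1 := by
    refine (i1.sub i2).congr fun v hv => ?_
    rw [uIoc_of_le zero_le_one] at hv
    have hv' : v ∈ Icc (0:ℝ) 1 := ⟨hv.1.le, hv.2⟩
    have m1 := l6g_clk_mem hQ ht' ht hv'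
    have m2 := l6g_clk_mem hQ hK hKQ hv'
    have := intervalIntegral.integral_add_adjacent_intervals (gi m1 m2) (gi m2 h11)
    show (∫ τ in ((hs v + b v * q v) / Q0)..1, S.Gam α τ) - (∫ τ in ((hs v + b v * z v) / Q0)..1, S.Gam α τ) = _
    linarith
  have iz : IntervalIntegrable (fun v => b v * z v ^ 2) volume 0 1 := by
    have := (hb.bm.mul (hz.mul hz)).ii h01 h11
    refine this.congr fun v _ => ?_
    show b v * (z v * z v) = b v * z v ^ 2
    ring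
  have iq : IntervalIntegrable (fun v => b v * q v ^ 2) volume 0 1 := by
    have := (hb.bm.mul (hq.1.bm.mul hq.1.bm)).ii h01 h11
    refine this.congr fun v _ => ?_
    show b v * (q v * q v) = b v * q v ^ 2
    ring
  have e : -(Q0 / 2 * ∫ v in (0:ℝ)..1, ∫ τ in ((hs v + b v * q v) / Q0)..((hs v + b v * z v) / Q0), S.Gam α τ)
      + 1 / 4 * (∫ v in (0:ℝ)..1, b v * z v ^ 2) - 1 / 4 * ∫ v in (0:ℝ)..1, b v * q v ^ 2 =
      ∫ v in (0:ℝ)..1, (-(Q0 / 2 * ∫ τ in ((hs v + b v * q v) / Q0)..((hs v + b v * z v) / Q0), S.Gam α τ)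
        + 1 / 4 * (b v * z v ^ 2) - 1 / 4 * (b v * q v ^ 2)) := by
    have n1 : IntervalIntegrable (fun v => -(Q0 / 2 * ∫ τ in ((hs v + b v * q v) / Q0)..((hs v + b v * z v) / Q0), S.Gam α τ))
        volume 0 1 := (iI.const_mul _).neg
    rw [intervalIntegral.integral_sub (n1.add (iz.const_mul _)) (iq.const_mul _),
      intervalIntegral.integral_add n1 (iz.const_mul _), intervalIntegral.integral_neg,
      intervalIntegral.integral_const_mul, intervalIntegral.integral_const_mul, intervalIntegral.integral_const_mul]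
  rw [e, intervalIntegral.integral_of_le zero_le_one, integral_Ioc_eq_integral_Ioo]
  refine setIntegral_nonneg measurableSet_Ioo fun v hv => ?_
  have hv' : v ∈ Icc (0:ℝ) 1 := ⟨hv.1.le, hv.2.le⟩
  have m1 := l6g_clk_mem hQ ht' ht hv'
  have m2 := l6g_clk_mem hQ hK hKQ hv'
  have T := l6g_taylor S hc m1 m2
  rw [← hfix v hv] at T
  set J : ℝ := ∫ y in (0:ℝ)..1, (1 - y) * S.M2 α ((hs v + b v * q v) / Q0 + y * ((hs v + b v * z v) / Q0 - (hs v + b v * q v) / Q0)) with hJ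
  have hP := hP5 v hv
  have harg : ∀ y : ℝ, (hs v + b v * q v + y * (b v * (z v - q v))) / Q0 =
      (hs v + b v * q v) / Q0 + y * ((hs v + b v * z v) / Q0 - (hs v + b v * q v) / Q0) := by
    intro y; field_simp; ring
  have hcM : ContinuousOn (fun y : ℝ => (1 - y) * S.M2 α ((hs v + b v * q v) / Q0 + y * ((hs v + b v * z v) / Q0 - (hs v + b v * q v) / Q0)))
      (Icc 0 1) := by
    refine (continuous_const.sub continuous_id).continuousOn.mul ((S.M2_cont α hc).comp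
      (continuous_const.add (continuous_id.mul continuous_const)).continuousOn fun y hy => ?_)
    set τ0 := (hs v + b v * q v) / Q0
    set τ1 := (hs v + b v * z v) / Q0
    have e : τ0 + y * (τ1 - τ0) = (1 - y) * τ0 + y * τ1 := by ring
    show τ0 + y * (τ1 - τ0) ∈ Icc (0:ℝ) 1
    rw [e]
    constructor
    · nlinarith [mul_nonneg (sub_nonneg.2 hy.2) m1.1, mul_nonneg hy.1 m2.1]
    · nlinarith [mul_le_mul_of_nonneg_left m1.2 (sub_nonneg.2 hy.2), mul_le_mul_of_nonneg_left m2.2 hy.1]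
  have hiM := ContinuousOn.intervalIntegrable (μ := volume) (by rw [uIcc_of_le zero_le_one]; exact hcM)
  have hP' : ∫ y in (0:ℝ)..1, (1 - y) *
      (1 - b v * S.M2 α ((hs v + b v * q v + y * (b v * (z v - q v))) / Q0)) = 1 / 2 - b v * J := by
    have e1 : ∀ y : ℝ, (1 - y) * (1 - b v * S.M2 α ((hs v + b v * q v + y * (b v * (z v - q v))) / Q0)) =
        (1 - y) - b v * ((1 - y) * S.M2 α ((hs v + b v * q v) / Q0 + y * ((hs v + b v * z v) / Q0 - (hs v + b v * q v) / Q0))) := by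
      intro y; rw [harg]; ring
    simp only [e1]
    have c1 : IntervalIntegrable (fun y : ℝ => 1 - y) volume 0 1 :=
      (continuous_const.sub continuous_id).intervalIntegrable _ _
    have c2 : IntervalIntegrable (fun y : ℝ => y) volume 0 1 := continuous_id.intervalIntegrable _ _
    rw [intervalIntegral.integral_sub c1 (hiM.const_mul _), intervalIntegral.integral_const_mul]
    congr 1
    rw [intervalIntegral.integral_sub intervalIntegrable_const c2]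
    simp
    norm_num
  rw [hP'] at hP
  rw [T]
  have hd : (hs v + b v * z v) / Q0 - (hs v + b v * q v) / Q0 = b v * (z v - q v) / Q0 := by field_simp; ring
  rw [hd]
  have hfin : -(Q0 / 2 * (q v * (b v * (z v - q v) / Q0) + Q0 * (b v * (z v - q v) / Q0) ^ 2 * J))
      + 1 / 4 * (b v * z v ^ 2) - 1 / 4 * (b v * q v ^ 2) = 1 / 2 * (b v * (z v - q v) ^ 2) * (1 / 2 - b v * J) := by
    field_simp
    ring
  rw [hfin]
  exact mul_nonneg (mul_nonneg (by norm_num) (mul_nonneg (hb.nonneg hv') (sq_nonneg _))) hP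

/-- **(G2)**, glue.      `F_* = mvG fspin b hs q`, `K' = h_* + b z`, `t = h_* + b q`. -/
theorem l6g_G2 {Q0 cU : ℝ} (hQ : 0 < Q0) (S : SvPkg Q0) (hU : L6gU S cU) (fspin : (ℝ → ℝ) → ℝ) (hL : L6gLink S fspin)
    {b hs q z : ℝ → ℝ} (hb : MvClk b) (hh : MvClk hs) (hq : MvQt q) (hz : MvBM z)
    (ht : hs 1 + b 1 * q 1 ≤ Q0) (hK : MvClk (fun v => hs v + b v * z v)) (hKQ : hs 1 + b 1 * z 1 ≤ Q0)
    (hfix : ∀ v ∈ Ioo (0:ℝ) 1, q v = S.Gam (l6gAl Q0 fun v => hs v + b v * q v) ((hs v + b v * q v) / Q0))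
    (hP5 : ∀ v ∈ Ioo (0:ℝ) 1, 0 ≤ ∫ y in (0:ℝ)..1, (1 - y) *
      (1 - b v * S.M2 (l6gAl Q0 fun v => hs v + b v * q v) ((hs v + b v * q v + y * (b v * (z v - q v))) / Q0))) :
    mvG fspin b hs q + 4 * cU * l6gA (l6gAl Q0 fun v => hs v + b v * q v) (l6gAl Q0 fun v => hs v + b v * z v) ≤ mvG fspin b hs z := by
  have ht' : MvClk (fun v => hs v + b v * q v) := hh.add (hb.mul hq.1)
  have h1 := l6g_convex S hU (l6g_al_coef hQ fun v => hs v + b v * q v) (l6g_al_coef hQ fun v => hs v + b v * z v)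
  have h2 := l6g_first_var hQ ht' ht hK hKQ (sv_Gam_cont S (l6g_al_coef hQ fun v => hs v + b v * q v))
  have h3 := l6g_rem_nonneg hQ S hb hh hq hz ht hK hKQ hfix hP5
  have h4 := hL _ ht' ht
  have h5 := hL _ hK hKQ
  rw [h2] at h1
  simp only [mvG]
  rw [h4, h5]
  linarith

/-- `A ≥ 0` -/
theorem l6gA_nonneg (α α' : ℝ → ℝ) : 0 ≤ l6gA α α' :=
  intervalIntegral.integral_nonneg zero_le_one fun _ _ => sq_nonneg _

/-- **the hypothesis `hG2` of `l6p_main`** (`Φ(1) ≥ F_*`): (G2) at `z = r` in the density box; `Q0 ≥ h_*(1) + 2 b(1)`. -/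
theorem l6g_hG2 {Q0 cU : ℝ} (hQ : 0 < Q0) (hcU : 0 ≤ cU) (S : SvPkg Q0) (hU : L6gU S cU) (fspin : (ℝ → ℝ) → ℝ) (hL : L6gLink S fspin)
    {b hs q : ℝ → ℝ} (hb : MvClk b) (hh : MvClk hs) (hq : MvQt q) (hQ0 : hs 1 + b 1 * 2 ≤ Q0)
    (hfix : ∀ v ∈ Ioo (0:ℝ) 1, q v = S.Gam (l6gAl Q0 fun v => hs v + b v * q v) ((hs v + b v * q v) / Q0))
    (hP5 : ∀ z0 ∈ Icc (0:ℝ) 2, ∀ v ∈ Ioo (0:ℝ) 1, 0 ≤ ∫ y in (0:ℝ)..1, (1 - y) *
      (1 - b v * S.M2 (l6gAl Q0 fun v => hs v + b v * q v) ((hs v + b v * q v + y * (b v * (z0 - q v))) / Q0)))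
    {κ M : ℝ} (hκ : 0 < κ) : ∀ r ∈ l6pCls κ M, mvG fspin b hs q ≤ mvG fspin b hs r := by
  intro r hr
  obtain ⟨al, B, Q⟩ := hr
  have O : TlOk (fun _ : ℝ => κ) (fun _ : ℝ => M) 0 2 0 1 κ M :=
    ⟨by norm_num, hκ, intervalIntegrable_const, fun _ _ => le_rfl, continuousOn_const, fun _ _ => le_rfl⟩
  have hrc : MvClk r := ⟨Q.monoOn B O, (Q.mem 0 ⟨le_rfl, zero_le_one⟩).1⟩
  have hb1 : 0 ≤ b 1 := hb.nonneg ⟨zero_le_one, le_rfl⟩
  have h1 : (1:ℝ) ∈ Icc (0:ℝ) 1 := ⟨zero_le_one, le_rfl⟩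
  have key := l6g_G2 hQ S hU fspin hL hb hh hq hrc.bm
    (by nlinarith [hq.2]) (hh.add (hb.mul hrc)) (by nlinarith [(Q.mem 1 h1).2]) hfix
    (fun v hv => hP5 (r v) (Q.mem v ⟨hv.1.le, hv.2.le⟩) v hv)
  have := mul_nonneg (mul_nonneg (by norm_num : (0:ℝ) ≤ 4) hcU)
    (l6gA_nonneg (l6gAl Q0 fun v => hs v + b v * q v) (l6gAl Q0 fun v => hs v + b v * r v))
  linarith

end

end Claimed.Agent.R286
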