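import Claimed.Agent.R286.LL06.G3Exit
import Claimed.Agent.R286.LL06.G2
import Claimed.Agent.R286.Exit.ScUp
import Claimed.Agent.R286.LL.PathsBase
import Claimed.Agent.R286.LL.PathsSwC
import Claimed.Agent.R286.LL.PathsClkC2

/-!
# Row 286 (S0533), LL Section 6: THE EXIT (G2) AT PATH LEVEL, AT THE CONCRETE BASE `llBase`      (owner helper159; prefix `l6e_`)

TEX[LL:global:trial-gap] 06-global.tex l.106-137.      Vocabulary: `LL06/Contract.lean` (291), `LL06/G2.lean` (58 / 197), `LL/PathsDefs.lean` (272), `Sc/Pkg.lean` (229).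
* sec. 1  time distributions: `l6e_alK_congr` (`scAlK` reads the clock on `(0,1)`), **`l6e_alK_inv`** (the distribution of the generalised inverse of a mass profile IS the profile), `l6e_A_scale` (`Q0³ · l6gA` = the clock-time norm);
* sec. 2  the scalar objects of `pkPkg Q0` at a time profile = `llMod.Gam`, `llMod.Gam1` at the mass profile (`l6e_pk_Gam`, `l6e_pk_M2`; from `llMod_id`);
* sec. 3  **`l6e_core`** = (G2), non-asymptotic, for clocks `b, h_*, q, t = h_* + b q` with time distribution `A`, `q = Γ̂_A(t)`, (P5) with the weight `1 - y`; constant `c = e^{-18 Q0}/4`;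
* sec. 4  dictionary at a direct point (`l6e_tN`, `l6e_split`, `l6e_qN`, `l6e_p5`);   `l6e_bN_le` (`bN ≤ T + 2` eventually, from (P9): a bound which does NOT depend on the exponents);
* sec. 5  **`ll06_prof`** : `LlDirProf 𝔹 F → Ll06Prof 𝔹 F`;   **`ll06_g2`** : `(∀ exponents, Ll06Prof llBase (F0.wExp ..)) → Ll06G2Exit llBase F0`, `Q0 = 3 T + 4`, `c = e^{-18 Q0}/4` (constants BEFORE the exponents);   `ll06_g2_dir` = the same from `LlDirProf`.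
`Ll06Prof` / `LlDirProf` (281, `LL/PathsSwC.lean`: `A_λ = A_0 + λ P` is a mass profile) is NOT a consequence of `LlSec3` + `LlBaseProfile` (it needs `z_0` small: `lsw_dirProf`): it has to be a FIELD.
-/

set_option autoImplicit false

namespace Claimed.Agent.R286

open MeasureTheory Set Filter Topology

noncomputable section

/-! ## 1. time distributions -/

/-- `scAlK` reads the clock on the open interval only -/
theorem l6e_alK_congr {K K' : ℝ → ℝ} (h : ∀ v ∈ Ioo (0:ℝ) 1, K v = K' v) : scAlK 1 K = scAlK 1 K' := by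
  funext t
  unfold scAlK
  congr 2
  ext v
  constructor
  · rintro ⟨hv, h1⟩
    exact ⟨hv, by rw [← h v hv]; exact h1⟩
  · rintro ⟨hv, h1⟩
    exact ⟨hv, by rw [h v hv]; exact h1⟩

theorem l6e_vol {a : ℝ} (ha : a ∈ Icc (0:ℝ) 1) : (volume (Ioo (0:ℝ) 1 ∩ Iic a)).toReal = a := by
  rcases ha.2.eq_or_lt with h1 | h1
  · have e : Ioo (0:ℝ) 1 ∩ Iic a = Ioo 0 1 := by
      ext v
      simp only [mem_inter_iff, mem_Ioo, mem_Iic]
      constructor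
      · exact fun h => h.1
      · exact fun h => ⟨h, by linarith [h.2]⟩
    rw [e, Real.volume_Ioo, h1]
    simp
  · have e : Ioo (0:ℝ) 1 ∩ Iic a = Ioc 0 a := by
      ext v
      simp only [mem_inter_iff, mem_Ioo, mem_Iic, mem_Ioc]
      constructor
      · exact fun h => ⟨h.1.1, h.2⟩
      · exact fun h => ⟨⟨h.1, by linarith [h.2]⟩, h.2⟩
    rw [e, Real.volume_Ioc, sub_zero, ENNReal.toReal_ofReal ha.1]

/-- **the distribution of the generalised inverse of a mass profile is the profile** -/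
theorem l6e_alK_inv {A : ℝ → ℝ} {τ : ℝ} (hA : LpqProf A τ 1) {K : ℝ → ℝ} (hK : ∀ v ∈ Ioo (0:ℝ) 1, K v = llInv A v)
    {ξ : ℝ} (hξ : 0 ≤ ξ) : scAlK 1 K ξ = A ξ := by
  have e : {v : ℝ | v ∈ Ioo (0:ℝ) 1 ∧ K v ≤ ξ} = Ioo 0 1 ∩ Iic (A ξ) := by
    ext v
    constructor
    · rintro ⟨hv, h1⟩
      rw [hK v hv] at h1
      exact ⟨hv, (lpq_galois hA v ξ hv.2.le hξ).1 h1⟩
    · rintro ⟨hv, h1⟩
      refine ⟨hv, ?_⟩
      rw [hK v hv]
      exact (lpq_galois hA v ξ hv.2.le hξ).2 h1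
  unfold scAlK
  rw [e]
  exact l6e_vol (hA.mem_Icc ξ hξ)

/-- a profile which is the time distribution of a bounded clock is admissible for the scalar model -/
theorem l6e_lsc {A K : ℝ → ℝ} {Ξ : ℝ} (hΞ : 0 ≤ Ξ) (he : ∀ r, 0 ≤ r → scAlK 1 K r = A r) (hK : ∀ v ∈ Ioo (0:ℝ) 1, K v ≤ Ξ) :
    LscProf 1 Ξ A := by
  refine ⟨fun s hs s' hs' hss => ?_, ?_, fun ξ hξ => ?_, hΞ⟩
  · rw [← he s hs, ← he s' hs']
    exact slc_alK_mono 1 K hss
  · rw [← he 0 le_rfl]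
    exact slc_alK_nonneg 1 K 0
  · rw [← he ξ (hΞ.trans hξ)]
    have e : {v : ℝ | v ∈ Ioo (0:ℝ) 1 ∧ K v ≤ ξ} = Ioo 0 1 := by
      ext v
      exact ⟨fun h => h.1, fun h => ⟨h, (hK v h).trans hξ⟩⟩
    unfold scAlK
    rw [e, Real.volume_Ioo]
    simp

/-- the coercive norm in the clock time -/
theorem l6e_A_scale {Q0 : ℝ} (hQ : 0 < Q0) (K K' : ℝ → ℝ) :
    l6gA (l6gAl Q0 K) (l6gAl Q0 K') = (Q0 ^ 3)⁻¹ * ∫ s in (0:ℝ)..Q0, (∫ y in s..Q0, (scAlK 1 K' y - scAlK 1 K y)) ^ 2 := by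
  unfold l6gA l6gAl
  have h1 : ∀ τ : ℝ, ∫ σ in τ..1, (scAlK 1 K' (Q0 * σ) - scAlK 1 K (Q0 * σ))
      = Q0⁻¹ * ∫ y in (Q0 * τ)..Q0, (scAlK 1 K' y - scAlK 1 K y) := by
    intro τ
    have := intervalIntegral.integral_comp_mul_left (a := τ) (b := 1) (fun y => scAlK 1 K' y - scAlK 1 K y) hQ.ne'
    rw [this, mul_one, smul_eq_mul]
  simp only [h1]
  have h2 := intervalIntegral.integral_comp_mul_left (a := 0) (b := 1)
    (fun s => (Q0⁻¹ * ∫ y in s..Q0, (scAlK 1 K' y - scAlK 1 K y)) ^ 2) hQ.ne'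
  rw [h2, mul_zero, mul_one, smul_eq_mul]
  simp only [mul_pow]
  rw [intervalIntegral.integral_const_mul]
  field_simp

/-! ## 2. the scalar package at a time profile -/

theorem l6e_dy_congr {α β : ℝ → ℝ} {τ : ℝ} (hτ : 0 ≤ τ) (h : ∀ r, 0 ≤ r → α r = β r) : scDy α τ = scDy β τ := by
  funext n
  unfold scDy
  refine List.map_congr_left fun k _ => ?_
  rw [h _ (by positivity)]

theorem l6e_Gam_congr (F : ℝ → ℝ) {α β : ℝ → ℝ} {τ : ℝ} (hτ : 0 ≤ τ) (h : ∀ r, 0 ≤ r → α r = β r) :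
    scaGam F α τ = scaGam F β τ := by
  have e := l6e_dy_congr hτ h
  funext t
  unfold scaGam scaEx scPa scaD scVa
  rw [e]

theorem l6e_M2_congr (F : ℝ → ℝ) {α β : ℝ → ℝ} {τ : ℝ} (hτ : 0 ≤ τ) (h : ∀ r, 0 ≤ r → α r = β r) :
    scaM2 F α τ = scaM2 F β τ := by
  have e := l6e_dy_congr hτ h
  funext t
  unfold scaM2 scaEx scPa scaD scVa
  rw [e]

theorem l6e_pkA {Q0 : ℝ} (hQ : 0 < Q0) (K : ℝ → ℝ) : pkA Q0 (l6gAl Q0 K) = scAlK 1 K := by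
  funext t
  unfold pkA l6gAl
  rw [mul_div_cancel₀ _ hQ.ne']

/-- `Γ` of the package at the time profile of a clock `K` with time distribution `A` is the response of `llMod` at the mass profile `A` -/
theorem l6e_pk_Gam {Q0 Ξ : ℝ} (hQ : 0 < Q0) {A : ℝ → ℝ} (hA : LscProf 1 Ξ A) (hΞ : Ξ ≤ Q0) {K : ℝ → ℝ}
    (he : ∀ r, 0 ≤ r → scAlK 1 K r = A r) {ξ : ℝ} (hξ : ξ ∈ Icc 0 Q0) :
    (pkPkg Q0 hQ).toSvPkg.Gam (l6gAl Q0 K) (ξ / Q0) = llMod.Gam A 1 ξ := by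
  rw [lsc_id_Gam llMod_id one_pos hA hΞ hξ]
  show pkMv (scLC 1) (pkA Q0 (l6gAl Q0 K)) Q0 (MvPolynomial.X 0 ^ 2) (Q0 * (ξ / Q0)) = _
  rw [pk_mv_Gam, l6e_pkA hQ, mul_div_cancel₀ _ hQ.ne', l6e_Gam_congr (scLC 1) hQ.le he]

theorem l6e_pk_M2 {Q0 Ξ : ℝ} (hQ : 0 < Q0) {A : ℝ → ℝ} (hA : LscProf 1 Ξ A) (hΞ : Ξ ≤ Q0) {K : ℝ → ℝ}
    (he : ∀ r, 0 ≤ r → scAlK 1 K r = A r) {ξ : ℝ} (hξ : ξ ∈ Icc 0 Q0) :
    (pkPkg Q0 hQ).toSvPkg.M2 (l6gAl Q0 K) (ξ / Q0) = llMod.Gam1 A 1 ξ := by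
  rw [lsc_id_Gam1 llMod_id one_pos hA hΞ hξ]
  show pkMv (scLC 1) (pkA Q0 (l6gAl Q0 K)) Q0 (MvPolynomial.X 1 ^ 2) (Q0 * (ξ / Q0)) = _
  rw [pk_mv_M2, l6e_pkA hQ, mul_div_cancel₀ _ hQ.ne', l6e_M2_congr (scLC 1) hQ.le he]

/-! ## 3. (G2), non-asymptotic -/

/-- **(G2) for a mass profile `A`**: `t = h_* + b q` has the time distribution `A`, `q = Γ̂_A(t)`, (P5) with the weight `1 - y`; trial `z` with values in `[0,2]`, `K' = h_* + b z` a clock, `Q0 ≥ h_*(1) + 2 b(1)`. -/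
theorem l6e_core {Q0 Ξ : ℝ} (hQ : 0 < Q0) {A : ℝ → ℝ} (hA : LscProf 1 Ξ A) (hΞ : Ξ ≤ Q0)
    {b hs q t z : ℝ → ℝ} (hb : MvClk b) (hh : MvClk hs) (hq : MvQt q)
    (ht : ∀ r, 0 ≤ r → scAlK 1 t r = A r) (hts : ∀ v ∈ Ioo (0:ℝ) 1, t v = hs v + b v * q v)
    (hfix : ∀ v ∈ Ioo (0:ℝ) 1, q v = llMod.Gam A 1 (t v))
    (hz : ∀ u ∈ Icc (0:ℝ) 1, z u ∈ Icc (0:ℝ) 2) (hzi : IntervalIntegrable z volume 0 1)
    (hK : MvClk fun u => hs u + b u * z u) (hQ1 : hs 1 + b 1 * 2 ≤ Q0)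
    (hP5 : ∀ v ∈ Ioo (0:ℝ) 1, 0 ≤ ∫ y in (0:ℝ)..1, (1 - y) * (1 - b v * llMod.Gam1 A 1 (t v + y * (b v * (z v - q v))))) :
    mvG macSpin b hs q + Real.exp (-(18 * Q0)) / 4 *
        (∫ s in (0:ℝ)..Q0, (∫ y in s..Q0, (scAlK 1 (fun u => hs u + b u * z u) y - scAlK 1 t y)) ^ 2)
      ≤ mvG macSpin b hs z := by
  have h1m : (1:ℝ) ∈ Icc (0:ℝ) 1 := ⟨zero_le_one, le_rfl⟩
  have hb1 : 0 ≤ b 1 := hb.nonneg h1m
  have hK' : ∀ r, 0 ≤ r → scAlK 1 (fun v => hs v + b v * q v) r = A r := fun r hr => by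
    rw [← ht r hr, l6e_alK_congr (K := fun v => hs v + b v * q v) (K' := t) (fun v hv => (hts v hv).symm)]
  have hzbm : MvBM z :=
    ⟨hzi.1.aestronglyMeasurable, 2, fun u hu => by rw [abs_of_nonneg (hz u hu).1]; exact (hz u hu).2⟩
  have htQ : hs 1 + b 1 * q 1 ≤ Q0 := by
    have := mul_le_mul_of_nonneg_left hq.2 hb1
    linarith
  have hKQ : hs 1 + b 1 * z 1 ≤ Q0 := by
    have := mul_le_mul_of_nonneg_left (hz 1 h1m).2 hb1
    linarith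
  have ct : MvClk (fun v => hs v + b v * q v) := hh.add (hb.mul hq.1)
  have m1 : ∀ v ∈ Icc (0:ℝ) 1, hs v + b v * q v ∈ Icc 0 Q0 := fun v hv => ⟨ct.nonneg hv, (ct.le_one hv).trans htQ⟩
  have m2 : ∀ v ∈ Icc (0:ℝ) 1, hs v + b v * z v ∈ Icc 0 Q0 := fun v hv => ⟨hK.nonneg hv, (hK.le_one hv).trans hKQ⟩
  have m3 : ∀ v ∈ Icc (0:ℝ) 1, ∀ y ∈ Icc (0:ℝ) 1, hs v + b v * q v + y * (b v * (z v - q v)) ∈ Icc 0 Q0 := by
    intro v hv y hy
    have e : hs v + b v * q v + y * (b v * (z v - q v)) = (1 - y) * (hs v + b v * q v) + y * (hs v + b v * z v) := by ring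
    rw [e]
    have a1 := m1 v hv
    have a2 := m2 v hv
    have hy1 : 0 ≤ 1 - y := by linarith [hy.2]
    constructor
    · exact add_nonneg (mul_nonneg hy1 a1.1) (mul_nonneg hy.1 a2.1)
    · have b1 := mul_le_mul_of_nonneg_left a1.2 hy1
      have b2 := mul_le_mul_of_nonneg_left a2.2 hy.1
      linarith
  have key := l6g_G2 hQ (pkPkg Q0 hQ).toSvPkg (exit_sc_up_l6gU hQ) macSpin (exit_sc_l6gLink hQ) hb hh hq hzbm htQ hK hKQ
    (fun v hv => by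
      rw [l6e_pk_Gam hQ hA hΞ hK' (m1 v (Ioo_subset_Icc_self hv)), ← hts v hv]
      exact hfix v hv)
    (fun v hv => by
      refine (hP5 v hv).trans_eq (intervalIntegral.integral_congr fun y hy => ?_)
      rw [uIcc_of_le zero_le_one] at hy
      rw [l6e_pk_M2 hQ hA hΞ hK' (m3 v (Ioo_subset_Icc_self hv) y hy), ← hts v hv])
  rw [l6e_A_scale hQ, l6e_alK_congr (K := fun v => hs v + b v * q v) (K' := t) (fun v hv => (hts v hv).symm)] at key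
  refine le_trans (le_of_eq ?_) key
  congr 1
  rw [← mul_assoc]
  congr 1
  field_simp
  ring

/-! ## 4. dictionary at a direct point -/

section pt

variable {p : LlPt} {F : LlFix} {𝔹 : LlBase}

theorem l6e_a (hsm : p.sm = false) : p.a = p.ell := by simp [LlPt.a, hsm]

theorem l6e_tN (hsm : p.sm = false) (hl : 0 < p.ell) {v : ℝ} (hv : v ∈ Ioo (0:ℝ) 1) :
    p.tN F 𝔹 v = llInv (p.Adir F 𝔹) v := by
  unfold LlPt.tN
  rw [l6Nr_of_mem _ _ hv, l6e_a hsm]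
  unfold LlPt.K
  rw [lcx_xi_direct hsm, mul_div_cancel_left₀ _ hl.ne', ← mul_assoc, mul_inv_cancel₀ (pow_ne_zero 2 hl.ne'), one_mul]

theorem l6e_split {v : ℝ} (hv : v ∈ Ioo (0:ℝ) 1) : p.tN F 𝔹 v = p.hN F 𝔹 v + p.bN F 𝔹 v * p.qN F 𝔹 v := by
  unfold LlPt.tN LlPt.hN LlPt.bN LlPt.qN
  rw [l6Nr_of_mem _ _ hv, l6Nr_of_mem _ _ hv, l6Nr_of_mem _ _ hv, l6Cl_of_mem _ hv]
  unfold LlPt.hS
  ring

theorem l6e_qN (hsm : p.sm = false) {v : ℝ} (hv : v ∈ Ioo (0:ℝ) 1) :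
    p.qN F 𝔹 v = 𝔹.scG (p.Adir F 𝔹) 1 (p.tN F 𝔹 v) := by
  unfold LlPt.qN LlPt.tN
  rw [l6Cl_of_mem _ hv, l6Nr_of_mem _ _ hv, l6e_a hsm]
  unfold LlPt.q LlPt.Gam LlPt.GamN LlPt.Aprof LlPt.j
  simp [hsm]

theorem l6e_p5 (hsm : p.sm = false) {v : ℝ} (hv : v ∈ Ioo (0:ℝ) 1) (z y : ℝ) :
    p.b F 𝔹 (p.a * v) * p.Gam1 F 𝔹 (p.K F 𝔹 (p.a * v) + y * p.b F 𝔹 (p.a * v) * (z - p.q F 𝔹 (p.a * v)))
      = p.bN F 𝔹 v * 𝔹.scG1 (p.Adir F 𝔹) 1 (p.tN F 𝔹 v + y * (p.bN F 𝔹 v * (z - p.qN F 𝔹 v))) := by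
  unfold LlPt.qN LlPt.tN LlPt.bN
  rw [l6Cl_of_mem _ hv, l6Nr_of_mem _ _ hv, l6Nr_of_mem _ _ hv, l6e_a hsm]
  unfold LlPt.Gam1 LlPt.Gam1N LlPt.Aprof LlPt.j
  simp only [hsm, Bool.false_eq_true, if_false]
  have e : p.ell ^ 2 * (p.K F 𝔹 (p.ell * v) + y * p.b F 𝔹 (p.ell * v) * (z - p.q F 𝔹 (p.ell * v)))
      = p.ell ^ 2 * p.K F 𝔹 (p.ell * v) + y * (p.ell ^ 2 * p.b F 𝔹 (p.ell * v) * (z - p.q F 𝔹 (p.ell * v))) := by ring
  rw [e]
  ring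

end pt

/-- **`bN ≤ T + 2` eventually**: a bound which does not depend on the exponents; from (P9) and the monotonicity of `b` -/
theorem l6e_bN_le {𝔹 : LlBase} {F : LlFix} (h3 : LlSec3 𝔹 F) :
    LlUnif F fun p => p.sm = false → ∀ u, p.bN F 𝔹 u ≤ F.T + 2 := by
  obtain ⟨κ, hκ, h9⟩ := h3.p9
  obtain ⟨C, h9⟩ := h9 1 one_pos
  obtain ⟨c, C', hc, hadm⟩ := h3.adm
  have hU := ((h9.and hadm).and (lce_unif_x F (1 / 8) (by norm_num))).and
    (ll06_unif_pow F hκ (ε := 1 / (|C| + 1)) (by positivity))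
  refine hU.mono fun p hp h hsm => ?_
  obtain ⟨⟨⟨⟨hb0, h9'⟩, mb, -, -, -, -, hbd, -⟩, hx8⟩, hpow⟩ := h
  have ha := l6e_a hsm
  have hl : 0 < p.ell := by linarith [hp.ell1]
  have hx := lkk_x_pos hp.N2
  have hxk : 0 < p.x ^ κ := Real.rpow_pos_of_pos hx _
  have hCx : |C| * p.x ^ κ ≤ 1 := by
    calc |C| * p.x ^ κ ≤ |C| * (1 / (|C| + 1)) := mul_le_mul_of_nonneg_left hpow (abs_nonneg _)
      _ ≤ 1 := by
        rw [mul_one_div, div_le_one (by positivity)]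
        linarith
  have hCC : C * p.x ^ κ ≤ 1 := (mul_le_mul_of_nonneg_right (le_abs_self C) hxk.le).trans hCx
  have key : ∀ u ∈ Ioo (0:ℝ) 1, p.a ^ 2 * p.b F 𝔹 (p.a * u) ∈ Icc 0 (F.T + 2) := by
    intro u hu
    rw [ha]
    have hm : ∀ w ∈ Ioo (0:ℝ) 1, p.ell * w ∈ Icc 0 p.a := fun w hw => by
      rw [ha]
      exact ⟨(mul_pos hl hw.1).le, by have := mul_le_mul_of_nonneg_left hw.2.le hl.le; linarith⟩
    have hu' : max u (1 / 2) ∈ Ioo (0:ℝ) 1 := ⟨lt_max_of_lt_left hu.1, max_lt hu.2 (by norm_num)⟩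
    have h1 : p.b F 𝔹 (p.ell * u) ≤ p.b F 𝔹 (p.ell * max u (1 / 2)) :=
      mb (hm u hu) (hm _ hu') (mul_le_mul_of_nonneg_left (le_max_left _ _) hl.le)
    have h2 := (h9' hsm _ hu' (by have := le_max_right u (1 / 2); linarith)).1
    have h3 : C * p.x ^ κ * max u (1 / 2) ^ 2 ≤ 1 := by
      have hsq : max u (1 / 2) ^ 2 ≤ 1 := pow_le_one₀ hu'.1.le hu'.2.le
      have hnn : 0 ≤ max u (1 / 2) ^ 2 := sq_nonneg _
      calc C * p.x ^ κ * max u (1 / 2) ^ 2 ≤ 1 * max u (1 / 2) ^ 2 := mul_le_mul_of_nonneg_right hCC hnn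
        _ ≤ 1 := by linarith
    have h4 := (abs_le.1 (h2.trans h3)).2
    have h5 := (abs_le.1 (hb0.trans hCC)).2
    have hl2 : 0 < p.ell ^ 2 := by positivity
    refine ⟨mul_nonneg hl2.le (hc.le.trans (hbd _ (hm u hu)).1), ?_⟩
    have := mul_le_mul_of_nonneg_left h1 hl2.le
    linarith
  intro u
  exact (l6Cl_mem key u).2

/-! ## 5. the exits -/

/-- **(PROF)**: the time distribution of the normalised direct clock is the profile `A_λ` -/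
theorem ll06_prof {𝔹 : LlBase} {F : LlFix} (hD : LlDirProf 𝔹 F) : Ll06Prof 𝔹 F := by
  refine hD.2.mono fun p hp h hsm s hs => ?_
  have hl : 0 < p.ell := by linarith [hp.ell1]
  rw [l6e_alK_inv h.1 (fun v hv => l6e_tN hsm hl hv) hs]
  unfold LlPt.Aprof
  simp [hsm]

/-- **(G2) at the concrete base**, `Q0 = 3 T + 4`, `c = e^{-18 Q0}/4`.      TEX[LL:global:trial-gap] -/
theorem ll06_g2 {T : ℝ} (F0 : LlFix) (hT : F0.T = T) (hB : LlBaseProfile llBase T) (hP : LlcP llBase F0)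
    (hPr : ∀ sS eta pS : ℝ, LlExpOk sS eta pS → Ll06Prof llBase (F0.wExp sS eta pS)) : Ll06G2Exit llBase F0 := by
  have hT0 : 0 < T := hB.xi_pos.trans_le hB.xi_le
  have hQ : 0 < 3 * T + 4 := by linarith
  refine ⟨Real.exp (-(18 * (3 * T + 4))) / 4, 3 * T + 4, by positivity, hQ, fun sS eta pS hE => ?_⟩
  obtain ⟨F, hF⟩ : ∃ F, F = F0.wExp sS eta pS := ⟨_, rfl⟩
  rw [← hF]
  have hFT : F.T = T := by rw [hF]; exact hT
  have h3 : LlSec3 llBase F := by rw [hF]; exact (hP sS eta pS hE).sec3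
  have hPr' : Ll06Prof llBase F := by rw [hF]; exact hPr sS eta pS hE
  obtain ⟨c, C, hc, hok⟩ := ll06_ok h3
  obtain ⟨c5, hc5, h5⟩ := h3.p5
  obtain ⟨c', C', v0, hc', hv0, href⟩ := h3.ref
  have hU := ((((hok 1 one_pos).and (l6e_bN_le h3)).and hPr').and h5).and href
  refine hU.mono fun p hp h hsm z hz hzi hK => ?_
  obtain ⟨⟨⟨⟨hpt, hbN⟩, hpr⟩, h5⟩, R⟩ := h
  have hpt := hpt hsm
  have hbN := hbN hsm
  have hpr := hpr hsm
  have eA : p.Aprof F llBase = p.Adir F llBase := by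
    unfold LlPt.Aprof
    simp [hsm]
  rw [eA] at hpr
  rw [hFT] at hbN
  have hl : 0 < p.ell := by linarith [hp.ell1]
  have ha := l6e_a hsm
  have ha0 : 0 < p.a := by rw [ha]; exact hl
  have hlam : 0 < p.lam := (Real.rpow_pos_of_pos hpt.x0 _).trans_le hp.lam_lo
  have hmem : ∀ w ∈ Ioo (0:ℝ) 1, p.a * w ∈ Ioo 0 p.a := fun w hw =>
    ⟨mul_pos ha0 hw.1, by have := mul_lt_mul_of_pos_left hw.2 ha0; linarith⟩
  have tX : ∀ w ∈ Ioo (0:ℝ) 1, p.tN F llBase w ≤ llBase.xiS T := by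
    intro w hw
    have e : p.tN F llBase w = p.a ^ 2 * p.K F llBase (p.a * w) := l6Nr_of_mem _ _ hw
    have h1 := R.K_top _ (hmem w hw)
    simp only [hsm, Bool.false_eq_true, if_false] at h1
    rw [e, ha, ← hFT]
    rw [ha] at h1
    exact h1
  have hA : LscProf 1 (llBase.xiS T) (p.Adir F llBase) := l6e_lsc hB.xi_pos.le hpr tX
  have tm : ∀ u, p.tN F llBase u ∈ Icc 0 T := by
    intro u
    show l6Cl (fun w => p.a ^ 2 * p.K F llBase (p.a * w)) u ∈ Icc 0 T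
    refine l6Cl_mem (fun w hw => ?_) u
    have e : p.tN F llBase w = p.a ^ 2 * p.K F llBase (p.a * w) := l6Nr_of_mem _ _ hw
    rw [← e]
    exact ⟨hpt.t_clk.nonneg (Ioo_subset_Icc_self hw), (tX w hw).trans hB.xi_le⟩
  have hm : ∀ u, p.hN F llBase u ∈ Icc 0 T := by
    intro u
    show l6Cl (fun w => p.a ^ 2 * p.hS F llBase (p.a * w)) u ∈ Icc 0 T
    refine l6Cl_mem (fun w hw => ?_) u
    have e : p.hN F llBase w = p.a ^ 2 * p.hS F llBase (p.a * w) := l6Nr_of_mem _ _ hw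
    rw [← e]
    have hw' : w ∈ Icc (0:ℝ) 1 := Ioo_subset_Icc_self hw
    refine ⟨hpt.ok.hh.nonneg hw', ?_⟩
    have e1 := l6e_split (p := p) (F := F) (𝔹 := llBase) hw
    have e2 := mul_nonneg (hpt.ok.hb.nonneg hw') (hpt.ok.hq.1.nonneg hw')
    linarith [(tm w).2]
  have hbz : ∀ u ∈ Icc (0:ℝ) 1, p.hN F llBase u + p.bN F llBase u * z u ≤ 3 * T + 4 := by
    intro u hu
    have := mul_le_mul (hbN u) (hz u hu).2 (hz u hu).1 (by linarith : 0 ≤ T + 2)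
    linarith [(hm u).2]
  refine ⟨fun u hu => ⟨by linarith [(tm u).2], hbz u hu⟩, ?_⟩
  refine l6e_core hQ hA (by linarith [hB.xi_le]) hpt.ok.hb hpt.ok.hh hpt.ok.hq hpr
    (fun v hv => l6e_split hv) (fun v hv => l6e_qN hsm hv) hz hzi hK ?_ ?_
  · have := mul_le_mul_of_nonneg_right (hbN 1) (by norm_num : (0:ℝ) ≤ 2)
    linarith [(hm 1).2]
  · intro v hv
    have h := (h5 (p.a * v) (hmem v hv) (z v) (hz v (Ioo_subset_Icc_self hv)).1).2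
    have hpos : 0 ≤ c5 * p.lam * ((p.a * v) ^ 2 + p.U F ^ 2) := by positivity
    refine (hpos.trans h).trans_eq (intervalIntegral.integral_congr fun y _ => ?_)
    rw [l6e_p5 hsm hv]
    rfl

/-- (G2) from the contract `LlDirProf` of 281 -/
theorem ll06_g2_dir {T : ℝ} (F0 : LlFix) (hT : F0.T = T) (hB : LlBaseProfile llBase T) (hP : LlcP llBase F0)
    (hD : ∀ sS eta pS : ℝ, LlExpOk sS eta pS → LlDirProf llBase (F0.wExp sS eta pS)) : Ll06G2Exit llBase F0 :=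
  ll06_g2 F0 hT hB hP fun sS eta pS hE => ll06_prof (hD sS eta pS hE)

end

end Claimed.Agent.R286
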