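import Claimed.Agent.R286.LL06.G3Exit
import Claimed.Agent.R286.Exit.ClkStat
import Claimed.Agent.R286.Brg.Osc

/-!
# Row 286 (S0533), LL Section 6: THE GAP OF (H1) AT THE MINIMISERS, PATH LEVEL = S11 = (J1) of 200      (owner helper292, under 291 / 136; prefix `l6q_`; 0 sorry)

TEX[LL:global:trial-gap] 06-global.tex l.553-566.      Vocabulary: `LL06/Contract.lean` sec. 4 (291).
* (a) positions: `l6q_at_le`, `l6q_at_ge` (a monotone clock at a position lies between its values at the earlier and at the later masses), `l6q_macI_S`, `l6q_top_le` (the closed clock at `1` is the supremum);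
* (b) `l6q_K_le`: the empirical scalar clock `K^emp = h + b S` at a POSITION dominates its values at the earlier masses (`exit_clk_SB`);
      `l6q_K_lo`: `‖K^emp - t‖₁ ≤ E ⟹ K^emp(P) ≥ t(u/2) - 2 E / u`, `u` the mass of `P`;
* (c) `l6q_core` (arithmetic of the two cases `Γ' ≤ 1/(2 sup b)`, `Γ' > 1/(2 sup b)`), `l6q_gap` = the gap, NON-ASYMPTOTIC, on `L6pOk`;
* (d) **`ll06_gap`** : `Ll06G3Exit 𝔹 F0 → LlcP 𝔹 F0 → (∀ exponents, Ll06GapB) → Ll06GapExit 𝔹 F0`, with `cg = 1/(4 (|T| + 2))`, `rh = 3 c1 / 4`, `d1' = min d1 (c1/2)`   (`δ = x^(c1/4)`):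
      all three BEFORE `dg` and before the exponents (`sup b ≤ T + 2` eventually, by (P2) `b0_T` and (P9); the constants of the P-list enter only through `N0`).
-/

set_option autoImplicit false

namespace Claimed.Agent.R286

open MeasureTheory Set Filter Topology

noncomputable section

/-! ## (a) positions -/

theorem l6q_clamp {a : ℝ} (c : ℝ → ℝ) {v : ℝ} (h0 : 0 ≤ v) (h1 : v ≤ a) : ghClamp a c v = c v := by
  unfold ghClamp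
  rw [if_neg (not_lt.2 h0), min_eq_left h1]

/-- a monotone clock at a position is below its values at the later masses -/
theorem l6q_at_le {c : ℝ → ℝ} (hc : MvClk c) {p : GhPos} (hp : p.Ok 1) {v : ℝ} (hv : p.u < v ∨ v = 1) (hv1 : v ≤ 1) : ghAt 1 c p ≤ c v := by
  have hc' : GhClk1 1 c := hc
  rcases hv with hv | rfl
  · have h1 := gh_os_at_le_right zero_le_one hc' hp.2.2.2
    have h2 := (gh_os_clamp_mono zero_le_one hc').rightLim_le hv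
    rw [l6q_clamp c (hp.1.trans hv.le) hv1] at h2
    exact h1.trans h2
  · have := gh_os_at_le_top zero_le_one hc' hp
    rwa [gh_os_at_top 1 c zero_le_one] at this

/-- a monotone clock at a position is above its values at the earlier masses -/
theorem l6q_at_ge {c : ℝ → ℝ} (hc : MvClk c) {p : GhPos} (hp : p.Ok 1) {v : ℝ} (hv0 : 0 ≤ v) (hv : v < p.u) : c v ≤ ghAt 1 c p := by
  have hc' : GhClk1 1 c := hc
  have h1 := gh_os_at_ge_left zero_le_one hc' hp.2.2.1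
  have h2 := (gh_os_clamp_mono zero_le_one hc').le_leftLim hv
  rw [l6q_clamp c hv0 (hv.le.trans hp.2.1)] at h2
  exact h2.trans h1

theorem l6q_macI_S {n : ℕ} (hn : 0 < n) {b h : ℝ → ℝ} (hb : MvClk b) (hh : MvClk h) {u : ℝ} (hu : u ∈ Ioo (0:ℝ) 1) :
    (macI n).S b h u = skCS n 1 b h (ghPosA u) := by
  have hI : macI n = Classical.choose (mac_supply_iface n hn) := by
    unfold macI
    rw [dif_pos hn]
  rw [hI]
  exact (Classical.choose_spec (mac_supply_iface n hn)).2.1 b h hb hh u hu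

/-- the closed clock at `1` is the supremum of its values on `(0,1)` -/
theorem l6q_top_le {a : ℝ} {c : ℝ → ℝ} {B : ℝ} (h : ∀ w ∈ Ioo (0:ℝ) 1, l6Nr a c w ≤ B) : l6Nr a c 1 ≤ B := by
  have e : l6Nr a c 1 = sSup ((fun w => a ^ 2 * c (a * w)) '' Ioo 0 1) := l6Cl_of_one_le _ le_rfl
  rw [e]
  refine csSup_le (l6Cl_ne.image _) ?_
  rintro _ ⟨w, hw, rfl⟩
  have := h w hw
  rwa [l6Nr_of_mem a c hw] at this

/-! ## (b) the empirical scalar clock at a position -/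

/-- `K^emp` at a position dominates `K^emp` at the earlier masses -/
theorem l6q_K_le {m : ℕ} (hm : 0 < m) {b h : ℝ → ℝ} (hb : MvClk b) (hh : MvClk h) {P : GhPos} (hP : P.Ok 1) {w : ℝ} (hw0 : 0 < w)
    (hw : w < P.u) : h w + b w * (macI m).S b h w ≤ ghAt 1 h P + ghAt 1 b P * skCS m 1 b h P := by
  have hw1 : w < 1 := hw.trans_le hP.2.1
  rw [l6q_macI_S hm hb hh ⟨hw0, hw1⟩]
  have hA : (ghPosA w).Ok 1 := gh_os_posA_ok hw0.le hw1.le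
  have hle : ghPosA w ≤ P := (gh_os_pos_le_iff _ _).2 (Or.inl (by simpa [ghPosA, GhPos.u] using hw))
  have hS := exit_clk_SB hm one_pos (⟨hb, hh⟩ : CkAdm 1 b h) hA hP hle
  have h1 := l6q_at_ge hh hP hw0.le hw
  have h2 := l6q_at_ge hb hP hw0.le hw
  have h3 : 0 ≤ b w := hb.nonneg ⟨hw0.le, hw1.le⟩
  have h4 : b w * skCS m 1 b h (ghPosA w) ≤ ghAt 1 b P * skCS m 1 b h P :=
    mul_le_mul h2 hS.2.1 hS.1 (h3.trans h2)
  linarith

/-- `L¹` closeness to a clock `t` gives a lower bound at every position of positive mass -/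
theorem l6q_K_lo {m : ℕ} (hm : 0 < m) {b h t : ℝ → ℝ} (hb : MvClk b) (hh : MvClk h) (ht : MvClk t) {E : ℝ}
    (hE : ∫ u in (0:ℝ)..1, |h u + b u * (macI m).S b h u - t u| ≤ E) {P : GhPos} (hP : P.Ok 1) (hu : 0 < P.u) :
    t (P.u / 2) - 2 * E / P.u ≤ ghAt 1 h P + ghAt 1 b P * skCS m 1 b h P := by
  set KP := ghAt 1 h P + ghAt 1 b P * skCS m 1 b h P with hKP
  set u := P.u with hudef
  have hu1 : u ≤ 1 := hP.2.1
  have cS : MvClk ((macI m).S b h) := ⟨(macI m).S_mono b h hb hh, ((macI m).S_mem b h hb hh 0 (left_mem_Icc.2 zero_le_one)).1⟩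
  have bm : MvBM (fun v => |h v + b v * (macI m).S b h v - t v|) := l6p_abs_bm ((hh.add (hb.mul cS)).bm.sub ht.bm)
  have i1 : IntervalIntegrable (fun v => |h v + b v * (macI m).S b h v - t v|) volume (u / 2) u :=
    bm.ii ⟨by linarith, by linarith⟩ ⟨hu.le, hu1⟩
  have s1 : ∫ _v in (u / 2)..u, (t (u / 2) - KP) ≤ ∫ v in (u / 2)..u, |h v + b v * (macI m).S b h v - t v| := by
    refine intervalIntegral.integral_mono_on_of_le_Ioo (by linarith) intervalIntegrable_const i1 fun v hv => ?_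
    have h1 := l6q_K_le hm hb hh hP (by linarith [hv.1] : 0 < v) hv.2
    have h2 : t (u / 2) ≤ t v := ht.1 ⟨by linarith, by linarith⟩ ⟨by linarith [hv.1], by linarith [hv.2]⟩ hv.1.le
    have h3 := neg_abs_le (h v + b v * (macI m).S b h v - t v)
    linarith
  have s2 : ∫ v in (u / 2)..u, |h v + b v * (macI m).S b h v - t v| ≤ ∫ v in (0:ℝ)..1, |h v + b v * (macI m).S b h v - t v| :=
    intervalIntegral.integral_mono_interval (by linarith) (by linarith) hu1 (Eventually.of_forall fun v => abs_nonneg _) bm.ii01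
  rw [intervalIntegral.integral_const, smul_eq_mul] at s1
  have s3 : u / 2 * (t (u / 2) - KP) ≤ E := by
    have : u - u / 2 = u / 2 := by ring
    rw [this] at s1
    linarith
  have s4 : t (u / 2) - KP ≤ 2 * E / u := by
    rw [le_div_iff₀ hu]
    linarith
  linarith

/-! ## (c) the gap, non-asymptotic -/

/-- the two cases `Γ' ≤ 1/(2 sup b)`, `Γ' > 1/(2 sup b)` -/
theorem l6q_core {β G e0 η Bm g : ℝ} (hG : 0 ≤ G) (hg : g ≤ β - e0) (hβ : β ≤ Bm) (hBm : 1 / 2 ≤ Bm) (he0 : 0 ≤ e0) (he1 : e0 ≤ 1)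
    (hL : -η ≤ 1 - β * G) (hη : η ≤ 1 / (4 * Bm) * e0) : 1 / (4 * Bm) * e0 ≤ 1 - g * G := by
  have hB0 : 0 < Bm := by linarith
  have h1 : g * G ≤ (β - e0) * G := mul_le_mul_of_nonneg_right hg hG
  have hq : 1 / (4 * Bm) * e0 ≤ 1 / 2 := by
    have : 1 / (4 * Bm) ≤ 1 / 2 := by
      rw [div_le_div_iff₀ (by positivity) (by norm_num)]
      linarith
    calc 1 / (4 * Bm) * e0 ≤ 1 / (4 * Bm) * 1 := mul_le_mul_of_nonneg_left he1 (by positivity)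
      _ ≤ 1 / 2 := by rw [mul_one]; exact this
  rcases le_or_gt G (1 / (2 * Bm)) with h | h
  · have h2 : β * G ≤ Bm * G := mul_le_mul_of_nonneg_right hβ hG
    have h3 : Bm * G ≤ Bm * (1 / (2 * Bm)) := mul_le_mul_of_nonneg_left h hB0.le
    have h4 : Bm * (1 / (2 * Bm)) = 1 / 2 := by field_simp
    have h5 : 0 ≤ e0 * G := mul_nonneg he0 hG
    nlinarith
  · have h2 : e0 * (1 / (2 * Bm)) ≤ e0 * G := mul_le_mul_of_nonneg_left h.le he0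
    have h3 : e0 * (1 / (2 * Bm)) = 2 * (1 / (4 * Bm) * e0) := by field_simp; ring
    nlinarith

/-- **S11, non-asymptotic.**      `b, hs, t` the normalised reference clocks, `G1 = Γ̂'` the reference response, `E` the bound of (G3), `δ` the threshold of the masses, `ρ` the robustness in the time. -/
theorem l6q_gap {m : ℕ} (hm : 0 < m) {b hs q t G1 : ℝ → ℝ} {e0 κ M θ : ℝ} (H : L6pOk b hs q e0 κ M) (hθ : θ ∈ Icc (0:ℝ) 1) {r : ℝ → ℝ}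
    (hr : MvClk r) (ht : MvClk t) {E δ ρ η Bm : ℝ}
    (hE : ∫ u in (0:ℝ)..1, |l6pH b hs e0 θ r u + l6pB b e0 θ u * (macI m).S (l6pB b e0 θ) (l6pH b hs e0 θ r) u - t u| ≤ E)
    (hδ0 : 0 < δ) (hδ1 : δ < 1) (hG1 : ∀ s, 0 ≤ s → 0 < G1 s)
    (hgb1 : ∀ w ∈ Ioo (0:ℝ) 1, ∀ s, 0 ≤ s → t (w / 4) / 4 ≤ s → 0 ≤ 1 - b w * G1 s)
    (hgb2 : ∀ s, 0 ≤ s → -η ≤ 1 - b δ * G1 s)
    (hbtop : ∀ B, (∀ w ∈ Ioo (0:ℝ) 1, b w ≤ B) → b 1 ≤ B)
    (hBm : b 1 ≤ Bm) (hBm2 : 1 / 2 ≤ Bm) (he1 : e0 ≤ 1) (hη0 : 0 ≤ η) (hη : η ≤ 1 / (4 * Bm) * e0)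
    (hsm : ∀ u, δ ≤ u → u ≤ 1 → 2 * E / u + ρ ≤ 3 / 4 * t (u / 2))
    {P : GhPos} (hP : P.Ok 1) {s : ℝ} (hs0 : 0 ≤ s)
    (hKs : ghAt 1 (l6pH b hs e0 θ r) P + ghAt 1 (l6pB b e0 θ) P * skCS m 1 (l6pB b e0 θ) (l6pH b hs e0 θ r) P - ρ ≤ s) :
    1 / (4 * Bm) * e0 ≤ 1 - ghAt 1 (l6pB b e0 θ) P * G1 s := by
  have cb := l6pB_clk H hθ
  have ch := l6pH_clk H hθ hr
  have hG := hG1 s hs0
  -- the changed matrix clock is below `b - e0`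
  have hbt : ∀ v ∈ Icc (0:ℝ) 1, l6pB b e0 θ v ≤ b v - e0 := by
    intro v hv
    rw [l6pB_eq]
    have h1 := (l6p_b_sub H hv).1
    have h2 : (1 - θ) * (b v - e0) ≤ 1 * (b v - e0) := mul_le_mul_of_nonneg_right (by linarith [hθ.1]) h1
    simpa using h2
  have fin : ∀ v ∈ Icc (0:ℝ) 1, (P.u < v ∨ v = 1) → -η ≤ 1 - b v * G1 s → 1 / (4 * Bm) * e0 ≤ 1 - ghAt 1 (l6pB b e0 θ) P * G1 s := by
    intro v hv hPv hL
    exact l6q_core hG.le ((l6q_at_le cb hP hPv hv.2).trans (hbt v hv)) ((H.hb.le_one hv).trans hBm) hBm2 H.e0_pos.le he1 hL hη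
  rcases lt_or_ge P.u δ with hu | hu
  · exact fin δ ⟨hδ0.le, hδ1.le⟩ (Or.inl hu) (hgb2 s hs0)
  · have hu0 : 0 < P.u := hδ0.trans_le hu
    have hu1 : P.u ≤ 1 := hP.2.1
    have hlo := l6q_K_lo hm cb ch ht hE hP hu0
    have hs' : t (P.u / 2) / 4 ≤ s := by
      have := hsm P.u hu hu1
      linarith
    rcases lt_or_ge (2 * P.u) 1 with h2 | h2
    · refine fin (2 * P.u) ⟨by linarith, h2.le⟩ (Or.inl (by linarith)) ?_
      have := hgb1 (2 * P.u) ⟨by linarith, h2⟩ s hs0 (by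
        have e : 2 * P.u / 4 = P.u / 2 := by ring
        rw [e]; exact hs')
      linarith
    · refine fin 1 (right_mem_Icc.2 zero_le_one) (Or.inr rfl) ?_
      have hall : ∀ w ∈ Ioo (0:ℝ) 1, b w ≤ 1 / G1 s := by
        intro w hw
        have hm' : t (w / 4) ≤ t (P.u / 2) :=
          ht.1 ⟨by linarith [hw.1], by linarith [hw.2]⟩ ⟨by linarith, by linarith⟩ (by linarith [hw.2])
        have := hgb1 w hw s hs0 (by linarith)
        rw [le_div_iff₀ hG]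
        linarith
      have h1 := hbtop _ hall
      rw [le_div_iff₀ hG] at h1
      linarith

/-! ## (d) the exit -/

/-- the terminal mass of a direct point -/
theorem l6q_a {p : LlPt} {F : LlFix} (hp : p.Ok F) (hsm : p.sm = false) : p.a = p.ell ∧ 1 ≤ p.a ∧ p.a ^ 2 ≤ 2 ∧ p.a ≤ 2 := by
  have ha : p.a = p.ell := by simp [LlPt.a, hsm]
  have hell : 1 ≤ p.a := by rw [ha]; exact hp.ell1
  have ha2 : p.a ^ 2 ≤ 2 := by
    rw [ha]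
    have h1 : p.ell ^ 2 ≤ ((2:ℝ) ^ (1 / 6 : ℝ)) ^ 2 := pow_le_pow_left₀ (by linarith [hp.ell1]) hp.ell2 2
    have h2 : ((2:ℝ) ^ (1 / 6 : ℝ)) ^ 2 = (2:ℝ) ^ (1 / 3 : ℝ) := by
      rw [← Real.rpow_natCast, ← Real.rpow_mul (by norm_num)]; norm_num
    have h3 : (2:ℝ) ^ (1 / 3 : ℝ) ≤ (2:ℝ) ^ (1 : ℝ) := Real.rpow_le_rpow_of_exponent_le (by norm_num) (by norm_num)
    rw [Real.rpow_one] at h3
    linarith
  exact ⟨ha, hell, ha2, by nlinarith⟩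

/-- the product `b Γ'` in normalised variables -/
theorem l6q_norm (p : LlPt) (F : LlFix) (𝔹 : LlBase) (ha : p.a = p.ell) (ha0 : 0 < p.a) {w : ℝ} (hw : w ∈ Ioo (0:ℝ) 1) (s : ℝ) :
    p.b F 𝔹 (p.a * w) * p.Gam1 F 𝔹 (s / p.a ^ 2) = p.bN F 𝔹 w * p.Gam1N F 𝔹 s := by
  have e1 : p.bN F 𝔹 w = p.a ^ 2 * p.b F 𝔹 (p.a * w) := l6Nr_of_mem _ _ hw
  have e2 : p.ell ^ 2 * (s / p.a ^ 2) = s := by
    rw [← ha]
    field_simp
  rw [e1, LlPt.Gam1, e2, ← ha]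
  ring

/-- the top of the normalised matrix clock, from (P9): `sup b ≤ T + 2` -/
theorem l6q_bm {p : LlPt} {F : LlFix} {𝔹 : LlBase} {C9 κ9 : ℝ} (ha : p.a = p.ell) (hb : MvClk (p.bN F 𝔹)) (hx : 0 < p.x) (hx1 : p.x < 1)
    (k1 : |p.ell ^ 2 * p.b0 F 𝔹 - F.T| ≤ C9 * p.x ^ κ9)
    (k2 : ∀ w ∈ Ioo (0 : ℝ) 1, 1 * p.x ≤ w → |p.ell ^ 2 * p.b F 𝔹 (p.ell * w) - p.ell ^ 2 * p.b0 F 𝔹| ≤ C9 * p.x ^ κ9 * w ^ 2)
    (u2 : p.x ^ κ9 ≤ 1 / (|C9| + 1)) : p.bN F 𝔹 1 ≤ |F.T| + 2 := by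
  have hC9 : C9 * p.x ^ κ9 ≤ 1 := by
    have h1 : p.x ^ κ9 * (|C9| + 1) ≤ 1 := by rwa [le_div_iff₀ (by positivity)] at u2
    have h2 : 0 < p.x ^ κ9 := Real.rpow_pos_of_pos hx _
    have h3 : C9 * p.x ^ κ9 ≤ |C9| * p.x ^ κ9 := mul_le_mul_of_nonneg_right (le_abs_self _) h2.le
    linarith
  refine l6q_top_le fun w hw => ?_
  have hw' : max w p.x ∈ Ioo (0:ℝ) 1 := ⟨lt_max_of_lt_left hw.1, max_lt hw.2 hx1⟩
  have m1 : p.bN F 𝔹 w ≤ p.bN F 𝔹 (max w p.x) := hb.1 (Ioo_subset_Icc_self hw) (Ioo_subset_Icc_self hw') (le_max_left _ _)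
  have e1 : p.bN F 𝔹 (max w p.x) = p.a ^ 2 * p.b F 𝔹 (p.a * max w p.x) := l6Nr_of_mem _ _ hw'
  have k2 := k2 (max w p.x) hw' (by rw [one_mul]; exact le_max_right _ _)
  rw [← ha] at k1 k2
  have k3 : C9 * p.x ^ κ9 * max w p.x ^ 2 ≤ 1 := by
    have h1 : max w p.x ^ 2 ≤ 1 := pow_le_one₀ hw'.1.le hw'.2.le
    have h0 : 0 ≤ C9 * p.x ^ κ9 := (abs_nonneg _).trans k1
    calc C9 * p.x ^ κ9 * max w p.x ^ 2 ≤ C9 * p.x ^ κ9 * 1 := mul_le_mul_of_nonneg_left h1 h0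
      _ ≤ 1 := by rw [mul_one]; exact hC9
  have k4 := (abs_le.1 k1).2
  have k5 := (abs_le.1 k2).2
  have k6 := le_abs_self F.T
  change p.bN F 𝔹 w ≤ |F.T| + 2
  linarith

/-- the error of the small masses is below half of the gain -/
theorem l6q_eta {CB lam δ Bm e0 : ℝ} (hBm : 0 < Bm) (hlam : 0 ≤ lam) (l3 : lam ≤ 1 / (4 * Bm) / (2 * (|CB| + 1))) (pw4 : δ ^ 2 ≤ e0) :
    |CB| * lam * (2 * δ ^ 2) ≤ 1 / (4 * Bm) * e0 := by
  rw [le_div_iff₀ (by positivity)] at l3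
  have h0 := abs_nonneg CB
  have h1 : |CB| * lam * 2 ≤ 1 / (4 * Bm) := by
    have : |CB| * lam * 2 ≤ lam * (2 * (|CB| + 1)) := by nlinarith
    linarith
  have h2 : 0 ≤ δ ^ 2 := by positivity
  calc |CB| * lam * (2 * δ ^ 2) = |CB| * lam * 2 * δ ^ 2 := by ring
    _ ≤ 1 / (4 * Bm) * δ ^ 2 := mul_le_mul_of_nonneg_right h1 h2
    _ ≤ 1 / (4 * Bm) * e0 := mul_le_mul_of_nonneg_left pw4 (by positivity)

/-- the time `K^emp(P) - ρ` is late enough: `2 E / u + ρ ≤ ¾ t(u/2)` for `u ≥ δ` -/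
theorem l6q_late {p : LlPt} {F : LlFix} {𝔹 : LlBase} {cr Cr v0 c1 δ : ℝ} (R : p.Ref F 𝔹 cr Cr v0) (hcr : 0 < cr) (hx : 0 < p.x)
    (ha1 : 1 ≤ p.a) (ha3 : p.a ≤ 2) (hδdef : δ = p.x ^ (c1 / 4)) (hδv : δ ≤ v0) (hδ2 : δ ≤ 1 / 2) (u5 : p.x ^ (c1 / 2) ≤ cr / 8)
    {u : ℝ} (hu : δ ≤ u) (hu1 : u ≤ 1) : 2 * p.x ^ c1 / u + p.x ^ (3 * c1 / 4) ≤ 3 / 4 * p.tN F 𝔹 (u / 2) := by
  have ha0 : 0 < p.a := by linarith
  have hasq : 1 ≤ p.a ^ 2 := one_le_pow₀ ha1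
  have hδ0 : 0 < δ := by rw [hδdef]; exact Real.rpow_pos_of_pos hx _
  have hmem : ∀ w ∈ Ioo (0:ℝ) 1, p.a * w ∈ Ioo 0 p.a := fun w hw =>
    ⟨mul_pos ha0 hw.1, by have := mul_lt_mul_of_pos_left hw.2 ha0; linarith⟩
  have pw1 : p.x ^ c1 = p.x ^ (3 * c1 / 4) * δ := by
    rw [hδdef, ← Real.rpow_add hx]; congr 1; ring
  have pw2 : p.x ^ (3 * c1 / 4) = p.x ^ (c1 / 2) * δ := by
    rw [hδdef, ← Real.rpow_add hx]; congr 1; ring
  have hu0 : 0 < u := hδ0.trans_le hu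
  have hu2 : u / 2 ∈ Ioo (0:ℝ) 1 := ⟨by linarith, by linarith⟩
  have hd2 : δ / 2 ∈ Ioo (0:ℝ) 1 := ⟨by linarith, by linarith⟩
  have e1 : p.tN F 𝔹 (u / 2) = p.a ^ 2 * p.K F 𝔹 (p.a * (u / 2)) := l6Nr_of_mem _ _ hu2
  have k1 : p.K F 𝔹 (p.a * (δ / 2)) ≤ p.K F 𝔹 (p.a * (u / 2)) :=
    R.K_mono (hmem _ hd2) (hmem _ hu2) (mul_le_mul_of_nonneg_left (by linarith) ha0.le)
  have k0 : p.a * (δ / 2) ≤ v0 := by
    have : p.a * (δ / 2) ≤ 2 * (δ / 2) := mul_le_mul_of_nonneg_right ha3 (by linarith)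
    linarith
  have k2 : cr * (p.a * (δ / 2)) ≤ p.K F 𝔹 (p.a * (δ / 2)) := R.K_lo0 _ (hmem _ hd2).1 k0
  have k3 : cr * (δ / 2) ≤ cr * (p.a * (δ / 2)) := by
    apply mul_le_mul_of_nonneg_left _ hcr.le
    have : 1 * (δ / 2) ≤ p.a * (δ / 2) := mul_le_mul_of_nonneg_right ha1 (by linarith)
    linarith
  have k4 : cr * (δ / 2) ≤ p.tN F 𝔹 (u / 2) := by
    rw [e1]
    have h0 : 0 ≤ p.K F 𝔹 (p.a * (u / 2)) := le_trans (by positivity) (k3.trans (k2.trans k1))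
    have h1 : 1 * p.K F 𝔹 (p.a * (u / 2)) ≤ p.a ^ 2 * p.K F 𝔹 (p.a * (u / 2)) := mul_le_mul_of_nonneg_right hasq h0
    linarith
  have k5 : 2 * p.x ^ c1 / u ≤ 2 * p.x ^ (3 * c1 / 4) := by
    rw [div_le_iff₀ hu0, pw1]
    have h0 : 0 < p.x ^ (3 * c1 / 4) := Real.rpow_pos_of_pos hx _
    have h1 : p.x ^ (3 * c1 / 4) * δ ≤ p.x ^ (3 * c1 / 4) * u := mul_le_mul_of_nonneg_left hu h0.le
    linarith
  have k6 : p.x ^ (3 * c1 / 4) ≤ cr / 8 * δ := by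
    rw [pw2]
    exact mul_le_mul_of_nonneg_right u5 hδ0.le
  linarith

/-- the reference facts (P2) `g1_pos` and (GAP-B) in normalised variables -/
theorem l6q_ref {p : LlPt} {F : LlFix} {𝔹 : LlBase} {cr Cr v0 CB δ : ℝ} (R : p.Ref F 𝔹 cr Cr v0) (ha : p.a = p.ell) (ha1 : 1 ≤ p.a) (ha2 : p.a ^ 2 ≤ 2)
    (hlam0 : 0 ≤ p.lam) (hδm : δ ∈ Ioo (0:ℝ) 1)
    (hGB : ∀ v ∈ Ioo 0 p.a, (∀ t : ℝ, p.K F 𝔹 (v / 4) / 4 ≤ t → 0 ≤ 1 - p.b F 𝔹 v * p.Gam1 F 𝔹 t) ∧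
      (∀ t : ℝ, 0 ≤ t → -(CB * p.lam * v ^ 2) ≤ 1 - p.b F 𝔹 v * p.Gam1 F 𝔹 t)) :
    (∀ s, 0 ≤ s → 0 < p.Gam1N F 𝔹 s) ∧
    (∀ w ∈ Ioo (0:ℝ) 1, ∀ s, 0 ≤ s → p.tN F 𝔹 (w / 4) / 4 ≤ s → 0 ≤ 1 - p.bN F 𝔹 w * p.Gam1N F 𝔹 s) ∧
    (∀ s, 0 ≤ s → -(|CB| * p.lam * (2 * δ ^ 2)) ≤ 1 - p.bN F 𝔹 δ * p.Gam1N F 𝔹 s) := by
  have ha0 : 0 < p.a := by linarith
  have hmem : ∀ w ∈ Ioo (0:ℝ) 1, p.a * w ∈ Ioo 0 p.a := fun w hw =>
    ⟨mul_pos ha0 hw.1, by have := mul_lt_mul_of_pos_left hw.2 ha0; linarith⟩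
  refine ⟨fun s hs => ?_, fun w hw s hs hts => ?_, fun s hs => ?_⟩
  · have h1 := R.g1_pos (s / p.a ^ 2) (by positivity)
    have e2 : p.ell ^ 2 * (s / p.a ^ 2) = s := by
      rw [← ha]
      field_simp
    rw [LlPt.Gam1, e2] at h1
    exact (mul_pos_iff_of_pos_left (by rw [← ha]; positivity)).1 h1
  · have hw4 : w / 4 ∈ Ioo (0:ℝ) 1 := ⟨by linarith [hw.1], by linarith [hw.2]⟩
    have e1 : p.tN F 𝔹 (w / 4) = p.a ^ 2 * p.K F 𝔹 (p.a * (w / 4)) := l6Nr_of_mem _ _ hw4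
    have h1 := (hGB (p.a * w) (hmem w hw)).1 (s / p.a ^ 2) (by
      have e3 : p.a * w / 4 = p.a * (w / 4) := by ring
      rw [e3, le_div_iff₀ (by positivity)]
      rw [e1] at hts
      linarith)
    rwa [l6q_norm p F 𝔹 ha ha0 hw s] at h1
  · have h1 := (hGB (p.a * δ) (hmem δ hδm)).2 (s / p.a ^ 2) (by positivity)
    rw [l6q_norm p F 𝔹 ha ha0 hδm s] at h1
    refine le_trans ?_ h1
    have h2 : CB * p.lam * (p.a * δ) ^ 2 ≤ |CB| * p.lam * (2 * δ ^ 2) := by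
      have h3 : (p.a * δ) ^ 2 ≤ 2 * δ ^ 2 := by
        rw [mul_pow]
        exact mul_le_mul_of_nonneg_right ha2 (by positivity)
      have h4 : CB * p.lam ≤ |CB| * p.lam := mul_le_mul_of_nonneg_right (le_abs_self _) hlam0
      exact mul_le_mul h4 h3 (by positivity) (by positivity)
    linarith

/-- **(GAP)** (06 l.553-566) = S11 = (J1).      TEX[LL:global:trial-gap] -/
theorem ll06_gap {𝔹 : LlBase} {F0 : LlFix} (hG3 : Ll06G3Exit 𝔹 F0) (hP : LlcP 𝔹 F0)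
    (hB : ∀ sS eta pS : ℝ, LlExpOk sS eta pS → Ll06GapB 𝔹 (F0.wExp sS eta pS)) : Ll06GapExit 𝔹 F0 := by
  obtain ⟨c1, d1, hc1, hd1, hG⟩ := hG3
  obtain ⟨Bm, hBmdef⟩ : ∃ Bm : ℝ, Bm = |F0.T| + 2 := ⟨_, rfl⟩
  have hBm2 : 2 ≤ Bm := by rw [hBmdef]; linarith [abs_nonneg F0.T]
  have hBm0 : 0 < Bm := by linarith
  refine ⟨1 / (4 * Bm), 3 * c1 / 4, min d1 (c1 / 2), by positivity, by positivity, lt_min hd1 (by positivity),
    fun dg hdg hdg1 sS eta pS hE => ?_⟩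
  have h3 := (hP sS eta pS hE).sec3
  obtain ⟨c, C, hc, hok⟩ := ll06_ok h3
  obtain ⟨cr, Cr, v0, hcr, hv0, href⟩ := h3.ref
  obtain ⟨κ9, hκ9, h9⟩ := h3.p9
  obtain ⟨C9, h9⟩ := h9 1 one_pos
  obtain ⟨CB, hGB⟩ := hB sS eta pS hE
  have hG' := hG dg hdg (hdg1.trans (min_le_left _ _)) sS eta pS hE
  set F := F0.wExp sS eta pS with hF
  have u2 := ll06_unif_pow F (s := κ9) (ε := 1 / (|C9| + 1)) hκ9 (by positivity)
  have u3 := ll06_unif_pow F (s := pS) (ε := 1 / (4 * Bm) / (2 * (|CB| + 1))) hE.p_lo (by positivity)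
  have u4 := ll06_unif_pow F (s := c1 / 4) (ε := min v0 (1 / 2)) (by positivity) (lt_min hv0 (by norm_num))
  have u5 := ll06_unif_pow F (s := c1 / 2) (ε := cr / 8) (by positivity) (by positivity)
  have hU := ((((((((hok dg hdg).and href).and h9).and hGB).and hG').and u2).and u3).and u4).and u5
  refine hU.mono fun p hp h hsm m hm1 hm2 θ hθ r hr P hPok s hs hKs => ?_
  obtain ⟨⟨⟨⟨⟨⟨⟨⟨Q, R⟩, h9⟩, hGB⟩, hG'⟩, u2⟩, u3⟩, u4⟩, u5⟩ := h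
  have Q := Q hsm
  have hE3 := hG' hsm m hm1 hm2 θ hθ r hr
  have hx := Q.x0
  have hx1 : p.x ≤ 1 := by linarith [Q.x1]
  obtain ⟨ha, ha1, ha2, ha3⟩ := l6q_a hp hsm
  have H := Q.ok
  obtain ⟨cr', -⟩ := l6p_cls_clk H.κ_pos hr.1
  have hm0 : 0 < m := by have := hp.N2; omega
  have hlam0 : 0 ≤ p.lam := (Real.rpow_pos_of_pos hx _).le.trans hp.lam_lo
  -- the threshold of the masses
  obtain ⟨δ, hδdef⟩ : ∃ δ : ℝ, δ = p.x ^ (c1 / 4) := ⟨_, rfl⟩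
  have hδ0 : 0 < δ := by rw [hδdef]; exact Real.rpow_pos_of_pos hx _
  have hδv : δ ≤ v0 := by rw [hδdef]; exact u4.trans (min_le_left _ _)
  have hδ2 : δ ≤ 1 / 2 := by rw [hδdef]; exact u4.trans (min_le_right _ _)
  have hδm : δ ∈ Ioo (0:ℝ) 1 := ⟨hδ0, by linarith⟩
  have pw4 : δ ^ 2 ≤ p.e0G dg := by
    have pw3 : δ ^ 2 = p.x ^ (c1 / 2) := by
      rw [hδdef, ← Real.rpow_natCast, ← Real.rpow_mul hx.le]; congr 1; push_cast; ring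
    rw [pw3]; exact Real.rpow_le_rpow_of_exponent_ge hx hx1 (hdg1.trans (min_le_right _ _))
  have hbm : p.bN F 𝔹 1 ≤ Bm := by
    rw [hBmdef]
    exact l6q_bm ha H.hb hx (by linarith [Q.x1]) h9.1 (fun w hw hxw => (h9.2 hsm w hw hxw).1) u2
  have hη := l6q_eta (CB := CB) (δ := δ) hBm0 hlam0 (hp.lam_hi.trans u3) pw4
  obtain ⟨r1, r2, r3⟩ := l6q_ref (δ := δ) R ha ha1 ha2 hlam0 hδm (hGB hsm)
  exact l6q_gap hm0 H ⟨hθ.1.le, hθ.2.le⟩ cr' Q.t_clk (E := p.x ^ c1) (δ := δ) (ρ := p.x ^ (3 * c1 / 4)) (η := |CB| * p.lam * (2 * δ ^ 2))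
    (Bm := Bm) (G1 := p.Gam1N F 𝔹) hE3 hδ0 hδm.2 r1 r2 r3 (fun B h => l6q_top_le h) hbm (by linarith)
    (Real.rpow_le_one hx.le hx1 hdg.le) (by positivity) hη (fun u hu hu1 => l6q_late R hcr hx ha1 ha3 hδdef hδv hδ2 u5 hu hu1)
    hPok hs hKs

end

end Claimed.Agent.R286
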