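import Claimed.Agent.R286.Pe6.Contract
import Claimed.Agent.R286.Macro.Contract
import Claimed.Agent.R286.LL06.Phi

/-!
# Row 286 (S0533), LL Sec. 6 (06-global.tex l.31-34, l.38-110, l.139-153): THE IMPORT OF PE PROP. 6.6 (step S1) AND THE SEQUENCE FORM OF (G1)      (architect helper58; head L05 helper291, ADV helper130; prefix `l6s`)

TEX[LL:global:trial-gap] l.31-110, l.139-153.
* "The finite-propagation comparison used below" (l.38-81) = hypotheses `hX : P6Exit (fun n => skCPr n 1) c cl Ch` (field `error`) and `hMin : P6ImpMin (fun n => skCPr n 1) c`;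
  INSTANCES: `exit_prop` (`Exit/Prop.lean`, head PE6 helper14), `exit_p6_min` (`Exit/P6Min.lean`); they are inserted in `LL06/S1Exit.lean`.
* "A common varying base temperature" (l.83-110): NOTHING TO PROVE HERE: in `P6Seq` the temperature `(D k).T` is a FIELD of every instance, `T_k → c.Tinf > 1` along `U` (field `T_lim`, no rate);
  the `T_m`-version is the only version of PE Sec. 3-6 which is typed (ruling of helper142).      TEXDROP[LL:global:trial-gap l.83-110].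
* the normalisation `ℓ → 1` (l.31-34) = `sk_rs_CPr` (`Ci/Resc.lean`, helper53, PROVED) / supply `Ll06Nrm` of `LL06/Contract.lean`.
* FRAME: sequences of instances `i : ℕ → L6Ins` along an ultrafilter `U` (the uniform statement in `λ, ℓ, γ, m` follows by the choice of a violating sequence: `LL06/Contract.lean`, helper291).
* `L6Ins` = (size `m`, small scale `x = N^{-1/6}`, base temperature `T = T_m = ℓ² b_∘`, clocks `b`, `hs = h_*`), AFTER the normalisation `ℓ = 1`.      Plain DATA.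
* `L6Seq U c β0 κ0 i` = the hypotheses on a sequence (bundle of hypotheses on explicit data).      INSTANCE for the direct paths of LL Sec. 3: theorem `ll6_seq_of_paths` (to be stated in `LL06/Contract.lean`, owner helper291 with LL03 = 272 / 253):
  `adm`, `marg`, `bd` ⟸ (P2)-(P4);   `p9` ⟸ (P9);   `m_rng` ⟸ `m ∈ [N/2, 3N]`.
* the PE call (l.140-147): `d = e0^{1/4} = x^{dg/4}`, strength `e0 = x^{dg}`, `E = x^{4 + 3 dg/16}`, slack `c.m ≤ dg/96`, all masses (`u0 = 0`, `rmin = 0`); the taper is identically `1` (`cmF = 1` on `(-∞,1]`).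
## LEAVES (ALL PROVED, helper284)  `l6s_seq`, `l6s_ord`, `l6s_marg`, `l6s_conv`, `l6s_num`, `l6s_loss`      ## GLUE (proved)  `l6s_s1` (= S1), `l6s_G1` (= (G1) along sequences).
-/

set_option autoImplicit false

namespace Claimed.Agent.R286

open MeasureTheory Set Filter Topology Asymptotics

noncomputable section

/-- one instance of LL Sec. 6, after the normalisation `ℓ = 1` -/
structure L6Ins where
  m : ℕ
  x : ℝ
  T : ℝ
  b : ℝ → ℝ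
  hs : ℝ → ℝ

namespace L6Ins

variable (i : L6Ins) (dg mP : ℝ)

/-- the initial removal `e0 = x^{dg}` -/
def e0 : ℝ := i.x ^ dg
/-- the floor `κ = x^{4 + 1/4}` -/
def kap : ℝ := i.x ^ (4 + 1 / 4 : ℝ)
/-- the cap `M_c = x^{-10}` -/
def Mc : ℝ := i.x ^ (-10 : ℝ)
/-- the PE call of l.140-147 -/
def call : CmCall := { n := i.m, m := mP, E := i.x ^ (4 + 3 * dg / 16), d := i.x ^ (dg / 4), u0 := 0, rmin := 0 }
/-- the PE instance -/
def D : P6D := { P := i.call dg mP, T := i.T, b0 := i.b, h0 := i.hs }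

end L6Ins

/-- hypotheses on a sequence of instances -/
structure L6Seq (U : Ultrafilter ℕ) (c : P6C) (β0 κ0 : ℝ) (i : ℕ → L6Ins) : Prop where
  x_pos : ∀ᶠ k in U, 0 < (i k).x
  x_zero : Tendsto (fun k => (i k).x) U (𝓝 0)
  m_rng : ∀ᶠ k in U, (i k).x ^ (-6 : ℝ) / 2 ≤ ((i k).m : ℝ) ∧ ((i k).m : ℝ) ≤ 3 * (i k).x ^ (-6 : ℝ)
  T_lim : Tendsto (fun k => (i k).T) U (𝓝 c.Tinf)
  adm : ∀ᶠ k in U, MvClk (i k).b ∧ MvClk (i k).hs
  marg : ∀ᶠ k in U, 2 * β0 ≤ (i k).b 0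
  bd : ∀ᶠ k in U, (i k).b 1 ≤ κ0 ∧ (i k).hs 1 + 1 ≤ κ0
  /-- (P9), in the uniform sequential form of PE (4), at all scales `z ≳ x` -/
  p9 : ∀ κ ε : ℝ, 1 ≤ κ → 0 < ε → ∀ᶠ k in U, ∀ z u : ℝ, (i k).x / κ ≤ z → z ≤ 1 → 0 < u → u < 1 → z / κ ≤ u → u ≤ κ * z →
    |(i k).b u - (i k).T| ≤ ε * z ^ 2 ∧ |(i k).hs u| ≤ ε * z ^ 3

theorem l6s_eqns_cite : True := by
  have := @L6Ins.e0.eq_1
  have := @L6Ins.kap.eq_1
  have := @L6Ins.Mc.eq_1
  have := @L6Ins.call.eq_1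
  have := @L6Ins.D.eq_1
  trivial

variable {U : Ultrafilter ℕ} {c : P6C} {β0 κ0 dg : ℝ} {i : ℕ → L6Ins}


/-! ## numerics of the calls (helper284) -/

/-- `x^p → 0` along the sequence -/
theorem l6s_x_pow (h : L6Seq U c β0 κ0 i) {p ε : ℝ} (hp : 0 < p) (hε : 0 < ε) : ∀ᶠ k in U, (i k).x ^ p ≤ ε := by
  have h1 : Tendsto (fun k => (i k).x ^ p) U (𝓝 0) := by
    have := h.x_zero.rpow_const (p := p) (Or.inr hp.le)
    rwa [Real.zero_rpow hp.ne'] at this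
  exact h1.eventually_le_const hε

theorem l6s_x_le (h : L6Seq U c β0 κ0 i) : ∀ᶠ k in U, (i k).x ≤ 1 := h.x_zero.eventually_le_const one_pos

/-- `(x^{dg/4})² = x^{dg/2}` -/
theorem l6s_d_sq {x : ℝ} (hx : 0 < x) (dg : ℝ) : (x ^ (dg / 4)) ^ 2 = x ^ (dg / 2) := by
  rw [← Real.rpow_natCast, ← Real.rpow_mul hx.le]
  congr 1
  push_cast
  ring

/-- `(x^{dg/4})³ = x^{3 dg/4}` -/
theorem l6s_d_cu {x : ℝ} (hx : 0 < x) (dg : ℝ) : (x ^ (dg / 4)) ^ 3 = x ^ (3 * dg / 4) := by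
  rw [← Real.rpow_natCast, ← Real.rpow_mul hx.le]
  congr 1
  push_cast
  ring

/-- (3), left inequality -/
theorem l6s_E1 {x N cE μ : ℝ} (hx : 0 < x) (hx1 : x ≤ 1) (hN : x ^ (-6 : ℝ) / 2 ≤ N) (hcE : cE ≤ 1 / 2)
    (hμ0 : 0 ≤ μ) (hμ : μ ≤ dg / 96) (hμ1 : μ ≤ 1 / 100) :
    cE * N ^ (-(2 / 3 : ℝ) + μ) * x ^ (dg / 4) ≤ x ^ (4 + 3 * dg / 16) := by
  have hp : 0 < x ^ (-6 : ℝ) / 2 := by positivity
  have h1 : N ^ (-(2 / 3 : ℝ) + μ) ≤ (x ^ (-6 : ℝ) / 2) ^ (-(2 / 3 : ℝ) + μ) :=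
    Real.rpow_le_rpow_of_nonpos hp hN (by linarith)
  have h2 : (x ^ (-6 : ℝ) / 2) ^ (-(2 / 3 : ℝ) + μ) = x ^ (4 - 6 * μ) * (2:ℝ) ^ (2 / 3 - μ) := by
    rw [div_eq_mul_inv, Real.mul_rpow (by positivity) (by positivity), ← Real.rpow_mul hx.le, Real.inv_rpow (by norm_num),
      ← Real.rpow_neg (by norm_num)]
    congr 2 <;> ring
  have h3 : (2:ℝ) ^ (2 / 3 - μ) ≤ 2 := by
    calc (2:ℝ) ^ (2 / 3 - μ) ≤ (2:ℝ) ^ (1:ℝ) := Real.rpow_le_rpow_of_exponent_le (by norm_num) (by linarith)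
      _ = 2 := Real.rpow_one 2
  have h4 : 0 ≤ x ^ (4 - 6 * μ) := by positivity
  have h5 : 0 ≤ x ^ (dg / 4) := by positivity
  have h6 : 0 ≤ N ^ (-(2 / 3 : ℝ) + μ) := Real.rpow_nonneg (hp.le.trans hN) _
  calc cE * N ^ (-(2 / 3 : ℝ) + μ) * x ^ (dg / 4) ≤ 1 / 2 * (x ^ (4 - 6 * μ) * 2) * x ^ (dg / 4) := by
        refine mul_le_mul_of_nonneg_right ?_ h5
        refine mul_le_mul hcE ?_ h6 (by norm_num)
        rw [h2] at h1
        exact h1.trans (mul_le_mul_of_nonneg_left h3 h4)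
    _ = x ^ (4 - 6 * μ + dg / 4) := by
        rw [Real.rpow_add hx]
        ring
    _ ≤ x ^ (4 + 3 * dg / 16) := Real.rpow_le_rpow_of_exponent_ge hx hx1 (by linarith)

/-- (3), right inequality -/
theorem l6s_E2 {x N : ℝ} (hx : 0 < x) (hx1 : x ≤ 1) (hN0 : 0 < N) (hN : N ≤ 3 * x ^ (-6 : ℝ)) (hdg1 : dg ≤ 1)
    (hs : x ^ (11 / 16 : ℝ) ≤ (3:ℝ) ^ (-(1 / 2) : ℝ)) :
    x ^ (4 + 3 * dg / 16) ≤ N ^ (-(1 / 2 : ℝ)) * (x ^ (dg / 4)) ^ 2 := by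
  have h1 : (3 * x ^ (-6 : ℝ)) ^ (-(1 / 2 : ℝ)) ≤ N ^ (-(1 / 2 : ℝ)) :=
    Real.rpow_le_rpow_of_nonpos hN0 hN (by norm_num)
  have h2 : (3 * x ^ (-6 : ℝ)) ^ (-(1 / 2 : ℝ)) = (3:ℝ) ^ (-(1 / 2) : ℝ) * x ^ (3:ℝ) := by
    rw [Real.mul_rpow (by norm_num) (by positivity), ← Real.rpow_mul hx.le]
    congr 2
    norm_num
  rw [l6s_d_sq hx]
  have h3 : x ^ (4 + 3 * dg / 16) = x ^ (1 - 5 * dg / 16) * x ^ (3:ℝ) * x ^ (dg / 2) := by
    rw [← Real.rpow_add hx, ← Real.rpow_add hx]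
    congr 1
    ring
  have h4 : x ^ (1 - 5 * dg / 16) ≤ x ^ (11 / 16 : ℝ) := Real.rpow_le_rpow_of_exponent_ge hx hx1 (by linarith)
  rw [h3]
  refine mul_le_mul_of_nonneg_right ?_ (by positivity)
  rw [h2] at h1
  exact (mul_le_mul_of_nonneg_right (h4.trans hs) (by positivity)).trans h1

/-- `a = √N E/d ≥ x` -/
theorem l6s_a_ge {x N : ℝ} (hx : 0 < x) (hN : x ^ (-6 : ℝ) / 2 ≤ N) (hs : x ^ (dg / 16) ≤ 1 / 2) :
    x ≤ Real.sqrt N * x ^ (4 + 3 * dg / 16) / x ^ (dg / 4) := by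
  have h1 : x ^ (-3 : ℝ) / 2 ≤ Real.sqrt N := by
    refine Real.le_sqrt_of_sq_le ?_
    have : (x ^ (-3 : ℝ) / 2) ^ 2 = x ^ (-6 : ℝ) / 4 := by
      rw [div_pow, ← Real.rpow_natCast, ← Real.rpow_mul hx.le]
      norm_num
    rw [this]
    have : 0 < x ^ (-6 : ℝ) := by positivity
    linarith
  rw [le_div_iff₀ (by positivity)]
  have h2 : x * x ^ (dg / 4) = x ^ (dg / 16) * (x ^ (-3 : ℝ) * x ^ (4 + 3 * dg / 16)) := by
    rw [← Real.rpow_add hx, ← Real.rpow_add hx]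
    nth_rewrite 1 [← Real.rpow_one x]
    rw [← Real.rpow_add hx]
    congr 1
    ring
  rw [h2]
  have h3 : 0 ≤ x ^ (-3 : ℝ) * x ^ (4 + 3 * dg / 16) := by positivity
  calc x ^ (dg / 16) * (x ^ (-3 : ℝ) * x ^ (4 + 3 * dg / 16)) ≤ 1 / 2 * (x ^ (-3 : ℝ) * x ^ (4 + 3 * dg / 16)) :=
        mul_le_mul_of_nonneg_right hs h3
    _ = x ^ (-3 : ℝ) / 2 * x ^ (4 + 3 * dg / 16) := by ring
    _ ≤ Real.sqrt N * x ^ (4 + 3 * dg / 16) := mul_le_mul_of_nonneg_right h1 (by positivity)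

/-- `3 ≤ m` -/
theorem l6s_three_le {x : ℝ} {m : ℕ} (hx : 0 < x) (hN : x ^ (-6 : ℝ) / 2 ≤ (m : ℝ)) (hs : x ^ (6 : ℝ) ≤ 1 / 6) : 3 ≤ m := by
  have h1 : (6:ℝ) ≤ x ^ (-6 : ℝ) := by
    rw [Real.rpow_neg hx.le]
    have h0 : 0 < x ^ (6:ℝ) := by positivity
    rw [le_inv_comm₀ (by norm_num) h0]
    linarith
  have : (3:ℝ) ≤ (m : ℝ) := by linarith
  exact_mod_cast this

/-- the calls satisfy PE (3), (5) -/
theorem l6s_ok (hc : c.Ok) (hcE : c.cE ≤ 1 / 2) (hdg : 0 < dg) (hdg1 : dg ≤ 1) (hm : c.m ≤ dg / 96) (h : L6Seq U c β0 κ0 i) :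
    ∀ᶠ k in U, ((i k).call dg c.m).Ok c.cE c.D0 := by
  filter_upwards [h.x_pos, l6s_x_le h, h.m_rng, l6s_x_pow h (p := 6) (by norm_num) (ε := 1 / 6) (by norm_num),
    l6s_x_pow h (p := dg / 4) (by positivity) hc.D0_pos,
    l6s_x_pow h (p := 11 / 16) (by norm_num) (ε := (3:ℝ) ^ (-(1 / 2) : ℝ)) (by positivity)] with k hx hx1 hN h6 hD h11
  have h3 : 3 ≤ (i k).m := l6s_three_le hx hN.1 h6
  have hN0 : (0:ℝ) < ((i k).m : ℝ) := by
    have : 0 < (i k).m := by omega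
    exact_mod_cast this
  refine ⟨h3, hc.m_pos, hc.m_le, ?_, hD, ?_, ?_, le_rfl, ?_, le_rfl, ?_, fun _ => rfl⟩
  · show 0 < (i k).x ^ (dg / 4)
    positivity
  · exact l6s_E1 hx hx1 hN.1 hcE hc.m_pos.le hm hc.m_le
  · exact l6s_E2 hx hx1 hN0 hN.2 hdg1 h11
  · show (0:ℝ) ≤ 1 / 2
    norm_num
  · show (0:ℝ) ≤ _
    have e1 : (0:ℝ) < ((i k).call dg c.m).N := hN0
    have e2 : (0:ℝ) < ((i k).call dg c.m).E := by
      show 0 < (i k).x ^ (4 + 3 * dg / 16)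
      positivity
    have e3 : (0:ℝ) < ((i k).call dg c.m).d := by
      show 0 < (i k).x ^ (dg / 4)
      positivity
    have e4 : (0:ℝ) ≤ ((i k).call dg c.m).u0 := le_rfl
    unfold CmCall.M CmCall.L CmCall.a CmCall.us
    positivity

/-- **LEAF** PE (3), (4), (5) for the calls.      Numerics (`N ≍ x^{-6}`): (3) left ⟸ `2 cE ≤ 1`, `6 c.m ≤ dg/16`; (3) right ⟸ `x^{1 - 5 dg/16} → 0`; `d → 0`; `a = √N E/d ≥ x^{1 - dg/16}/√2 ≥ x` eventually, so (4) ⟸ `p9`. -/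
theorem l6s_seq (hc : c.Ok) (hcE : c.cE ≤ 1 / 2) (hdg : 0 < dg) (hdg1 : dg ≤ 1) (hm : c.m ≤ dg / 96) (hK : κ0 + 1 ≤ c.K)
    (h : L6Seq U c β0 κ0 i) : P6Seq U c (fun k => (i k).D dg c.m) where
  n_top := by
    refine tendsto_atTop.2 fun B => ?_
    have hB : (0:ℝ) < 1 / (2 * max B 1) := by positivity
    filter_upwards [h.x_pos, h.m_rng, l6s_x_pow h (p := 6) (by norm_num) hB] with k hx hN h6
    show B ≤ ((i k).m : ℝ)
    have h0 : 0 < (i k).x ^ (6:ℝ) := by positivity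
    have h1 : 2 * max B 1 ≤ (i k).x ^ (-6 : ℝ) := by
      rw [Real.rpow_neg hx.le, le_inv_comm₀ (by positivity) h0]
      simpa using h6
    linarith [hN.1, le_max_left B 1]
  m_eq := Eventually.of_forall fun _ => rfl
  ok := l6s_ok hc hcE hdg hdg1 hm h
  T_lim := h.T_lim
  dT := by
    have hρ : 0 < (c.Tinf - c.ρ) / 2 := by linarith [hc.ρ_lt]
    filter_upwards [h.x_pos, l6s_x_pow h (p := dg / 2) (by positivity) hρ,
      h.T_lim.eventually_const_le (show (c.Tinf + c.ρ) / 2 < c.Tinf by linarith [hc.ρ_lt])] with k hx h1 h2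
    show ((i k).x ^ (dg / 4)) ^ 2 ≤ (i k).T - c.ρ
    rw [l6s_d_sq hx]
    linarith
  u0_small := Asymptotics.isLittleO_zero _ _
  ep4 := by
    intro κ ε hκ hε
    filter_upwards [h.x_pos, h.m_rng, l6s_x_pow h (p := dg / 16) (by positivity) (ε := 1 / 2) (by norm_num), h.p9 κ ε hκ hε]
      with k hx hN hs hp z u hz hz1 hu hu1 h1 h2
    have ha : (i k).x ≤ ((i k).D dg c.m).P.a := l6s_a_ge hx hN.1 hs
    exact hp z u ((div_le_div_of_nonneg_right ha (by linarith)).trans hz) hz1 hu hu1 h1 h2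
  clk := by
    filter_upwards [h.adm, h.bd] with k hadm hbd u hu
    have h1 := hadm.1.nonneg hu
    have h2 := hadm.1.le_one hu
    have h3 := hadm.2.nonneg hu
    have h4 := hadm.2.le_one hu
    constructor
    · show |(i k).b u| ≤ c.K
      rw [abs_of_nonneg h1]
      linarith [hbd.1]
    · show |(i k).hs u| ≤ c.K
      rw [abs_of_nonneg h3]
      linarith [hbd.2]
  mono := by
    filter_upwards [h.adm] with k hadm
    exact ⟨hadm.1.1, hadm.2.1⟩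


/-- feasible quantiles of an all-mass call are quantiles -/
theorem l6s_fe {j : L6Ins} {μ cE D0 : ℝ} (hcE : 0 < cE) (hok : (j.call dg μ).Ok cE D0) {r : ℝ → ℝ} (hr : (j.call dg μ).Fe r) :
    MonotoneOn r (Icc (0:ℝ) 1) ∧ ∀ u ∈ Icc (0:ℝ) 1, r u ∈ Icc (0:ℝ) 1 := by
  obtain ⟨q, rfl⟩ := hr
  exact ⟨(cm_q_r_strictMono hcE hok q).monotoneOn, q.r_mem⟩

theorem l6s_Pb {j : L6Ins} {μ lam : ℝ} {r : ℝ → ℝ} {u : ℝ} (hu : 0 ≤ u) :
    (j.D dg μ).Pb lam r u = j.b u - (j.call dg μ).e lam (r u) := if_pos hu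

theorem l6s_Ph {j : L6Ins} {μ lam : ℝ} {r : ℝ → ℝ} {u : ℝ} (hu : 0 ≤ u) :
    (j.D dg μ).Ph lam r u = j.hs u + (j.call dg μ).e lam (r u) * r u := if_pos hu

/-- every changed path is admissible -/
theorem l6s_adm {j : L6Ins} {μ : ℝ} (hx : 0 < j.x) (hb : MvClk j.b) (hh : MvClk j.hs) {r : ℝ → ℝ} (hr1 : MonotoneOn r (Icc (0:ℝ) 1))
    (hr2 : ∀ u ∈ Icc (0:ℝ) 1, r u ∈ Icc (0:ℝ) 1) {lam : ℝ} (hl0 : 0 ≤ lam) (hl : lam ≤ j.b 0) :
    MvClk ((j.D dg μ).Pb lam r) ∧ MvClk ((j.D dg μ).Ph lam r) := by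
  have hd : 0 < (j.call dg μ).d := by
    show 0 < j.x ^ (dg / 4)
    positivity
  have h0 : (0:ℝ) ∈ Icc (0:ℝ) 1 := left_mem_Icc.2 zero_le_one
  refine ⟨⟨fun u hu v hv huv => ?_, ?_⟩, ⟨fun u hu v hv huv => ?_, ?_⟩⟩
  · rw [l6s_Pb hu.1, l6s_Pb hv.1]
    have h1 := hb.1 hu hv huv
    have h2 := cm_e_anti (j.call dg μ) hd hl0 (hr1 hu hv huv)
    simp only at h2
    linarith
  · rw [l6s_Pb le_rfl]
    have := cm_e_le (j.call dg μ) hl0 (r 0)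
    linarith
  · rw [l6s_Ph hu.1, l6s_Ph hv.1]
    have h1 := hh.1 hu hv huv
    have h2 := cm_re_mono (j.call dg μ) hd hl0 (hr2 u hu).1 (hr2 v hv).1 (hr1 hu hv huv)
    simp only at h2
    linarith
  · rw [l6s_Ph le_rfl]
    have h1 := cm_e_nonneg (j.call dg μ) hl0 (r 0)
    have h2 := mul_nonneg h1 (hr2 0 h0).1
    linarith [hh.2]

/-- **LEAF** (l.80-81) "the matrix margin and taper monotonicities ensure admissibility": `cm_e_anti`, `cm_re_mono`, `cm_e_le`, `cm_q_r_strictMono`; `d² → 0 < 2 β0 ≤ b 0`. -/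
theorem l6s_ord (hc : c.Ok) (hcE : c.cE ≤ 1 / 2) (hdg : 0 < dg) (hdg1 : dg ≤ 1) (hm : c.m ≤ dg / 96) (hβ0 : 0 < β0)
    (h : L6Seq U c β0 κ0 i) : ∀ᶠ k in U, ((i k).D dg c.m).Ord := by
  filter_upwards [h.x_pos, h.adm, h.marg, l6s_ok hc hcE hdg hdg1 hm h, l6s_x_pow h (p := dg / 2) (by positivity) hβ0]
    with k hx hadm hmarg hok hd2
  refine ⟨hadm, fun lam hl0 hl r hr => ?_⟩
  obtain ⟨hr1, hr2⟩ := l6s_fe hc.cE_pos hok hr
  have hl' : lam ≤ (i k).x ^ (dg / 2) := by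
    rw [← l6s_d_sq hx]
    exact hl
  exact l6s_adm hx hadm.1 hadm.2 hr1 hr2 hl0 (by linarith)

/-- **LEAF** covariance margin and clock bound of every changed path (all-mass descendants: `j0 = 0`, the second clause of `P6Marg` is void) -/
theorem l6s_marg (hc : c.Ok) (hcE : c.cE ≤ 1 / 2) (hdg : 0 < dg) (hdg1 : dg ≤ 1) (hm : c.m ≤ dg / 96) (hβ0 : 0 < β0)
    (h : L6Seq U c β0 κ0 i) : ∀ᶠ k in U, ∀ l s, 0 < l → l ≤ ((i k).D dg c.m).P.d ^ 2 → ((i k).D dg c.m).P.Fe s →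
      P6Marg (((i k).D dg c.m).Pb l s) 0 β0 ∧ P6Bd (((i k).D dg c.m).Pb l s) (((i k).D dg c.m).Ph l s) κ0 := by
  filter_upwards [h.x_pos, l6s_x_le h, h.adm, h.marg, h.bd, l6s_ok hc hcE hdg hdg1 hm h, l6s_x_pow h (p := dg / 2) (by positivity) hβ0]
    with k hx hx1 hadm hmarg hbd hok hd2 l s hl0 hl hs
  obtain ⟨hr1, hr2⟩ := l6s_fe hc.cE_pos hok hs
  have hl' : l ≤ (i k).x ^ (dg / 2) := by
    rw [← l6s_d_sq hx]
    exact hl
  have hl1 : l ≤ 1 := hl'.trans (Real.rpow_le_one hx.le hx1 (by positivity))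
  obtain ⟨hPb, hPh⟩ := l6s_adm (dg := dg) (μ := c.m) hx hadm.1 hadm.2 hr1 hr2 hl0.le (by linarith)
  refine ⟨⟨fun u hu0 hu1 => ?_, fun u v hu0 hu => absurd hu0 (not_le.2 hu)⟩, fun u hu => ⟨?_, ?_⟩⟩
  · rw [l6s_Pb hu0]
    have h1 := cm_e_le ((i k).call dg c.m) hl0.le (s u)
    have h2 := hadm.1.1 (left_mem_Icc.2 zero_le_one) ⟨hu0, hu1⟩ hu0
    linarith
  · rw [abs_of_nonneg (hPb.nonneg hu), l6s_Pb hu.1]
    have h1 := cm_e_nonneg ((i k).call dg c.m) hl0.le (s u)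
    have h2 := hadm.1.le_one hu
    linarith [hbd.1]
  · rw [abs_of_nonneg (hPh.nonneg hu), l6s_Ph hu.1]
    have h1 := cm_e_le ((i k).call dg c.m) hl0.le (s u)
    have h0 := cm_e_nonneg ((i k).call dg c.m) hl0.le (s u)
    have h2 := hadm.2.le_one hu
    have h3 : ((i k).call dg c.m).e l (s u) * s u ≤ 1 * 1 := mul_le_mul (h1.trans hl1) (hr2 u hu).2 (hr2 u hu).1 zero_le_one
    linarith [hbd.2]

/-- **LEAF** (l.146-147) the taper is identically `1`: at the strength `e0` the objective (6) of PE is `J(0,·)`, and feasible quantiles are quantiles.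
`e0 r/d³ = x^{dg/4} r ≤ 1`; `macI_f`; functions which agree on `[0,1]` have the same pressure (`(macI m).lip`). -/
theorem l6s_conv (hc : c.Ok) (hcE : c.cE ≤ 1 / 2) (hdg : 0 < dg) (hdg1 : dg ≤ 1) (hm : c.m ≤ dg / 96) (hβ0 : 0 < β0)
    (h : L6Seq U c β0 κ0 i) : ∀ᶠ k in U, (macI (i k).m).f (i k).b (i k).hs = skCPr (i k).m 1 (i k).b (i k).hs ∧
      ∀ r, ((i k).D dg c.m).P.Fe r → MvQt r ∧
        ((i k).D dg c.m).obj (fun n => skCPr n 1) ((i k).e0 dg) r = l6pJ (macI (i k).m) (i k).b (i k).hs ((i k).e0 dg) 0 r := by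
  filter_upwards [h.x_pos, l6s_x_le h, h.adm, h.marg, l6s_ok hc hcE hdg hdg1 hm h, l6s_x_pow h hdg hβ0]
    with k hx hx1 hadm hmarg hok he0
  have hm0 : 0 < (i k).m := lt_of_lt_of_le (by norm_num) hok.n3
  refine ⟨macI_f hm0 hadm.1 hadm.2, fun r hr => ?_⟩
  obtain ⟨hr1, hr2⟩ := l6s_fe hc.cE_pos hok hr
  have h01 : (0:ℝ) ∈ Icc (0:ℝ) 1 := left_mem_Icc.2 zero_le_one
  have h11 : (1:ℝ) ∈ Icc (0:ℝ) 1 := right_mem_Icc.2 zero_le_one
  have hq : MvQt r := ⟨⟨hr1, (hr2 0 h01).1⟩, (hr2 1 h11).2⟩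
  refine ⟨hq, ?_⟩
  have he0' : (i k).e0 dg = (i k).x ^ dg := rfl
  have he00 : 0 < (i k).e0 dg := by
    rw [he0']
    positivity
  -- the taper is identically one
  have he : ∀ u ∈ Icc (0:ℝ) 1, ((i k).call dg c.m).e ((i k).e0 dg) (r u) = (i k).e0 dg := by
    intro u hu
    have h1 : (i k).e0 dg * r u / ((i k).call dg c.m).d ^ 3 ≤ 1 := by
      show (i k).x ^ dg * r u / ((i k).x ^ (dg / 4)) ^ 3 ≤ 1
      rw [l6s_d_cu hx, div_le_one (by positivity)]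
      calc (i k).x ^ dg * r u ≤ (i k).x ^ dg * 1 := mul_le_mul_of_nonneg_left (hr2 u hu).2 (by positivity)
        _ = (i k).x ^ dg := mul_one _
        _ ≤ (i k).x ^ (3 * dg / 4) := Real.rpow_le_rpow_of_exponent_ge hx hx1 (by linarith)
    rw [CmCall.e, cm_f_of_le h1, mul_one]
  obtain ⟨hPb, hPh⟩ := l6s_adm (dg := dg) (μ := c.m) hx hadm.1 hadm.2 hr1 hr2 he00.le (by rw [he0']; linarith)
  have hE : ∀ u, l6pE (i k).b ((i k).e0 dg) 0 u = (i k).e0 dg := by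
    intro u
    simp [l6pE]
  have hB : ∀ u ∈ Icc (0:ℝ) 1, ((i k).D dg c.m).Pb ((i k).e0 dg) r u = l6pB (i k).b ((i k).e0 dg) 0 u := by
    intro u hu
    rw [l6s_Pb hu.1, he u hu, l6pB, hE]
  have hH : ∀ u ∈ Icc (0:ℝ) 1, ((i k).D dg c.m).Ph ((i k).e0 dg) r u = l6pH (i k).b (i k).hs ((i k).e0 dg) 0 r u := by
    intro u hu
    rw [l6s_Ph hu.1, he u hu, l6pH, hE]
  have hB' : MvClk (l6pB (i k).b ((i k).e0 dg) 0) :=
    ⟨fun u hu v hv huv => by rw [← hB u hu, ← hB v hv]; exact hPb.1 hu hv huv, by rw [← hB 0 h01]; exact hPb.2⟩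
  have hH' : MvClk (l6pH (i k).b (i k).hs ((i k).e0 dg) 0 r) :=
    ⟨fun u hu v hv huv => by rw [← hH u hu, ← hH v hv]; exact hPh.1 hu hv huv, by rw [← hH 0 h01]; exact hPh.2⟩
  have hlip := (macI (i k).m).lip _ _ _ _ hPb hPh hB' hH'
  have hz1 : ∫ u in (0:ℝ)..1, |((i k).D dg c.m).Pb ((i k).e0 dg) r u - l6pB (i k).b ((i k).e0 dg) 0 u| = 0 := by
    rw [intervalIntegral.integral_congr (g := fun _ => (0:ℝ))]
    · simp
    · intro u hu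
      rw [uIcc_of_le zero_le_one] at hu
      simp only
      rw [hB u hu, sub_self, abs_zero]
  have hz2 : ∫ u in (0:ℝ)..1, |((i k).D dg c.m).Ph ((i k).e0 dg) r u - l6pH (i k).b (i k).hs ((i k).e0 dg) 0 r u| = 0 := by
    rw [intervalIntegral.integral_congr (g := fun _ => (0:ℝ))]
    · simp
    · intro u hu
      rw [uIcc_of_le zero_le_one] at hu
      simp only
      rw [hH u hu, sub_self, abs_zero]
  rw [hz1, hz2] at hlip
  have hf : (macI (i k).m).f (((i k).D dg c.m).Pb ((i k).e0 dg) r) (((i k).D dg c.m).Ph ((i k).e0 dg) r)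
      = (macI (i k).m).f (l6pB (i k).b ((i k).e0 dg) 0) (l6pH (i k).b (i k).hs ((i k).e0 dg) 0 r) := by
    have : |(macI (i k).m).f (((i k).D dg c.m).Pb ((i k).e0 dg) r) (((i k).D dg c.m).Ph ((i k).e0 dg) r)
      - (macI (i k).m).f (l6pB (i k).b ((i k).e0 dg) 0) (l6pH (i k).b (i k).hs ((i k).e0 dg) 0 r)| ≤ 0 := by linarith
    exact sub_eq_zero.1 (abs_nonpos_iff.1 this)
  have hpen : ((i k).D dg c.m).pen ((i k).e0 dg) r = 1 / 4 * ∫ u in (0:ℝ)..1, l6pE (i k).b ((i k).e0 dg) 0 u * r u ^ 2 := by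
    show (1 / 4) * ∫ u in (0:ℝ)..1, ((i k).call dg c.m).e ((i k).e0 dg) (r u) * r u ^ 2 = _
    congr 1
    refine intervalIntegral.integral_congr fun u hu => ?_
    rw [uIcc_of_le zero_le_one] at hu
    rw [he u hu, hE]
  rw [P6D.obj, l6pJ, hpen, ← hf, macI_f hm0 hPb hPh]
  rfl

/-- **LEAF** (l.143-145) `m^{20 δ} E ≤ x^{4 + dg/8}`, `0 ≤ e0 ≤ d²`:   `N^{c.m/500} ≤ 3 x^{-dg/8000}`. -/
theorem l6s_num (hc : c.Ok) (hdg : 0 < dg) (hdg1 : dg ≤ 1) (hm : c.m ≤ dg / 96) (h : L6Seq U c β0 κ0 i) :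
    ∀ᶠ k in U, ((i k).D dg c.m).P.N ^ (20 * ((i k).D dg c.m).P.dl) * ((i k).D dg c.m).P.E ≤ (i k).x ^ (4 + dg / 8) ∧
      0 ≤ (i k).e0 dg ∧ (i k).e0 dg ≤ ((i k).D dg c.m).P.d ^ 2 := by
  filter_upwards [h.x_pos, l6s_x_le h, h.m_rng,
    l6s_x_pow h (p := dg / 16 - dg / 8000) (by linarith) (ε := 1 / 3) (by norm_num)] with k hx hx1 hN hs
  refine ⟨?_, ?_, ?_⟩
  · show ((i k).m : ℝ) ^ (20 * (c.m / 10000)) * (i k).x ^ (4 + 3 * dg / 16) ≤ (i k).x ^ (4 + dg / 8)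
    have ht0 : 0 ≤ 20 * (c.m / 10000) := by linarith [hc.m_pos]
    have ht1 : 20 * (c.m / 10000) ≤ 1 := by linarith [hc.m_le]
    have h1 : ((i k).m : ℝ) ^ (20 * (c.m / 10000)) ≤ (3 * (i k).x ^ (-6 : ℝ)) ^ (20 * (c.m / 10000)) :=
      Real.rpow_le_rpow (Nat.cast_nonneg _) hN.2 ht0
    have h2 : (3 * (i k).x ^ (-6 : ℝ)) ^ (20 * (c.m / 10000)) = (3:ℝ) ^ (20 * (c.m / 10000)) * (i k).x ^ (-(6 * (20 * (c.m / 10000)))) := by
      rw [Real.mul_rpow (by norm_num) (by positivity), ← Real.rpow_mul hx.le]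
      congr 2
      ring
    have h3 : (3:ℝ) ^ (20 * (c.m / 10000)) ≤ 3 := by
      calc (3:ℝ) ^ (20 * (c.m / 10000)) ≤ (3:ℝ) ^ (1:ℝ) := Real.rpow_le_rpow_of_exponent_le (by norm_num) ht1
        _ = 3 := Real.rpow_one 3
    have h4 : (i k).x ^ (-(6 * (20 * (c.m / 10000)))) ≤ (i k).x ^ (-(dg / 8000)) :=
      Real.rpow_le_rpow_of_exponent_ge hx hx1 (by linarith)
    have h5 : (i k).x ^ (-(dg / 8000)) * (i k).x ^ (4 + 3 * dg / 16) = (i k).x ^ (dg / 16 - dg / 8000) * (i k).x ^ (4 + dg / 8) := by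
      rw [← Real.rpow_add hx, ← Real.rpow_add hx]
      congr 1
      ring
    have h6 : 0 ≤ (i k).x ^ (4 + 3 * dg / 16) := by positivity
    have h7 : 0 ≤ (i k).x ^ (4 + dg / 8) := by positivity
    calc ((i k).m : ℝ) ^ (20 * (c.m / 10000)) * (i k).x ^ (4 + 3 * dg / 16)
        ≤ (3 * (i k).x ^ (-(dg / 8000))) * (i k).x ^ (4 + 3 * dg / 16) := by
          refine mul_le_mul_of_nonneg_right ?_ h6
          rw [h2] at h1
          exact h1.trans (mul_le_mul h3 h4 (by positivity) (by norm_num))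
      _ = 3 * ((i k).x ^ (dg / 16 - dg / 8000) * (i k).x ^ (4 + dg / 8)) := by rw [mul_assoc, h5]
      _ ≤ 3 * (1 / 3 * (i k).x ^ (4 + dg / 8)) := by
          refine mul_le_mul_of_nonneg_left (mul_le_mul_of_nonneg_right hs h7) (by norm_num)
      _ = (i k).x ^ (4 + dg / 8) := by ring
  · show 0 ≤ (i k).x ^ dg
    positivity
  · show (i k).x ^ dg ≤ ((i k).x ^ (dg / 4)) ^ 2
    rw [l6s_d_sq hx]
    exact Real.rpow_le_rpow_of_exponent_ge hx hx1 (by linarith)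

/-- **S1** (l.139-153): the optimised value, including `∫ e0 r²/4`, is within `x^{4 + dg/8}` of the bare pressure.      GLUE. -/
theorem l6s_s1 {cl Ch : ℝ} (hX : P6Exit (fun n => skCPr n 1) c cl Ch) (hMin : P6ImpMin (fun n => skCPr n 1) c) (hc : c.Ok) (hcE : c.cE ≤ 1 / 2)
    (hdg : 0 < dg) (hdg1 : dg ≤ 1) (hm : c.m ≤ dg / 96) (hβ0 : 0 < β0) (hK : κ0 + 1 ≤ c.K) (h : L6Seq U c β0 κ0 i) :
    ∀ᶠ k in U, ∃ r, MvQt r ∧ l6pJ (macI (i k).m) (i k).b (i k).hs ((i k).e0 dg) 0 r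
      ≤ (macI (i k).m).f (i k).b (i k).hs + (i k).x ^ (4 + dg / 8) := by
  have seq := l6s_seq hc hcE hdg hdg1 hm hK h
  have ord := l6s_ord hc hcE hdg hdg1 hm hβ0 h
  have err := hX.error U β0 κ0 _ (fun _ => 0) hβ0 hK seq ord (Eventually.of_forall fun k => ⟨le_rfl, le_rfl⟩)
    (l6s_marg hc hcE hdg hdg1 hm hβ0 h)
  filter_upwards [hMin U _ seq, ord, err, l6s_conv hc hcE hdg hdg1 hm hβ0 h, l6s_num hc hdg hdg1 hm h]
    with k hmin hord herr hconv hnum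
  obtain ⟨r, hr⟩ := hmin _ hnum.2.1 hnum.2.2 (hord.2 _ hnum.2.1 hnum.2.2)
  have h1 := (herr _ r hnum.2.1 hnum.2.2 hr).2
  obtain ⟨hq, he⟩ := hconv.2 r hr.1
  refine ⟨r, hq, ?_⟩
  rw [P6D.err, he] at h1
  rw [hconv.1]
  have h2 : ((i k).D dg c.m).P.n = (i k).m := rfl
  have h3 : ((i k).D dg c.m).b0 = (i k).b := rfl
  have h4 : ((i k).D dg c.m).h0 = (i k).hs := rfl
  rw [h2, h3, h4] at h1
  linarith [hnum.1]

/-- **LEAF** the standing hypotheses hold eventually, and the loss of the density box is `≤ x^{4 + 1/8}`:   `3/2 κ0 (16 x^{17/4} + x^{10}) ≤ x^{4 + 1/8}`. -/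
theorem l6s_loss (hdg : 0 < dg) (hβ0 : 0 < β0) (h : L6Seq U c β0 κ0 i) {q : ℕ → ℝ → ℝ} (hq : ∀ᶠ k in U, MvQt (q k)) :
    ∀ᶠ k in U, L6pOk (i k).b (i k).hs (q k) ((i k).e0 dg) (i k).kap (i k).Mc ∧ l6pLoss (i k).b (i k).kap (i k).Mc ≤ (i k).x ^ (4 + 1 / 8 : ℝ) := by
  have hκ : (0:ℝ) < 1 / (26 * max κ0 1) := by positivity
  filter_upwards [h.x_pos, l6s_x_le h, h.adm, h.marg, h.bd, hq, l6s_x_pow h hdg hβ0,
    l6s_x_pow h (p := 4 + 1 / 4) (by norm_num) (ε := 1 / 8) (by norm_num),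
    l6s_x_pow h (p := 1 / 8) (by norm_num) hκ] with k hx hx1 hadm hmarg hbd hqk h1 h2 h3
  refine ⟨⟨hadm.1, hadm.2, hqk, ?_, ?_, ?_, h2, ?_⟩, ?_⟩
  · show 0 < (i k).x ^ dg
    positivity
  · show (i k).x ^ dg ≤ (i k).b 0
    linarith
  · show 0 < (i k).x ^ (4 + 1 / 4 : ℝ)
    positivity
  · show 1 ≤ (i k).x ^ (-10 : ℝ)
    exact Real.one_le_rpow_of_pos_of_le_one_of_nonpos hx hx1 (by norm_num)
  · show 3 / 2 * (i k).b 1 * (16 * (i k).x ^ (4 + 1 / 4 : ℝ) + 1 / (i k).x ^ (-10 : ℝ)) ≤ (i k).x ^ (4 + 1 / 8 : ℝ)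
    have e1 : 1 / (i k).x ^ (-10 : ℝ) = (i k).x ^ (10 : ℝ) := by
      rw [Real.rpow_neg hx.le, one_div, inv_inv]
    have e2 : (i k).x ^ (10 : ℝ) ≤ (i k).x ^ (4 + 1 / 4 : ℝ) := Real.rpow_le_rpow_of_exponent_ge hx hx1 (by norm_num)
    have e3 : (i k).x ^ (4 + 1 / 4 : ℝ) = (i k).x ^ (1 / 8 : ℝ) * (i k).x ^ (4 + 1 / 8 : ℝ) := by
      rw [← Real.rpow_add hx]
      norm_num
    have e4 : 0 ≤ (i k).b 1 := hadm.1.nonneg (right_mem_Icc.2 zero_le_one)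
    have e5 : (i k).b 1 ≤ max κ0 1 := hbd.1.trans (le_max_left _ _)
    have e6 : 0 < (i k).x ^ (4 + 1 / 8 : ℝ) := by positivity
    have e7 : 0 < (i k).x ^ (4 + 1 / 4 : ℝ) := by positivity
    have e8 : (0:ℝ) < max κ0 1 := by positivity
    rw [e1]
    calc 3 / 2 * (i k).b 1 * (16 * (i k).x ^ (4 + 1 / 4 : ℝ) + (i k).x ^ (10 : ℝ))
        ≤ 3 / 2 * max κ0 1 * (17 * (i k).x ^ (4 + 1 / 4 : ℝ)) := by
          refine mul_le_mul (by linarith) (by linarith) (by positivity) (by positivity)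
      _ = 51 / 2 * max κ0 1 * (i k).x ^ (1 / 8 : ℝ) * (i k).x ^ (4 + 1 / 8 : ℝ) := by rw [e3]; ring
      _ ≤ 51 / 2 * max κ0 1 * (1 / (26 * max κ0 1)) * (i k).x ^ (4 + 1 / 8 : ℝ) := by
          refine mul_le_mul_of_nonneg_right (mul_le_mul_of_nonneg_left h3 (by positivity)) e6.le
      _ = 51 / 52 * (i k).x ^ (4 + 1 / 8 : ℝ) := by
          field_simp
          ring
      _ ≤ (i k).x ^ (4 + 1 / 8 : ℝ) := by linarith

/-- **(G1) ALONG SEQUENCES**, glue.      Suppliers: `hG2` = `l6g_hG2` (`LL06/G2.lean`);   `hη` = the envelope estimate at the minimisers (l.171-652: 291, 200). -/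
theorem l6s_G1 {cl Ch cη : ℝ} (hX : P6Exit (fun n => skCPr n 1) c cl Ch) (hMin : P6ImpMin (fun n => skCPr n 1) c) (hc : c.Ok) (hcE : c.cE ≤ 1 / 2)
    (hdg : 0 < dg) (hdg1 : dg ≤ 1) (hm : c.m ≤ dg / 96) (hβ0 : 0 < β0) (hK : κ0 + 1 ≤ c.K) (h : L6Seq U c β0 κ0 i)
    {q : ℕ → ℝ → ℝ} (hq : ∀ᶠ k in U, MvQt (q k))
    (hG2 : ∀ᶠ k in U, ∀ r ∈ l6pCls (i k).kap (i k).Mc, mvG macSpin (i k).b (i k).hs (q k) ≤ mvG macSpin (i k).b (i k).hs r)
    (hη : ∀ᶠ k in U, ∀ θ ∈ Ioo (0:ℝ) 1, ∃ r, L6pMin (macI (i k).m) (i k).b (i k).hs ((i k).e0 dg) (i k).kap (i k).Mc θ r ∧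
      l6pDer (macI (i k).m) (i k).b (i k).hs ((i k).e0 dg) θ r ≤ (i k).x ^ (4 + cη)) :
    ∀ᶠ k in U, 0 ≤ mvG macSpin (i k).b (i k).hs (q k) - (macI (i k).m).f (i k).b (i k).hs ∧
      mvG macSpin (i k).b (i k).hs (q k) - (macI (i k).m).f (i k).b (i k).hs
        ≤ (i k).x ^ (4 + dg / 8) + (i k).x ^ (4 + 1 / 8 : ℝ) + (i k).x ^ (4 + cη) := by
  filter_upwards [l6s_s1 hX hMin hc hcE hdg hdg1 hm hβ0 hK h, l6s_loss hdg hβ0 h hq, hG2, hη] with k h1 h2 h3 h4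
  have key := l6p_main (macI (i k).m) macSpin (macI_spin (i k).m) h2.1 h1 h3 h4
  exact ⟨key.1, by linarith [key.2, h2.2]⟩

end

end Claimed.Agent.R286
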