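import Claimed.Agent.R286.LL06.Contract
import Claimed.Agent.R286.LL06.PhiS1
import Claimed.Agent.R286.Exit.Prop
import Claimed.Agent.R286.Exit.P6Min

/-!
# Row 286 (S0533), LL Sec. 6, JUNCTION [S1]: `Ll06S1Exit 𝔹 F0` FROM THE P-LIST      (owner helper53; architect of the sequence form helper58; head helper291; prefix `l6j`)

TEX[LL:global:trial-gap] 06-global.tex l.39-104, l.139-153: "PE Prop. 6.6 at the common varying base `T_m = ℓ² b_∘`, `d = e0^{1/4}`, strength `e0 = x^{dg}`, `E = x^{4+3dg/16}`".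

* `l6jIns 𝔹 F p m : L6Ins`      the instance of `LL06/PhiS1.lean` at a direct point `p` and a size `m` of the dyad: `x = p.x`, `T = ℓ² b_∘`, clocks `p.bN`, `p.hN`.
* `l6j_cl_clk`                  the closure `l6Cl` of a bounded monotone function on `(0,1)` is monotone on `[0,1]`, with the same bounds.
* `l6j_hS_le`                   (P9) for the UNMASKED UNSEEDED field `h_*`: (P9) of `LlSec3` speaks about `h = h_* + H_lo + χ_L H_lin + χ_E H_e` (masked below `x`); `h_*` does not depend on `χ`; at `χ = 0`: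
                                `0 ≤ h_* ≤ h` above the mask (`H_lo ≥ 0`), and `h_*` is monotone (below the mask).
* `l6j_seq`                     **INSTANCE `L6Seq`** along any sequence of direct points with `N_k → ∞` along `U` (`adm`, `marg`, `bd` ⟸ `LlAdm`; `p9`, `T_lim` ⟸ `LlP9`).
* `l6j_s1`                      `LlSec3 𝔹 F → Ll06S1 𝔹 F dg` for `0 < dg ≤ 24/25`: violating sequence + `l6s_s1` + `exit_prop` + `exit_p6_min`;  PE constants `c = (dg/96, κ0+1, T/2, T, 1/2, 1)`.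
* **`ll06_s1_exit : LlcP 𝔹 F0 → Ll06S1Exit 𝔹 F0`**      (abstract in `𝔹`: [S1] speaks about `macI m` at the normalised clocks only).
-/

set_option autoImplicit false

namespace Claimed.Agent.R286

open MeasureTheory Set Filter Topology

noncomputable section

/-! ## the closure of a clock on `(0,1)` -/

theorem l6j_cl_mem (c : ℝ → ℝ) {u : ℝ} (hu : u ∈ Ioo (0:ℝ) 1) : l6Cl c u = c u := by
  unfold l6Cl
  rw [if_neg (not_le.2 hu.1), if_pos hu.2]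

theorem l6j_cl_zero (c : ℝ → ℝ) : l6Cl c 0 = sInf (c '' Ioo 0 1) := by
  unfold l6Cl
  rw [if_pos le_rfl]

theorem l6j_cl_one (c : ℝ → ℝ) : l6Cl c 1 = sSup (c '' Ioo 0 1) := by
  unfold l6Cl
  rw [if_neg (by norm_num), if_neg (lt_irrefl _)]

theorem l6j_cl_clk {c : ℝ → ℝ} {lo hi : ℝ} (hm : MonotoneOn c (Ioo 0 1)) (h0 : ∀ u ∈ Ioo (0:ℝ) 1, lo ≤ c u)
    (h1 : ∀ u ∈ Ioo (0:ℝ) 1, c u ≤ hi) : MonotoneOn (l6Cl c) (Icc 0 1) ∧ lo ≤ l6Cl c 0 ∧ l6Cl c 1 ≤ hi := by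
  have hhalf : (1 / 2 : ℝ) ∈ Ioo (0:ℝ) 1 := ⟨by norm_num, by norm_num⟩
  have hne : (c '' Ioo 0 1).Nonempty := ⟨c (1 / 2), 1 / 2, hhalf, rfl⟩
  have hbb : BddBelow (c '' Ioo 0 1) := ⟨lo, by rintro _ ⟨u, hu, rfl⟩; exact h0 u hu⟩
  have hba : BddAbove (c '' Ioo 0 1) := ⟨hi, by rintro _ ⟨u, hu, rfl⟩; exact h1 u hu⟩
  refine ⟨?_, ?_, ?_⟩
  · intro x hx y hy hxy
    rcases eq_or_lt_of_le hx.1 with rfl | hx0
    · rw [l6j_cl_zero]
      rcases eq_or_lt_of_le hy.1 with rfl | hy0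
      · rw [l6j_cl_zero]
      · rcases eq_or_lt_of_le hy.2 with rfl | hy1
        · rw [l6j_cl_one]
          exact (csInf_le hbb ⟨1 / 2, hhalf, rfl⟩).trans (le_csSup hba ⟨1 / 2, hhalf, rfl⟩)
        · rw [l6j_cl_mem c ⟨hy0, hy1⟩]
          exact csInf_le hbb ⟨y, ⟨hy0, hy1⟩, rfl⟩
    · have hy0 : 0 < y := lt_of_lt_of_le hx0 hxy
      rcases eq_or_lt_of_le hy.2 with rfl | hy1
      · rw [l6j_cl_one]
        rcases eq_or_lt_of_le hx.2 with rfl | hx1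
        · rw [l6j_cl_one]
        · rw [l6j_cl_mem c ⟨hx0, hx1⟩]
          exact le_csSup hba ⟨x, ⟨hx0, hx1⟩, rfl⟩
      · have hx1 := lt_of_le_of_lt hxy hy1
        rw [l6j_cl_mem c ⟨hx0, hx1⟩, l6j_cl_mem c ⟨hy0, hy1⟩]
        exact hm ⟨hx0, hx1⟩ ⟨hy0, hy1⟩ hxy
  · rw [l6j_cl_zero]
    exact le_csInf hne (by rintro _ ⟨u, hu, rfl⟩; exact h0 u hu)
  · rw [l6j_cl_one]
    exact csSup_le hne (by rintro _ ⟨u, hu, rfl⟩; exact h1 u hu)

/-- the normalised clock of a monotone function on `[0,a]` with values in `[lo,hi]` -/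
theorem l6j_nr_clk {a : ℝ} (ha : 0 < a) {c : ℝ → ℝ} {lo hi : ℝ} (hm : MonotoneOn c (Icc 0 a)) (h0 : ∀ v ∈ Icc 0 a, lo ≤ c v)
    (h1 : ∀ v ∈ Icc 0 a, c v ≤ hi) : MonotoneOn (l6Nr a c) (Icc 0 1) ∧ a ^ 2 * lo ≤ l6Nr a c 0 ∧ l6Nr a c 1 ≤ a ^ 2 * hi := by
  have hmem : ∀ w ∈ Ioo (0:ℝ) 1, a * w ∈ Icc 0 a := fun w hw => ⟨by have := hw.1; positivity, by nlinarith [hw.2]⟩
  have ha2 : 0 ≤ a ^ 2 := by positivity
  exact l6j_cl_clk (fun x hx y hy hxy => mul_le_mul_of_nonneg_left (hm (hmem x hx) (hmem y hy) (mul_le_mul_of_nonneg_left hxy ha.le)) ha2)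
    (fun u hu => mul_le_mul_of_nonneg_left (h0 _ (hmem u hu)) ha2) (fun u hu => mul_le_mul_of_nonneg_left (h1 _ (hmem u hu)) ha2)

theorem l6j_nr_mem (a : ℝ) (c : ℝ → ℝ) {u : ℝ} (hu : u ∈ Ioo (0:ℝ) 1) : l6Nr a c u = a ^ 2 * c (a * u) := l6j_cl_mem _ hu

/-! ## one direct point -/

/-- the instance of LL Sec. 6 at a direct point and a size of the dyad -/
def l6jIns (𝔹 : LlBase) (F : LlFix) (p : LlPt) (m : ℕ) : L6Ins :=
  { m := m, x := p.x, T := p.ell ^ 2 * p.b0 F 𝔹, b := p.bN F 𝔹, hs := p.hN F 𝔹 }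

theorem l6j_eqns_cite : True := by
  have := @l6jIns.eq_1
  trivial

variable {𝔹 : LlBase} {F : LlFix} {p : LlPt}

theorem l6j_a (hsm : p.sm = false) : p.a = p.ell := by
  unfold LlPt.a
  rw [hsm]
  rfl

theorem l6j_x_pos (hp : p.Ok F) : 0 < p.x := by
  have : (0:ℝ) < (p.N : ℝ) := by
    have := hp.N2
    exact_mod_cast (by omega : 0 < p.N)
  exact Real.rpow_pos_of_pos this _

theorem l6j_x_lt (hp : p.Ok F) : p.x < 1 := by
  have : (1:ℝ) < (p.N : ℝ) := by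
    have := hp.N2
    exact_mod_cast (by omega : 1 < p.N)
  exact Real.rpow_lt_one_of_one_lt_of_neg this (by norm_num)

theorem l6j_x_six (p : LlPt) : p.x ^ (-6 : ℝ) = (p.N : ℝ) := by
  unfold LlPt.x
  rw [← Real.rpow_mul (Nat.cast_nonneg _)]
  norm_num

theorem l6j_ell_le (hp : p.Ok F) : p.ell ≤ 2 := by
  refine hp.ell2.trans ?_
  calc (2:ℝ) ^ (1 / 6 : ℝ) ≤ (2:ℝ) ^ (1 : ℝ) := Real.rpow_le_rpow_of_exponent_le (by norm_num) (by norm_num)
    _ = 2 := Real.rpow_one 2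

/-- switching off the two multipliers keeps a direct point admissible -/
theorem l6j_chi_ok (hp : p.Ok F) (hsm : p.sm = false) : (p.wChi 0 0).Ok F :=
  { N2 := hp.N2, ell1 := hp.ell1, ell2 := hp.ell2, lam_lo := hp.lam_lo, lam_hi := hp.lam_hi, g0 := hp.g0, gu := hp.gu,
    chiL := ⟨le_rfl, zero_le_one⟩, chiE := ⟨le_rfl, zero_le_one⟩
    sm_fin := fun h => by
      have h2 : p.sm = true := h
      rw [hsm] at h2
      exact absurd h2 (by simp) }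

/-- `H_lo ≥ 0` above the mask -/
theorem l6j_Hlo_nonneg (hp : p.Ok F) {v : ℝ} (hv : p.x ≤ v) : 0 ≤ p.Hlo F v := by
  have hx := l6j_x_pos hp
  have hlam : 0 ≤ p.lam := (Real.rpow_nonneg hx.le _).trans hp.lam_lo
  have h1 : 0 ≤ p.lam1 F := Real.rpow_nonneg hlam _
  have h2 : 0 ≤ p.U F := le_min zero_le_one (mul_nonneg hx.le (Real.rpow_nonneg hlam _))
  have h3 : 1 ≤ min v p.ell / p.x := by
    rw [one_le_div hx]
    exact le_min hv ((l6j_x_lt hp).le.trans hp.ell1)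
  unfold LlPt.Hlo
  exact mul_nonneg (mul_nonneg h1 (pow_nonneg h2 3)) (Real.log_nonneg h3)

/-- at `χ = 0`, above the mask: `h = h_* + H_lo` -/
theorem l6j_h_chi {v : ℝ} (hv : p.x ≤ v) : (p.wChi 0 0).h F 𝔹 v = p.hS F 𝔹 v + p.Hlo F v := by
  have h1 : (p.wChi 0 0).h F 𝔹 v
      = if v < p.x then 0 else p.hS F 𝔹 v + p.Hlo F v + 0 * p.Hlin F v + 0 * (p.wChi 0 0).He F 𝔹 v := rfl
  rw [h1, if_neg (not_lt.2 hv)]
  ring

/-- **(P9) for `h_*`**: compare with a later mass `ℓ w'` above the mask -/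
theorem l6j_hS_le (hp : p.Ok F) (hmono : MonotoneOn (p.hS F 𝔹) (Icc 0 p.ell)) {c0 A : ℝ}
    (h9 : ∀ w ∈ Ioo (0 : ℝ) 1, c0 * p.x ≤ w → |p.ell ^ 2 * (p.wChi 0 0).h F 𝔹 (p.ell * w)| ≤ A * w ^ 3)
    {w w' : ℝ} (hw : w ∈ Ioo (0:ℝ) 1) (hw' : w' ∈ Ioo (0:ℝ) 1) (hww : w ≤ w') (hx : p.x ≤ p.ell * w') (hc : c0 * p.x ≤ w') :
    p.ell ^ 2 * p.hS F 𝔹 (p.ell * w) ≤ A * w' ^ 3 := by
  have hl : 0 < p.ell := lt_of_lt_of_le one_pos hp.ell1
  have hmem : ∀ w ∈ Ioo (0:ℝ) 1, p.ell * w ∈ Icc 0 p.ell := fun w hw => ⟨by have := hw.1; positivity, by nlinarith [hw.2]⟩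
  have h1 := hmono (hmem w hw) (hmem w' hw') (mul_le_mul_of_nonneg_left hww hl.le)
  have h2 := (le_abs_self _).trans (h9 w' hw' hc)
  rw [l6j_h_chi hx] at h2
  have h3 := l6j_Hlo_nonneg hp hx
  have hl2 : 0 ≤ p.ell ^ 2 := by positivity
  nlinarith [mul_le_mul_of_nonneg_left h1 hl2, mul_nonneg hl2 h3]

/-! ## sequences of direct points -/

variable {P : ℕ → LlPt} {M : ℕ → ℕ} {U : Ultrafilter ℕ}

theorem l6j_ev {Φ : LlPt → Prop} (h : LlUnif F Φ) {Q : ℕ → LlPt} (hok : ∀ k, (Q k).Ok F) (hN : Tendsto (fun k => (Q k).N) U atTop) :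
    ∀ᶠ k in U, Φ (Q k) := by
  obtain ⟨N0, h0⟩ := h
  filter_upwards [hN.eventually_ge_atTop N0] with k hk
  exact h0 (Q k) (hok k) hk

theorem l6j_x_zero (hN : Tendsto (fun k => (P k).N) U atTop) : Tendsto (fun k => (P k).x) U (𝓝 0) :=
  (tendsto_rpow_neg_atTop (by norm_num : (0:ℝ) < 1 / 6)).comp ((tendsto_natCast_atTop_atTop (R := ℝ)).comp hN)

/-- `A x^κ ≤ ε` eventually -/
theorem l6j_small (hx0 : Tendsto (fun k => (P k).x) U (𝓝 0)) (A : ℝ) {κ ε : ℝ} (hκ : 0 < κ) (hε : 0 < ε) :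
    ∀ᶠ k in U, A * (P k).x ^ κ ≤ ε := by
  have h1 : Tendsto (fun k => A * (P k).x ^ κ) U (𝓝 (A * 0)) := by
    refine Tendsto.const_mul A ?_
    have := hx0.rpow_const (p := κ) (Or.inr hκ.le)
    rwa [Real.zero_rpow hκ.ne'] at this
  rw [mul_zero] at h1
  exact h1.eventually_le_const hε

/-- **INSTANCE of `L6Seq`** for the direct points of LL Sec. 3 -/
theorem l6j_seq (h3 : LlSec3 𝔹 F) : ∃ β0 κ0 : ℝ, 0 < β0 ∧ 0 < κ0 ∧
    ∀ c : P6C, c.Tinf = F.T → ∀ (U : Ultrafilter ℕ) (P : ℕ → LlPt) (M : ℕ → ℕ), (∀ k, (P k).Ok F) → (∀ k, (P k).sm = false) →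
      (∀ k, (P k).N ≤ 2 * M k ∧ M k ≤ 3 * (P k).N) → Tendsto (fun k => (P k).N) U atTop →
      L6Seq U c β0 κ0 (fun k => l6jIns 𝔹 F (P k) (M k)) := by
  obtain ⟨ca, Ca, hca, hadm⟩ := h3.adm
  obtain ⟨κ9, hκ9, h9⟩ := h3.p9
  refine ⟨ca / 2, max (4 * Ca) 2, by positivity, by positivity, fun c hc U P M hok hsm hM hN => ?_⟩
  have hx0 := l6j_x_zero hN
  have hokχ : ∀ k, ((P k).wChi 0 0).Ok F := fun k => l6j_chi_ok (hok k) (hsm k)
  have hNχ : Tendsto (fun k => ((P k).wChi 0 0).N) U atTop := hN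
  have adm := l6j_ev hadm hok hN
  -- the clocks at one point
  have clkB : ∀ᶠ k in U, MonotoneOn ((P k).bN F 𝔹) (Icc 0 1) ∧ ca ≤ (P k).bN F 𝔹 0 ∧ (P k).bN F 𝔹 1 ≤ 4 * Ca := by
    filter_upwards [adm] with k ha
    obtain ⟨hb, -, -, -, -, hbd, -, -⟩ := ha
    have hae := l6j_a (hsm k)
    have hl1 : 1 ≤ (P k).a := by rw [hae]; exact (hok k).ell1
    have hl2 : (P k).a ≤ 2 := by rw [hae]; exact l6j_ell_le (hok k)
    have hl : 0 < (P k).a := by linarith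
    obtain ⟨m1, m2, m3⟩ := l6j_nr_clk hl hb (fun v hv => (hbd v hv).1) (fun v hv => (hbd v hv).2.1)
    have hCa : 0 ≤ Ca := hca.le.trans ((hbd 0 (left_mem_Icc.2 hl.le)).1.trans (hbd 0 (left_mem_Icc.2 hl.le)).2.1)
    refine ⟨m1, le_trans ?_ m2, m3.trans ?_⟩
    · exact le_mul_of_one_le_left hca.le (one_le_pow₀ hl1)
    · exact mul_le_mul_of_nonneg_right (by nlinarith) hCa
  obtain ⟨C1, hC1⟩ := h9 (1 / 2) (by norm_num)
  have p9half : ∀ᶠ k in U, |(P k).ell ^ 2 * (P k).b0 F 𝔹 - F.T| ≤ C1 * (P k).x ^ κ9 ∧ ∀ w ∈ Ioo (0 : ℝ) 1, 1 / 2 * (P k).x ≤ w →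
      |(P k).ell ^ 2 * ((P k).wChi 0 0).h F 𝔹 ((P k).ell * w)| ≤ C1 * (P k).x ^ κ9 * w ^ 3 :=
    (l6j_ev hC1 hokχ hNχ).mono fun k hk => ⟨hk.1, fun w hw hc => ((hk.2 (hsm k)) w hw hc).2⟩
  have clkH : ∀ᶠ k in U, MonotoneOn ((P k).hN F 𝔹) (Icc 0 1) ∧ 0 ≤ (P k).hN F 𝔹 0 ∧ (P k).hN F 𝔹 1 ≤ 1 := by
    filter_upwards [adm, p9half, l6j_small hx0 C1 hκ9 one_pos, hx0.eventually_le_const (by norm_num : (0:ℝ) < 1 / 2)] with k ha h9k hsmall hxh
    obtain ⟨-, -, hh, -, -, hbd, -, -⟩ := ha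
    rw [l6j_a (hsm k)] at hh hbd
    have hl1 := (hok k).ell1
    have hl : 0 < (P k).ell := by linarith
    have hmem : ∀ w ∈ Ioo (0:ℝ) 1, (P k).ell * w ∈ Icc 0 (P k).ell := fun w hw => ⟨by have := hw.1; positivity, by nlinarith [hw.2]⟩
    have hl2 : 0 ≤ (P k).ell ^ 2 := by positivity
    have hx := l6j_x_pos (hok k)
    have key : ∀ w ∈ Ioo (0:ℝ) 1, (P k).ell ^ 2 * (P k).hS F 𝔹 ((P k).ell * w) ≤ 1 := by
      intro w hw
      have hw' : max w (1 / 2) ∈ Ioo (0:ℝ) 1 := ⟨lt_max_of_lt_left hw.1, max_lt hw.2 (by norm_num)⟩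
      have hge : (1 / 2 : ℝ) ≤ max w (1 / 2) := le_max_right _ _
      have h1 := l6j_hS_le (hok k) hh (c0 := 1 / 2) (A := C1 * (P k).x ^ κ9) h9k.2 hw hw' (le_max_left _ _)
        (by nlinarith) (by nlinarith)
      have hA : 0 ≤ C1 * (P k).x ^ κ9 := by
        have := (abs_nonneg _).trans (h9k.2 (1 / 2) ⟨by norm_num, by norm_num⟩ (by nlinarith))
        have h8 : (0:ℝ) < (1 / 2) ^ 3 := by norm_num
        exact nonneg_of_mul_nonneg_left this h8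
      have h3 : max w (1 / 2) ^ 3 ≤ 1 := pow_le_one₀ hw'.1.le hw'.2.le
      nlinarith
    have := l6j_cl_clk (c := fun w => (P k).ell ^ 2 * (P k).hS F 𝔹 ((P k).ell * w)) (lo := 0) (hi := 1)
      (fun x hx y hy hxy => mul_le_mul_of_nonneg_left (hh (hmem x hx) (hmem y hy) (mul_le_mul_of_nonneg_left hxy hl.le)) hl2)
      (fun u hu => mul_nonneg hl2 (hbd _ (hmem u hu)).2.2.2.1) key
    unfold LlPt.hN l6Nr
    rw [l6j_a (hsm k)]
    exact this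
  refine ⟨Eventually.of_forall fun k => l6j_x_pos (hok k), hx0, Eventually.of_forall fun k => ?_, ?_, ?_, ?_, ?_, ?_⟩
  · -- the sizes of the dyad
    show (P k).x ^ (-6 : ℝ) / 2 ≤ (M k : ℝ) ∧ (M k : ℝ) ≤ 3 * (P k).x ^ (-6 : ℝ)
    rw [l6j_x_six (P k)]
    have h1 : ((P k).N : ℝ) ≤ 2 * (M k : ℝ) := by exact_mod_cast (hM k).1
    have h2 : (M k : ℝ) ≤ 3 * ((P k).N : ℝ) := by exact_mod_cast (hM k).2
    exact ⟨by linarith, h2⟩
  · -- the base temperatures converge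
    rw [hc]
    have h1 : Tendsto (fun k => (P k).ell ^ 2 * (P k).b0 F 𝔹 - F.T) U (𝓝 0) := by
      have h2 : Tendsto (fun k => C1 * (P k).x ^ κ9) U (𝓝 (C1 * 0)) := by
        refine Tendsto.const_mul C1 ?_
        have := hx0.rpow_const (p := κ9) (Or.inr hκ9.le)
        rwa [Real.zero_rpow hκ9.ne'] at this
      rw [mul_zero] at h2
      exact squeeze_zero_norm' (p9half.mono fun k hk => hk.1) h2
    have h4 := h1.add_const F.T
    simp only [sub_add_cancel, zero_add] at h4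
    exact h4
  · filter_upwards [clkB, clkH] with k hb hh
    exact ⟨⟨hb.1, hca.le.trans hb.2.1⟩, ⟨hh.1, hh.2.1⟩⟩
  · filter_upwards [clkB] with k hb
    show 2 * (ca / 2) ≤ (P k).bN F 𝔹 0
    linarith [hb.2.1]
  · filter_upwards [clkB, clkH] with k hb hh
    refine ⟨hb.2.2.trans (le_max_left _ _), le_trans ?_ (le_max_right _ _)⟩
    show (P k).hN F 𝔹 1 + 1 ≤ 2
    linarith [hh.2.2]
  · -- (P9)
    intro κ ε hκ hε
    have hc0 : (0:ℝ) < 1 / (2 * κ ^ 2) := by positivity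
    obtain ⟨C2, hC2⟩ := h9 (1 / (2 * κ ^ 2)) hc0
    filter_upwards [adm, l6j_ev hC2 hok hN, l6j_ev hC2 hokχ hNχ, l6j_small hx0 (C2 * κ ^ 9) hκ9 hε, l6j_small hx0 (C2 * κ ^ 2) hκ9 hε]
      with k ha h9a h9b hs9 hs2 z u hz hz1 hu0 hu1 hzu huz
    obtain ⟨-, -, hh, -, -, hbd, -, -⟩ := ha
    rw [l6j_a (hsm k)] at hh hbd
    have hx := l6j_x_pos (hok k)
    have hx1 := l6j_x_lt (hok k)
    have hl1 := (hok k).ell1
    have hl2' := l6j_ell_le (hok k)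
    have hl : 0 < (P k).ell := by linarith
    have hκ0 : 0 < κ := by linarith
    have hz' : (P k).x / κ ≤ z := hz
    have hz0 : 0 < z := lt_of_lt_of_le (by positivity) hz'
    have hu : u ∈ Ioo (0:ℝ) 1 := ⟨hu0, hu1⟩
    -- `x ≤ κ² u`
    have hxu : (P k).x ≤ κ ^ 2 * u := by
      have h1 : (P k).x ≤ κ * z := by rwa [div_le_iff₀ hκ0, mul_comm] at hz'
      have h2 : z ≤ κ * u := by rwa [div_le_iff₀ hκ0, mul_comm] at hzu
      nlinarith
    have hcu : 1 / (2 * κ ^ 2) * (P k).x ≤ u := by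
      rw [div_mul_eq_mul_div, one_mul, div_le_iff₀ (by positivity)]
      nlinarith
    have hA : 0 ≤ C2 * (P k).x ^ κ9 := by
      have := (abs_nonneg _).trans ((h9a.2 (hsm k)) u hu hcu).1
      exact nonneg_of_mul_nonneg_left this (by positivity)
    have hxκ : 0 ≤ (P k).x ^ κ9 := Real.rpow_nonneg hx.le _
    constructor
    · show |(P k).bN F 𝔹 u - (P k).ell ^ 2 * (P k).b0 F 𝔹| ≤ ε * z ^ 2
      have e1 : (P k).bN F 𝔹 u = (P k).ell ^ 2 * (P k).b F 𝔹 ((P k).ell * u) := by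
        unfold LlPt.bN
        rw [l6j_nr_mem _ _ hu, l6j_a (hsm k)]
      rw [e1]
      refine (((h9a.2 (hsm k)) u hu hcu).1).trans ?_
      have h1 : u ^ 2 ≤ κ ^ 2 * z ^ 2 := by
        have := pow_le_pow_left₀ hu0.le huz 2
        rwa [mul_pow] at this
      calc C2 * (P k).x ^ κ9 * u ^ 2 ≤ C2 * (P k).x ^ κ9 * (κ ^ 2 * z ^ 2) := mul_le_mul_of_nonneg_left h1 hA
        _ = C2 * κ ^ 2 * (P k).x ^ κ9 * z ^ 2 := by ring
        _ ≤ ε * z ^ 2 := mul_le_mul_of_nonneg_right hs2 (by positivity)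
    · show |(P k).hN F 𝔹 u| ≤ ε * z ^ 3
      have e1 : (P k).hN F 𝔹 u = (P k).ell ^ 2 * (P k).hS F 𝔹 ((P k).ell * u) := by
        unfold LlPt.hN
        rw [l6j_nr_mem _ _ hu, l6j_a (hsm k)]
      have hmemu : (P k).ell * u ∈ Icc 0 (P k).ell := ⟨by positivity, by nlinarith⟩
      have hnn : 0 ≤ (P k).ell ^ 2 * (P k).hS F 𝔹 ((P k).ell * u) := mul_nonneg (by positivity) (hbd _ hmemu).2.2.2.1
      rw [e1, abs_of_nonneg hnn]
      have h9h : ∀ w ∈ Ioo (0 : ℝ) 1, 1 / (2 * κ ^ 2) * (P k).x ≤ w →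
          |(P k).ell ^ 2 * ((P k).wChi 0 0).h F 𝔹 ((P k).ell * w)| ≤ C2 * (P k).x ^ κ9 * w ^ 3 :=
        fun w hw hc => ((h9b.2 (hsm k)) w hw hc).2
      -- the bound `≤ A κ⁶ u³`
      have hκ1 : 1 ≤ κ ^ 6 := one_le_pow₀ hκ
      have hu3 : 0 ≤ u ^ 3 := by positivity
      have key : (P k).ell ^ 2 * (P k).hS F 𝔹 ((P k).ell * u) ≤ C2 * (P k).x ^ κ9 * (κ ^ 6 * u ^ 3) := by
        by_cases hcase : (P k).x ≤ (P k).ell * u
        · have h1 := l6j_hS_le (hok k) hh h9h hu hu le_rfl hcase hcu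
          refine h1.trans (mul_le_mul_of_nonneg_left ?_ hA)
          nlinarith
        · have hcase' : (P k).ell * u < (P k).x := not_le.1 hcase
          have hw' : (P k).x / (P k).ell ∈ Ioo (0:ℝ) 1 := ⟨by positivity, by rw [div_lt_one hl]; linarith⟩
          have huw : u ≤ (P k).x / (P k).ell := by rw [le_div_iff₀ hl]; linarith
          have h1 := l6j_hS_le (hok k) hh h9h hu hw' huw (by rw [mul_div_cancel₀ _ hl.ne']) (by
            rw [div_mul_eq_mul_div, one_mul, div_le_div_iff₀ (by positivity) hl]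
            have : 1 ≤ κ ^ 2 := one_le_pow₀ hκ
            nlinarith)
          refine h1.trans (mul_le_mul_of_nonneg_left ?_ hA)
          have h2 : (P k).x / (P k).ell ≤ κ ^ 2 * u := (div_le_self hx.le hl1).trans hxu
          calc ((P k).x / (P k).ell) ^ 3 ≤ (κ ^ 2 * u) ^ 3 := pow_le_pow_left₀ hw'.1.le h2 3
            _ = κ ^ 6 * u ^ 3 := by ring
      have h3 : u ^ 3 ≤ κ ^ 3 * z ^ 3 := by
        have := pow_le_pow_left₀ hu0.le huz 3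
        rwa [mul_pow] at this
      calc (P k).ell ^ 2 * (P k).hS F 𝔹 ((P k).ell * u) ≤ C2 * (P k).x ^ κ9 * (κ ^ 6 * u ^ 3) := key
        _ ≤ C2 * (P k).x ^ κ9 * (κ ^ 6 * (κ ^ 3 * z ^ 3)) := by
            refine mul_le_mul_of_nonneg_left (mul_le_mul_of_nonneg_left h3 (by positivity)) hA
        _ = C2 * κ ^ 9 * (P k).x ^ κ9 * z ^ 3 := by ring
        _ ≤ ε * z ^ 3 := mul_le_mul_of_nonneg_right hs9 (by positivity)

/-! ## the junction -/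

/-- **[S1] at one exponent**, from the P-list -/
theorem l6j_s1 (h3 : LlSec3 𝔹 F) {dg : ℝ} (hdg : 0 < dg) (hdg1 : dg ≤ 24 / 25) : Ll06S1 𝔹 F dg := by
  by_contra hcon
  unfold Ll06S1 Ll06U LlUnif at hcon
  push Not at hcon
  choose P hok hN hsm M hM1 hM2 hbad using hcon
  have hU : Tendsto (fun k => (P k).N) (hyperfilter ℕ : Filter ℕ) atTop :=
    (tendsto_atTop_mono hN tendsto_id).mono_left Nat.hyperfilter_le_atTop
  obtain ⟨β0, κ0, hβ0, hκ0, hseq⟩ := l6j_seq (𝔹 := 𝔹) h3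
  have hT := h3.ok.T1
  set c : P6C := ⟨dg / 96, κ0 + 1, F.T / 2, F.T, 1 / 2, 1⟩ with hcdef
  have hc : c.Ok := ⟨by show 0 < dg / 96; positivity, by show dg / 96 ≤ 1 / 100; linarith, by show 0 < κ0 + 1; linarith,
    by show 0 < F.T / 2; linarith, by show F.T / 2 < F.T; linarith, hT, by show (0:ℝ) < 1 / 2; norm_num, one_pos⟩
  obtain ⟨cl, Ch, -, -, hX⟩ := exit_prop c hc
  have key := l6s_s1 hX (exit_p6_min c hc) hc le_rfl hdg (by linarith) le_rfl hβ0 le_rfl (hseq c rfl (hyperfilter ℕ) P M hok hsm (fun k => ⟨hM1 k, hM2 k⟩) hU)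
  obtain ⟨k, r, hr, hle⟩ := key.exists
  exact absurd hle (not_le.2 (hbad k r hr))

/-- **JUNCTION [S1]** (06 l.39-104, l.139-153) -/
theorem ll06_s1_exit (𝔹 : LlBase) (F0 : LlFix) (hP : LlcP 𝔹 F0) : Ll06S1Exit 𝔹 F0 :=
  ⟨24 / 25, by norm_num, fun _ h0 h1 sS eta pS hE => l6j_s1 (hP sS eta pS hE).sec3 h0 h1⟩

end

end Claimed.Agent.R286
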