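import Claimed.Agent.R286.LL06.MartDefs

/-!
# Row 286 (S0533), LL06/MartGrid : LEMMA 6.2, (global-grid)      owner helper287 (prover), architect helper200; prefix `l6m_`
See the header of `LL06/MartDefs.lean`.      NO SORRY.   Also exported: `l6m_gen` (bounded overlap for ANY finite index set `P` of increments `β i → ε i` in `[n0, n1]`, weights `w i`), `l6m_split`, `l6m_orth2`,
`l6m_gen_real` (Bochner integrals, `q : ℕ`), `l6m_vec_mart` (coordinatewise martingales ⟹ `EuclideanSpace ℝ (Fin m)`-valued martingale).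
-/

set_option autoImplicit false

namespace Claimed.Agent.R286

open MeasureTheory ProbabilityTheory
open scoped ENNReal NNReal RealInnerProductSpace

variable {Ω : Type*} {m0 : MeasurableSpace Ω} {μ : Measure Ω} {E : Type*} [NormedAddCommGroup E] [InnerProductSpace ℝ E] [CompleteSpace E]

/-! ## 2. Lemma 6.2, (global-grid) -/

section grid

variable {ℱ : Filtration ℕ m0}

/-- orthogonality across an intermediate cut -/
theorem l6m_orth2 [IsFiniteMeasure μ] {x : ℕ → Ω → E} (hx : Martingale x ℱ μ) {b k e : ℕ} (hbk : b ≤ k) (hke : k ≤ e)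
    (h2b : MemLp (x b) 2 μ) (h2k : MemLp (x k) 2 μ) (h2e : MemLp (x e) 2 μ) {s : Set Ω} (hs : MeasurableSet[ℱ k] s) :
    ∫ ω in s, ‖x e ω - x b ω‖ ^ 2 ∂μ = ∫ ω in s, ‖x k ω - x b ω‖ ^ 2 ∂μ + ∫ ω in s, ‖x e ω - x k ω‖ ^ 2 ∂μ := by
  have hA : MemLp (fun ω => x k ω - x b ω) 2 μ := h2k.sub h2b
  have hB : MemLp (fun ω => x e ω - x k ω) 2 μ := h2e.sub h2k
  have iA : Integrable (fun ω => ‖x k ω - x b ω‖ ^ 2) μ := hA.integrable_norm_pow (by norm_num)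
  have iB : Integrable (fun ω => ‖x e ω - x k ω‖ ^ 2) μ := hB.integrable_norm_pow (by norm_num)
  have iC : Integrable (fun ω => ⟪x k ω - x b ω, x e ω - x k ω⟫) μ := by
    refine (iA.add iB).mono' (hA.1.inner hB.1) (Filter.Eventually.of_forall fun ω => ?_)
    have h1 := norm_inner_le_norm (𝕜 := ℝ) (x k ω - x b ω) (x e ω - x k ω)
    have h3 : 0 ≤ (‖x k ω - x b ω‖ - ‖x e ω - x k ω‖) ^ 2 := sq_nonneg _
    have h4 := sq_nonneg ‖x k ω - x b ω‖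
    have h5 := sq_nonneg ‖x e ω - x k ω‖
    simp only [Pi.add_apply]
    nlinarith
  have hc : ∫ ω in s, ⟪x k ω - x b ω, x e ω - x k ω⟫ ∂μ = 0 :=
    sk_mt_cross (ℱ.le k) ((hx.stronglyMeasurable k).sub ((hx.stronglyMeasurable b).mono (ℱ.mono hbk))) iC
      ((hx.integrable e).sub (hx.integrable k)) (sk_mt_incr hx hke) hs
  have e1 : ∀ ω, ‖x e ω - x b ω‖ ^ 2 = ‖x k ω - x b ω‖ ^ 2 + 2 * ⟪x k ω - x b ω, x e ω - x k ω⟫ + ‖x e ω - x k ω‖ ^ 2 := by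
    intro ω
    rw [← norm_add_sq_real]
    congr 2
    abel
  simp only [e1]
  have iAC : Integrable (fun ω => ‖x k ω - x b ω‖ ^ 2 + 2 * ⟪x k ω - x b ω, x e ω - x k ω⟫) μ := iA.add (iC.const_mul 2)
  rw [integral_add iAC.integrableOn iB.integrableOn, integral_add iA.integrableOn (iC.const_mul 2).integrableOn,
    integral_const_mul, hc]
  simp

/-- the increment `b → e` seen from the cut `k`, `b ≤ k ≤ e`:   past part plus the elementary steps -/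
theorem l6m_split [IsFiniteMeasure μ] {x : ℕ → Ω → E} (hx : Martingale x ℱ μ) {L : ℕ} (h2 : ∀ k ≤ L, MemLp (x k) 2 μ) {b k e : ℕ} (hbk : b ≤ k) (hke : k ≤ e)
    (heL : e ≤ L) {s : Set Ω} (hs : MeasurableSet[ℱ k] s) :
    ∫⁻ ω in s, ‖x e ω - x b ω‖ₑ ^ 2 ∂μ = ∫⁻ ω in s, ‖x k ω - x b ω‖ₑ ^ 2 ∂μ + ∑ j ∈ Finset.Ico k e, ∫⁻ ω in s, ‖x (j + 1) ω - x j ω‖ₑ ^ 2 ∂μ := by
  have c1 : MemLp (fun ω => x e ω - x b ω) 2 μ := (h2 e heL).sub (h2 b (by omega))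
  have c2 : MemLp (fun ω => x k ω - x b ω) 2 μ := (h2 k (by omega)).sub (h2 b (by omega))
  have c3 : ∀ j ∈ Finset.Ico k e, ∫⁻ ω in s, ‖x (j + 1) ω - x j ω‖ₑ ^ 2 ∂μ = ENNReal.ofReal (∫ ω in s, ‖x (j + 1) ω - x j ω‖ ^ 2 ∂μ) := by
    intro j hj
    have hj' := Finset.mem_Ico.1 hj
    have c4 : MemLp (fun ω => x (j + 1) ω - x j ω) 2 μ := (h2 (j + 1) (by omega)).sub (h2 j (by omega))
    exact sk_mt_conv c4 s
  rw [sk_mt_conv c1 s, sk_mt_conv c2 s, Finset.sum_congr rfl c3, ← ENNReal.ofReal_sum_of_nonneg fun j _ => integral_nonneg fun ω => by positivity,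
    ← sk_mt_orth hx h2 hs e hke heL, ← ENNReal.ofReal_add (integral_nonneg fun ω => by positivity) (integral_nonneg fun ω => by positivity),
    l6m_orth2 hx hbk hke (h2 b (by omega)) (h2 k (by omega)) (h2 e heL) hs]
/-- **bounded overlap, core**: a general finite index set `P` of increments `β i → ε i` inside `[0, n]` -/
theorem l6m_core [IsFiniteMeasure μ] {y : ℕ → Ω → E} (hy : Martingale y ℱ μ) {q : ℝ} (hq : 1 ≤ q) (n : ℕ) {ι : Type*} (P : Finset ι) (w : ι → ℝ≥0) (β ε : ι → ℕ)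
    (hβε : ∀ i ∈ P, β i ≤ ε i) (hε : ∀ i ∈ P, ε i ≤ n) (M : ℝ≥0)
    (hM : ∀ j < n, ∑ i ∈ P, (if β i ≤ j ∧ j < ε i then w i else 0) ≤ M) :
    ∫⁻ ω, (∑ i ∈ P, (w i : ℝ≥0∞) * ‖y (ε i) ω - y (β i) ω‖ₑ ^ 2) ^ q ∂μ ≤ (ENNReal.ofReal (32 * q) * M) ^ q * ∫⁻ ω, ‖y n ω‖ₑ ^ (2 * q) ∂μ := by
  classical
  have hq0 : 0 < q := by linarith
  have hwM : ∀ i ∈ P, β i < ε i → w i ≤ M := by
    intro i hi h
    have h1 := Finset.single_le_sum (f := fun i' => if β i' ≤ β i ∧ β i < ε i' then w i' else 0) (s := P) (fun _ _ => zero_le) hi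
    simp only [le_refl, h, and_self, if_true] at h1
    exact h1.trans (hM (β i) (lt_of_lt_of_le h (hε i hi)))
  rcases eq_or_ne M 0 with hM0 | hM0
  · have h0 : ∀ ω, ∑ i ∈ P, (w i : ℝ≥0∞) * ‖y (ε i) ω - y (β i) ω‖ₑ ^ 2 = 0 := by
      intro ω
      refine Finset.sum_eq_zero fun i hi => ?_
      rcases (hβε i hi).eq_or_lt with h | h
      · rw [h]; simp
      · have h1 := hwM i hi h
        rw [hM0] at h1
        have h2 : w i = 0 := le_antisymm h1 zero_le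
        rw [h2]; simp
    simp only [h0, ENNReal.zero_rpow_of_pos hq0, lintegral_zero]
    exact zero_le
  rcases eq_or_ne (∫⁻ ω, ‖y n ω‖ₑ ^ (2 * q) ∂μ) ⊤ with hR | hR
  · rw [hR, ENNReal.mul_top]
    · exact le_top
    · have h1 : ENNReal.ofReal (32 * q) ≠ 0 := by
        simp only [ne_eq, ENNReal.ofReal_eq_zero, not_le]; linarith
      have h2 : ENNReal.ofReal (32 * q) * (M : ℝ≥0∞) ≠ 0 := mul_ne_zero h1 (by simpa using hM0)
      intro h0
      rcases ENNReal.rpow_eq_zero_iff.1 h0 with h | h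
      · exact h2 h.1
      · exact absurd h.2 (by linarith)
  have hD := sk_mt_doob_norm hy (p := 2 * q) (by linarith) n
  obtain ⟨Mx, hMx⟩ : ∃ Mx : Ω → ℝ≥0∞, Mx = skMtMax (fun k ω => ‖y k ω‖ₑ) n := ⟨_, rfl⟩
  rw [← hMx] at hD
  have hMm : Measurable Mx := by
    rw [hMx]; exact sk_mt_max_meas (fun k => ((hy.stronglyMeasurable k).enorm).mono (ℱ.le k) le_rfl) _
  have hle : ∀ k ≤ n, ∀ ω, ‖y k ω‖ₑ ≤ Mx ω := by
    intro k hk ω
    rw [hMx]
    exact sk_mt_le_max (f := fun k ω => ‖y k ω‖ₑ) hk ω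
  have hMfin : ∫⁻ ω, Mx ω ^ (2 * q) ∂μ ≠ ⊤ :=
    ne_top_of_le_ne_top (ENNReal.mul_ne_top (ENNReal.rpow_ne_top_of_nonneg (by linarith) ENNReal.ofReal_ne_top) hR) hD
  have h2 : ∀ k ≤ n, MemLp (y k) 2 μ := by
    intro k hk
    refine sk_mt_l2 (hy.integrable k).aestronglyMeasurable hq (ne_top_of_le_ne_top hMfin (lintegral_mono fun ω => ?_))
    exact ENNReal.rpow_le_rpow (hle k hk ω) (by linarith)
  have hdiff : ∀ a ≤ n, ∀ b ≤ n, ∀ ω, ‖y a ω - y b ω‖ₑ ^ 2 ≤ 4 * Mx ω ^ 2 := by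
    intro a ha b hb ω
    calc ‖y a ω - y b ω‖ₑ ^ 2 ≤ (‖y a ω‖ₑ + ‖y b ω‖ₑ) ^ 2 := by gcongr; exact enorm_sub_le
      _ ≤ (Mx ω + Mx ω) ^ 2 := by gcongr <;> [exact hle a ha ω; exact hle b hb ω]
      _ = 4 * Mx ω ^ 2 := by ring
  obtain ⟨a, ha⟩ : ∃ a : ℕ → Ω → ℝ≥0∞, a = fun e ω => ∑ i ∈ P, if ε i = e then (w i : ℝ≥0∞) * ‖y (ε i) ω - y (β i) ω‖ₑ ^ 2 else 0 := ⟨_, rfl⟩
  have hsq : ∀ i ∈ P, Measurable[ℱ (ε i)] fun ω => ‖y (ε i) ω - y (β i) ω‖ₑ ^ 2 := by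
    intro i hi
    exact (((hy.stronglyMeasurable (ε i)).sub ((hy.stronglyMeasurable (β i)).mono (ℱ.mono (hβε i hi)))).enorm).pow_const 2
  have hsq0 : ∀ i ∈ P, Measurable fun ω => ‖y (ε i) ω - y (β i) ω‖ₑ ^ 2 := fun i hi => (hsq i hi).mono (ℱ.le _) le_rfl
  have ham : ∀ e, Measurable[ℱ e] (a e) := by
    intro e
    rw [ha]
    refine Finset.measurable_sum _ fun i hi => ?_
    by_cases h : ε i = e
    · subst h
      simpa using (hsq i hi).const_mul _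
    · simp only [h, if_false]
      exact measurable_const
  have ha0 : ∀ e, Measurable (a e) := fun e => (ham e).mono (ℱ.le e) le_rfl
  have hsumS : ∀ (S : Finset ℕ) (F : ι → ℝ≥0∞), ∑ e ∈ S, ∑ i ∈ P, (if ε i = e then F i else 0) = ∑ i ∈ P, if ε i ∈ S then F i else 0 := by
    intro S F
    rw [Finset.sum_comm]
    refine Finset.sum_congr rfl fun i _ => ?_
    rw [Finset.sum_ite_eq]
  have haS : ∀ (S : Finset ℕ) ω, ∑ e ∈ S, a e ω = ∑ i ∈ P, if ε i ∈ S then (w i : ℝ≥0∞) * ‖y (ε i) ω - y (β i) ω‖ₑ ^ 2 else 0 := by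
    intro S ω
    rw [ha]
    exact hsumS S _
  have hA : ∀ ω, ∑ e ∈ Finset.range (n + 1), a e ω = ∑ i ∈ P, (w i : ℝ≥0∞) * ‖y (ε i) ω - y (β i) ω‖ₑ ^ 2 := by
    intro ω
    rw [haS]
    refine Finset.sum_congr rfl fun i hi => ?_
    rw [if_pos (Finset.mem_range.2 (by have := hε i hi; omega))]
  have hg : Measurable fun ω => (M : ℝ≥0∞) * (8 * Mx ω ^ 2) := ((hMm.pow_const 2).const_mul 8).const_mul _
  have hyp : ∀ k ≤ n, ∀ s, MeasurableSet[ℱ k] s → ∫⁻ ω in s, ∑ e ∈ Finset.Icc k n, a e ω ∂μ ≤ ∫⁻ ω in s, (M : ℝ≥0∞) * (8 * Mx ω ^ 2) ∂μ := by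
    intro k hk s hs
    obtain ⟨C, hC⟩ : ∃ C : ℝ≥0∞, C = ∫⁻ ω in s, 4 * Mx ω ^ 2 ∂μ := ⟨_, rfl⟩
    obtain ⟨d, hd⟩ : ∃ d : ℕ → ℝ≥0∞, d = fun j => ∫⁻ ω in s, ‖y (j + 1) ω - y j ω‖ₑ ^ 2 ∂μ := ⟨_, rfl⟩
    obtain ⟨D, hDd⟩ : ∃ D : ι → ℝ≥0∞, D = fun i => ∫⁻ ω in s, ‖y (ε i) ω - y (β i) ω‖ₑ ^ 2 ∂μ := ⟨_, rfl⟩
    have e1 : ∫⁻ ω in s, ∑ e ∈ Finset.Icc k n, a e ω ∂μ = ∑ i ∈ P, if ε i ∈ Finset.Icc k n then (w i : ℝ≥0∞) * D i else 0 := by
      simp only [haS]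
      rw [lintegral_finsetSum]
      · refine Finset.sum_congr rfl fun i hi => ?_
        split_ifs
        · rw [lintegral_const_mul _ (hsq0 i hi), hDd]
        · simp
      · intro i hi
        split_ifs
        · exact (hsq0 i hi).const_mul _
        · exact measurable_const
    have e2 : ∑ j ∈ Finset.Ico k n, d j ≤ C := by
      have h1 := l6m_split hy h2 (le_refl k) hk le_rfl hs
      simp only [sub_self, enorm_zero, ne_eq, OfNat.ofNat_ne_zero, not_false_eq_true, zero_pow, lintegral_zero, zero_add] at h1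
      rw [hd, ← h1, hC]
      exact lintegral_mono fun ω => hdiff _ le_rfl _ hk ω
    have e3 : ∀ i ∈ P, (if ε i ∈ Finset.Icc k n then (w i : ℝ≥0∞) * D i else 0) ≤
        ((if β i < k ∧ k ≤ ε i then w i else 0 : ℝ≥0) : ℝ≥0∞) * C + ∑ j ∈ Finset.Ico k n, ((if β i ≤ j ∧ j < ε i then w i else 0 : ℝ≥0) : ℝ≥0∞) * d j := by
      intro i hi
      by_cases h1 : ε i ∈ Finset.Icc k n
      · rw [if_pos h1]
        have hke : k ≤ ε i := (Finset.mem_Icc.1 h1).1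
        have hs' : MeasurableSet[ℱ (max (β i) k)] s := ℱ.mono (le_max_right _ _) s hs
        have h3 := l6m_split hy h2 (le_max_left (β i) k) (max_le (hβε i hi) hke) (hε i hi) hs'
        have h4 : D i = ∫⁻ ω in s, ‖y (max (β i) k) ω - y (β i) ω‖ₑ ^ 2 ∂μ + ∑ j ∈ Finset.Ico (max (β i) k) (ε i), d j := by
          rw [hDd, hd]; exact h3
        rw [h4, mul_add]
        refine add_le_add ?_ (le_of_eq ?_)
        · by_cases hb : β i < k
          · rw [if_pos ⟨hb, hke⟩, hC]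
            refine mul_le_mul_right (lintegral_mono fun ω => hdiff _ ?_ _ ?_ ω) _
            · exact max_le ((hβε i hi).trans (hε i hi)) hk
            · exact (hβε i hi).trans (hε i hi)
          · rw [max_eq_left (not_lt.1 hb)]
            simp
        · have h5 : Finset.Ico (max (β i) k) (ε i) = (Finset.Ico k n).filter (fun j => β i ≤ j ∧ j < ε i) := by
            ext j
            have := hε i hi
            simp only [Finset.mem_Ico, Finset.mem_filter, max_le_iff]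
            omega
          rw [h5, Finset.sum_filter, Finset.mul_sum]
          refine Finset.sum_congr rfl fun j _ => ?_
          split_ifs <;> simp
      · rw [if_neg h1]
        exact zero_le
    have e4 : ∑ i ∈ P, ((if β i < k ∧ k ≤ ε i then w i else 0 : ℝ≥0) : ℝ≥0∞) ≤ M := by
      rcases Nat.eq_zero_or_pos k with rfl | hk0
      · simp
      · have h1 := hM (k - 1) (by omega)
        rw [← ENNReal.ofNNReal_finsetSum]
        refine ENNReal.coe_le_coe.2 (le_trans (le_of_eq ?_) h1)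
        refine Finset.sum_congr rfl fun i _ => ?_
        have h3 : (β i < k ∧ k ≤ ε i) ↔ (β i ≤ k - 1 ∧ k - 1 < ε i) := by omega
        simp only [h3]
    have e5 : ∀ j ∈ Finset.Ico k n, ∑ i ∈ P, ((if β i ≤ j ∧ j < ε i then w i else 0 : ℝ≥0) : ℝ≥0∞) ≤ M := by
      intro j hj
      rw [← ENNReal.ofNNReal_finsetSum]
      exact ENNReal.coe_le_coe.2 (hM j (Finset.mem_Ico.1 hj).2)
    calc ∫⁻ ω in s, ∑ e ∈ Finset.Icc k n, a e ω ∂μ = ∑ i ∈ P, if ε i ∈ Finset.Icc k n then (w i : ℝ≥0∞) * D i else 0 := e1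
      _ ≤ ∑ i ∈ P, (((if β i < k ∧ k ≤ ε i then w i else 0 : ℝ≥0) : ℝ≥0∞) * C + ∑ j ∈ Finset.Ico k n, ((if β i ≤ j ∧ j < ε i then w i else 0 : ℝ≥0) : ℝ≥0∞) * d j) :=
          Finset.sum_le_sum e3
      _ = (∑ i ∈ P, ((if β i < k ∧ k ≤ ε i then w i else 0 : ℝ≥0) : ℝ≥0∞)) * C + ∑ j ∈ Finset.Ico k n, (∑ i ∈ P, ((if β i ≤ j ∧ j < ε i then w i else 0 : ℝ≥0) : ℝ≥0∞)) * d j := by
          rw [Finset.sum_add_distrib, Finset.sum_mul, Finset.sum_comm]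
          simp only [Finset.sum_mul]
      _ ≤ (M : ℝ≥0∞) * C + ∑ j ∈ Finset.Ico k n, (M : ℝ≥0∞) * d j :=
          add_le_add (mul_le_mul_left e4 _) (Finset.sum_le_sum fun j hj => mul_le_mul_left (e5 j hj) _)
      _ ≤ (M : ℝ≥0∞) * C + (M : ℝ≥0∞) * C := by
          rw [← Finset.mul_sum]
          exact add_le_add le_rfl (mul_le_mul_right e2 _)
      _ = ∫⁻ ω in s, (M : ℝ≥0∞) * (8 * Mx ω ^ 2) ∂μ := by
          rw [lintegral_const_mul _ ((hMm.pow_const 2).const_mul 8), hC, ← mul_add, ← lintegral_add_left ((hMm.pow_const 2).const_mul 4)]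
          congr 1
          refine lintegral_congr fun ω => ?_
          ring
  have hfin : ∫⁻ ω, (∑ e ∈ Finset.range (n + 1), a e ω) ^ q ∂μ ≠ ⊤ := by
    have h1 : ∀ ω, (∑ e ∈ Finset.range (n + 1), a e ω) ^ q ≤ (((∑ i ∈ P, w i : ℝ≥0) : ℝ≥0∞) * 4) ^ q * Mx ω ^ (2 * q) := by
      intro ω
      rw [← sk_mt_sq_rpow, ← ENNReal.mul_rpow_of_nonneg _ _ hq0.le, hA]
      refine ENNReal.rpow_le_rpow ?_ hq0.le
      calc ∑ i ∈ P, (w i : ℝ≥0∞) * ‖y (ε i) ω - y (β i) ω‖ₑ ^ 2 ≤ ∑ i ∈ P, (w i : ℝ≥0∞) * (4 * Mx ω ^ 2) := by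
            refine Finset.sum_le_sum fun i hi => mul_le_mul_right ?_ _
            exact hdiff _ (hε i hi) _ ((hβε i hi).trans (hε i hi)) ω
        _ = ((∑ i ∈ P, w i : ℝ≥0) : ℝ≥0∞) * 4 * Mx ω ^ 2 := by
            rw [← Finset.sum_mul, ENNReal.ofNNReal_finsetSum, mul_assoc]
    refine ne_top_of_le_ne_top ?_ (lintegral_mono h1)
    rw [lintegral_const_mul _ (hMm.pow_const _)]
    refine ENNReal.mul_ne_top (ENNReal.rpow_ne_top_of_nonneg hq0.le ?_) hMfin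
    exact ENNReal.mul_ne_top ENNReal.coe_ne_top (by norm_num)
  have hGN := sk_mt_gn (μ := μ) ℱ ham hg hyp hq hfin
  have e3 : ∫⁻ ω, ((M : ℝ≥0∞) * (8 * Mx ω ^ 2)) ^ q ∂μ = (M : ℝ≥0∞) ^ q * (8 ^ q * ∫⁻ ω, Mx ω ^ (2 * q) ∂μ) := by
    rw [← lintegral_const_mul _ (hMm.pow_const _), ← lintegral_const_mul _ ((hMm.pow_const _).const_mul _)]
    refine lintegral_congr fun ω => ?_
    rw [ENNReal.mul_rpow_of_nonneg _ _ hq0.le, ENNReal.mul_rpow_of_nonneg _ _ hq0.le, sk_mt_sq_rpow]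
  rw [e3] at hGN
  simp only [hA] at hGN
  calc ∫⁻ ω, (∑ i ∈ P, (w i : ℝ≥0∞) * ‖y (ε i) ω - y (β i) ω‖ₑ ^ 2) ^ q ∂μ
      ≤ ENNReal.ofReal q ^ q * ((M : ℝ≥0∞) ^ q * (8 ^ q * ∫⁻ ω, Mx ω ^ (2 * q) ∂μ)) := hGN
    _ ≤ ENNReal.ofReal q ^ q * ((M : ℝ≥0∞) ^ q * (8 ^ q * (ENNReal.ofReal (2 * q / (2 * q - 1)) ^ (2 * q) * ∫⁻ ω, ‖y n ω‖ₑ ^ (2 * q) ∂μ))) := by gcongr
    _ = ((ENNReal.ofReal q ^ q * (8 ^ q * ENNReal.ofReal (2 * q / (2 * q - 1)) ^ (2 * q))) * (M : ℝ≥0∞) ^ q) * ∫⁻ ω, ‖y n ω‖ₑ ^ (2 * q) ∂μ := by ring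
    _ ≤ (ENNReal.ofReal (32 * q) ^ q * (M : ℝ≥0∞) ^ q) * ∫⁻ ω, ‖y n ω‖ₑ ^ (2 * q) ∂μ := mul_le_mul_left (mul_le_mul_left (sk_mt_const hq) _) _
    _ = (ENNReal.ofReal (32 * q) * M) ^ q * ∫⁻ ω, ‖y n ω‖ₑ ^ (2 * q) ∂μ := by
        rw [ENNReal.mul_rpow_of_nonneg _ _ hq0.le]
/-- **bounded overlap**, a general finite index set `P` of increments `β i → ε i` inside `[n0, n1]` -/
theorem l6m_gen [IsFiniteMeasure μ] {f : ℕ → Ω → E} (hf : Martingale f ℱ μ) {q : ℝ} (hq : 1 ≤ q) {n0 n1 : ℕ} (h01 : n0 ≤ n1) {ι : Type*} (P : Finset ι) (w : ι → ℝ≥0)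
    (β ε : ι → ℕ) (h0 : ∀ i ∈ P, n0 ≤ β i) (hβε : ∀ i ∈ P, β i ≤ ε i) (hε : ∀ i ∈ P, ε i ≤ n1) (M : ℝ≥0)
    (hM : ∀ j, n0 ≤ j → j < n1 → ∑ i ∈ P, (if β i ≤ j ∧ j < ε i then w i else 0) ≤ M) :
    ∫⁻ ω, (∑ i ∈ P, (w i : ℝ≥0∞) * ‖f (ε i) ω - f (β i) ω‖ₑ ^ 2) ^ q ∂μ ≤ (ENNReal.ofReal (32 * q) * M) ^ q * ∫⁻ ω, ‖f n1 ω - f n0 ω‖ₑ ^ (2 * q) ∂μ := by
  obtain ⟨𝒢, h𝒢⟩ : ∃ 𝒢 : Filtration ℕ m0, ∀ j, 𝒢 j = ℱ (n0 + j) :=
    ⟨⟨fun j => ℱ (n0 + j), fun _ _ h => ℱ.mono (Nat.add_le_add_left h n0), fun j => ℱ.le (n0 + j)⟩, fun _ => rfl⟩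
  have hs : Martingale (fun k => f (n0 + k)) 𝒢 μ := by
    refine ⟨fun k => ?_, fun i j hij => ?_⟩
    · rw [h𝒢]
      exact hf.stronglyMeasurable (n0 + k)
    · rw [h𝒢]
      exact hf.condExp_ae_eq (Nat.add_le_add_left hij n0)
  have hc : Martingale (fun _ : ℕ => f n0) 𝒢 μ := martingale_const_fun 𝒢 μ (by rw [h𝒢]; exact hf.stronglyMeasurable n0) (hf.integrable n0)
  have hy : Martingale (fun k ω => f (n0 + k) ω - f n0 ω) 𝒢 μ := hs.sub hc
  have h := l6m_core hy hq (n1 - n0) P w (fun i => β i - n0) (fun i => ε i - n0) (fun i hi => Nat.sub_le_sub_right (hβε i hi) n0)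
    (fun i hi => Nat.sub_le_sub_right (hε i hi) n0) M ?_
  · simp only [sub_sub_sub_cancel_right, Nat.add_sub_cancel' h01] at h
    have e : ∀ ω, ∑ i ∈ P, (w i : ℝ≥0∞) * ‖f (n0 + (ε i - n0)) ω - f (n0 + (β i - n0)) ω‖ₑ ^ 2 = ∑ i ∈ P, (w i : ℝ≥0∞) * ‖f (ε i) ω - f (β i) ω‖ₑ ^ 2 := by
      intro ω
      refine Finset.sum_congr rfl fun i hi => ?_
      rw [Nat.add_sub_cancel' (h0 i hi), Nat.add_sub_cancel' ((h0 i hi).trans (hβε i hi))]
    simpa only [e] using h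
  · intro j hj
    refine le_trans (le_of_eq ?_) (hM (n0 + j) (by omega) (by omega))
    refine Finset.sum_congr rfl fun i hi => ?_
    have h1 := h0 i hi
    have h3 : (β i - n0 ≤ j ∧ j < ε i - n0) ↔ (β i ≤ n0 + j ∧ n0 + j < ε i) := by omega
    simp only [h3]

/-- **(global-grid), bounded overlap form.**  TEX[LL:global:residual-blocks]
`wt b e ≥ 0` = deterministic weight of the increment `f e - f b` (`n0 ≤ b < e ≤ n1`); every elementary step `j → j+1` is covered with total weight `≤ M`.  Then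
`‖∑ wt b e |f e - f b|²‖_q ≤ 32 q M ‖|f n1 - f n0|²‖_q`.
Proof: Garsia-Neveu `sk_mt_gn` for `a e = ∑_{b<e} wt b e |f e - f b|²` with `g = 8 M max_k |f k - f n0|²` (conditional orthogonality `sk_mt_orth`), then Doob `sk_mt_doob_norm` at `2 q`; copy `sk_mt_burk0`. -/
theorem l6m_overlap [IsFiniteMeasure μ] {f : ℕ → Ω → E} (hf : Martingale f ℱ μ) {q : ℝ} (hq : 1 ≤ q) {n0 n1 : ℕ} (h01 : n0 ≤ n1)
    (wt : ℕ → ℕ → ℝ≥0) (M : ℝ≥0)
    (hM : ∀ j, n0 ≤ j → j < n1 → ∑ b ∈ Finset.Icc n0 j, ∑ e ∈ Finset.Ioc j n1, wt b e ≤ M) :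
    ∫⁻ ω, (∑ b ∈ Finset.Icc n0 n1, ∑ e ∈ Finset.Ioc b n1, (wt b e : ℝ≥0∞) * ‖f e ω - f b ω‖ₑ ^ 2) ^ q ∂μ
      ≤ (ENNReal.ofReal (32 * q) * M) ^ q * ∫⁻ ω, ‖f n1 ω - f n0 ω‖ₑ ^ (2 * q) ∂μ := by
  classical
  have h := l6m_gen hf hq h01 ((Finset.Icc n0 n1).sigma fun b => Finset.Ioc b n1) (fun i => wt i.1 i.2) (fun i => i.1) (fun i => i.2) ?_ ?_ ?_ M ?_
  · simpa only [Finset.sum_sigma] using h
  · intro i hi
    simp only [Finset.mem_sigma, Finset.mem_Icc, Finset.mem_Ioc] at hi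
    omega
  · intro i hi
    simp only [Finset.mem_sigma, Finset.mem_Icc, Finset.mem_Ioc] at hi
    omega
  · intro i hi
    simp only [Finset.mem_sigma, Finset.mem_Icc, Finset.mem_Ioc] at hi
    omega
  · intro j hj0 hj1
    refine le_trans ?_ (hM j hj0 hj1)
    rw [← Finset.sum_filter, Finset.sum_sigma' (Finset.Icc n0 j) (fun _ => Finset.Ioc j n1) (fun b e => wt b e)]
    refine Finset.sum_le_sum_of_subset fun i hi => ?_
    simp only [Finset.mem_filter, Finset.mem_sigma, Finset.mem_Icc, Finset.mem_Ioc] at hi ⊢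
    omega

/-- the parameters `s` whose increment `c1 s → c2 s` covers the elementary step `j` fill a set of length `≤ l` -/
theorem l6m_cover_len {c1 c2 : ℝ → ℕ} (hc1 : Monotone c1) {l : ℝ} (hl12 : ∀ s, c2 s ≤ c1 (s + l)) (j : ℕ) :
    volume {s : ℝ | c1 s ≤ j ∧ j < c2 s} ≤ ENNReal.ofReal l := by
  refine (Real.volume_le_diam _).trans (Metric.ediam_le fun x hx z hz => ?_)
  have key : ∀ x z : ℝ, (c1 x ≤ j ∧ j < c2 x) → (c1 z ≤ j ∧ j < c2 z) → z - x ≤ l := by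
    intro x z hx hz
    by_contra hcon
    have h1 : x + l ≤ z := by linarith
    have h2 := hc1 h1
    have h3 := hl12 x
    omega
  rw [edist_dist]
  refine ENNReal.ofReal_le_ofReal ?_
  rw [Real.dist_eq, abs_le]
  have h1 := key x z hx hz
  have h2 := key z x hz hx
  constructor <;> linarith

/-- **(global-grid), the paper's form.**  TEX[LL:global:residual-blocks]
A real coordinate `s`; the increment at `s` goes from the cut `c1 s` to the cut `c2 s`, both monotone, and `c2 s ≤ c1 (s + l)`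
(paper: `c1 s = c (s + l)`, `c2 s = c (s + 2 l)`, or `c1 s = c s`, `c2 s = c (s + l)`). -/
theorem l6m_grid [IsFiniteMeasure μ] {f : ℕ → Ω → E} (hf : Martingale f ℱ μ) {q : ℝ} (hq : 1 ≤ q) {c1 c2 : ℝ → ℕ} (hc1 : Monotone c1) (hc2 : Monotone c2)
    (h12 : ∀ s, c1 s ≤ c2 s) {l : ℝ} (hl : 0 < l) (hl12 : ∀ s, c2 s ≤ c1 (s + l)) {s0 s1 : ℝ} (h01 : s0 ≤ s1) :
    ∫⁻ ω, (∫⁻ s in Set.Icc s0 s1, ‖f (c2 s) ω - f (c1 s) ω‖ₑ ^ 2) ^ q ∂μ
      ≤ ENNReal.ofReal (32 * q * l) ^ q * ∫⁻ ω, ‖f (c2 s1) ω - f (c1 s0) ω‖ₑ ^ (2 * q) ∂μ := by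
  classical
  have hn : c1 s0 ≤ c2 s1 := (h12 s0).trans (hc2 h01)
  obtain ⟨S, hS⟩ : ∃ S : ℕ × ℕ → Set ℝ, S = fun p => Set.Icc s0 s1 ∩ {s | c1 s = p.1 ∧ c2 s = p.2} := ⟨_, rfl⟩
  have hSm : ∀ p, MeasurableSet (S p) := by
    intro p
    rw [hS]
    refine measurableSet_Icc.inter ?_
    exact (hc1.measurable (measurableSet_singleton p.1)).inter (hc2.measurable (measurableSet_singleton p.2))
  have hSd : ∀ P : Finset (ℕ × ℕ), Set.PairwiseDisjoint (↑P) S := by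
    intro P p _ p' _ hpp
    rw [Function.onFun, Set.disjoint_left]
    intro s hs hs'
    rw [hS] at hs hs'
    exact hpp (Prod.ext (hs.2.1.symm.trans hs'.2.1) (hs.2.2.symm.trans hs'.2.2))
  have hSfin : ∀ p, volume (S p) ≠ ⊤ := by
    intro p
    rw [hS]
    exact measure_ne_top_of_subset Set.inter_subset_left (by simp)
  obtain ⟨P, hP⟩ : ∃ P : Finset (ℕ × ℕ), P = ((Finset.Icc (c1 s0) (c2 s1)) ×ˢ (Finset.Icc (c1 s0) (c2 s1))).filter (fun p => p.1 ≤ p.2) := ⟨_, rfl⟩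
  have hcover : Set.Icc s0 s1 = ⋃ p ∈ P, S p := by
    ext s
    simp only [Set.mem_iUnion, exists_prop]
    constructor
    · intro hs
      refine ⟨(c1 s, c2 s), ?_, ?_⟩
      · rw [hP]
        simp only [Finset.mem_filter, Finset.mem_product, Finset.mem_Icc]
        have a1 := hc1 hs.1
        have a2 := hc2 hs.2
        have a3 := h12 s
        omega
      · rw [hS]
        exact ⟨hs, rfl, rfl⟩
    · rintro ⟨p, _, hs⟩
      rw [hS] at hs
      exact hs.1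
  have hint : ∀ ω, ∫⁻ s in Set.Icc s0 s1, ‖f (c2 s) ω - f (c1 s) ω‖ₑ ^ 2 = ∑ p ∈ P, ((volume (S p)).toNNReal : ℝ≥0∞) * ‖f p.2 ω - f p.1 ω‖ₑ ^ 2 := by
    intro ω
    rw [hcover, lintegral_biUnion_finset (hSd P) fun p _ => hSm p]
    refine Finset.sum_congr rfl fun p _ => ?_
    have h1 : ∫⁻ s in S p, ‖f (c2 s) ω - f (c1 s) ω‖ₑ ^ 2 = ∫⁻ _ in S p, ‖f p.2 ω - f p.1 ω‖ₑ ^ 2 := by
      refine setLIntegral_congr_fun (hSm p) fun s hs => ?_
      rw [hS] at hs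
      simp only [hs.2.1, hs.2.2]
    rw [h1, setLIntegral_const, ENNReal.coe_toNNReal (hSfin p), mul_comm]
  have h := l6m_gen hf hq hn P (fun p => (volume (S p)).toNNReal) Prod.fst Prod.snd ?_ ?_ ?_ l.toNNReal ?_
  · simp only [hint]
    have e : ENNReal.ofReal (32 * q * l) = ENNReal.ofReal (32 * q) * (l.toNNReal : ℝ≥0∞) := by
      rw [ENNReal.ofReal_mul (by linarith)]
      rfl
    rw [e]
    exact h
  · intro p hp
    rw [hP] at hp
    simp only [Finset.mem_filter, Finset.mem_product, Finset.mem_Icc] at hp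
    omega
  · intro p hp
    rw [hP] at hp
    simp only [Finset.mem_filter, Finset.mem_product, Finset.mem_Icc] at hp
    omega
  · intro p hp
    rw [hP] at hp
    simp only [Finset.mem_filter, Finset.mem_product, Finset.mem_Icc] at hp
    omega
  · intro j _ _
    rw [← Finset.sum_filter, ← ENNReal.coe_le_coe, ENNReal.ofNNReal_finsetSum]
    have h1 : ∑ p ∈ P.filter (fun p => p.1 ≤ j ∧ j < p.2), ((volume (S p)).toNNReal : ℝ≥0∞) = volume (⋃ p ∈ P.filter (fun p => p.1 ≤ j ∧ j < p.2), S p) := by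
      rw [measure_biUnion_finset (hSd _) fun p _ => hSm p]
      exact Finset.sum_congr rfl fun p _ => ENNReal.coe_toNNReal (hSfin p)
    rw [h1]
    refine le_trans (measure_mono ?_) (l6m_cover_len hc1 hl12 j)
    intro s hs
    simp only [Set.mem_iUnion, exists_prop, Finset.mem_filter] at hs
    obtain ⟨p, ⟨_, hp⟩, hs⟩ := hs
    rw [hS] at hs
    show c1 s ≤ j ∧ j < c2 s
    rw [hs.2.1, hs.2.2]
    exact hp

end grid

/-! ## 3. Real form and the bridge from coordinatewise martingales (for `L8P`, `LL06/Pw.lean`) -/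

section real

variable {ℱ : Filtration ℕ m0}

/-- **bounded overlap, real form** (Bochner integrals, natural moment order `q`) -/
theorem l6m_gen_real [IsFiniteMeasure μ] {f : ℕ → Ω → E} (hf : Martingale f ℱ μ) {q : ℕ} (hq : 1 ≤ q) {n0 n1 : ℕ} (h01 : n0 ≤ n1)
    (hint : Integrable (fun ω => (‖f n1 ω - f n0 ω‖ ^ 2) ^ q) μ) {ι : Type*} (P : Finset ι) (w : ι → ℝ) (hw : ∀ i ∈ P, 0 ≤ w i)
    (β ε : ι → ℕ) (h0 : ∀ i ∈ P, n0 ≤ β i) (hβε : ∀ i ∈ P, β i ≤ ε i) (hε : ∀ i ∈ P, ε i ≤ n1) {M : ℝ}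
    (hM : ∀ j, n0 ≤ j → j < n1 → ∑ i ∈ P with (β i ≤ j ∧ j < ε i), w i ≤ M) :
    ∫ ω, (∑ i ∈ P, w i * ‖f (ε i) ω - f (β i) ω‖ ^ 2) ^ q ∂μ ≤ (32 * q * M) ^ q * ∫ ω, (‖f n1 ω - f n0 ω‖ ^ 2) ^ q ∂μ := by
  classical
  have hq0 : q ≠ 0 := by omega
  rcases h01.eq_or_lt with rfl | hlt
  · have e : ∀ ω, ∑ i ∈ P, w i * ‖f (ε i) ω - f (β i) ω‖ ^ 2 = 0 := by
      intro ω
      refine Finset.sum_eq_zero fun i hi => ?_
      have : ε i = β i := le_antisymm ((hε i hi).trans (h0 i hi)) (hβε i hi)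
      rw [this]; simp
    simp [e, hq0]
  have hM0 : 0 ≤ M := le_trans (Finset.sum_nonneg fun i hi => hw i (Finset.mem_filter.1 hi).1) (hM n0 le_rfl hlt)
  have hq1 : (1 : ℝ) ≤ q := by exact_mod_cast hq
  have hsm : ∀ k, AEStronglyMeasurable (f k) μ := fun k => (hf.integrable k).aestronglyMeasurable
  have h := l6m_gen hf hq1 h01 P (fun i => (w i).toNNReal) β ε h0 hβε hε M.toNNReal ?_
  · have hG0 : ∀ ω, 0 ≤ ∑ i ∈ P, w i * ‖f (ε i) ω - f (β i) ω‖ ^ 2 := fun ω => Finset.sum_nonneg fun i hi => mul_nonneg (hw i hi) (by positivity)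
    have eL : ∫ ω, (∑ i ∈ P, w i * ‖f (ε i) ω - f (β i) ω‖ ^ 2) ^ q ∂μ
        = (∫⁻ ω, (∑ i ∈ P, ((w i).toNNReal : ℝ≥0∞) * ‖f (ε i) ω - f (β i) ω‖ₑ ^ 2) ^ (q : ℝ) ∂μ).toReal := by
      rw [integral_eq_lintegral_of_nonneg_ae (Filter.Eventually.of_forall fun ω => pow_nonneg (hG0 ω) q)]
      · congr 1
        refine lintegral_congr fun ω => ?_
        rw [ENNReal.ofReal_pow (hG0 ω), ENNReal.rpow_natCast, ENNReal.ofReal_sum_of_nonneg fun i hi => mul_nonneg (hw i hi) (by positivity)]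
        congr 1
        refine Finset.sum_congr rfl fun i hi => ?_
        rw [ENNReal.ofReal_mul (hw i hi), ENNReal.ofReal_pow (norm_nonneg _), ofReal_norm]
        rfl
      · refine AEStronglyMeasurable.pow ?_ q
        refine Finset.aestronglyMeasurable_fun_sum _ fun i _ => ?_
        exact (((hsm _).sub (hsm _)).norm.pow 2).const_mul _
    have eI : ∫⁻ ω, ‖f n1 ω - f n0 ω‖ₑ ^ (2 * (q : ℝ)) ∂μ = ENNReal.ofReal (∫ ω, (‖f n1 ω - f n0 ω‖ ^ 2) ^ q ∂μ) := by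
      rw [ofReal_integral_eq_lintegral_ofReal hint (Filter.Eventually.of_forall fun ω => by positivity)]
      refine lintegral_congr fun ω => ?_
      rw [ENNReal.ofReal_pow (by positivity), ENNReal.ofReal_pow (norm_nonneg _), ofReal_norm, ← sk_mt_sq_rpow, ENNReal.rpow_natCast]
    have eC : (ENNReal.ofReal (32 * (q : ℝ)) * (M.toNNReal : ℝ≥0∞)) ^ (q : ℝ) = ENNReal.ofReal ((32 * q * M) ^ q) := by
      rw [ENNReal.rpow_natCast, ENNReal.ofReal_pow (by positivity), ENNReal.ofReal_mul (p := 32 * (q : ℝ)) (by positivity)]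
      rfl
    rw [eI, eC, ← ENNReal.ofReal_mul (by positivity)] at h
    rw [eL]
    exact ENNReal.toReal_le_of_le_ofReal (mul_nonneg (by positivity) (integral_nonneg fun ω => by positivity)) h
  · intro j hj0 hj1
    rw [← Finset.sum_filter, ← NNReal.coe_le_coe, NNReal.coe_sum, Real.coe_toNNReal _ hM0]
    refine le_trans (le_of_eq ?_) (hM j hj0 hj1)
    refine Finset.sum_congr rfl fun i hi => ?_
    exact Real.coe_toNNReal _ (hw i (Finset.mem_filter.1 hi).1)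

/-- a real martingale times a fixed vector -/
theorem l6m_smul_const {g : ℕ → Ω → ℝ} (hg : Martingale g ℱ μ) (c : E) : Martingale (fun k ω => g k ω • c) ℱ μ := by
  refine ⟨fun k => (hg.stronglyMeasurable k).smul_const c, fun i j hij => ?_⟩
  have h1 := condExp_smul_of_aestronglyMeasurable_right (m := ℱ i) (μ := μ) (f := g j) (g := fun _ => c) (hg.integrable j)
    ((hg.integrable j).smul_const c) aestronglyMeasurable_const
  filter_upwards [h1, hg.condExp_ae_eq hij] with ω a b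
  have e : (fun ω => g j ω • c) = g j • fun _ => c := rfl
  rw [e, a, Pi.smul_apply', b]

/-- a finite sum of martingales -/
theorem l6m_sum_mart {ι : Type*} (s : Finset ι) {g : ι → ℕ → Ω → E} (hg : ∀ i ∈ s, Martingale (g i) ℱ μ) : Martingale (fun k ω => ∑ i ∈ s, g i k ω) ℱ μ := by
  classical
  induction s using Finset.induction_on with
  | empty =>
    simp only [Finset.sum_empty]
    exact martingale_zero E ℱ μ
  | insert a s ha ih =>
    have h1 := (hg a (Finset.mem_insert_self a s)).add (ih fun i hi => hg i (Finset.mem_insert_of_mem hi))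
    have e : (fun k ω => ∑ i ∈ insert a s, g i k ω) = g a + fun k ω => ∑ i ∈ s, g i k ω := by
      funext k ω
      rw [Finset.sum_insert ha]
      rfl
    rw [e]
    exact h1

/-- **bridge**: coordinatewise martingales make a `EuclideanSpace ℝ (Fin m)`-valued martingale -/
theorem l6m_vec_mart {m : ℕ} {x : ℕ → Fin m → Ω → ℝ} (hx : ∀ i, Martingale (fun k => x k i) ℱ μ) :
    Martingale (fun k ω => (WithLp.toLp 2 (fun i => x k i ω) : EuclideanSpace ℝ (Fin m))) ℱ μ := by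
  have h := l6m_sum_mart (ℱ := ℱ) (μ := μ) Finset.univ (g := fun i k ω => x k i ω • (EuclideanSpace.single i (1 : ℝ) : EuclideanSpace ℝ (Fin m)))
    fun i _ => l6m_smul_const (hx i) _
  have e : (fun k ω => (WithLp.toLp 2 (fun i => x k i ω) : EuclideanSpace ℝ (Fin m))) = fun k ω => ∑ i, x k i ω • (EuclideanSpace.single i (1 : ℝ) : EuclideanSpace ℝ (Fin m)) := by
    funext k ω
    ext j
    simp [Finset.sum_apply, Pi.single_apply]
  rw [e]
  exact h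

end real

end Claimed.Agent.R286
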