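import Claimed.Agent.R286.LL06.Fine

/-!
# Row 286 (S0533), LL Section 6, file LL06/Conc : ROUGH CONCENTRATION AT THE NONFLOOR SPLITS (S9 + S10 of the DAG of (G1)), part A: the abstract single path
owner helper130 (ADV / second head LL06); prefix `l6c_`, defs `l6c*`, `L6c*`.      NON-asymptotic, explicit constants.      Vocabulary: `L08/SP.lean` (`L8P`), `LL06/Pw.lean`, `LL06/Fine.lean`.
Source: LL 06-global.tex l.318-335 (G4), l.467-567 (buffers, polarization, small splits).      Part of TEX[LL:global:trial-gap].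

RADIUS GRID.   `dr k ≥ 0` = radius length of the cut `k` = radius increment of the revelation `k`; radius of the cut `k`: `∑ i ∈ range k, dr i`.
Windows are index intervals: past buffer `Ico a1 a2`, fork `k ≥ a2`, target `w > k`, future buffer `Ico w w2`, `w2 ≤ n`.
* `l6cW`      the explicit bound of (G4) with doubling blocks `ℓ c = l0 2^(c-1)`, `ϑ = 3`.
* `l6c_G4`    (G4) on an index window (`l6f_blocks_exist` + `l6f_pinned`).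
* `l6c_eps`   the centred radius average over a window (`l6f_avg` + `l6c_G4`).
* `l6c_brk`   `‖|X_w|² - S̄‖_{2r} ≤ 16 (η + ε)`,   `‖|X_w - X_k|²‖_{2r} ≤ 64 (η + ε)`.
* `l6c_near`  `‖Q - S_k‖_{2r}` at a fork with buffers;      `l6c_small`  the same at every EARLIER fork `k' ≤ k` (splits below the scale `δ`).
-/

set_option autoImplicit false

namespace Claimed.Agent.R286

open MeasureTheory ProbabilityTheory Finset
open scoped ENNReal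

/-- the explicit bound of (G4): `b` doubling blocks from `l0`, order `q`, truncation `τ`, high order `r' q`, window of radius length `≤ I` -/
noncomputable def l6cW (q r' b : ℕ) (a c1 cR vmin mm e0 l0 τ I : ℝ) : ℝ :=
  (b : ℝ) ^ (3 * q) * a ^ q *
    (((c1 + 2 * τ * q) * 128 * q * 3 / (vmin ^ 2 * mm * e0)) ^ q
      + 2 ^ (q - 1) * cR * (4 * I / (vmin ^ 2 * mm * e0 * l0 * τ ^ (r' - 1))) ^ q
      + (512 * q * (3 * l0)) ^ q)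

theorem l6c_eqns_cite : True := by
  have := @l6cW.eq_1
  trivial

theorem l6c_even_add (a b : ℝ) (r : ℕ) : (a + b) ^ (2 * r) ≤ 2 ^ (2 * r - 1) * (a ^ (2 * r) + b ^ (2 * r)) := by
  have e : ∀ x : ℝ, x ^ (2 * r) = |x| ^ (2 * r) := fun x => by rw [pow_mul, pow_mul, sq_abs]
  rw [e (a + b), e a, e b]
  exact (pow_le_pow_left₀ (abs_nonneg _) (abs_add_le a b) _).trans (add_pow_le (abs_nonneg a) (abs_nonneg b) _)

theorem l6c_even_nonneg (a : ℝ) (r : ℕ) : 0 ≤ a ^ (2 * r) := by rw [pow_mul]; positivity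

theorem l6c_even_mono {a b : ℝ} (h : |a| ≤ b) (r : ℕ) : a ^ (2 * r) ≤ b ^ (2 * r) := by
  calc a ^ (2 * r) = |a| ^ (2 * r) := by rw [pow_mul, pow_mul, sq_abs]
    _ ≤ b ^ (2 * r) := pow_le_pow_left₀ (abs_nonneg _) h _

namespace L8P

variable {Ω : Type} [mΩ : MeasurableSpace Ω] {m : ℕ} (P : L8P Ω m)

/-- **(G4) on an index window**, doubling blocks. -/
theorem l6c_G4 (h : P.Ok) (hm : 0 < m) {q r' b : ℕ} (hq : 1 ≤ q) (hr' : 1 ≤ r') (hb : 2 ≤ b) {c1 cR vmin e0 l0 δm τ I : ℝ}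
    (hc1 : 0 ≤ c1) (hcR : 0 ≤ cR) (hvmin : 0 < vmin) (he0 : 0 < e0) (hl0 : 0 < l0) (hτ : 0 < τ)
    (hp1 : P.Proj 1 c1 vmin (e0 * l0)) (hpR : P.Proj (r' * q) cR vmin (e0 * l0))
    (dr : ℕ → ℝ) (hdr : ∀ k, 0 ≤ dr k) (hδ : ∀ k, dr k ≤ δm) (hδl : δm ≤ l0) (hslope : ∀ k, k < P.n → e0 * dr k ≤ P.dh k)
    {k0 k1 : ℕ} (hk : k0 ≤ k1) (hk1 : k1 ≤ P.n) (hv : vmin ≤ P.v k0)
    (hroom : l0 * 2 ^ (b - 2) ≤ ∑ j ∈ Ico k1 P.n, dr j) (hI : ∑ k ∈ Ico k0 k1, dr k ≤ I) (hI3 : I ≤ 3 * (l0 * 2 ^ (b - 2))) :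
    ∫ ω, (∑ k ∈ Ico k0 k1, dr k * P.W k ω) ^ q ∂P.μ ≤ l6cW q r' b P.a c1 cR vmin m e0 l0 τ I := by
  obtain ⟨t, ht0, htm, htb, htn, hgap, hM0, hMc⟩ := L8P.l6f_blocks_exist P.n (k0 := k0) hk1 dr hdr hδ hδl hl0 hb hroom
  have hmR : (0 : ℝ) < m := by exact_mod_cast hm
  have hℓm : ∀ c c' : ℕ, c ≤ c' → l0 * 2 ^ (c - 1) ≤ l0 * 2 ^ (c' - 1) := fun c c' hcc =>
    mul_le_mul_of_nonneg_left (pow_le_pow_right₀ (by norm_num) (Nat.sub_le_sub_right hcc 1)) hl0.le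
  have hℓ0 : ∀ c : ℕ, l0 ≤ l0 * 2 ^ (c - 1) := fun c => by
    have : (1 : ℝ) ≤ 2 ^ (c - 1) := one_le_pow₀ (by norm_num)
    nlinarith
  have key := P.l6f_pinned h hm hq hr' hc1 hcR hvmin (mul_pos he0 hl0) he0 hp1 hpR hk hk1 dr hdr (fun k _ hkn => hslope k hkn) hv hb
    t ht0 htm htb htn (fun c => l0 * 2 ^ (c - 1)) (by simpa using hl0) (fun c c' _ hcc => hℓm c c' hcc) (by simp) hgap
    (fun c => if c = 0 then 3 * l0 else 3 * (l0 * 2 ^ (c - 1)))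
    (by
      intro c hc j
      rcases Nat.eq_zero_or_pos c with rfl | hc0
      · simpa using hM0 j
      · rw [if_neg (by omega)]
        exact hMc c hc0 hc j)
    (ϑ := 3)
    (by
      intro c c' hcc h1 _ _
      rcases Nat.eq_zero_or_pos c' with rfl | hc0
      · rw [if_pos rfl]
        exact mul_le_mul_of_nonneg_left (hℓ0 c) (by norm_num)
      · rw [if_neg (by omega)]
        exact mul_le_mul_of_nonneg_left (hℓm c' c hcc) (by norm_num))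
    (by
      have e : b - 1 - 1 = b - 2 := by omega
      simp only [e]
      exact hI.trans hI3)
    hτ
  refine key.trans ?_
  unfold l6cW
  have hI0 : 0 ≤ ∑ k ∈ Ico k0 k1, dr k := sum_nonneg fun k _ => hdr k
  have ha := h.a_pos
  simp only [if_true, Nat.sub_self, pow_zero, mul_one]
  refine mul_le_mul_of_nonneg_left ?_ (by positivity)
  refine add_le_add (add_le_add le_rfl ?_) le_rfl
  refine mul_le_mul_of_nonneg_left (pow_le_pow_left₀ (by positivity) ?_ q) (by positivity)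
  exact div_le_div_of_nonneg_right (mul_le_mul_of_nonneg_left hI (by norm_num)) (by positivity)

theorem l6c_W_nonneg {q r' b : ℕ} {a c1 cR vmin mm e0 l0 τ I : ℝ} (ha : 0 ≤ a) (hc1 : 0 ≤ c1) (hcR : 0 ≤ cR) (hmm : 0 ≤ mm)
    (he0 : 0 ≤ e0) (hl0 : 0 ≤ l0) (hτ : 0 ≤ τ) (hI : 0 ≤ I) : 0 ≤ l6cW q r' b a c1 cR vmin mm e0 l0 τ I := by
  unfold l6cW; positivity

/-- **the centred radius average over a window** of radius length `H ∈ [hh, 2 hh]` -/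
theorem l6c_eps (h : P.Ok) (hm : 0 < m) {r r' b : ℕ} (hr : 1 ≤ r) (hr' : 1 ≤ r') (hb : 2 ≤ b) {c1 cR cp vmin e0 kap l0 δm τ hh ε : ℝ}
    (hc1 : 0 ≤ c1) (hcR : 0 ≤ cR) (hcp : 0 ≤ cp) (hvmin : 0 < vmin) (he0 : 0 < e0) (hkap : 0 < kap) (hl0 : 0 < l0) (hτ : 0 < τ) (hhh : 0 < hh)
    (hp1 : P.Proj 1 c1 vmin (e0 * l0)) (hpR : P.Proj (r' * r) cR vmin (e0 * l0)) (hpin : P.Pin r cp)
    (dr : ℕ → ℝ) (hdr : ∀ k, 0 ≤ dr k) (hδ : ∀ k, dr k ≤ δm) (hδl : δm ≤ l0) (hslope : ∀ k, k < P.n → e0 * dr k ≤ P.dh k)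
    (hfl : ∀ k, k ≤ P.n → kap * dr k ≤ P.dv k)
    {k0 k1 : ℕ} (hk : k0 ≤ k1) (hk1 : k1 ≤ P.n) (hv : vmin ≤ P.v k0)
    (hroom : l0 * 2 ^ (b - 2) ≤ ∑ j ∈ Ico k1 P.n, dr j) (hl : hh ≤ ∑ k ∈ Ico k0 k1, dr k) (hl' : ∑ k ∈ Ico k0 k1, dr k ≤ 2 * hh)
    (hI3 : 2 * hh ≤ 3 * (l0 * 2 ^ (b - 2)))
    (hε2 : cp / (hh ^ 2 * kap) ^ r * l6cW r r' b P.a c1 cR vmin m e0 l0 τ (2 * hh) ≤ ε ^ (2 * r)) :
    ∫ ω, ((∑ l ∈ Ico k0 k1, dr l / (∑ k ∈ Ico k0 k1, dr k) * P.L l ω)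
        - ∫ ω', (∑ l ∈ Ico k0 k1, dr l / (∑ k ∈ Ico k0 k1, dr k) * P.L l ω') ∂P.μ) ^ (2 * r) ∂P.μ ≤ ε ^ (2 * r) := by
  obtain ⟨H, hH⟩ : ∃ H : ℝ, H = ∑ k ∈ Ico k0 k1, dr k := ⟨_, rfl⟩
  rw [← hH] at hl hl' ⊢
  have hH0 : 0 < H := hhh.trans_le hl
  have hmR : (0 : ℝ) < m := by exact_mod_cast hm
  have h1 := P.l6f_avg h hcp hpin (Ico k0 k1) (fun k hk' => ((mem_Ico.mp hk').2.trans_le hk1).le) dr (fun k _ => hdr k) hkap hH0
    (fun k hk' => hfl k ((mem_Ico.mp hk').2.trans_le hk1).le)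
  have h2 := P.l6c_G4 h hm hr hr' hb hc1 hcR hvmin he0 hl0 hτ hp1 hpR dr hdr hδ hδl hslope hk hk1 hv hroom (hH ▸ hl') hI3
  have hW0 : 0 ≤ l6cW r r' b P.a c1 cR vmin m e0 l0 τ (2 * hh) :=
    l6c_W_nonneg h.a_pos.le hc1 hcR hmR.le he0.le hl0.le hτ.le (by positivity)
  refine h1.trans (le_trans ?_ hε2)
  refine mul_le_mul ?_ h2 (integral_nonneg fun ω => pow_nonneg (sum_nonneg fun k _ => mul_nonneg (hdr k) (P.l8s_W_nonneg h k ω)) r) (by positivity)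
  refine div_le_div_of_nonneg_left hcp (by positivity) (pow_le_pow_left₀ (by positivity) ?_ r)
  exact mul_le_mul_of_nonneg_right (pow_le_pow_left₀ hhh.le hl 2) hkap.le

/-- standing hypotheses on the radius grid: mesh `δm`, field slope `e0`, density floor `kap` -/
structure L6cGrid (dr : ℕ → ℝ) (e0 kap δm : ℝ) : Prop where
  nn : ∀ k, 0 ≤ dr k
  mesh : ∀ k, dr k ≤ δm
  slope : ∀ k, k < P.n → e0 * dr k ≤ P.dh k
  floor : ∀ k, k ≤ P.n → kap * dr k ≤ P.dv k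

/-- the analytic inputs: (A3) of the orders `2`, `2 r' r`, `2 r`, (A1) line 3 of the order `2 r` -/
structure L6cIn (r r' : ℕ) (c1 cR c cp vmin hmin : ℝ) : Prop where
  ok : P.Ok
  c1_nn : 0 ≤ c1
  cR_nn : 0 ≤ cR
  c_nn : 0 ≤ c
  cp_nn : 0 ≤ cp
  p1 : P.Proj 1 c1 vmin hmin
  pR : P.Proj (r' * r) cR vmin hmin
  p : P.Proj r c vmin hmin
  pin : P.Pin r cp

/-- the windows around a fork `k`: past buffer `Ico a1 a2`, target `w`, future buffer `Ico w w2`; buffers of radius length in `[hh, 2 hh]`, gap `≥ g`, room for `b` doubling blocks,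
mass `≥ vmin` from the first cut on, `|S - S̄| ≤ η` on the whole window -/
structure L6cWin (dr : ℕ → ℝ) (vmin l0 hh g Sbar η : ℝ) (b a1 a2 k w w2 : ℕ) : Prop where
  h12 : a1 ≤ a2
  h2k : a2 ≤ k
  hkw : k < w
  hww : w ≤ w2
  hw2 : w2 ≤ P.n
  hv : vmin ≤ P.v a1
  lm : hh ≤ ∑ j ∈ Ico a1 a2, dr j
  lm' : ∑ j ∈ Ico a1 a2, dr j ≤ 2 * hh
  lp : hh ≤ ∑ j ∈ Ico w w2, dr j
  lp' : ∑ j ∈ Ico w w2, dr j ≤ 2 * hh
  gap : g ≤ ∑ j ∈ Ico k w, dr j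
  room : l0 * 2 ^ (b - 2) ≤ ∑ j ∈ Ico w2 P.n, dr j
  hS : ∀ l, a1 ≤ l → l ≤ w2 → |P.S l - Sbar| ≤ η

variable {P}

/-- **the brackets**: `‖|X_w|² - S̄‖_{2r} ≤ 16 (η + ε)`, `‖|X_w - X_k|²‖_{2r} ≤ 64 (η + ε)` -/
theorem l6c_brk (hm : 0 < m) {r r' b : ℕ} (hr : 1 ≤ r) (hr' : 1 ≤ r') (hb : 2 ≤ b)
    {c1 cR c cp vmin e0 kap l0 δm τ hh g Sbar η ε : ℝ} (hvmin : 0 < vmin) (he0 : 0 < e0) (hkap : 0 < kap) (hl0 : 0 < l0) (hτ : 0 < τ)
    (hhh : 0 < hh) (hη : 0 ≤ η) (hε : 0 ≤ ε) (A : P.L6cIn r r' c1 cR c cp vmin (e0 * l0)) {dr : ℕ → ℝ} (G : P.L6cGrid dr e0 kap δm) (hδl : δm ≤ l0)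
    {a1 a2 k w w2 : ℕ} (W : P.L6cWin dr vmin l0 hh g Sbar η b a1 a2 k w w2) (hI3 : 2 * hh ≤ 3 * (l0 * 2 ^ (b - 2)))
    (hε2 : cp / (hh ^ 2 * kap) ^ r * l6cW r r' b P.a c1 cR vmin m e0 l0 τ (2 * hh) ≤ ε ^ (2 * r)) :
    ∫ ω, (P.nX w ω - Sbar) ^ (2 * r) ∂P.μ ≤ (16 * (η + ε)) ^ (2 * r) ∧ ∫ ω, P.nXX k w ω ^ (2 * r) ∂P.μ ≤ (64 * (η + ε)) ^ (2 * r) := by
  have h := A.ok
  have hroom1 : l0 * 2 ^ (b - 2) ≤ ∑ j ∈ Ico a2 P.n, dr j :=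
    W.room.trans (sum_le_sum_of_subset_of_nonneg (Ico_subset_Ico ((W.h2k.trans W.hkw.le).trans W.hww) le_rfl) fun j _ _ => G.nn j)
  have hvw : vmin ≤ P.v w := W.hv.trans (h.v_mono ((W.h12.trans W.h2k).trans W.hkw.le))
  have ha2n : a2 ≤ P.n := ((W.h2k.trans W.hkw.le).trans W.hww).trans W.hw2
  have eM := P.l6c_eps h hm hr hr' hb A.c1_nn A.cR_nn A.cp_nn hvmin he0 hkap hl0 hτ hhh A.p1 A.pR A.pin dr G.nn G.mesh hδl G.slope G.floor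
    W.h12 ha2n W.hv hroom1 W.lm W.lm' hI3 hε2
  have eP := P.l6c_eps h hm hr hr' hb A.c1_nn A.cR_nn A.cp_nn hvmin he0 hkap hl0 hτ hhh A.p1 A.pR A.pin dr G.nn G.mesh hδl G.slope G.floor
    W.hww W.hw2 hvw W.room W.lp W.lp' hI3 hε2
  have hHm : 0 < ∑ k ∈ Ico a1 a2, dr k := hhh.trans_le W.lm
  have hHp : 0 < ∑ k ∈ Ico w w2, dr k := hhh.trans_le W.lp
  have n1 : ∀ l, 0 ≤ dr l / ∑ k ∈ Ico a1 a2, dr k := fun l => div_nonneg (G.nn l) hHm.le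
  have n2 : ∀ l, 0 ≤ dr l / ∑ k ∈ Ico w w2, dr k := fun l => div_nonneg (G.nn l) hHp.le
  have s1 : ∑ l ∈ Ico a1 a2, dr l / ∑ k ∈ Ico a1 a2, dr k = 1 := by rw [← sum_div, div_self hHm.ne']
  have s2 : ∑ l ∈ Ico w w2, dr l / ∑ k ∈ Ico w w2, dr k = 1 := by rw [← sum_div, div_self hHp.ne']
  have Sm : ∀ l ∈ Ico a1 a2, dr l / ∑ k ∈ Ico a1 a2, dr k ≠ 0 → |P.S l - Sbar| ≤ η := fun l hl _ =>
    W.hS l (mem_Ico.mp hl).1 ((((mem_Ico.mp hl).2.le.trans W.h2k).trans W.hkw.le).trans W.hww)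
  have Sp : ∀ l ∈ Ico w w2, dr l / ∑ k ∈ Ico w w2, dr k ≠ 0 → |P.S l - Sbar| ≤ η := fun l hl _ =>
    W.hS l (((W.h12.trans W.h2k).trans W.hkw.le).trans (mem_Ico.mp hl).1) (mem_Ico.mp hl).2.le
  constructor
  · exact (P.l8s_buffer h r hr w (Ico a1 a2) (Ico w w2) _ _ Sbar η ε (fun l hl => ((mem_Ico.mp hl).2.le.trans W.h2k).trans W.hkw.le)
      (fun l hl => (mem_Ico.mp hl).1) n1 n2 s1 s2 hη hε Sm Sp eM eP).1
  · exact P.l6f_buffer_two h r hr k w (Ico a1 a2) (Ico w w2) (Ico w w2) _ _ _ Sbar η ε (fun l hl => (mem_Ico.mp hl).2.le.trans W.h2k)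
      (fun l hl => ((mem_Ico.mp hl).2.le.trans W.h2k).trans W.hkw.le) (fun l hl => W.hkw.le.trans (mem_Ico.mp hl).1)
      (fun l hl => (mem_Ico.mp hl).1) n1 n2 n2 s1 s2 s2 hη hε Sm Sp Sp eM eP eP

/-- field length and projection scale of the gap `[k, w]` -/
theorem l6c_gap (hm : 0 < m) {vmin e0 kap δm g : ℝ} (hvmin : 0 < vmin) (he0 : 0 < e0) (hg : 0 < g) {dr : ℕ → ℝ} (G : P.L6cGrid dr e0 kap δm)
    {k w : ℕ} (hw : w ≤ P.n) (hv : vmin ≤ P.v k) (hgap : g ≤ ∑ j ∈ Ico k w, dr j) :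
    e0 * g ≤ P.hlen k w ∧ P.sc2 k w ≤ 1 / (vmin ^ 2 * m * (e0 * g)) := by
  have hmR : (0 : ℝ) < m := by exact_mod_cast hm
  have h1 : e0 * g ≤ P.hlen k w := by
    calc e0 * g ≤ e0 * ∑ j ∈ Ico k w, dr j := mul_le_mul_of_nonneg_left hgap he0.le
      _ = ∑ j ∈ Ico k w, e0 * dr j := mul_sum _ _ _
      _ ≤ P.hlen k w := sum_le_sum fun j hj => G.slope j ((mem_Ico.mp hj).2.trans_le hw)
  refine ⟨h1, ?_⟩
  unfold L8P.sc2
  refine one_div_le_one_div_of_le (by positivity) ?_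
  have h3 : vmin ^ 2 ≤ P.v k ^ 2 := pow_le_pow_left₀ hvmin.le hv 2
  exact mul_le_mul (mul_le_mul_of_nonneg_right h3 hmR.le) h1 (by positivity) (by positivity)

theorem l6c_fork_int (h : P.Ok) (k : ℕ) (c : ℝ) (N : ℕ) : Integrable (fun p => (P.Q p - c) ^ N) (P.fork k) := by
  obtain ⟨h1, h2⟩ := P.l8s_fork_Q_bd_aux h
  refine P.l8s_fork_integrable_aux h k ((h1.sub_const c).pow_const N) (c := (1 + |c|) ^ N) fun p => ?_
  rw [abs_pow]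
  exact pow_le_pow_left₀ (abs_nonneg _) ((abs_sub _ _).trans (add_le_add (h2 p) le_rfl)) N

/-- change of the centre under the fork law -/
theorem l6c_recentre (h : P.Ok) (k : ℕ) (r : ℕ) {c c' d B : ℝ} (hd : |c - c'| ≤ d) (hB : ∫ p, (P.Q p - c) ^ (2 * r) ∂(P.fork k) ≤ B) :
    ∫ p, (P.Q p - c') ^ (2 * r) ∂(P.fork k) ≤ 2 ^ (2 * r - 1) * (B + d ^ (2 * r)) := by
  have := P.l8s_fork_prob h k
  have hpt : ∀ p, (P.Q p - c') ^ (2 * r) ≤ 2 ^ (2 * r - 1) * ((P.Q p - c) ^ (2 * r) + d ^ (2 * r)) := by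
    intro p
    have e : P.Q p - c' = (P.Q p - c) + (c - c') := by ring
    rw [e]
    refine (l6c_even_add _ _ r).trans (mul_le_mul_of_nonneg_left (add_le_add le_rfl (l6c_even_mono hd r)) (by positivity))
  calc ∫ p, (P.Q p - c') ^ (2 * r) ∂(P.fork k) ≤ ∫ p, 2 ^ (2 * r - 1) * ((P.Q p - c) ^ (2 * r) + d ^ (2 * r)) ∂(P.fork k) :=
        integral_mono (l6c_fork_int h k c' _) (((l6c_fork_int h k c _).add (integrable_const _)).const_mul _) hpt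
    _ = 2 ^ (2 * r - 1) * ((∫ p, (P.Q p - c) ^ (2 * r) ∂(P.fork k)) + d ^ (2 * r)) := by
        rw [integral_const_mul, integral_add (l6c_fork_int h k c _) (integrable_const _)]
        simp
    _ ≤ _ := mul_le_mul_of_nonneg_left (add_le_add hB le_rfl) (by positivity)

/-- **rough concentration at a fork with buffers.** -/
theorem l6c_near (hm : 0 < m) {r r' b : ℕ} (hr : 1 ≤ r) (hr' : 1 ≤ r') (hb : 2 ≤ b)
    {c1 cR c cp vmin e0 kap l0 δm τ hh g Sbar η ε : ℝ} (hvmin : 0 < vmin) (he0 : 0 < e0) (hkap : 0 < kap) (hl0 : 0 < l0) (hτ : 0 < τ)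
    (hhh : 0 < hh) (hη : 0 ≤ η) (hε : 0 ≤ ε) (A : P.L6cIn r r' c1 cR c cp vmin (e0 * l0)) {dr : ℕ → ℝ} (G : P.L6cGrid dr e0 kap δm) (hδl : δm ≤ l0)
    {a1 a2 k w w2 : ℕ} (W : P.L6cWin dr vmin l0 hh g Sbar η b a1 a2 k w w2) (hI3 : 2 * hh ≤ 3 * (l0 * 2 ^ (b - 2))) (hlg : l0 ≤ g)
    (hε2 : cp / (hh ^ 2 * kap) ^ r * l6cW r r' b P.a c1 cR vmin m e0 l0 τ (2 * hh) ≤ ε ^ (2 * r)) :
    ∫ p, (P.Q p - P.S k) ^ (2 * r) ∂(P.fork k)
      ≤ 2 ^ (2 * r - 1) * (3 ^ (2 * r - 1) * ((144 * (η + ε)) ^ (2 * r) + 2 * c * (1 / (vmin ^ 2 * m * (e0 * g))) ^ r) + η ^ (2 * r)) := by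
  have h := A.ok
  obtain ⟨b1, b2⟩ := l6c_brk hm hr hr' hb hvmin he0 hkap hl0 hτ hhh hη hε A G hδl W hI3 hε2
  have hvk : vmin ≤ P.v k := W.hv.trans (h.v_mono (W.h12.trans W.h2k))
  obtain ⟨g1, g2⟩ := l6c_gap hm hvmin he0 (hl0.trans_le hlg) G (W.hww.trans W.hw2) hvk W.gap
  have h1 := P.l6f_conc h hr A.p W.hkw ((W.hww.trans W.hw2).trans (Nat.le_succ _)) hvk
    ((mul_le_mul_of_nonneg_left hlg he0.le).trans g1) (E1 := 16 * (η + ε)) (E2 := 64 * (η + ε)) (by positivity) (by positivity) b1 b2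
  have hsc0 : 0 ≤ P.sc2 k w := by
    unfold L8P.sc2
    have : 0 ≤ P.hlen k w := sum_nonneg fun j _ => h.dh_nonneg j
    positivity
  have h2 : ∫ p, (P.Q p - Sbar) ^ (2 * r) ∂(P.fork k)
      ≤ 3 ^ (2 * r - 1) * ((144 * (η + ε)) ^ (2 * r) + 2 * c * (1 / (vmin ^ 2 * m * (e0 * g))) ^ r) := by
    refine h1.trans (mul_le_mul_of_nonneg_left (add_le_add (le_of_eq (by ring)) ?_) (by positivity))
    exact mul_le_mul_of_nonneg_left (pow_le_pow_left₀ hsc0 g2 r) (mul_nonneg (by norm_num) A.c_nn)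
  have h3 : |Sbar - P.S k| ≤ η := by
    rw [abs_sub_comm]; exact W.hS k (W.h12.trans W.h2k) (W.hkw.le.trans W.hww)
  exact l6c_recentre h k r h3 h2

/-- **splits below the scale `δ`**: every fork `k' ≤ k`, both leaves projected to the cut `w`, (A3) through the gap `[k, w]`. -/
theorem l6c_small (hm : 0 < m) {r r' b : ℕ} (hr : 1 ≤ r) (hr' : 1 ≤ r') (hb : 2 ≤ b)
    {c1 cR c cp vmin e0 kap l0 δm τ hh g Sbar η ε : ℝ} (hvmin : 0 < vmin) (he0 : 0 < e0) (hkap : 0 < kap) (hl0 : 0 < l0) (hτ : 0 < τ)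
    (hhh : 0 < hh) (hη : 0 ≤ η) (hε : 0 ≤ ε) (A : P.L6cIn r r' c1 cR c cp vmin (e0 * l0)) {dr : ℕ → ℝ} (G : P.L6cGrid dr e0 kap δm) (hδl : δm ≤ l0)
    {a1 a2 k w w2 : ℕ} (W : P.L6cWin dr vmin l0 hh g Sbar η b a1 a2 k w w2) (hI3 : 2 * hh ≤ 3 * (l0 * 2 ^ (b - 2))) (hlg : l0 ≤ g)
    (hε2 : cp / (hh ^ 2 * kap) ^ r * l6cW r r' b P.a c1 cR vmin m e0 l0 τ (2 * hh) ≤ ε ^ (2 * r)) {k' : ℕ} (hk' : k' ≤ k) :
    ∫ p, (P.Q p - P.S k') ^ (2 * r) ∂(P.fork k')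
      ≤ 2 ^ (2 * r - 1) * (3 ^ (2 * r - 1) * (2 ^ (2 * r - 1) * ((16 * (η + ε)) ^ (2 * r) + Sbar ^ (2 * r))
          + 2 * c * (1 / (vmin ^ 2 * m * (e0 * g))) ^ r) + (Sbar + η) ^ (2 * r)) := by
  have h := A.ok
  have := h.prob
  obtain ⟨b1, -⟩ := l6c_brk hm hr hr' hb hvmin he0 hkap hl0 hτ hhh hη hε A G hδl W hI3 hε2
  have hvk : vmin ≤ P.v k := W.hv.trans (h.v_mono (W.h12.trans W.h2k))
  obtain ⟨g1, g2⟩ := l6c_gap hm hvmin he0 (hl0.trans_le hlg) G (W.hww.trans W.hw2) hvk W.gap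
  have h1 := P.l6f_conc_small h hr A.p hk' W.hkw ((W.hww.trans W.hw2).trans (Nat.le_succ _)) hvk
    ((mul_le_mul_of_nonneg_left hlg he0.le).trans g1)
  have hsc0 : 0 ≤ P.sc2 k w := by
    unfold L8P.sc2
    have : 0 ≤ P.hlen k w := sum_nonneg fun j _ => h.dh_nonneg j
    positivity
  have hnXb : L8Bd (P.nX w) := P.l8s_W_bd_nX h w
  have h2 : ∫ ω, P.nX w ω ^ (2 * r) ∂P.μ ≤ 2 ^ (2 * r - 1) * ((16 * (η + ε)) ^ (2 * r) + Sbar ^ (2 * r)) := by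
    have hpt : ∀ ω, P.nX w ω ^ (2 * r) ≤ 2 ^ (2 * r - 1) * ((P.nX w ω - Sbar) ^ (2 * r) + Sbar ^ (2 * r)) := by
      intro ω
      have e : P.nX w ω = (P.nX w ω - Sbar) + Sbar := by ring
      nth_rewrite 1 [e]
      exact l6c_even_add _ _ r
    have i1 : Integrable (fun ω => (P.nX w ω - Sbar) ^ (2 * r)) P.μ := l8k_bd_integrable (l8k_bd_pow (l8k_bd_sub hnXb (l8k_bd_const Sbar)) _) _
    calc ∫ ω, P.nX w ω ^ (2 * r) ∂P.μ ≤ ∫ ω, 2 ^ (2 * r - 1) * ((P.nX w ω - Sbar) ^ (2 * r) + Sbar ^ (2 * r)) ∂P.μ :=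
          integral_mono (l8k_bd_integrable (l8k_bd_pow hnXb _) _) ((i1.add (integrable_const _)).const_mul _) hpt
      _ = 2 ^ (2 * r - 1) * ((∫ ω, (P.nX w ω - Sbar) ^ (2 * r) ∂P.μ) + Sbar ^ (2 * r)) := by
          rw [integral_const_mul, integral_add i1 (integrable_const _)]
          simp
      _ ≤ _ := mul_le_mul_of_nonneg_left (add_le_add b1 le_rfl) (by positivity)
  have h3 : ∫ p, (P.Q p - 0) ^ (2 * r) ∂(P.fork k')
      ≤ 3 ^ (2 * r - 1) * (2 ^ (2 * r - 1) * ((16 * (η + ε)) ^ (2 * r) + Sbar ^ (2 * r)) + 2 * c * (1 / (vmin ^ 2 * m * (e0 * g))) ^ r) := by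
    simp only [sub_zero]
    refine h1.trans (mul_le_mul_of_nonneg_left (add_le_add h2 ?_) (by positivity))
    exact mul_le_mul_of_nonneg_left (pow_le_pow_left₀ hsc0 g2 r) (mul_nonneg (by norm_num) A.c_nn)
  have h4 : |0 - P.S k'| ≤ Sbar + η := by
    rw [zero_sub, abs_neg, abs_of_nonneg (P.l8s_S_nonneg k')]
    have e1 := P.l8s_S_mono h hk'
    have e2 := (abs_le.mp (W.hS k (W.h12.trans W.h2k) (W.hkw.le.trans W.hww))).2
    linarith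
  exact l6c_recentre h k' r h4 h3

end L8P

/-! ## part B: from radius coordinates to index windows -/

/-- radius of the cut `k` -/
def l6cR (dr : ℕ → ℝ) (k : ℕ) : ℝ := ∑ i ∈ range k, dr i

theorem l6cR_eqns_cite : True := by
  have := @l6cR.eq_1
  trivial

theorem l6cR_zero (dr : ℕ → ℝ) : l6cR dr 0 = 0 := by simp [l6cR]

theorem l6cR_succ (dr : ℕ → ℝ) (k : ℕ) : l6cR dr (k + 1) = l6cR dr k + dr k := sum_range_succ _ _

theorem l6cR_mono {dr : ℕ → ℝ} (hdr : ∀ k, 0 ≤ dr k) : Monotone (l6cR dr) :=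
  monotone_nat_of_le_succ fun k => by rw [l6cR_succ]; linarith [hdr k]

theorem l6cR_Ico (dr : ℕ → ℝ) {k l : ℕ} (hkl : k ≤ l) : ∑ j ∈ Ico k l, dr j = l6cR dr l - l6cR dr k := sum_Ico_eq_sub _ hkl

theorem l6cR_lt {dr : ℕ → ℝ} (hdr : ∀ k, 0 ≤ dr k) {k l : ℕ} (h : l6cR dr k < l6cR dr l) : k < l := by
  by_contra hcon
  exact absurd (l6cR_mono hdr (not_lt.mp hcon)) (not_le.mpr h)

/-- the first cut of radius `≥ ρ` -/
theorem l6c_T_spec (dr : ℕ → ℝ) {ρ : ℝ} {N : ℕ} (hρ : ρ ≤ l6cR dr N) : l6gT dr 0 ρ ≤ N ∧ ρ ≤ l6cR dr (l6gT dr 0 ρ) := by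
  have h1 : ρ ≤ ∑ i ∈ Ico 0 N, dr i := by rw [l6cR_Ico dr (Nat.zero_le N), l6cR_zero]; linarith
  refine ⟨l6g_T_le dr (Nat.zero_le N) h1, ?_⟩
  have h2 := (l6g_T_mem dr (Nat.zero_le N) h1).2
  rw [l6cR_Ico dr (Nat.zero_le _), l6cR_zero] at h2
  linarith

theorem l6c_T_upper {dr : ℕ → ℝ} {δm : ℝ} (hδ0 : 0 ≤ δm) (hδ : ∀ k, dr k ≤ δm) {ρ : ℝ} (h0 : 0 ≤ ρ) : l6cR dr (l6gT dr 0 ρ) ≤ ρ + δm := by
  rcases Nat.eq_zero_or_pos (l6gT dr 0 ρ) with h | h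
  · rw [h, l6cR_zero]; linarith
  · obtain ⟨j, hj⟩ : ∃ j, l6gT dr 0 ρ = j + 1 := ⟨l6gT dr 0 ρ - 1, by omega⟩
    have h1 := l6g_T_lt dr (Nat.zero_le j) (by omega : j < l6gT dr 0 ρ)
    rw [l6cR_Ico dr (Nat.zero_le _), l6cR_zero] at h1
    rw [hj, l6cR_succ]
    linarith [hδ j]

namespace L8P

variable {Ω : Type} [mΩ : MeasurableSpace Ω] {m : ℕ} {P : L8P Ω m}

/-- **the windows exist**: fork `k`, `s0` in the radius interval of the cut `k`, window scale `hh ≥ 2 δm`, room `3 hh` below, `3 hh + l0 2^(b-2)` above. -/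
theorem l6c_windows {dr : ℕ → ℝ} {e0 kap δm : ℝ} (G : P.L6cGrid dr e0 kap δm) {vmin l0 hh s0 Sbar η : ℝ} {b k : ℕ}
    (hhh : 0 < hh) (hδh : 2 * δm ≤ hh) (hk0 : l6cR dr k ≤ s0) (hk1 : s0 ≤ l6cR dr k + dr k)
    (hlo : 0 ≤ s0 - 3 * hh) (hup : s0 + 3 * hh + l0 * 2 ^ (b - 2) ≤ l6cR dr P.n) (hl0 : 0 ≤ l0)
    (hS : ∀ l, l ≤ P.n → s0 - 3 * hh ≤ l6cR dr l → l6cR dr l ≤ s0 + 3 * hh → |P.S l - Sbar| ≤ η)
    (hv : ∀ l, l ≤ P.n → s0 - 3 * hh ≤ l6cR dr l → vmin ≤ P.v l) :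
    ∃ a1 a2 w w2 : ℕ, P.L6cWin dr vmin l0 hh hh Sbar η b a1 a2 k w w2 := by
  have hδ0 : 0 ≤ δm := (G.nn 0).trans (G.mesh 0)
  have hmono := l6cR_mono G.nn
  have hL : 0 ≤ l0 * 2 ^ (b - 2) := by positivity
  have hdk := G.mesh k
  obtain ⟨A1, A2⟩ := l6c_T_spec dr (ρ := s0 - 3 * hh) (N := P.n) (by linarith)
  obtain ⟨B1, B2⟩ := l6c_T_spec dr (ρ := s0 - 3 / 2 * hh) (N := P.n) (by linarith)
  obtain ⟨C1, C2⟩ := l6c_T_spec dr (ρ := s0 + hh) (N := P.n) (by linarith)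
  obtain ⟨D1, D2⟩ := l6c_T_spec dr (ρ := s0 + 5 / 2 * hh) (N := P.n) (by linarith)
  have A3 := l6c_T_upper hδ0 G.mesh (ρ := s0 - 3 * hh) hlo
  have B3 := l6c_T_upper hδ0 G.mesh (ρ := s0 - 3 / 2 * hh) (by linarith)
  have C3 := l6c_T_upper hδ0 G.mesh (ρ := s0 + hh) (by linarith)
  have D3 := l6c_T_upper hδ0 G.mesh (ρ := s0 + 5 / 2 * hh) (by linarith)
  obtain ⟨a1, ha1⟩ : ∃ a1, a1 = l6gT dr 0 (s0 - 3 * hh) := ⟨_, rfl⟩
  obtain ⟨a2, ha2⟩ : ∃ a2, a2 = l6gT dr 0 (s0 - 3 / 2 * hh) := ⟨_, rfl⟩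
  obtain ⟨w, hw⟩ : ∃ w, w = l6gT dr 0 (s0 + hh) := ⟨_, rfl⟩
  obtain ⟨w2, hw2⟩ : ∃ w2, w2 = l6gT dr 0 (s0 + 5 / 2 * hh) := ⟨_, rfl⟩
  rw [← ha1] at A1 A2 A3
  rw [← ha2] at B1 B2 B3
  rw [← hw] at C1 C2 C3
  rw [← hw2] at D1 D2 D3
  have h12 : a1 ≤ a2 := by
    rw [ha1]; exact (l6c_T_spec dr (ρ := s0 - 3 * hh) (N := a2) (by linarith)).1
  have h2k : a2 ≤ k := by
    rw [ha2]; exact (l6c_T_spec dr (ρ := s0 - 3 / 2 * hh) (N := k) (by linarith)).1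
  have hkw : k < w := l6cR_lt G.nn (by linarith)
  have hww : w ≤ w2 := by
    rw [hw]; exact (l6c_T_spec dr (ρ := s0 + hh) (N := w2) (by linarith)).1
  refine ⟨a1, a2, w, w2, h12, h2k, hkw, hww, D1, hv a1 A1 A2, ?_, ?_, ?_, ?_, ?_, ?_, ?_⟩
  · rw [l6cR_Ico dr h12]; linarith
  · rw [l6cR_Ico dr h12]; linarith
  · rw [l6cR_Ico dr hww]; linarith
  · rw [l6cR_Ico dr hww]; linarith
  · rw [l6cR_Ico dr hkw.le]; linarith
  · rw [l6cR_Ico dr D1]; linarith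
  · intro l h1 h2
    exact hS l (h2.trans D1) (A2.trans (hmono h1)) ((hmono h2).trans (by linarith))

end L8P

/-! ## part C: the path seen from the grid -/

/-- **the deterministic geometry of the path** at the scales `δ`, `hh` (radius coordinate `s ∈ [0,2]`): `NF` = the nonfloor radii, `St s = S` at the radius `s`, `al` = the inverse path.
LOC, MASS, ROOM (`NF ⊆ [0,5/4]`), BAND (a nonfloor radius in `[δ, C1 δ]`), FLOOR (`al' = κ` off `NF`).      INSTANCE: `l6c_geo` (from `GlPot`, `l6g_mass`, `l6c_band`). -/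
structure L6cGeo (NF : Set ℝ) (St al : ℝ → ℝ) (κ δ hh ηL vmin C1 : ℝ) : Prop where
  al_mono : MonotoneOn al (Set.Icc 0 2)
  al0 : al 0 = 0
  sub : NF ⊆ Set.Icc 0 (5 / 4)
  loc : ∀ s0 ∈ NF, δ ≤ s0 → ∀ s ∈ Set.Icc (0 : ℝ) 2, |s - s0| ≤ 4 * hh → |St s - s0| ≤ ηL
  mass : ∀ s0 ∈ NF, δ ≤ s0 → vmin ≤ al (s0 - 3 * hh)
  band : ∃ sa ∈ NF, δ ≤ sa ∧ sa ≤ C1 * δ
  floor : ∀ s t, 0 ≤ s → s ≤ t → t ≤ 2 → (∀ x ∈ Set.Icc s t, x ∉ NF) → al t - al s ≤ κ * (t - s)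

/-- the final bound of the moment of order `2 r` of `Q - S` at the nonfloor splits -/
noncomputable def l6cB (r : ℕ) (c vmin mm e0 hh η ε D : ℝ) : ℝ :=
  2 ^ (2 * r - 1) * (3 ^ (2 * r - 1) * (2 ^ (2 * r - 1) * ((144 * (η + ε)) ^ (2 * r) + D ^ (2 * r))
    + 2 * c * (1 / (vmin ^ 2 * mm * (e0 * hh))) ^ r) + (D + η) ^ (2 * r))

theorem l6cB_eqns_cite : True := by
  have := @l6cB.eq_1
  trivial

namespace L8P

variable {Ω : Type} [mΩ : MeasurableSpace Ω] {m : ℕ} (P : L8P Ω m)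

/-- **the sampled chain against the path**: total radius `2`, masses `= al` at the radii of the grid, Levy closeness `ρ` of `S` -/
structure L6cSamp (dr : ℕ → ℝ) (St al : ℝ → ℝ) (ρ : ℝ) : Prop where
  total : l6cR dr (P.n + 1) = 2
  v_eq : ∀ k, k ≤ P.n → P.v k = al (l6cR dr (k + 1))
  lo : ∀ l, l ≤ P.n → ∀ s ∈ Set.Icc (0 : ℝ) 2, s + ρ ≤ l6cR dr l → St s - ρ ≤ P.S l
  hi : ∀ l, l ≤ P.n → ∀ s ∈ Set.Icc (0 : ℝ) 2, l6cR dr l + ρ ≤ s → P.S l ≤ St s + ρ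

variable {P}

/-- windows at a nonfloor radius `s0 ≥ δ` which lies in the radius interval of the cut `k` -/
theorem l6c_win_nf {dr : ℕ → ℝ} {e0 kap δm ρ : ℝ} {NF : Set ℝ} {St al : ℝ → ℝ} {κ δ hh ηL vmin C1 l0 : ℝ} {b : ℕ}
    (G : P.L6cGrid dr e0 kap δm) (X : P.L6cSamp dr St al ρ) (Y : L6cGeo NF St al κ δ hh ηL vmin C1)
    (hhh : 0 < hh) (hδh : 2 * δm ≤ hh) (hρ0 : 0 ≤ ρ) (hρ : ρ ≤ hh) (h4 : 4 * hh ≤ δ) (hl0 : 0 ≤ l0)
    (hroom : 5 / 4 + 4 * hh + l0 * 2 ^ (b - 2) ≤ 2) {k : ℕ} {s0 : ℝ} (hs0 : s0 ∈ NF) (hδs : δ ≤ s0)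
    (hk0 : l6cR dr k ≤ s0) (hk1 : s0 ≤ l6cR dr k + dr k) :
    ∃ a1 a2 w w2 : ℕ, P.L6cWin dr vmin l0 hh hh s0 (ηL + ρ) b a1 a2 k w w2 := by
  have hδ0 : 0 ≤ δm := (G.nn 0).trans (G.mesh 0)
  have hmono := l6cR_mono G.nn
  have hs54 := (Y.sub hs0).2
  have hL : 0 ≤ l0 * 2 ^ (b - 2) := by positivity
  have hRn : 2 - δm ≤ l6cR dr P.n := by
    have := X.total
    rw [l6cR_succ] at this
    linarith [G.mesh P.n]
  have hR2 : ∀ l, l ≤ P.n + 1 → l6cR dr l ≤ 2 := fun l hl => X.total ▸ hmono hl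
  refine l6c_windows G hhh hδh hk0 hk1 (by linarith) (by linarith) hl0 ?_ ?_
  · intro l hl h1 h2
    rw [abs_le]
    constructor
    · have hs : l6cR dr l - ρ ∈ Set.Icc (0 : ℝ) 2 := ⟨by linarith, by linarith [hR2 l (hl.trans (Nat.le_succ _))]⟩
      have e1 := X.lo l hl _ hs (by linarith)
      have e2 := (abs_le.mp (Y.loc s0 hs0 hδs _ hs (by rw [abs_le]; constructor <;> linarith))).1
      linarith
    · have hs : l6cR dr l + ρ ∈ Set.Icc (0 : ℝ) 2 := ⟨by linarith, by linarith⟩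
      have e1 := X.hi l hl _ hs le_rfl
      have e2 := (abs_le.mp (Y.loc s0 hs0 hδs _ hs (by rw [abs_le]; constructor <;> linarith))).2
      linarith
  · intro l hl h1
    rw [X.v_eq l hl]
    refine (Y.mass s0 hs0 hδs).trans (Y.al_mono ⟨by linarith, by linarith⟩ ⟨?_, hR2 _ (Nat.succ_le_succ hl)⟩ ?_)
    · exact le_trans (by linarith) (h1.trans (hmono (Nat.le_succ l)))
    · exact h1.trans (hmono (Nat.le_succ l))

/-- **S10, abstract form**: the moment of order `2 r` of `Q - S_k` at EVERY cut whose radius interval meets the nonfloor set. -/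
theorem l6c_moment (hm : 0 < m) {r r' b : ℕ} (hr : 1 ≤ r) (hr' : 1 ≤ r') (hb : 2 ≤ b)
    {c1 cR c cp vmin e0 kap l0 δm τ hh ηL ρ ε κ δ C1 : ℝ} {NF : Set ℝ} {St al : ℝ → ℝ} {dr : ℕ → ℝ}
    (hvmin : 0 < vmin) (he0 : 0 < e0) (hkap : 0 < kap) (hl0 : 0 < l0) (hτ : 0 < τ) (hhh : 0 < hh) (hηL : 0 ≤ ηL) (hε : 0 ≤ ε)
    (A : P.L6cIn r r' c1 cR c cp vmin (e0 * l0)) (G : P.L6cGrid dr e0 kap δm) (X : P.L6cSamp dr St al ρ) (Y : L6cGeo NF St al κ δ hh ηL vmin C1)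
    (hδl : δm ≤ l0) (hlh : l0 ≤ hh) (hδh : 2 * δm ≤ hh) (hρ0 : 0 ≤ ρ) (hρ : ρ ≤ hh) (h4 : 4 * hh ≤ δ)
    (hroom : 5 / 4 + 4 * hh + l0 * 2 ^ (b - 2) ≤ 2) (hI3 : 2 * hh ≤ 3 * (l0 * 2 ^ (b - 2)))
    (hε2 : cp / (hh ^ 2 * kap) ^ r * l6cW r r' b P.a c1 cR vmin m e0 l0 τ (2 * hh) ≤ ε ^ (2 * r))
    {k : ℕ} (hnf : ∃ s0 ∈ NF, l6cR dr k ≤ s0 ∧ s0 ≤ l6cR dr k + dr k) :
    ∫ p, (P.Q p - P.S k) ^ (2 * r) ∂(P.fork k) ≤ l6cB r c vmin m e0 hh (ηL + ρ) ε (C1 * δ) := by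
  have hmR : (0 : ℝ) < m := by exact_mod_cast hm
  have hη : 0 ≤ ηL + ρ := by linarith
  have hmono := l6cR_mono G.nn
  have hδpos : 0 < δ := by linarith
  obtain ⟨sa, hsa, hδa, haC⟩ := Y.band
  have hD : 0 ≤ C1 * δ := by linarith
  have h2p : (1 : ℝ) ≤ 2 ^ (2 * r - 1) := one_le_pow₀ (by norm_num)
  have hT : 0 ≤ 2 * c * (1 / (vmin ^ 2 * m * (e0 * hh))) ^ r := by have := A.c_nn; positivity
  obtain ⟨s0, hs0, hk0, hk1⟩ := hnf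
  rcases le_or_gt δ s0 with hδs | hδs
  · obtain ⟨a1, a2, w, w2, W⟩ := l6c_win_nf (b := b) G X Y hhh hδh hρ0 hρ h4 hl0.le hroom hs0 hδs hk0 hk1
    refine (l6c_near hm hr hr' hb hvmin he0 hkap hl0 hτ hhh hη hε A G hδl W hI3 hlh hε2).trans ?_
    unfold l6cB
    refine mul_le_mul_of_nonneg_left (add_le_add (mul_le_mul_of_nonneg_left (add_le_add ?_ le_rfl) (by positivity)) ?_) (by positivity)
    · have e1 : 0 ≤ (144 * (ηL + ρ + ε)) ^ (2 * r) := l6c_even_nonneg _ _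
      have e2 : 0 ≤ (C1 * δ) ^ (2 * r) := l6c_even_nonneg _ _
      nlinarith
    · exact pow_le_pow_left₀ hη (by linarith) _
  · -- the cut which contains `sa`
    have hRn : 2 - δm ≤ l6cR dr P.n := by
      have := X.total
      rw [l6cR_succ] at this
      linarith [G.mesh P.n]
    have hL : 0 ≤ l0 * 2 ^ (b - 2) := by positivity
    have hsan : sa ≤ l6cR dr P.n := by linarith [(Y.sub hsa).2]
    obtain ⟨T1, T2⟩ := l6c_T_spec dr hsan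
    have hTpos : 0 < l6gT dr 0 sa := by
      rcases Nat.eq_zero_or_pos (l6gT dr 0 sa) with h0 | h0
      · rw [h0, l6cR_zero] at T2; linarith
      · exact h0
    obtain ⟨ka, hka⟩ : ∃ ka, l6gT dr 0 sa = ka + 1 := ⟨l6gT dr 0 sa - 1, by omega⟩
    have hka0 : l6cR dr ka ≤ sa := by
      have h1 := l6g_T_lt dr (Nat.zero_le ka) (by omega : ka < l6gT dr 0 sa)
      rw [l6cR_Ico dr (Nat.zero_le _), l6cR_zero] at h1
      linarith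
    have hka1 : sa ≤ l6cR dr ka + dr ka := by rw [← l6cR_succ, ← hka]; exact T2
    have hkka : k ≤ ka := by
      by_contra hcon
      have h1 : l6cR dr (ka + 1) ≤ l6cR dr k := hmono (by omega)
      rw [l6cR_succ] at h1
      linarith
    obtain ⟨a1, a2, w, w2, W⟩ := l6c_win_nf (b := b) G X Y hhh hδh hρ0 hρ h4 hl0.le hroom hsa hδa hka0 hka1
    refine (l6c_small hm hr hr' hb hvmin he0 hkap hl0 hτ hhh hη hε A G hδl W hI3 hlh hε2 hkka).trans ?_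
    unfold l6cB
    have hsa0 : 0 ≤ sa := by linarith
    refine mul_le_mul_of_nonneg_left (add_le_add (mul_le_mul_of_nonneg_left (add_le_add
      (mul_le_mul_of_nonneg_left (add_le_add ?_ ?_) (by positivity)) le_rfl) (by positivity)) ?_) (by positivity)
    · exact pow_le_pow_left₀ (by positivity) (by linarith) _
    · exact pow_le_pow_left₀ hsa0 haC _
    · exact pow_le_pow_left₀ (by linarith) (by linarith) _

open Classical in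
/-- **the floor levels have mass `≤ 2 κ`** -/
theorem l6c_floor {dr : ℕ → ℝ} {e0 kap δm ρ : ℝ} {NF : Set ℝ} {St al : ℝ → ℝ} {κ δ hh ηL vmin C1 : ℝ} (hκ : 0 ≤ κ)
    (G : P.L6cGrid dr e0 kap δm) (X : P.L6cSamp dr St al ρ) (Y : L6cGeo NF St al κ δ hh ηL vmin C1) :
    ∑ k ∈ (range (P.n + 1)).filter (fun k => ¬ ∃ s0 ∈ NF, l6cR dr k ≤ s0 ∧ s0 ≤ l6cR dr k + dr k), P.dv k ≤ 2 * κ := by
  have hmono := l6cR_mono G.nn
  have hR0 : ∀ l, 0 ≤ l6cR dr l := fun l => by rw [← l6cR_zero dr]; exact hmono (Nat.zero_le l)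
  have hdv : ∀ k, k ≤ P.n → P.dv k = al (l6cR dr (k + 1)) - al (l6cR dr k) := by
    intro k hk
    unfold L8P.dv
    rcases Nat.eq_zero_or_pos k with rfl | hk0
    · rw [if_pos rfl, X.v_eq 0 hk, l6cR_zero, Y.al0]
    · obtain ⟨j, rfl⟩ : ∃ j, k = j + 1 := ⟨k - 1, by omega⟩
      rw [if_neg (by omega), X.v_eq _ hk, Nat.add_sub_cancel, X.v_eq j (by omega)]
  calc _ ≤ ∑ k ∈ (range (P.n + 1)).filter (fun k => ¬ ∃ s0 ∈ NF, l6cR dr k ≤ s0 ∧ s0 ≤ l6cR dr k + dr k), κ * dr k := by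
        refine sum_le_sum fun k hk => ?_
        rw [mem_filter, mem_range] at hk
        have hkn : k ≤ P.n := by omega
        rw [hdv k hkn]
        have h1 := Y.floor (l6cR dr k) (l6cR dr (k + 1)) (hR0 k) (hmono (Nat.le_succ k)) (X.total ▸ hmono (Nat.succ_le_succ hkn)) (by
          intro x hx hxN
          rw [l6cR_succ] at hx
          exact hk.2 ⟨x, hxN, hx.1, hx.2⟩)
        rw [l6cR_succ] at h1 ⊢
        linarith
    _ ≤ ∑ k ∈ range (P.n + 1), κ * dr k :=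
        sum_le_sum_of_subset_of_nonneg (filter_subset _ _) fun k _ _ => mul_nonneg hκ (G.nn k)
    _ = 2 * κ := by
        rw [← mul_sum]
        have := X.total
        unfold l6cR at this
        rw [this]; ring

/-- Markov under the fork law -/
theorem l6c_markov (h : P.Ok) (k r : ℕ) {θ B : ℝ} (hθ : 0 < θ) (hB : ∫ p, (P.Q p - P.S k) ^ (2 * r) ∂(P.fork k) ≤ B) :
    ∫ p, (if θ < |P.Q p - P.S k| then (1 : ℝ) else 0) ∂(P.fork k) ≤ B / θ ^ (2 * r) := by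
  have := P.l8s_fork_prob h k
  have hpt : ∀ p, (if θ < |P.Q p - P.S k| then (1 : ℝ) else 0) ≤ (P.Q p - P.S k) ^ (2 * r) / θ ^ (2 * r) := by
    intro p
    split_ifs with hc
    · rw [le_div_iff₀ (by positivity), one_mul]
      calc θ ^ (2 * r) ≤ |P.Q p - P.S k| ^ (2 * r) := pow_le_pow_left₀ hθ.le hc.le _
        _ = (P.Q p - P.S k) ^ (2 * r) := by rw [pow_mul, pow_mul, sq_abs]
    · exact div_nonneg (l6c_even_nonneg _ _) (by positivity)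
  calc _ ≤ ∫ p, (P.Q p - P.S k) ^ (2 * r) / θ ^ (2 * r) ∂(P.fork k) :=
        integral_mono_of_nonneg (ae_of_all _ fun p => by split_ifs <;> norm_num) ((l6c_fork_int h k _ _).div_const _) (ae_of_all _ hpt)
    _ = (∫ p, (P.Q p - P.S k) ^ (2 * r) ∂(P.fork k)) / θ ^ (2 * r) := integral_div _ _
    _ ≤ B / θ ^ (2 * r) := div_le_div_of_nonneg_right hB (by positivity)

end L8P

end Claimed.Agent.R286
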