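import Claimed.Agent.R286.LL.Chain
import Claimed.Agent.R286.Bud.PSys
import Claimed.Agent.R286.Macro.Contract
import Claimed.Agent.R286.LL06.Phi
import Claimed.Agent.R286.LL06.Pot
import Claimed.Agent.R286.Sc.GenDefs

/-!
# Row 286 (S0533), unit LL06 = LL Sec. 6 (06-global.tex): CONTRACT      (head helper291; LL05+06 architecture helper84, deputy helper200; ADV helper130; prefix `ll06_`, `Ll06`, `l6`)

## EXITS of the unit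
* **`Ll06G1Exit 𝔹 T`** = Prop. global:trial-gap = (G1), PATH level, in the protocol of `LL/Chain.lean` (224):   ALL `F0` with the P-list, EX `c_G > 0`, EX `s0 < 1/2`, ALL exponents `(s_*, η, p_*)` in `LlExpOk`
  with `s0 ≤ s_*`, EX `N0`: `0 ≤ F_* - f_m(b,h_*) ≤ x^(4+c_G)` at every direct point, `N/2 ≤ m ≤ 3N`.      USERS: LL07 (07 l.54: 162 / 66), LL10 (60).      TEX[LL:global:trial-gap]
* Lemma global:residual-blocks, Lemma global:buffer-brackets: FINE level, files `LL06/Mart*.lean`, `LL06/Pw.lean`, `LL06/Fine.lean` (owner helper200).      TEX[LL:global:residual-blocks] TEX[LL:global:buffer-brackets] live THERE.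
## ORDER OF THE CONSTANTS in (G1)  (06 l.13-17, 10 l.15-28; checked for 136): `c0` (absolute, `mv_quant`) > `c1` (G3) > `a_g` (`2 a_g < c1`) > `d_g` (`C_inv d_g < a_g/4`, `C_inv d_g < 1/4`, `d_g < c0/2`; `C_inv` = loss of (H1), absolute)
  > PE slack `m_PE ≤ d_g/96`;   `c_G = min(d_g/8, 1/4, c)/2`.      `s_*, η, p_*` enter only through the P-list (constants of `LlSec3`, rate of (P9)), i.e. only through `N0`.
## THE CUT (level 1: five closed supplies `⟹` the exit; glue `ll06_g1` in `LL06/Top.lean`, owner 291)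
| supply | content | TeX 06 | owner |
|---|---|---|---|
| `Ll06Nrm 𝔹`        | normalisation `ℓ → 1`: `a f_m^{(a)}(b,h) = f_m^{(1)}(a² b(a·), a² h(a·))`, clocks read on the open interval                     | l.31-33 | 272 (`llBase`) + 53 (`sk_rs_CPr`) |
| `Ll06S1Exit 𝔹 F0`  | [S1] PE Prop. 6.6 at the common base `T_m`, `d = e0^(1/4)`, strength `e0 = x^dg`, `E = x^(4+3dg/16)`: a quantile with `J(0,r) ≤ f_m + x^(4+dg/8)`, ALL small `dg` | l.39-104, 139-153 | 58 (`LL06/PhiS1`), from `p6_error` (14) |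
| `Ll06G2Exit 𝔹 F0`  | (G2) scalar coercivity at the reference clock, trial `z` NOT monotone, `0 ≤ z ≤ 2`, `K' = h_* + b z` a clock                     | l.106-137 | 58 (`LL06/G2`): G2.i from BOX-C (141 `sku_pkg_coer` tangent form), G2.ii `gl_det_g2ii` (292) + (P5) |
| `ll06_mis`         | POT: at EVERY minimiser `∫ (S - r)² ≤ M_c⁻² + 8 κ` (non-asymptotic)                                                              | l.186-206 | 261 (`LL06/Pot`), from `GlPot.mismatch` (292) |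
| `Ll06VarExit 𝔹 F0` | `∫ D_v² dv ≤ x^(4+c)` at every minimiser, every `θ ∈ (0,1)`, for arbitrarily small `dg`                                          | l.207-640 | level 2 below |
 The envelope glue (`Φ` monotone, Lipschitz, Danskin, end points) is `l6p_main` (58, `LL06/Phi.lean`).
## LEVEL 2 (`Ll06VarExit ⟸`): `Ll06G3Exit` (G3) [261: `LL06/Tri`, `LL06/G3`], LOC + MASS + BAND [261, from `GlPot.loc`, `gl_det_mass`], GAP [291, `LL06/Gap.lean`, scalar `L¹`-stability of `Γ'` from BOX-C],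
  CONC (G4 + buffers + polarisation, fine level) and ABS (centred inversion: (A7) first order + (H1)) [200: `LL06/Fine*.lean`, `LL06/Abs*.lean`; imports 93/239 (A7), 84/177 (H1), bridge 262].      Junctions typed in sec. 4 below; glue in `LL06/Top.lean` (291).
TEXDROP: none.
-/

set_option autoImplicit false

namespace Claimed.Agent.R286

open MeasureTheory Set Filter Topology

noncomputable section

/-! ## 0. normalised clocks -/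

/-- a clock given on `(0,1)`, closed by its one-sided limits (`inf` at `u ≤ 0`, `sup` at `u ≥ 1`): no jump at the two ends -/
def l6Cl (c : ℝ → ℝ) (u : ℝ) : ℝ := if u ≤ 0 then sInf (c '' Ioo 0 1) else if u < 1 then c u else sSup (c '' Ioo 0 1)

/-- the normalisation of a clock of terminal mass `a`: `u ↦ a² c(a u)` -/
def l6Nr (a : ℝ) (c : ℝ → ℝ) : ℝ → ℝ := l6Cl fun w => a ^ 2 * c (a * w)

namespace LlPt

variable (p : LlPt) (F : LlFix) (𝔹 : LlBase)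

/-- normalised matrix clock, unmasked unseeded field, scalar clock, quantile of a point -/
def bN : ℝ → ℝ := l6Nr p.a (p.b F 𝔹)
def hN : ℝ → ℝ := l6Nr p.a (p.hS F 𝔹)
def tN : ℝ → ℝ := l6Nr p.a (p.K F 𝔹)
def qN : ℝ → ℝ := l6Cl fun w => p.q F 𝔹 (p.a * w)

/-- `F_* = f_spin(t) + ¼ ∫ b q²` -/
def Fst : ℝ := 𝔹.fspin p.a (p.K F 𝔹) + 1 / 4 * ∫ v in (0 : ℝ)..p.a, p.b F 𝔹 v * p.q F 𝔹 v ^ 2

/-- `f_m(b, h_*)`: unmasked, unseeded field -/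
def f00 (m : ℕ) : ℝ := 𝔹.f m p.a (p.b F 𝔹) (p.hS F 𝔹)

/-- the parameters of the constrained interpolation: `e0 = x^dg`, `κ = x^(17/4)`, `M_c = x^(-10)` -/
def e0G (dg : ℝ) : ℝ := p.x ^ dg
def kapG : ℝ := p.x ^ (17 / 4 : ℝ)
def McG : ℝ := p.x ^ (-10 : ℝ)

/-- `r` minimises the constrained objective at `θ` (size `m`) -/
def IsMinG (dg : ℝ) (m : ℕ) (θ : ℝ) (r : ℝ → ℝ) : Prop :=
  L6pMin (macI m) (p.bN F 𝔹) (p.hN F 𝔹) (p.e0G dg) p.kapG p.McG θ r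

/-- the changed clocks `b~ = b - e`, `h~ = h_* + e r` -/
def bG (dg θ : ℝ) : ℝ → ℝ := l6pB (p.bN F 𝔹) (p.e0G dg) θ
def hG (dg θ : ℝ) (r : ℝ → ℝ) : ℝ → ℝ := l6pH (p.bN F 𝔹) (p.hN F 𝔹) (p.e0G dg) θ r

/-- `S`, `B` at the changed path -/
def SG (dg : ℝ) (m : ℕ) (θ : ℝ) (r : ℝ → ℝ) : ℝ → ℝ := (macI m).S (p.bG F 𝔹 dg θ) (p.hG F 𝔹 dg θ r)
def BG (dg : ℝ) (m : ℕ) (θ : ℝ) (r : ℝ → ℝ) : ℝ → ℝ := (macI m).B (p.bG F 𝔹 dg θ) (p.hG F 𝔹 dg θ r)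

/-- the empirical scalar clock `K^emp = h_* + e r + b~ S` -/
def KG (dg : ℝ) (m : ℕ) (θ : ℝ) (r : ℝ → ℝ) (u : ℝ) : ℝ := p.hG F 𝔹 dg θ r u + p.bG F 𝔹 dg θ u * p.SG F 𝔹 dg m θ r u

end LlPt

/-- "uniformly over the direct points, the sizes of the dyad" -/
def Ll06U (F : LlFix) (Φ : LlPt → ℕ → Prop) : Prop :=
  LlUnif F fun p => p.sm = false → ∀ m : ℕ, p.N ≤ 2 * m → m ≤ 3 * p.N → Φ p m

/-- "uniformly over the direct points, the sizes of the dyad, `θ ∈ (0,1)` and ALL minimisers" -/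
def Ll06UM (𝔹 : LlBase) (F : LlFix) (dg : ℝ) (Φ : LlPt → ℕ → ℝ → (ℝ → ℝ) → Prop) : Prop :=
  Ll06U F fun p m => ∀ θ ∈ Ioo (0 : ℝ) 1, ∀ r : ℝ → ℝ, p.IsMinG F 𝔹 dg m θ r → Φ p m θ r

/-! ## 1. the exit -/

/-- (G1) for one choice of the fixed data -/
def Ll06G1 (𝔹 : LlBase) (F : LlFix) (cG : ℝ) : Prop :=
  Ll06U F fun p m => 0 ≤ p.Fst F 𝔹 - p.f00 F 𝔹 m ∧ p.Fst F 𝔹 - p.f00 F 𝔹 m ≤ p.x ^ (4 + cG)

/-- **EXIT FORM of LL Prop. 6.1 = (G1)**: the saving `c_G` BEFORE the exponents.      TEX[LL:global:trial-gap] -/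
def Ll06G1Exit (𝔹 : LlBase) (T : ℝ) : Prop :=
  ∀ F0 : LlFix, F0.T = T → LlBaseProfile 𝔹 T → LlcP 𝔹 F0 →
    ∃ cG s0 : ℝ, 0 < cG ∧ s0 < 1 / 2 ∧ ∀ sS eta pS : ℝ, LlExpOk sS eta pS → s0 ≤ sS → Ll06G1 𝔹 (F0.wExp sS eta pS) cG

/-! ## 2. the supplies of level 1 -/

/-- **(NRM)** normalisation of the terminal mass (06 l.31-33, LL (A1), LL 11.1); the clocks are read on the open interval.      OWNER: 272 (`llBase`) + 53 (`sk_rs_CPr`, `Ci/Resc.lean`). -/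
def Ll06Nrm (𝔹 : LlBase) : Prop :=
  ∀ (m : ℕ) (a : ℝ) (b h : ℝ → ℝ), 1 ≤ m → 1 ≤ a → IsClock a b → IsClock a h →
    a * 𝔹.pres m a b h = skCPr m 1 (l6Nr a b) (l6Nr a h)

/-- [S1] at one exponent `dg` -/
def Ll06S1 (𝔹 : LlBase) (F : LlFix) (dg : ℝ) : Prop :=
  Ll06U F fun p m => ∃ r : ℝ → ℝ, MvQt r ∧
    l6pJ (macI m) (p.bN F 𝔹) (p.hN F 𝔹) (p.e0G dg) 0 r ≤ (macI m).f (p.bN F 𝔹) (p.hN F 𝔹) + p.x ^ (4 + dg / 8)

/-- **[S1]** (06 l.39-104, l.139-153): PE Prop. 6.6 removes the constant `e0 = x^dg`; every small `dg` (the PE slack is chosen after `dg`).      OWNER: 58. -/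
def Ll06S1Exit (𝔹 : LlBase) (F0 : LlFix) : Prop :=
  ∃ d1 : ℝ, 0 < d1 ∧ ∀ dg : ℝ, 0 < dg → dg ≤ d1 → ∀ sS eta pS : ℝ, LlExpOk sS eta pS → Ll06S1 𝔹 (F0.wExp sS eta pS) dg

/-- (G2) with the constants `c, Q0` -/
def Ll06G2 (𝔹 : LlBase) (F : LlFix) (c Q0 : ℝ) : Prop :=
  LlUnif F fun p => p.sm = false → ∀ z : ℝ → ℝ, (∀ u ∈ Icc (0 : ℝ) 1, z u ∈ Icc (0 : ℝ) 2) → IntervalIntegrable z volume 0 1 →
    MvClk (fun u => p.hN F 𝔹 u + p.bN F 𝔹 u * z u) →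
    (∀ u ∈ Icc (0 : ℝ) 1, p.tN F 𝔹 u ≤ Q0 ∧ p.hN F 𝔹 u + p.bN F 𝔹 u * z u ≤ Q0) ∧
    mvG macSpin (p.bN F 𝔹) (p.hN F 𝔹) (p.qN F 𝔹)
        + c * (∫ s in (0 : ℝ)..Q0, (∫ y in s..Q0, (scAlK 1 (fun u => p.hN F 𝔹 u + p.bN F 𝔹 u * z u) y - scAlK 1 (p.tN F 𝔹) y)) ^ 2)
      ≤ mvG macSpin (p.bN F 𝔹) (p.hN F 𝔹) z

/-- **(G2)** (06 l.106-137), constants before the exponents.      OWNER: 58. -/
def Ll06G2Exit (𝔹 : LlBase) (F0 : LlFix) : Prop :=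
  ∃ c Q0 : ℝ, 0 < c ∧ 0 < Q0 ∧ ∀ sS eta pS : ℝ, LlExpOk sS eta pS → Ll06G2 𝔹 (F0.wExp sS eta pS) c Q0

/-- the integrated variance at the minimisers -/
def Ll06Var (𝔹 : LlBase) (F : LlFix) (dg c : ℝ) : Prop :=
  Ll06UM 𝔹 F dg fun p m θ r => ∫ u in (0 : ℝ)..1, (p.BG F 𝔹 dg m θ r u - p.SG F 𝔹 dg m θ r u ^ 2) ≤ p.x ^ (4 + c)

/-- **(VAR)** (06 l.207-640): for arbitrarily small `dg` there is a saving.      OWNER: level 2 (291 glue; 261, 200). -/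
def Ll06VarExit (𝔹 : LlBase) (F0 : LlFix) : Prop :=
  ∀ d1 : ℝ, 0 < d1 → ∃ dg c s0 : ℝ, 0 < dg ∧ dg ≤ d1 ∧ 0 < c ∧ s0 < 1 / 2 ∧
    ∀ sS eta pS : ℝ, LlExpOk sS eta pS → s0 ≤ sS → Ll06Var 𝔹 (F0.wExp sS eta pS) dg c

/-- (G3) in QUANTILE form (`= ‖α_{K^emp} - α_t‖₁` by `gl_det_qt`) -/
def Ll06G3 (𝔹 : LlBase) (F : LlFix) (dg c1 : ℝ) : Prop :=
  Ll06UM 𝔹 F dg fun p m θ r => ∫ u in (0 : ℝ)..1, |p.KG F 𝔹 dg m θ r u - p.tN F 𝔹 u| ≤ p.x ^ c1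

/-- **(G3)** (06 l.207-316): `c1` BEFORE `dg`.      OWNER: 261. -/
def Ll06G3Exit (𝔹 : LlBase) (F0 : LlFix) : Prop :=
  ∃ c1 d1 : ℝ, 0 < c1 ∧ 0 < d1 ∧ ∀ dg : ℝ, 0 < dg → dg ≤ d1 → ∀ sS eta pS : ℝ, LlExpOk sS eta pS → Ll06G3 𝔹 (F0.wExp sS eta pS) dg c1

theorem ll06_eqns_cite : True := by
  have := @l6Cl.eq_1
  have := @l6Nr.eq_1
  have := @LlPt.bN.eq_1
  have := @LlPt.hN.eq_1
  have := @LlPt.tN.eq_1
  have := @LlPt.qN.eq_1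
  have := @LlPt.Fst.eq_1
  have := @LlPt.f00.eq_1
  have := @LlPt.e0G.eq_1
  have := @LlPt.kapG.eq_1
  have := @LlPt.McG.eq_1
  have := @LlPt.IsMinG.eq_1
  have := @LlPt.bG.eq_1
  have := @LlPt.hG.eq_1
  have := @LlPt.SG.eq_1
  have := @LlPt.BG.eq_1
  have := @LlPt.KG.eq_1
  have := @Ll06U.eq_1
  have := @Ll06UM.eq_1
  have := @Ll06G1.eq_1
  have := @Ll06G1Exit.eq_1
  have := @Ll06Nrm.eq_1
  have := @Ll06S1.eq_1
  have := @Ll06S1Exit.eq_1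
  have := @Ll06G2.eq_1
  have := @Ll06G2Exit.eq_1
  have := @Ll06Var.eq_1
  have := @Ll06VarExit.eq_1
  have := @Ll06G3.eq_1
  have := @Ll06G3Exit.eq_1
  trivial

/-! ## 3. non-asymptotic supply: the mismatch at a minimiser -/

/-- **(POT iii)** (06 l.186-206) at EVERY minimiser of the constant density box: `∫ (S - r)² ≤ M⁻² + 8 κ`.      OWNER: 261 (`LL06/Pot.lean`: Gateaux derivative on the convex class + layer cake + bathtub `⟹ GlPot`; then `GlPot.mismatch`). -/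
theorem ll06_mis {m : ℕ} (I : MvIface m) {b hs q : ℝ → ℝ} {e0 κ M : ℝ} (H : L6pOk b hs q e0 κ M) (hM : 2 ≤ M) {θ : ℝ} (hθ : θ ∈ Ioo (0 : ℝ) 1)
    {r : ℝ → ℝ} (hr : L6pMin I b hs e0 κ M θ r) :
    ∫ u in (0 : ℝ)..1, (I.S (l6pB b e0 θ) (l6pH b hs e0 θ r) u - r u) ^ 2 ≤ 1 / M ^ 2 + 8 * κ :=
  l6o_mis_p I H hM ⟨hθ.1.le, hθ.2.le⟩ hr

/-! ## 4. LEVEL 2: junctions of `Ll06VarExit`      (glue `ll06_g1`, `ll06_var`: `LL06/Top.lean`, owner 291) -/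

/-- **(GAP-B)** 06 l.556-566, a fact of the REFERENCE: "the positive part of `b(v) - b_∘` is at most `C c_b λ v²`, which is absorbed by (P2) when `c_b` is small".      OWNER: LL 03 (272 / 253): asked as a new FIELD of `LlSec3`
(one more smallness condition on `F0.cb`; `origin/helper291:notes/R286/LL06_asks_291.md`).
Proof: `1 - b(v) Γ'(t) = gap(t) - (b(v) - b_∘) Γ'(t)`, `0 < Γ' ≤ 1/b_∘`, `b(v) - b_∘ ≤ c_b λ C' v²`; `t ≥ K(v/4)/4 ≥ c min(v,v0)` gives `gap(t) ≥ c λ min(t²,1) ≥ c'' λ v²`. -/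
def Ll06GapB (𝔹 : LlBase) (F : LlFix) : Prop :=
  ∃ C : ℝ, LlUnif F fun p => p.sm = false → ∀ v ∈ Ioo 0 p.a,
    (∀ t : ℝ, p.K F 𝔹 (v / 4) / 4 ≤ t → 0 ≤ 1 - p.b F 𝔹 v * p.Gam1 F 𝔹 t) ∧
    (∀ t : ℝ, 0 ≤ t → -(C * p.lam * v ^ 2) ≤ 1 - p.b F 𝔹 v * p.Gam1 F 𝔹 t)

/-- **(PROF)** the time distribution of the normalised direct clock IS the profile `A_λ`.      OWNER: LL 03 (272 / 253; kit of generalised inverses `PathsKit281`, `PathsKk`): derivable from `LlBaseProfile` + `F.Ok`. -/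
def Ll06Prof (𝔹 : LlBase) (F : LlFix) : Prop :=
  LlUnif F fun p => p.sm = false → ∀ s : ℝ, 0 ≤ s → scAlK 1 (p.tN F 𝔹) s = p.Aprof F 𝔹 s

/-- the empirical scalar clock at a POSITION of the changed path -/
def LlPt.KGp (p : LlPt) (F : LlFix) (𝔹 : LlBase) (dg : ℝ) (m : ℕ) (θ : ℝ) (r : ℝ → ℝ) (P : GhPos) : ℝ :=
  ghAt 1 (p.hG F 𝔹 dg θ r) P + ghAt 1 (p.bG F 𝔹 dg θ) P * skCS m 1 (p.bG F 𝔹 dg θ) (p.hG F 𝔹 dg θ r) P

/-- (J1 of 200) the gap of (H1) at the minimisers, PATH level, with the REFERENCE response `Γ̂'` at a common time, ROBUST in the time: every `s ≥ K^emp(P) - x^rh` -/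
def Ll06Gap (𝔹 : LlBase) (F : LlFix) (dg cg rh : ℝ) : Prop :=
  Ll06UM 𝔹 F dg fun p m θ r => ∀ P : GhPos, P.Ok 1 → ∀ s : ℝ, 0 ≤ s → p.KGp F 𝔹 dg m θ r P - p.x ^ rh ≤ s →
    cg * p.x ^ dg ≤ 1 - ghAt 1 (p.bG F 𝔹 dg θ) P * p.Gam1N F 𝔹 s

/-- **(GAP)** (06 l.553-566), S11.      OWNER: 292 (`LL06/Gap.lean`): `ll06_gap : Ll06G3Exit 𝔹 F0 → LlcP 𝔹 F0 → (∀ exponents, Ll06GapB) → Ll06GapExit 𝔹 F0`.
Proof at a scene, `δ = x^ag`, `2 ag < c1`, `rh = c1 - ag`, `dg < 2 ag`:   `b~ ≤ b - e0`, so `1 - b~ Γ̂'(s) ≥ [1 - b Γ̂'(s)] + e0 Γ̂'(s)`;   if `Γ̂'(s) ≤ 1/(2 sup b)` the bracket is `≥ 1/2`; otherwise `e0 Γ̂'(s) ≥ e0/(2 sup b)` and the bracket is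
`≥ 0` for `u ≥ δ` [(GAP-B)(1): `K^emp(u) ≥ t(u/2) - 2 x^c1/u` by monotonicity and (G3)], `≥ - C δ²` for `u < δ` [(GAP-B)(2)]. -/
def Ll06GapExit (𝔹 : LlBase) (F0 : LlFix) : Prop :=
  ∃ cg rh d1 : ℝ, 0 < cg ∧ 0 < rh ∧ 0 < d1 ∧ ∀ dg : ℝ, 0 < dg → dg ≤ d1 → ∀ sS eta pS : ℝ, LlExpOk sS eta pS → Ll06Gap 𝔹 (F0.wExp sS eta pS) dg cg rh

theorem ll06_eqns_cite2 : True := by
  have := @Ll06GapB.eq_1
  have := @Ll06Prof.eq_1
  have := @LlPt.KGp.eq_1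
  have := @Ll06Gap.eq_1
  have := @Ll06GapExit.eq_1
  trivial

end

end Claimed.Agent.R286
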