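import Claimed.Agent.R286.LL06.FinePin

/-!
# Row 286 (S0533), LL Section 6, file LL06/Fine : (G4) AND THE ROUGH CONCENTRATION over the abstract single path `L8P`
owner helper200 (LL06); prefix `l6f_`; vocabulary = `L08/SP.lean`, API `L08/SPA-SPD`, `LL06/Pw.lean`.      NON-asymptotic, explicit constants, natural moment orders.
Source: LL 06-global.tex l.318-335 (G4), l.405-466 (its proof), l.541-600 (buffers, polarization, small splits).      Part of TEX[LL:global:trial-gap].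

RADIUS COORDINATE ON THE GRID.   `dr k ≥ 0` = radius length of the cut `k` = radius increment of the revelation `k`;   `∫_I W_{α(s)} ds = ∑_{k ∈ J} dr k * W k`.
 field slope  `e0 * dr k ≤ dh k`  (the field clock is `h_* + e r`, `e ≥ e0`);      density floor  `kap * dr k ≤ dv k`  (`α' ≥ κ`).
BLOCKS at the fork `k ∈ J`:  `t k 0 = k ≤ t k 1 ≤ .. ≤ t k b = n + 1`;  the block `c` starts at radius distance `≥ ℓ c` from the fork (`1 ≤ c < b`).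
 `Mo c` = overlap of the family of the blocks number `c` (`c < b - 1`), see `l6p_overlap_fam`;  `ϑ` = bound of `Mo c' / ℓ c` (`c' ≤ c`) and of `|I| / ℓ (b-1)`.

EXITS: `l6f_pinned` = (G4);  `l6f_avg` = (A1) for radius averages;  `l6f_buffer_two`;  `l6f_conc` = `‖Q - S̄‖` at a split with buffers;  `l6f_conc_small` = splits below `δ`.
The deterministic construction of the blocks (`t`, `Mo`, `ϑ = 3`) from a fine radius grid: `l6f_blocks_exist`.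
-/

set_option autoImplicit false

namespace Claimed.Agent.R286

open MeasureTheory ProbabilityTheory Finset
open scoped ENNReal

variable {Ω : Type} [mΩ : MeasurableSpace Ω] {m : ℕ}

/-! ## tools: power mean, Minkowski in moment form (any finite measure, bounded functions `L8Bd`) -/

/-- power mean for three terms, even exponent -/
theorem l6f_three (a b c : ℝ) {r : ℕ} (hr : 1 ≤ r) : (a + b + c) ^ (2 * r) ≤ 3 ^ (2 * r - 1) * (a ^ (2 * r) + b ^ (2 * r) + c ^ (2 * r)) := by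
  have h := Real.pow_arith_mean_le_arith_mean_pow_of_even (Finset.univ : Finset (Fin 3)) (fun _ => (1 / 3 : ℝ)) ![a, b, c]
    (fun _ _ => by norm_num) (by simp) (n := 2 * r) (even_two_mul r)
  simp only [Fin.sum_univ_three, Matrix.cons_val_zero, Matrix.cons_val_one, Matrix.cons_val_two, Matrix.head_cons, Matrix.tail_cons] at h
  have e1 : (a + b + c) ^ (2 * r) = 3 ^ (2 * r) * (1 / 3 * a + 1 / 3 * b + 1 / 3 * c) ^ (2 * r) := by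
    rw [← mul_pow]
    congr 1
    ring
  have e2 : (3 : ℝ) ^ (2 * r) = 3 ^ (2 * r - 1) * 3 := by
    rw [← pow_succ]
    congr 1
    omega
  rw [e1]
  calc (3 : ℝ) ^ (2 * r) * (1 / 3 * a + 1 / 3 * b + 1 / 3 * c) ^ (2 * r)
      ≤ 3 ^ (2 * r) * (1 / 3 * a ^ (2 * r) + 1 / 3 * b ^ (2 * r) + 1 / 3 * c ^ (2 * r)) := mul_le_mul_of_nonneg_left h (by positivity)
    _ = 3 ^ (2 * r - 1) * (a ^ (2 * r) + b ^ (2 * r) + c ^ (2 * r)) := by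
        rw [e2]
        ring

/-- moment bound ⟹ `eLpNorm` bound -/
theorem l6f_norm_of_mom {α : Type} [MeasurableSpace α] (ν : Measure α) [IsFiniteMeasure ν] {f : α → ℝ} (hf : L8Bd f) {n : ℕ} (hn : 1 ≤ n) {a : ℝ} (ha : 0 ≤ a)
    (h : ∫ x, |f x| ^ n ∂ν ≤ a ^ n) : eLpNorm f (n : ℝ≥0∞) ν ≤ ENNReal.ofReal a := by
  have hn0 : n ≠ 0 := by omega
  have hm : MemLp f (n : ℝ≥0∞) ν := l8k_bd_memLp hf ν _
  rw [hm.eLpNorm_eq_integral_rpow_norm (by exact_mod_cast hn0) (ENNReal.natCast_ne_top n), ENNReal.toReal_natCast]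
  refine ENNReal.ofReal_le_ofReal ?_
  simp only [Real.rpow_natCast, Real.norm_eq_abs]
  calc (∫ x, |f x| ^ n ∂ν) ^ ((n : ℝ)⁻¹) ≤ (a ^ n) ^ ((n : ℝ)⁻¹) :=
        Real.rpow_le_rpow (integral_nonneg fun x => by positivity) h (by positivity)
    _ = a := Real.pow_rpow_inv_natCast ha hn0

/-- `eLpNorm` bound ⟹ moment bound -/
theorem l6f_mom_of_norm {α : Type} [MeasurableSpace α] (ν : Measure α) [IsFiniteMeasure ν] {f : α → ℝ} (hf : L8Bd f) {n : ℕ} (hn : 1 ≤ n) {a : ℝ} (ha : 0 ≤ a)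
    (h : eLpNorm f (n : ℝ≥0∞) ν ≤ ENNReal.ofReal a) : ∫ x, |f x| ^ n ∂ν ≤ a ^ n := by
  have hn0 : n ≠ 0 := by omega
  have hm : MemLp f (n : ℝ≥0∞) ν := l8k_bd_memLp hf ν _
  rw [hm.eLpNorm_eq_integral_rpow_norm (by exact_mod_cast hn0) (ENNReal.natCast_ne_top n), ENNReal.toReal_natCast,
    ENNReal.ofReal_le_ofReal_iff ha] at h
  simp only [Real.rpow_natCast, Real.norm_eq_abs] at h
  calc ∫ x, |f x| ^ n ∂ν = ((∫ x, |f x| ^ n ∂ν) ^ ((n : ℝ)⁻¹)) ^ n := (Real.rpow_inv_natCast_pow (integral_nonneg fun x => by positivity) hn0).symm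
    _ ≤ a ^ n := pow_le_pow_left₀ (by positivity) h n

/-- **Minkowski in moment form**, finite sums, bounded functions, any finite measure -/
theorem l6f_mink {α : Type} [MeasurableSpace α] (ν : Measure α) [IsFiniteMeasure ν] {ι : Type} (s : Finset ι) (f : ι → α → ℝ) (B : ι → ℝ) {n : ℕ} (hn : 1 ≤ n)
    (hf : ∀ i ∈ s, L8Bd (f i)) (hB0 : ∀ i ∈ s, 0 ≤ B i) (hB : ∀ i ∈ s, ∫ x, |f i x| ^ n ∂ν ≤ B i ^ n) :
    ∫ x, |∑ i ∈ s, f i x| ^ n ∂ν ≤ (∑ i ∈ s, B i) ^ n := by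
  refine l6f_mom_of_norm ν (l8k_bd_sum s hf) hn (Finset.sum_nonneg hB0) ?_
  have h1 : (fun x => ∑ i ∈ s, f i x) = ∑ i ∈ s, f i := by
    funext x
    rw [Finset.sum_apply]
  rw [h1, ENNReal.ofReal_sum_of_nonneg hB0]
  refine (eLpNorm_sum_le (fun i hi => (hf i hi).1.aestronglyMeasurable) (by exact_mod_cast hn)).trans ?_
  exact Finset.sum_le_sum fun i hi => l6f_norm_of_mom ν (hf i hi) hn (hB0 i hi) (hB i hi)
/-- Minkowski in moment form, two functions -/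
theorem l6f_mink2 {α : Type} [MeasurableSpace α] (ν : Measure α) [IsFiniteMeasure ν] {f g : α → ℝ} (hf : L8Bd f) (hg : L8Bd g) {n : ℕ} (hn : 1 ≤ n) {a b : ℝ}
    (ha : 0 ≤ a) (hb : 0 ≤ b) (h1 : ∫ x, |f x| ^ n ∂ν ≤ a ^ n) (h2 : ∫ x, |g x| ^ n ∂ν ≤ b ^ n) : ∫ x, |f x + g x| ^ n ∂ν ≤ (a + b) ^ n := by
  refine l6f_mom_of_norm ν (l8k_bd_add hf hg) hn (add_nonneg ha hb) ?_
  rw [ENNReal.ofReal_add ha hb]
  exact (eLpNorm_add_le hf.1.aestronglyMeasurable hg.1.aestronglyMeasurable (by exact_mod_cast hn)).trans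
    (add_le_add (l6f_norm_of_mom ν hf hn ha h1) (l6f_norm_of_mom ν hg hn hb h2))

namespace L8P

variable (P : L8P Ω m)

/-- **(G4), abstract form.**   `G = 1 / (vmin² m e0)`.
`‖∑_{k ∈ J} dr k W k‖_q^q ≤ b^(3q) a^q [ ((c1 + 2 τ q) 128 q ϑ G)^q + 2^(q-1) cR (4 G |I| / (ℓ 1 τ^(r-1)))^q + (512 q Mo 0)^q ]`.
Proof: `l6p_blocks`; pairs `c ≤ c'`, `1 ≤ c'`: `l6p_pair_b`; pairs `c' < c`: `l6p_pair_a` (`R = 4`); pair `(0,0)`: `l6p_pair_00`; anchors: `l6p_overlap_fam` + `l6p_nXX_le`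
(two terminal blocks: `l6p_nXX_le` only);  `(∑_{i ≤ N} a_i)^q ≤ N^(q-1) ∑ a_i^q`. -/
theorem l6f_pinned (h : P.Ok) (hm : 0 < m) {q r : ℕ} (hq : 1 ≤ q) (hr : 1 ≤ r) {c1 cR vmin hmin e0 : ℝ} (hc1 : 0 ≤ c1) (hcR : 0 ≤ cR) (hvmin : 0 < vmin) (hhmin : 0 < hmin) (he0 : 0 < e0)
    (hp1 : P.Proj 1 c1 vmin hmin) (hpR : P.Proj (r * q) cR vmin hmin)
    {k0 k1 : ℕ} (hk : k0 ≤ k1) (hk1 : k1 ≤ P.n) (dr : ℕ → ℝ) (hdr : ∀ k, 0 ≤ dr k) (hslope : ∀ k, k0 ≤ k → k < P.n → e0 * dr k ≤ P.dh k)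
    (hv : vmin ≤ P.v k0)
    {b : ℕ} (hb : 2 ≤ b) (t : ℕ → ℕ → ℕ) (ht0 : ∀ k ∈ Ico k0 k1, t k 0 = k) (htm : ∀ k ∈ Ico k0 k1, Monotone (t k)) (htb : ∀ k ∈ Ico k0 k1, t k b = P.n + 1)
    (htn : ∀ k ∈ Ico k0 k1, t k (b - 1) ≤ P.n)
    (ℓ : ℕ → ℝ) (hℓ1 : 0 < ℓ 1) (hℓm : ∀ c c', 1 ≤ c → c ≤ c' → ℓ c ≤ ℓ c') (hℓh : hmin ≤ e0 * ℓ 1)
    (hgap : ∀ k ∈ Ico k0 k1, ∀ c, 1 ≤ c → c < b → ℓ c ≤ ∑ j ∈ Ico k (t k c), dr j)
    (Mo : ℕ → ℝ) (hMo : ∀ c, c < b - 1 → ∀ j, ∑ k ∈ Ico k0 k1 with (t k c ≤ j ∧ j < t k (c + 1)), dr k ≤ Mo c)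
    {ϑ : ℝ} (hϑ : ∀ c c', c' ≤ c → 1 ≤ c → c < b → c' < b - 1 → Mo c' ≤ ϑ * ℓ c) (hϑI : ∑ k ∈ Ico k0 k1, dr k ≤ ϑ * ℓ (b - 1))
    {τ : ℝ} (hτ : 0 < τ) :
    ∫ ω, (∑ k ∈ Ico k0 k1, dr k * P.W k ω) ^ q ∂P.μ
      ≤ (b : ℝ) ^ (3 * q) * P.a ^ q *
        (((c1 + 2 * τ * q) * 128 * q * ϑ / (vmin ^ 2 * m * e0)) ^ q
          + 2 ^ (q - 1) * cR * (4 * (∑ k ∈ Ico k0 k1, dr k) / (vmin ^ 2 * m * e0 * ℓ 1 * τ ^ (r - 1))) ^ q
          + (512 * q * Mo 0) ^ q) :=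
  P.l6f_pinned_pf h hm hq hr hc1 hcR hvmin hhmin he0 hp1 hpR hk hk1 dr hdr hslope hv hb t ht0 htm htb htn ℓ hℓ1 hℓm hℓh hgap Mo hMo hϑ hϑI hτ

/-- **the blocks exist**: doubling radius distances `ℓ c = l0 2^(c-1)` (`1 ≤ c < b`) on a grid of radius mesh `≤ δm ≤ l0`;
`t k c` = the first cut at radius distance `≥ ℓ c` after `k`;   room: the radius length from `k1` to `n` is `≥ ℓ (b-1)`. -/
theorem l6f_blocks_exist (n : ℕ) {k0 k1 : ℕ} (hk1 : k1 ≤ n) (dr : ℕ → ℝ) (hdr : ∀ k, 0 ≤ dr k) {δm l0 : ℝ} (hδ : ∀ k, dr k ≤ δm) (hδl : δm ≤ l0) (hl0 : 0 < l0)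
    {b : ℕ} (hb : 2 ≤ b) (hroom : l0 * 2 ^ (b - 2) ≤ ∑ j ∈ Ico k1 n, dr j) :
    ∃ t : ℕ → ℕ → ℕ, (∀ k ∈ Ico k0 k1, t k 0 = k) ∧ (∀ k ∈ Ico k0 k1, Monotone (t k)) ∧ (∀ k ∈ Ico k0 k1, t k b = n + 1) ∧
      (∀ k ∈ Ico k0 k1, t k (b - 1) ≤ n) ∧
      (∀ k ∈ Ico k0 k1, ∀ c, 1 ≤ c → c < b → l0 * 2 ^ (c - 1) ≤ ∑ j ∈ Ico k (t k c), dr j) ∧
      (∀ j, ∑ k ∈ Ico k0 k1 with (t k 0 ≤ j ∧ j < t k 1), dr k ≤ 3 * l0) ∧
      (∀ c, 1 ≤ c → c < b - 1 → ∀ j, ∑ k ∈ Ico k0 k1 with (t k c ≤ j ∧ j < t k (c + 1)), dr k ≤ 3 * (l0 * 2 ^ (c - 1))) :=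
  l6f_blocks_exist_pf n hk1 dr hdr hδ hδl hl0 hb hroom

/-- **(A1), line 3, for a radius average** over the cuts of `s` (window of radius length `hh`): `k(v) = 1/(hh α')`, `α' ≥ kap`. -/
theorem l6f_avg (h : P.Ok) {r : ℕ} {cp : ℝ} (hcp : 0 ≤ cp) (hpin : P.Pin r cp) (s : Finset ℕ) (hs : ∀ k ∈ s, k ≤ P.n) (dr : ℕ → ℝ) (hdr : ∀ k ∈ s, 0 ≤ dr k)
    {kap hh : ℝ} (hkap : 0 < kap) (hh0 : 0 < hh) (hfl : ∀ k ∈ s, kap * dr k ≤ P.dv k) :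
    ∫ ω, ((∑ k ∈ s, dr k / hh * P.L k ω) - ∫ ω', (∑ k ∈ s, dr k / hh * P.L k ω') ∂P.μ) ^ (2 * r) ∂P.μ
      ≤ cp / (hh ^ 2 * kap) ^ r * ∫ ω, (∑ k ∈ s, dr k * P.W k ω) ^ r ∂P.μ := by
  classical
  have := h.prob
  obtain ⟨w, hw⟩ : ∃ w : ℕ → ℝ, w = fun k => if k ∈ s then dr k / (hh * P.dv k) else 0 := ⟨_, rfl⟩
  have hpin' := hpin w (fun _ => Polynomial.X)
  simp only [Polynomial.eval_X, Polynomial.derivative_X, Polynomial.eval_one, one_pow, mul_one] at hpin'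
  have hdv0 : ∀ k ∈ s, 0 ≤ P.dv k := fun k hk => le_trans (mul_nonneg hkap.le (hdr k hk)) (hfl k hk)
  have hw0 : ∀ k, k ∉ s → w k = 0 := fun k hk => by rw [hw]; simp [hk]
  have hws : ∀ k ∈ s, w k = dr k / (hh * P.dv k) := fun k hk => by rw [hw]; simp [hk]
  have e1 : ∀ k ∈ s, P.dv k * w k = dr k / hh := by
    intro k hk
    rw [hws k hk]
    rcases eq_or_ne (P.dv k) 0 with h0 | h0
    · have h3 : dr k = 0 := by
        have h1 := hfl k hk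
        rw [h0] at h1
        have h2 := hdr k hk
        nlinarith
      simp [h0, h3]
    · field_simp
  have e2 : ∀ k ∈ s, w k ≤ 1 / (hh * kap) := by
    intro k hk
    rw [hws k hk]
    rcases eq_or_lt_of_le (hdv0 k hk) with h0 | h0
    · rw [← h0]
      simp only [mul_zero, div_zero]
      positivity
    · rw [div_le_div_iff₀ (by positivity) (by positivity)]
      have h1 := hfl k hk
      nlinarith
  have hsub : s ⊆ range (P.n + 1) := fun k hk => Finset.mem_range.2 (Nat.lt_succ_of_le (hs k hk))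
  have eL : ∀ ω, ∑ k ∈ range (P.n + 1), P.dv k * w k * (P.L k ω - ∫ ω', P.L k ω' ∂P.μ)
      = (∑ k ∈ s, dr k / hh * P.L k ω) - ∫ ω', (∑ k ∈ s, dr k / hh * P.L k ω') ∂P.μ := by
    intro ω
    rw [integral_finsetSum _ fun k _ => ((P.l8s_L_bd h k).const_mul _).integrable _, ← Finset.sum_sub_distrib,
      ← Finset.sum_subset hsub (fun k _ hk => by rw [hw0 k hk]; ring)]
    refine Finset.sum_congr rfl fun k hk => ?_
    rw [e1 k hk, integral_const_mul]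
    ring
  have eR0 : ∀ ω, 0 ≤ ∑ k ∈ range (P.n + 1), P.dv k * w k ^ 2 * P.W k ω := by
    intro ω
    refine Finset.sum_nonneg fun k _ => ?_
    by_cases hk : k ∈ s
    · exact mul_nonneg (mul_nonneg (hdv0 k hk) (sq_nonneg _)) (P.l8s_W_nonneg h k ω)
    · rw [hw0 k hk]; simp
  have eR : ∀ ω, ∑ k ∈ range (P.n + 1), P.dv k * w k ^ 2 * P.W k ω ≤ 1 / (hh ^ 2 * kap) * ∑ k ∈ s, dr k * P.W k ω := by
    intro ω
    rw [← Finset.sum_subset hsub (fun k _ hk => by rw [hw0 k hk]; ring), Finset.mul_sum]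
    refine Finset.sum_le_sum fun k hk => ?_
    have h1 : P.dv k * w k ^ 2 ≤ 1 / (hh ^ 2 * kap) * dr k := by
      calc P.dv k * w k ^ 2 = dr k / hh * w k := by rw [← e1 k hk]; ring
        _ ≤ dr k / hh * (1 / (hh * kap)) := mul_le_mul_of_nonneg_left (e2 k hk) (div_nonneg (hdr k hk) hh0.le)
        _ = 1 / (hh ^ 2 * kap) * dr k := by field_simp
    calc P.dv k * w k ^ 2 * P.W k ω ≤ 1 / (hh ^ 2 * kap) * dr k * P.W k ω := mul_le_mul_of_nonneg_right h1 (P.l8s_W_nonneg h k ω)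
      _ = 1 / (hh ^ 2 * kap) * (dr k * P.W k ω) := by ring
  have b1 : L8Bd (fun ω => ∑ k ∈ range (P.n + 1), P.dv k * w k ^ 2 * P.W k ω) := L8Bd.sum _ fun k _ => (P.l8s_W_bd h k).const_mul _
  have b2 : L8Bd (fun ω => ∑ k ∈ s, dr k * P.W k ω) := L8Bd.sum _ fun k _ => (P.l8s_W_bd h k).const_mul _
  simp only [eL] at hpin'
  refine hpin'.trans ?_
  calc cp * ∫ ω, (∑ k ∈ range (P.n + 1), P.dv k * w k ^ 2 * P.W k ω) ^ r ∂P.μ
      ≤ cp * ∫ ω, (1 / (hh ^ 2 * kap) * ∑ k ∈ s, dr k * P.W k ω) ^ r ∂P.μ := by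
        refine mul_le_mul_of_nonneg_left (integral_mono ((b1.pow r).integrable _) (((b2.const_mul _).pow r).integrable _) fun ω => ?_) hcp
        exact pow_le_pow_left₀ (eR0 ω) (eR ω) r
    _ = cp / (hh ^ 2 * kap) ^ r * ∫ ω, (∑ k ∈ s, dr k * P.W k ω) ^ r ∂P.μ := by
        simp only [mul_pow]
        rw [integral_const_mul, one_div, inv_pow]
        ring

/-- **Lemma 6.3, two cuts with a common past buffer**, over `L8P` (twin of `l6m_bracket_two`, companion of `l8s_buffer`).  TEX[LL:global:buffer-brackets] -/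
theorem l6f_buffer_two (h : P.Ok) (r : ℕ) (hr : 1 ≤ r) (k k' : ℕ) (sm sp sp' : Finset ℕ) (ρm ρp ρp' : ℕ → ℝ) (Sbar η ε : ℝ)
    (hsm : ∀ l ∈ sm, l ≤ k) (hsm' : ∀ l ∈ sm, l ≤ k') (hsp : ∀ l ∈ sp, k ≤ l) (hsp' : ∀ l ∈ sp', k' ≤ l)
    (hm0 : ∀ l, 0 ≤ ρm l) (hp0 : ∀ l, 0 ≤ ρp l) (hp0' : ∀ l, 0 ≤ ρp' l) (hm1 : ∑ l ∈ sm, ρm l = 1) (hp1 : ∑ l ∈ sp, ρp l = 1) (hp1' : ∑ l ∈ sp', ρp' l = 1)
    (hη : 0 ≤ η) (hε : 0 ≤ ε)
    (hSm : ∀ l ∈ sm, ρm l ≠ 0 → |P.S l - Sbar| ≤ η) (hSp : ∀ l ∈ sp, ρp l ≠ 0 → |P.S l - Sbar| ≤ η) (hSp' : ∀ l ∈ sp', ρp' l ≠ 0 → |P.S l - Sbar| ≤ η)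
    (hAm : ∫ ω, ((∑ l ∈ sm, ρm l * P.L l ω) - ∫ ω', (∑ l ∈ sm, ρm l * P.L l ω') ∂P.μ) ^ (2 * r) ∂P.μ ≤ ε ^ (2 * r))
    (hAp : ∫ ω, ((∑ l ∈ sp, ρp l * P.L l ω) - ∫ ω', (∑ l ∈ sp, ρp l * P.L l ω') ∂P.μ) ^ (2 * r) ∂P.μ ≤ ε ^ (2 * r))
    (hAp' : ∫ ω, ((∑ l ∈ sp', ρp' l * P.L l ω) - ∫ ω', (∑ l ∈ sp', ρp' l * P.L l ω') ∂P.μ) ^ (2 * r) ∂P.μ ≤ ε ^ (2 * r)) :
    ∫ ω, P.nXX k k' ω ^ (2 * r) ∂P.μ ≤ (64 * (η + ε)) ^ (2 * r) := by
  have := h.prob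
  have h1 := (P.l8s_buffer h r hr k sm sp ρm ρp Sbar η ε hsm hsp hm0 hp0 hm1 hp1 hη hε hSm hSp hAm hAp).2
  have h2 := (P.l8s_buffer h r hr k' sm sp' ρm ρp' Sbar η ε hsm' hsp' hm0 hp0' hm1 hp1' hη hε hSm hSp' hAm hAp').2
  obtain ⟨G, hG⟩ : ∃ G : ℕ → Ω → ℝ, G = fun k ω => ∑ l ∈ sm, ρm l * ∑ i, P.XX l k i ω ^ 2 := ⟨_, rfl⟩
  have hGb : ∀ k, L8Bd (G k) := fun k => by
    rw [hG]
    exact L8Bd.sum _ fun l _ => (L8Bd.sum _ fun i _ => (P.l8sb_XX_bd h l k i).pow 2).const_mul _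
  have hG0 : ∀ k ω, 0 ≤ G k ω := fun k ω => by
    rw [hG]
    exact Finset.sum_nonneg fun l _ => mul_nonneg (hm0 l) (Finset.sum_nonneg fun i _ => sq_nonneg _)
  have g1 : ∫ ω, G k ω ^ (2 * r) ∂P.μ ≤ (16 * (η + ε)) ^ (2 * r) := by rw [hG]; exact h1
  have g2 : ∫ ω, G k' ω ^ (2 * r) ∂P.μ ≤ (16 * (η + ε)) ^ (2 * r) := by rw [hG]; exact h2
  have hn0 : ∀ ω, 0 ≤ P.nXX k k' ω := fun ω => Finset.sum_nonneg fun i _ => sq_nonneg _
  have hpt : ∀ ω, P.nXX k k' ω ≤ 2 * G k ω + 2 * G k' ω := by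
    intro ω
    have e : P.nXX k k' ω = ∑ l ∈ sm, ρm l * P.nXX k k' ω := by rw [← Finset.sum_mul, hm1, one_mul]
    rw [e, hG, Finset.mul_sum, Finset.mul_sum, ← Finset.sum_add_distrib]
    refine Finset.sum_le_sum fun l _ => ?_
    have h3 : P.nXX k k' ω ≤ 2 * (∑ i, P.XX l k i ω ^ 2) + 2 * ∑ i, P.XX l k' i ω ^ 2 := by
      simp only [nXX, XX, Finset.mul_sum]
      rw [← Finset.sum_add_distrib]
      refine Finset.sum_le_sum fun i _ => ?_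
      nlinarith [sq_nonneg ((P.X k' i ω - P.X l i ω) + (P.X k i ω - P.X l i ω))]
    nlinarith [hm0 l]
  have hpw : ∀ ω, P.nXX k k' ω ^ (2 * r) ≤ 2 ^ (2 * r - 1) * (2 ^ (2 * r) * G k ω ^ (2 * r) + 2 ^ (2 * r) * G k' ω ^ (2 * r)) := by
    intro ω
    refine (pow_le_pow_left₀ (hn0 ω) (hpt ω) _).trans ?_
    have h3 := add_pow_le (mul_nonneg (by norm_num : (0 : ℝ) ≤ 2) (hG0 k ω)) (mul_nonneg (by norm_num : (0 : ℝ) ≤ 2) (hG0 k' ω)) (2 * r)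
    simpa only [mul_pow] using h3
  have j1 : Integrable (fun ω => 2 ^ (2 * r) * G k ω ^ (2 * r)) P.μ := (((hGb k).pow _).const_mul _).integrable _
  have j2 : Integrable (fun ω => 2 ^ (2 * r) * G k' ω ^ (2 * r)) P.μ := (((hGb k').pow _).const_mul _).integrable _
  calc ∫ ω, P.nXX k k' ω ^ (2 * r) ∂P.μ
      ≤ ∫ ω, 2 ^ (2 * r - 1) * (2 ^ (2 * r) * G k ω ^ (2 * r) + 2 ^ (2 * r) * G k' ω ^ (2 * r)) ∂P.μ :=
        integral_mono (((P.l6p_nXX_bd h k k').pow _).integrable _) ((j1.add j2).const_mul _) hpw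
    _ = 2 ^ (2 * r - 1) * (2 ^ (2 * r) * ∫ ω, G k ω ^ (2 * r) ∂P.μ + 2 ^ (2 * r) * ∫ ω, G k' ω ^ (2 * r) ∂P.μ) := by
        rw [integral_const_mul, integral_add j1 j2, integral_const_mul, integral_const_mul]
    _ ≤ 2 ^ (2 * r - 1) * (2 ^ (2 * r) * (16 * (η + ε)) ^ (2 * r) + 2 ^ (2 * r) * (16 * (η + ε)) ^ (2 * r)) := by gcongr
    _ = (64 * (η + ε)) ^ (2 * r) := by
        have e : (2 : ℝ) ^ (2 * r) = 2 ^ (2 * r - 1) * 2 := by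
          rw [← pow_succ]
          congr 1
          omega
        have e2 : (64 * (η + ε)) ^ (2 * r) = 2 ^ (2 * r) * (2 ^ (2 * r) * (16 * (η + ε)) ^ (2 * r)) := by
          rw [← mul_pow, ← mul_pow]
          congr 1
          ring
        rw [e2]
        nth_rewrite 3 [e]
        ring

theorem l6f_fork_fst (h : P.Ok) (k : ℕ) {f : Ω → ℝ} (hf : L8Bd f) : ∫ p, f p.1 ∂(P.fork k) = ∫ ω, f ω ∂P.μ := by
  have h1 := integral_map (μ := P.fork k) measurable_fst.aemeasurable (f := f) hf.1.aestronglyMeasurable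
  rw [P.l8s_fork_fst h k] at h1
  exact h1.symm

theorem l6f_fork_snd (h : P.Ok) (k : ℕ) {f : Ω → ℝ} (hf : L8Bd f) : ∫ p, f p.2 ∂(P.fork k) = ∫ ω, f ω ∂P.μ := by
  have h1 := integral_map (μ := P.fork k) measurable_snd.aemeasurable (f := f) hf.1.aestronglyMeasurable
  rw [P.l8s_fork_snd h k] at h1
  exact h1.symm

theorem l6f_fork_swap (h : P.Ok) (k : ℕ) {F : Ω × Ω → ℝ} (hF : Measurable F) : ∫ p, F p.swap ∂(P.fork k) = ∫ p, F p ∂(P.fork k) := by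
  have h1 := integral_map (μ := P.fork k) measurable_swap.aemeasurable (f := F) hF.aestronglyMeasurable
  rw [P.l8s_fork_swap h k] at h1
  exact h1.symm

/-- (A3) on the fork, anchor = the leaf `y` of the first branch (a unit vector) -/
theorem l6f_proj_y (h : P.Ok) {r : ℕ} {c vmin hmin : ℝ} (hp : P.Proj r c vmin hmin) {k k₁ w : ℕ} (hk : k ≤ k₁) (hkw : k₁ < w) (hw : w ≤ P.n + 1)
    (hv : vmin ≤ P.v k₁) (hh : hmin ≤ P.hlen k₁ w) :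
    ∫ p, (∑ i, P.y i p.1 * P.R w i p.2) ^ (2 * r) ∂(P.fork k) ≤ c * P.sc2 k₁ w ^ r := by
  have := P.l8s_fork_prob h k
  have h1 := P.l8s_fork_proj h hp hk hkw hw hv hh (fun i p => P.y i p.1)
    (fun i => (h.y_meas i).comp (@measurable_fst Ω Ω mΩ (P.ℱ k₁)))
    (fun i => by
      obtain ⟨C, hC⟩ := (P.l8s_y_bd h i).2
      exact ⟨C, fun p => hC p.1⟩)
  simp only [h.y_sq, one_pow, integral_const, probReal_univ, smul_eq_mul, mul_one] at h1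
  refine h1.trans (le_of_eq ?_)
  simp only [sc2, one_div, inv_pow]
  ring

/-- (A3) on the fork, anchor = the posterior mean `X_w` of the first branch -/
theorem l6f_proj_X (h : P.Ok) {r : ℕ} {c vmin hmin : ℝ} (hp : P.Proj r c vmin hmin) {k k₁ w : ℕ} (hk : k ≤ k₁) (hkw : k₁ < w) (hw : w ≤ P.n + 1)
    (hv : vmin ≤ P.v k₁) (hh : hmin ≤ P.hlen k₁ w) :
    ∫ p, (∑ i, P.X w i p.1 * P.R w i p.2) ^ (2 * r) ∂(P.fork k) ≤ c * P.sc2 k₁ w ^ r := by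
  have := P.l8s_fork_prob h k
  have h0 : 0 ≤ c * P.sc2 k₁ w ^ r :=
    le_trans (integral_nonneg fun p => by rw [pow_mul]; positivity) (P.l6f_proj_y h hp hk hkw hw hv hh)
  have h1 := P.l8s_fork_proj h hp hk hkw hw hv hh (fun i p => P.X w i p.1)
    (fun i => (P.l8s_X_bd h w i).1.comp (@measurable_fst Ω Ω mΩ (P.ℱ k₁)))
    (fun i => by
      obtain ⟨C, hC⟩ := (P.l8s_X_bd h w i).2
      exact ⟨C, fun p => hC p.1⟩)
  have e : c / (P.v k₁ ^ 2 * m * P.hlen k₁ w) ^ r = c * P.sc2 k₁ w ^ r := by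
    simp only [sc2, one_div, inv_pow]
    ring
  rw [e] at h1
  have b1 : L8Bd (fun p : Ω × Ω => (∑ i, P.X w i p.1 ^ 2) ^ r) := l8k_bd_comp (f := fun ω => P.nX w ω ^ r) measurable_fst ((P.l8s_W_bd_nX h w).pow r)
  have h2 : ∫ p, (∑ i, P.X w i p.1 ^ 2) ^ r ∂(P.fork k) ≤ 1 := by
    calc ∫ p, (∑ i, P.X w i p.1 ^ 2) ^ r ∂(P.fork k) ≤ ∫ _p, (1 : ℝ) ∂(P.fork k) :=
          integral_mono (l8k_bd_integrable b1 _) (integrable_const _) fun p =>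
            pow_le_one₀ (Finset.sum_nonneg fun i _ => sq_nonneg _) (P.l8s_nX_le_one h w p.1)
      _ = 1 := by simp
  calc ∫ p, (∑ i, P.X w i p.1 * P.R w i p.2) ^ (2 * r) ∂(P.fork k)
      ≤ c * P.sc2 k₁ w ^ r * ∫ p, (∑ i, P.X w i p.1 ^ 2) ^ r ∂(P.fork k) := h1
    _ ≤ c * P.sc2 k₁ w ^ r * 1 := mul_le_mul_of_nonneg_left h2 h0
    _ = c * P.sc2 k₁ w ^ r := mul_one _

/-- both leaves projected to the cut `w`: for every constant `s`,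
`‖Q - s‖_{2r}^{2r} ≤ 3^(2r-1) [ ‖X_w·X_w' - s‖_{2r}^{2r} + 2 c sc2(k₁,w)^r ]` under the fork law at `k ≤ k₁ < w` -/
theorem l6f_conc_core (h : P.Ok) {r : ℕ} (hr : 1 ≤ r) {c vmin hmin : ℝ} (hp : P.Proj r c vmin hmin) {k k₁ w : ℕ} (hk : k ≤ k₁) (hkw : k₁ < w) (hw : w ≤ P.n + 1)
    (hv : vmin ≤ P.v k₁) (hh : hmin ≤ P.hlen k₁ w) (s : ℝ) :
    ∫ p, (P.Q p - s) ^ (2 * r) ∂(P.fork k) ≤ 3 ^ (2 * r - 1) * ((∫ p, (P.QX w w p - s) ^ (2 * r) ∂(P.fork k)) + 2 * c * P.sc2 k₁ w ^ r) := by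
  have := P.l8s_fork_prob h k
  have bX1 : ∀ i, L8Bd (fun p : Ω × Ω => P.X w i p.1) := fun i => l8k_bd_comp measurable_fst (P.l8s_X_bd h w i)
  have bX2 : ∀ i, L8Bd (fun p : Ω × Ω => P.X w i p.2) := fun i => l8k_bd_comp measurable_snd (P.l8s_X_bd h w i)
  have bR1 : ∀ i, L8Bd (fun p : Ω × Ω => P.R w i p.1) := fun i => l8k_bd_comp measurable_fst (P.l8sb_R_bd h w i)
  have bR2 : ∀ i, L8Bd (fun p : Ω × Ω => P.R w i p.2) := fun i => l8k_bd_comp measurable_snd (P.l8sb_R_bd h w i)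
  have by1 : ∀ i, L8Bd (fun p : Ω × Ω => P.y i p.1) := fun i => l8k_bd_comp measurable_fst (P.l8s_y_bd h i)
  have by2 : ∀ i, L8Bd (fun p : Ω × Ω => P.y i p.2) := fun i => l8k_bd_comp measurable_snd (P.l8s_y_bd h i)
  have b1 : L8Bd (fun p : Ω × Ω => (P.QX w w p - s) ^ (2 * r)) :=
    l8k_bd_pow (l8k_bd_sub (l8k_bd_sum _ fun i _ => l8k_bd_mul (bX1 i) (bX2 i)) (l8k_bd_const s)) _
  have b2 : L8Bd (fun p : Ω × Ω => (∑ i, P.X w i p.1 * P.R w i p.2) ^ (2 * r)) :=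
    l8k_bd_pow (l8k_bd_sum _ fun i _ => l8k_bd_mul (bX1 i) (bR2 i)) _
  have b3 : L8Bd (fun p : Ω × Ω => (∑ i, P.y i p.2 * P.R w i p.1) ^ (2 * r)) :=
    l8k_bd_pow (l8k_bd_sum _ fun i _ => l8k_bd_mul (by2 i) (bR1 i)) _
  have b3' : L8Bd (fun p : Ω × Ω => (∑ i, P.y i p.1 * P.R w i p.2) ^ (2 * r)) :=
    l8k_bd_pow (l8k_bd_sum _ fun i _ => l8k_bd_mul (by1 i) (bR2 i)) _
  have bQ : L8Bd (fun p : Ω × Ω => (P.Q p - s) ^ (2 * r)) :=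
    l8k_bd_pow (l8k_bd_sub (l8k_bd_sum _ fun i _ => l8k_bd_mul (by1 i) (by2 i)) (l8k_bd_const s)) _
  have t2 := P.l6f_proj_X h hp hk hkw hw hv hh
  have t3 : ∫ p, (∑ i, P.y i p.2 * P.R w i p.1) ^ (2 * r) ∂(P.fork k) ≤ c * P.sc2 k₁ w ^ r := by
    have e := P.l6f_fork_swap h k b3'.1
    simp only [Prod.fst_swap, Prod.snd_swap] at e
    rw [e]
    exact P.l6f_proj_y h hp hk hkw hw hv hh
  have hdec : ∀ p : Ω × Ω, P.Q p - s = (P.QX w w p - s) + (∑ i, P.X w i p.1 * P.R w i p.2) + ∑ i, P.y i p.2 * P.R w i p.1 := by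
    intro p
    simp only [Q, QX, R]
    rw [add_assoc, sub_add_eq_add_sub, ← Finset.sum_add_distrib, ← Finset.sum_add_distrib]
    congr 1
    refine Finset.sum_congr rfl fun i _ => ?_
    ring
  have i1 := l8k_bd_integrable b1 (P.fork k)
  have i2 := l8k_bd_integrable b2 (P.fork k)
  have i3 := l8k_bd_integrable b3 (P.fork k)
  have i12 : Integrable (fun p : Ω × Ω => (P.QX w w p - s) ^ (2 * r) + (∑ i, P.X w i p.1 * P.R w i p.2) ^ (2 * r)) (P.fork k) := i1.add i2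
  calc ∫ p, (P.Q p - s) ^ (2 * r) ∂(P.fork k)
      ≤ ∫ p, 3 ^ (2 * r - 1) * ((P.QX w w p - s) ^ (2 * r) + (∑ i, P.X w i p.1 * P.R w i p.2) ^ (2 * r) + (∑ i, P.y i p.2 * P.R w i p.1) ^ (2 * r)) ∂(P.fork k) := by
        refine integral_mono (l8k_bd_integrable bQ _) ((i12.add i3).const_mul _) fun p => ?_
        simp only [hdec p]
        exact l6f_three _ _ _ hr
    _ = 3 ^ (2 * r - 1) * ((∫ p, (P.QX w w p - s) ^ (2 * r) ∂(P.fork k)) + (∫ p, (∑ i, P.X w i p.1 * P.R w i p.2) ^ (2 * r) ∂(P.fork k))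
          + ∫ p, (∑ i, P.y i p.2 * P.R w i p.1) ^ (2 * r) ∂(P.fork k)) := by
        rw [integral_const_mul, integral_add i12 i3, integral_add i1 i2]
    _ ≤ 3 ^ (2 * r - 1) * ((∫ p, (P.QX w w p - s) ^ (2 * r) ∂(P.fork k)) + 2 * c * P.sc2 k₁ w ^ r) := by
        refine mul_le_mul_of_nonneg_left ?_ (by positivity)
        linarith
/-- **rough concentration at a split with buffers** (polarization + two projections).   Fork at `k`, both leaves projected to the cut `w > k`: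
`‖|X_w|² - S̄‖_{2r} ≤ E1`, `‖|X_w - X_k|²‖_{2r} ≤ E2` (from `l8s_buffer`, `l6f_buffer_two`), (A3) through the gap `[k, w]`.   Then
`‖Q - S̄‖_{2r}^{2r} ≤ 3^(2r-1) [ (E1 + 2 E2)^(2r) + 2 c sc2(k,w)^r ]`   under the fork law at `k`. -/
theorem l6f_conc (h : P.Ok) {r : ℕ} (hr : 1 ≤ r) {c vmin hmin : ℝ} (hp : P.Proj r c vmin hmin) {k w : ℕ} (hkw : k < w) (hw : w ≤ P.n + 1)
    (hv : vmin ≤ P.v k) (hh : hmin ≤ P.hlen k w) {Sbar E1 E2 : ℝ} (hE1 : 0 ≤ E1) (hE2 : 0 ≤ E2)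
    (h1 : ∫ ω, (P.nX w ω - Sbar) ^ (2 * r) ∂P.μ ≤ E1 ^ (2 * r)) (h2 : ∫ ω, P.nXX k w ω ^ (2 * r) ∂P.μ ≤ E2 ^ (2 * r)) :
    ∫ p, (P.Q p - Sbar) ^ (2 * r) ∂(P.fork k) ≤ 3 ^ (2 * r - 1) * ((E1 + 2 * E2) ^ (2 * r) + 2 * c * P.sc2 k w ^ r) := by
  have := P.l8s_fork_prob h k
  have := h.prob
  have hc := P.l6f_conc_core h hr hp le_rfl hkw hw hv hh Sbar
  refine hc.trans (mul_le_mul_of_nonneg_left (add_le_add ?_ le_rfl) (by positivity))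
  have hn : 1 ≤ 2 * r := by omega
  have habs : ∀ x : ℝ, |x| ^ (2 * r) = x ^ (2 * r) := fun x => by rw [pow_mul, sq_abs, ← pow_mul]
  have bA : L8Bd (fun ω => (P.nX w ω - Sbar) / 2) := ((P.l8s_W_bd_nX h w).sub (l8Bd_const Sbar)).div_const 2
  have bB : L8Bd (P.nXX k w) := P.l6p_nXX_bd h k w
  have mA : ∫ ω, |(P.nX w ω - Sbar) / 2| ^ (2 * r) ∂P.μ ≤ (E1 / 2) ^ (2 * r) := by
    simp only [habs, div_pow]
    rw [integral_div]
    exact div_le_div_of_nonneg_right h1 (by positivity)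
  have mB : ∫ ω, |P.nXX k w ω| ^ (2 * r) ∂P.μ ≤ E2 ^ (2 * r) := by
    simp only [habs]
    exact h2
  have b1 : L8Bd (fun p : Ω × Ω => (P.nX w p.1 - Sbar) / 2) := l8k_bd_comp (f := fun ω => (P.nX w ω - Sbar) / 2) measurable_fst bA
  have b2 : L8Bd (fun p : Ω × Ω => (P.nX w p.2 - Sbar) / 2) := l8k_bd_comp (f := fun ω => (P.nX w ω - Sbar) / 2) measurable_snd bA
  have b3 : L8Bd (fun p : Ω × Ω => P.nXX k w p.1) := l8k_bd_comp (f := P.nXX k w) measurable_fst bB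
  have b4 : L8Bd (fun p : Ω × Ω => P.nXX k w p.2) := l8k_bd_comp (f := P.nXX k w) measurable_snd bB
  have m1 : ∫ p, |(P.nX w p.1 - Sbar) / 2| ^ (2 * r) ∂(P.fork k) ≤ (E1 / 2) ^ (2 * r) := by
    rw [P.l6f_fork_fst h k (f := fun ω => |(P.nX w ω - Sbar) / 2| ^ (2 * r)) (bA.abs.pow _)]
    exact mA
  have m2 : ∫ p, |(P.nX w p.2 - Sbar) / 2| ^ (2 * r) ∂(P.fork k) ≤ (E1 / 2) ^ (2 * r) := by
    rw [P.l6f_fork_snd h k (f := fun ω => |(P.nX w ω - Sbar) / 2| ^ (2 * r)) (bA.abs.pow _)]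
    exact mA
  have m3 : ∫ p, |P.nXX k w p.1| ^ (2 * r) ∂(P.fork k) ≤ E2 ^ (2 * r) := by
    rw [P.l6f_fork_fst h k (f := fun ω => |P.nXX k w ω| ^ (2 * r)) (bB.abs.pow _)]
    exact mB
  have m4 : ∫ p, |P.nXX k w p.2| ^ (2 * r) ∂(P.fork k) ≤ E2 ^ (2 * r) := by
    rw [P.l6f_fork_snd h k (f := fun ω => |P.nXX k w ω| ^ (2 * r)) (bB.abs.pow _)]
    exact mB
  have mU := l6f_mink2 (P.fork k) b1 b2 hn (by positivity) (by positivity) m1 m2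
  have mV := l6f_mink2 (P.fork k) b3 b4 hn hE2 hE2 m3 m4
  have bU := l8k_bd_add b1 b2
  have bV := l8k_bd_add b3 b4
  have mUV := l6f_mink2 (P.fork k) (l8k_bd_abs bU) (l8k_bd_abs bV) hn (a := E1 / 2 + E1 / 2) (b := E2 + E2) (by positivity) (by positivity)
    (by simpa only [abs_abs] using mU) (by simpa only [abs_abs] using mV)
  have eE : E1 / 2 + E1 / 2 + (E2 + E2) = E1 + 2 * E2 := by ring
  rw [eE] at mUV
  refine le_trans (integral_mono_ae ?_ ?_ ?_) mUV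
  · have bX1 : ∀ i, L8Bd (fun p : Ω × Ω => P.X w i p.1) := fun i => l8k_bd_comp measurable_fst (P.l8s_X_bd h w i)
    have bX2 : ∀ i, L8Bd (fun p : Ω × Ω => P.X w i p.2) := fun i => l8k_bd_comp measurable_snd (P.l8s_X_bd h w i)
    have b0 : L8Bd (fun p : Ω × Ω => (P.QX w w p - Sbar) ^ (2 * r)) :=
      l8k_bd_pow (l8k_bd_sub (l8k_bd_sum _ fun i _ => l8k_bd_mul (bX1 i) (bX2 i)) (l8k_bd_const Sbar)) _
    exact l8k_bd_integrable b0 _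
  · exact l8k_bd_integrable (l8k_bd_pow (l8k_bd_abs (l8k_bd_add (l8k_bd_abs bU) (l8k_bd_abs bV))) _) _
  · have hpre : ∀ᵐ p ∂(P.fork k), ∀ i, P.X k i p.1 = P.X k i p.2 :=
      ae_all_iff.2 fun i => P.l8s_fork_prefix h k (P.l8s_X_sm h k i).measurable
    filter_upwards [hpre] with p hp'
    have e1 : P.QX w w p = (P.nX w p.1 + P.nX w p.2 - ∑ i, (P.X w i p.1 - P.X w i p.2) ^ 2) / 2 := by
      simp only [QX, nX]
      rw [← Finset.sum_add_distrib, ← Finset.sum_sub_distrib, Finset.sum_div]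
      refine Finset.sum_congr rfl fun i _ => ?_
      ring
    have e2 : ∑ i, (P.X w i p.1 - P.X w i p.2) ^ 2 ≤ 2 * P.nXX k w p.1 + 2 * P.nXX k w p.2 := by
      simp only [nXX, XX, Finset.mul_sum]
      rw [← Finset.sum_add_distrib]
      refine Finset.sum_le_sum fun i _ => ?_
      have h3 := hp' i
      have h4 : P.X w i p.1 - P.X w i p.2 = (P.X w i p.1 - P.X k i p.1) - (P.X w i p.2 - P.X k i p.2) := by rw [h3]; ring
      rw [h4]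
      nlinarith [sq_nonneg ((P.X w i p.1 - P.X k i p.1) + (P.X w i p.2 - P.X k i p.2))]
    have e3 : 0 ≤ ∑ i, (P.X w i p.1 - P.X w i p.2) ^ 2 := Finset.sum_nonneg fun i _ => sq_nonneg _
    rw [← habs (P.QX w w p - Sbar)]
    refine pow_le_pow_left₀ (abs_nonneg _) ?_ _
    have a1 := le_abs_self ((P.nX w p.1 - Sbar) / 2 + (P.nX w p.2 - Sbar) / 2)
    have a2 := neg_abs_le ((P.nX w p.1 - Sbar) / 2 + (P.nX w p.2 - Sbar) / 2)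
    have a3 := le_abs_self (P.nXX k w p.1 + P.nXX k w p.2)
    have a4 := le_abs_self (|(P.nX w p.1 - Sbar) / 2 + (P.nX w p.2 - Sbar) / 2| + |P.nXX k w p.1 + P.nXX k w p.2|)
    refine le_trans ?_ a4
    rw [abs_le, e1]
    constructor <;> linarith

/-- **splits below the scale `δ`**: fork at `k`, both leaves projected to a later cut `w`, (A3) through the LAST subinterval `[k₁, w]`, `k ≤ k₁ < w`:
`‖Q‖_{2r}^{2r} ≤ 3^(2r-1) [ ‖|X_w|²‖_{2r}^{2r} + 2 c sc2(k₁,w)^r ]`. -/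
theorem l6f_conc_small (h : P.Ok) {r : ℕ} (hr : 1 ≤ r) {c vmin hmin : ℝ} (hp : P.Proj r c vmin hmin) {k k₁ w : ℕ} (hk : k ≤ k₁) (hkw : k₁ < w) (hw : w ≤ P.n + 1)
    (hv : vmin ≤ P.v k₁) (hh : hmin ≤ P.hlen k₁ w) :
    ∫ p, P.Q p ^ (2 * r) ∂(P.fork k) ≤ 3 ^ (2 * r - 1) * ((∫ ω, P.nX w ω ^ (2 * r) ∂P.μ) + 2 * c * P.sc2 k₁ w ^ r) := by
  have := P.l8s_fork_prob h k
  have := h.prob
  have hc := P.l6f_conc_core h hr hp hk hkw hw hv hh 0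
  simp only [sub_zero] at hc
  refine hc.trans (mul_le_mul_of_nonneg_left (add_le_add ?_ le_rfl) (by positivity))
  have bn : L8Bd (fun ω => P.nX w ω ^ (2 * r)) := (P.l8s_W_bd_nX h w).pow _
  have b1 : L8Bd (fun p : Ω × Ω => P.nX w p.1 ^ (2 * r)) := l8k_bd_comp (f := fun ω => P.nX w ω ^ (2 * r)) measurable_fst bn
  have b2 : L8Bd (fun p : Ω × Ω => P.nX w p.2 ^ (2 * r)) := l8k_bd_comp (f := fun ω => P.nX w ω ^ (2 * r)) measurable_snd bn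
  have hpt : ∀ p : Ω × Ω, P.QX w w p ^ (2 * r) ≤ (P.nX w p.1 ^ (2 * r) + P.nX w p.2 ^ (2 * r)) / 2 := by
    intro p
    have hcs : P.QX w w p ^ 2 ≤ P.nX w p.1 * P.nX w p.2 := Finset.sum_mul_sq_le_sq_mul_sq _ _ _
    calc P.QX w w p ^ (2 * r) = (P.QX w w p ^ 2) ^ r := pow_mul _ _ _
      _ ≤ (P.nX w p.1 * P.nX w p.2) ^ r := pow_le_pow_left₀ (sq_nonneg _) hcs r
      _ = P.nX w p.1 ^ r * P.nX w p.2 ^ r := mul_pow _ _ _
      _ ≤ (P.nX w p.1 ^ (2 * r) + P.nX w p.2 ^ (2 * r)) / 2 := by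
          have h3 := sq_nonneg (P.nX w p.1 ^ r - P.nX w p.2 ^ r)
          rw [two_mul, pow_add, pow_add]
          nlinarith
  have bX1 : ∀ i, L8Bd (fun p : Ω × Ω => P.X w i p.1) := fun i => l8k_bd_comp measurable_fst (P.l8s_X_bd h w i)
  have bX2 : ∀ i, L8Bd (fun p : Ω × Ω => P.X w i p.2) := fun i => l8k_bd_comp measurable_snd (P.l8s_X_bd h w i)
  have b0 : L8Bd (fun p : Ω × Ω => P.QX w w p ^ (2 * r)) := l8k_bd_pow (l8k_bd_sum _ fun i _ => l8k_bd_mul (bX1 i) (bX2 i)) _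
  have i1 := l8k_bd_integrable b1 (P.fork k)
  have i2 := l8k_bd_integrable b2 (P.fork k)
  calc ∫ p, P.QX w w p ^ (2 * r) ∂(P.fork k) ≤ ∫ p, (P.nX w p.1 ^ (2 * r) + P.nX w p.2 ^ (2 * r)) / 2 ∂(P.fork k) :=
        integral_mono (l8k_bd_integrable b0 _) ((i1.add i2).div_const 2) hpt
    _ = ((∫ p, P.nX w p.1 ^ (2 * r) ∂(P.fork k)) + ∫ p, P.nX w p.2 ^ (2 * r) ∂(P.fork k)) / 2 := by
        rw [integral_div, integral_add i1 i2]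
    _ = ∫ ω, P.nX w ω ^ (2 * r) ∂P.μ := by
        rw [P.l6f_fork_fst h k (f := fun ω => P.nX w ω ^ (2 * r)) bn, P.l6f_fork_snd h k (f := fun ω => P.nX w ω ^ (2 * r)) bn]
        ring

end L8P

end Claimed.Agent.R286
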