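import Claimed.Agent.R286.LL06.Pw

/-!
# Row 286 (S0533), LL Section 6, file LL06/FinePin : PROOFS of (G4) `l6f_pinned` and of the doubling blocks `l6f_blocks_exist`
owner helper130; prefix `l6g_` for the helper lemmas; exits `l6f_blocks_exist_pf`, `l6f_pinned_pf` (statements of `LL06/Fine.lean`, helper200).
Source: LL 06-global.tex l.318-335 (G4), l.405-466 (its proof).
-/

set_option autoImplicit false

namespace Claimed.Agent.R286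

open MeasureTheory ProbabilityTheory Finset
open scoped ENNReal

/-! ## 1. the doubling blocks -/

/-- a set of cuts whose radius coordinates `∑_{i<k} dr i` lie in a window `[A, B]` has total radius length `≤ B - A + mesh` -/
theorem l6g_window (dr : ℕ → ℝ) (hdr : ∀ k, 0 ≤ dr k) {δ : ℝ} (hδ : ∀ k, dr k ≤ δ) (F : Finset ℕ) {A B : ℝ} (hAB : A ≤ B)
    (hF : ∀ k ∈ F, A ≤ ∑ i ∈ range k, dr i ∧ ∑ i ∈ range k, dr i ≤ B) :
    ∑ k ∈ F, dr k ≤ B - A + δ := by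
  rcases F.eq_empty_or_nonempty with rfl | hne
  · have := (hdr 0).trans (hδ 0)
    simp only [sum_empty]; linarith
  · set a := F.min' hne
    set z := F.max' hne
    have hsub : F ⊆ Ico a (z + 1) := by
      intro k hk
      rw [mem_Ico]
      exact ⟨F.min'_le k hk, Nat.lt_succ_of_le (F.le_max' k hk)⟩
    have haz : a ≤ z + 1 := (F.min'_le _ (F.max'_mem hne)).trans (Nat.le_succ _)
    calc ∑ k ∈ F, dr k ≤ ∑ k ∈ Ico a (z + 1), dr k := sum_le_sum_of_subset_of_nonneg hsub fun k _ _ => hdr k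
      _ = ∑ i ∈ range (z + 1), dr i - ∑ i ∈ range a, dr i := sum_Ico_eq_sub _ haz
      _ = ∑ i ∈ range z, dr i + dr z - ∑ i ∈ range a, dr i := by rw [sum_range_succ]
      _ ≤ B - A + δ := by
          have h1 := (hF z (F.max'_mem hne)).2
          have h2 := (hF a (F.min'_mem hne)).1
          have h3 := hδ z
          linarith

/-- the first cut at radius distance `≥ ρ` after `k` -/
noncomputable def l6gT (dr : ℕ → ℝ) (k : ℕ) (ρ : ℝ) : ℕ := sInf {j : ℕ | k ≤ j ∧ ρ ≤ ∑ i ∈ Ico k j, dr i}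

theorem l6g_T_mem (dr : ℕ → ℝ) {k j : ℕ} {ρ : ℝ} (hkj : k ≤ j) (hj : ρ ≤ ∑ i ∈ Ico k j, dr i) :
    k ≤ l6gT dr k ρ ∧ ρ ≤ ∑ i ∈ Ico k (l6gT dr k ρ), dr i :=
  Nat.sInf_mem (s := {j : ℕ | k ≤ j ∧ ρ ≤ ∑ i ∈ Ico k j, dr i}) ⟨j, hkj, hj⟩

theorem l6g_T_le (dr : ℕ → ℝ) {k j : ℕ} {ρ : ℝ} (hkj : k ≤ j) (hj : ρ ≤ ∑ i ∈ Ico k j, dr i) : l6gT dr k ρ ≤ j :=
  Nat.sInf_le (s := {j : ℕ | k ≤ j ∧ ρ ≤ ∑ i ∈ Ico k j, dr i}) ⟨hkj, hj⟩

theorem l6g_T_lt (dr : ℕ → ℝ) {k j : ℕ} {ρ : ℝ} (hkj : k ≤ j) (hj : j < l6gT dr k ρ) : ∑ i ∈ Ico k j, dr i < ρ := by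
  by_contra hcon
  exact absurd (l6g_T_le dr hkj (not_lt.mp hcon)) (not_le.mpr hj)

theorem l6g_Ico_mono (dr : ℕ → ℝ) (hdr : ∀ k, 0 ≤ dr k) {k k' j j' : ℕ} (hk : k ≤ k') (hj : j' ≤ j) :
    ∑ i ∈ Ico k' j', dr i ≤ ∑ i ∈ Ico k j, dr i :=
  sum_le_sum_of_subset_of_nonneg (Ico_subset_Ico hk hj) fun i _ _ => hdr i

/-- **the blocks exist** (statement of `LL06/Fine.lean`) -/
theorem l6f_blocks_exist_pf (n : ℕ) {k0 k1 : ℕ} (hk1 : k1 ≤ n) (dr : ℕ → ℝ) (hdr : ∀ k, 0 ≤ dr k) {δm l0 : ℝ} (hδ : ∀ k, dr k ≤ δm) (hδl : δm ≤ l0) (hl0 : 0 < l0)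
    {b : ℕ} (hb : 2 ≤ b) (hroom : l0 * 2 ^ (b - 2) ≤ ∑ j ∈ Ico k1 n, dr j) :
    ∃ t : ℕ → ℕ → ℕ, (∀ k ∈ Ico k0 k1, t k 0 = k) ∧ (∀ k ∈ Ico k0 k1, Monotone (t k)) ∧ (∀ k ∈ Ico k0 k1, t k b = n + 1) ∧
      (∀ k ∈ Ico k0 k1, t k (b - 1) ≤ n) ∧
      (∀ k ∈ Ico k0 k1, ∀ c, 1 ≤ c → c < b → l0 * 2 ^ (c - 1) ≤ ∑ j ∈ Ico k (t k c), dr j) ∧
      (∀ j, ∑ k ∈ Ico k0 k1 with (t k 0 ≤ j ∧ j < t k 1), dr k ≤ 3 * l0) ∧
      (∀ c, 1 ≤ c → c < b - 1 → ∀ j, ∑ k ∈ Ico k0 k1 with (t k c ≤ j ∧ j < t k (c + 1)), dr k ≤ 3 * (l0 * 2 ^ (c - 1))) := by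
  classical
  set ℓ : ℕ → ℝ := fun c => l0 * 2 ^ (c - 1) with hℓ
  have hℓmono : ∀ c c', c ≤ c' → ℓ c ≤ ℓ c' := by
    intro c c' hcc
    exact mul_le_mul_of_nonneg_left (pow_le_pow_right₀ (by norm_num) (Nat.sub_le_sub_right hcc 1)) hl0.le
  have hℓge : ∀ c, l0 ≤ ℓ c := by
    intro c
    have : (1 : ℝ) ≤ 2 ^ (c - 1) := one_le_pow₀ (by norm_num)
    calc l0 = l0 * 1 := (mul_one _).symm
      _ ≤ ℓ c := mul_le_mul_of_nonneg_left this hl0.le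
  have hℓsucc : ∀ c, 1 ≤ c → ℓ (c + 1) = 2 * ℓ c := by
    intro c hc
    obtain ⟨d, rfl⟩ : ∃ d, c = d + 1 := ⟨c - 1, by omega⟩
    simp only [hℓ, Nat.add_sub_cancel, pow_succ]; ring
  -- room
  have hn : ∀ k, k < k1 → ∀ c, c < b → k ≤ n ∧ ℓ c ≤ ∑ i ∈ Ico k n, dr i := by
    intro k hk c hc
    refine ⟨by omega, ?_⟩
    calc ℓ c ≤ ℓ (b - 1) := hℓmono _ _ (by omega)
      _ = l0 * 2 ^ (b - 2) := by simp only [hℓ]; congr 2
      _ ≤ ∑ j ∈ Ico k1 n, dr j := hroom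
      _ ≤ ∑ i ∈ Ico k n, dr i := l6g_Ico_mono dr hdr hk.le le_rfl
  set t : ℕ → ℕ → ℕ := fun k c => if c = 0 then k else if c < b then l6gT dr k (ℓ c) else n + 1 with ht
  have t0 : ∀ k, t k 0 = k := fun k => by simp [ht]
  have tmid : ∀ k c, 1 ≤ c → c < b → t k c = l6gT dr k (ℓ c) := by
    intro k c h1 h2
    simp only [ht]; rw [if_neg (by omega), if_pos h2]
  have ttop : ∀ k c, b ≤ c → t k c = n + 1 := by
    intro k c h1
    simp only [ht]; rw [if_neg (by omega), if_neg (by omega)]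
  have hs : ∀ k j, k ≤ j → ∑ i ∈ Ico k j, dr i = ∑ i ∈ range j, dr i - ∑ i ∈ range k, dr i := fun k j h => sum_Ico_eq_sub _ h
  have hδ0 : 0 ≤ δm := (hdr 0).trans (hδ 0)
  refine ⟨t, fun k _ => t0 k, ?_, fun k _ => ttop k b le_rfl, ?_, ?_, ?_, ?_⟩
  · -- monotone
    intro k hk c c' hcc
    rw [mem_Ico] at hk
    rcases Nat.eq_zero_or_pos c with rfl | hc
    · rw [t0]
      rcases Nat.eq_zero_or_pos c' with rfl | hc'
      · rw [t0]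
      · rcases lt_or_ge c' b with h2 | h2
        · rw [tmid k c' hc' h2]
          exact (l6g_T_mem dr (hn k hk.2 c' h2).1 (hn k hk.2 c' h2).2).1
        · rw [ttop k c' h2]; omega
    · rcases lt_or_ge c' b with h2 | h2
      · rw [tmid k c hc (by omega), tmid k c' (by omega) h2]
        have hm := l6g_T_mem dr (hn k hk.2 c' h2).1 (hn k hk.2 c' h2).2
        exact l6g_T_le dr hm.1 ((hℓmono c c' hcc).trans hm.2)
      · rw [ttop k c' h2]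
        rcases lt_or_ge c b with h3 | h3
        · rw [tmid k c hc h3]
          exact (l6g_T_le dr (hn k hk.2 c h3).1 (hn k hk.2 c h3).2).trans (Nat.le_succ _)
        · rw [ttop k c h3]
  · intro k hk
    rw [mem_Ico] at hk
    rw [tmid k (b - 1) (by omega) (by omega)]
    exact l6g_T_le dr (hn k hk.2 (b - 1) (by omega)).1 (hn k hk.2 (b - 1) (by omega)).2
  · intro k hk c h1 h2
    rw [mem_Ico] at hk
    rw [tmid k c h1 h2]
    exact (l6g_T_mem dr (hn k hk.2 c h2).1 (hn k hk.2 c h2).2).2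
  · intro j
    have hw := l6g_window dr hdr hδ ({k ∈ Ico k0 k1 | t k 0 ≤ j ∧ j < t k 1})
      (A := ∑ i ∈ range j, dr i - l0) (B := ∑ i ∈ range j, dr i) (by linarith) (by
        intro k hk
        rw [mem_filter, mem_Ico, t0, tmid k 1 le_rfl (by omega)] at hk
        have h1 := l6g_T_lt dr hk.2.1 hk.2.2
        rw [hs k j hk.2.1] at h1
        have h2 : ℓ 1 = l0 := by simp [hℓ]
        have h3 : 0 ≤ ∑ i ∈ Ico k j, dr i := sum_nonneg fun i _ => hdr i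
        rw [hs k j hk.2.1] at h3
        constructor <;> linarith)
    linarith
  · intro c h1 h2 j
    have hw := l6g_window dr hdr hδ ({k ∈ Ico k0 k1 | t k c ≤ j ∧ j < t k (c + 1)})
      (A := ∑ i ∈ range j, dr i - 2 * ℓ c) (B := ∑ i ∈ range j, dr i - ℓ c) (by have := hℓge c; linarith) (by
        intro k hk
        rw [mem_filter, mem_Ico, tmid k c h1 (by omega), tmid k (c + 1) (by omega) (by omega)] at hk
        have hm := l6g_T_mem dr (hn k hk.1.2 c (by omega)).1 (hn k hk.1.2 c (by omega)).2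
        have hkj : k ≤ j := hm.1.trans hk.2.1
        have h3 := l6g_T_lt dr hkj hk.2.2
        have h4 : ℓ c ≤ ∑ i ∈ Ico k j, dr i := hm.2.trans (l6g_Ico_mono dr hdr le_rfl hk.2.1)
        rw [hs k j hkj] at h3 h4
        rw [hℓsucc c h1] at h3
        constructor <;> linarith)
    have := hℓge c
    show _ ≤ 3 * ℓ c
    linarith

theorem l6g_fp_eqns_cite : True := by
  have := @l6gT.eq_1
  trivial

/-! ## 2. (G4) -/

namespace L8P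

variable {Ω : Type} [mΩ : MeasurableSpace Ω] {m : ℕ} (P : L8P Ω m)

theorem l6g_FK_nonneg (k : ℕ) (D A : Fin m → Ω → ℝ) (ω : Ω) : 0 ≤ P.FK k D A ω :=
  integral_nonneg fun _ => sq_nonneg _

theorem l6g_FK_bd (h : P.Ok) (k : ℕ) {D A : Fin m → Ω → ℝ} (hD : ∀ i, L8Bd (D i)) (hA : ∀ i, L8Bd (A i)) : L8Bd (P.FK k D A) := by
  have hF : L8Bd (fun p : Ω × Ω => (∑ i, D i p.1 * A i p.2) ^ 2) :=
    l8k_bd_pow (l8k_bd_sum _ fun i _ => l8k_bd_mul (l8k_bd_comp measurable_fst (hD i)) (l8k_bd_comp measurable_snd (hA i))) 2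
  obtain ⟨hFm, c, hc⟩ := hF
  exact P.l8s_fork_inner_bd_aux h k hFm hc

theorem l6g_nXX_nonneg (k l : ℕ) (ω : Ω) : 0 ≤ P.nXX k l ω := sum_nonneg fun _ _ => sq_nonneg _

theorem l6g_int_pow_mono (h : P.Ok) {f g : Ω → ℝ} (hg : L8Bd g) (h0 : ∀ ω, 0 ≤ f ω) (hfg : ∀ ω, f ω ≤ g ω) (q : ℕ) :
    ∫ ω, f ω ^ q ∂P.μ ≤ ∫ ω, g ω ^ q ∂P.μ := by
  have := h.prob
  exact integral_mono_of_nonneg (ae_of_all _ fun ω => pow_nonneg (h0 ω) q) (l8k_bd_integrable (l8k_bd_pow hg q) _)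
    (ae_of_all _ fun ω => pow_le_pow_left₀ (h0 ω) (hfg ω) q)

theorem l6g_int_pow_le_const (h : P.Ok) {f : Ω → ℝ} {C : ℝ} (h0 : ∀ ω, 0 ≤ f ω) (hfC : ∀ ω, f ω ≤ C) (q : ℕ) :
    ∫ ω, f ω ^ q ∂P.μ ≤ C ^ q := by
  have := h.prob
  have h1 := P.l6g_int_pow_mono h (l8k_bd_const C) h0 hfC q
  simpa using h1

/-- the assembly: `b²` pairs of blocks -/
theorem l6g_assemble (h : P.Ok) {q b : ℕ} (hq : 1 ≤ q) (hb : 1 ≤ b) {S : Ω → ℝ} {T : ℕ → ℕ → Ω → ℝ} {Bd : ℝ}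
    (hS0 : ∀ ω, 0 ≤ S ω) (hT0 : ∀ c c' ω, 0 ≤ T c c' ω) (hTb : ∀ c c', L8Bd (T c c'))
    (hST : ∀ ω, S ω ≤ b * P.a * ∑ c ∈ range b, ∑ c' ∈ range b, T c c' ω)
    (hT : ∀ c c', c < b → c' < b → ∫ ω, T c c' ω ^ q ∂P.μ ≤ Bd) :
    ∫ ω, S ω ^ q ∂P.μ ≤ (b : ℝ) ^ (3 * q) * P.a ^ q * Bd := by
  have := h.prob
  obtain ⟨q', rfl⟩ : ∃ q', q = q' + 1 := ⟨q - 1, by omega⟩
  have ha := h.a_pos
  have hb0 : (0 : ℝ) < b := by exact_mod_cast hb
  have hcard : ((range b ×ˢ range b).card : ℝ) = (b : ℝ) ^ 2 := by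
    rw [card_product, card_range]; push_cast; ring
  have hpt : ∀ ω, S ω ^ (q' + 1) ≤ (b * P.a) ^ (q' + 1) * (((b : ℝ) ^ 2) ^ q' * ∑ p ∈ range b ×ˢ range b, T p.1 p.2 ω ^ (q' + 1)) := by
    intro ω
    have h1 := pow_sum_le_card_mul_sum_pow (s := range b ×ˢ range b) (f := fun p => T p.1 p.2 ω) (fun p _ => hT0 p.1 p.2 ω) q'
    rw [hcard] at h1
    have h2 : S ω ≤ b * P.a * ∑ p ∈ range b ×ˢ range b, T p.1 p.2 ω := by
      rw [sum_product]; exact hST ω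
    calc S ω ^ (q' + 1) ≤ (b * P.a * ∑ p ∈ range b ×ˢ range b, T p.1 p.2 ω) ^ (q' + 1) := pow_le_pow_left₀ (hS0 ω) h2 _
      _ = (b * P.a) ^ (q' + 1) * (∑ p ∈ range b ×ˢ range b, T p.1 p.2 ω) ^ (q' + 1) := mul_pow _ _ _
      _ ≤ _ := by
          exact mul_le_mul_of_nonneg_left h1 (by positivity)
  have hint : ∀ p : ℕ × ℕ, Integrable (fun ω => T p.1 p.2 ω ^ (q' + 1)) P.μ := fun p => l8k_bd_integrable (l8k_bd_pow (hTb p.1 p.2) _) _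
  calc ∫ ω, S ω ^ (q' + 1) ∂P.μ
      ≤ ∫ ω, (b * P.a) ^ (q' + 1) * (((b : ℝ) ^ 2) ^ q' * ∑ p ∈ range b ×ˢ range b, T p.1 p.2 ω ^ (q' + 1)) ∂P.μ := by
        refine integral_mono_of_nonneg (ae_of_all _ fun ω => pow_nonneg (hS0 ω) _) ?_ (ae_of_all _ hpt)
        exact ((integrable_finsetSum _ fun p _ => hint p).const_mul _).const_mul _
    _ = (b * P.a) ^ (q' + 1) * (((b : ℝ) ^ 2) ^ q' * ∑ p ∈ range b ×ˢ range b, ∫ ω, T p.1 p.2 ω ^ (q' + 1) ∂P.μ) := by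
        rw [integral_const_mul, integral_const_mul, integral_finsetSum _ fun p _ => hint p]
    _ ≤ (b * P.a) ^ (q' + 1) * (((b : ℝ) ^ 2) ^ q' * ∑ _p ∈ range b ×ˢ range b, Bd) := by
        refine mul_le_mul_of_nonneg_left (mul_le_mul_of_nonneg_left (sum_le_sum fun p hp => ?_) (by positivity)) (by positivity)
        rw [mem_product, mem_range, mem_range] at hp
        exact hT p.1 p.2 hp.1 hp.2
    _ = (b : ℝ) ^ (3 * (q' + 1)) * P.a ^ (q' + 1) * Bd := by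
        rw [sum_const, nsmul_eq_mul, hcard]; ring

/-- **(G4), abstract form** (statement of `LL06/Fine.lean`, with `0 ≤ c1`, `0 ≤ cR`). -/
theorem l6f_pinned_pf (h : P.Ok) (hm : 0 < m) {q r : ℕ} (hq : 1 ≤ q) (hr : 1 ≤ r) {c1 cR vmin hmin e0 : ℝ} (hc1 : 0 ≤ c1) (hcR : 0 ≤ cR)
    (hvmin : 0 < vmin) (hhmin : 0 < hmin) (he0 : 0 < e0)
    (hp1 : P.Proj 1 c1 vmin hmin) (hpR : P.Proj (r * q) cR vmin hmin)
    {k0 k1 : ℕ} (hk : k0 ≤ k1) (hk1 : k1 ≤ P.n) (dr : ℕ → ℝ) (hdr : ∀ k, 0 ≤ dr k) (hslope : ∀ k, k0 ≤ k → k < P.n → e0 * dr k ≤ P.dh k)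
    (hv : vmin ≤ P.v k0)
    {b : ℕ} (hb : 2 ≤ b) (t : ℕ → ℕ → ℕ) (ht0 : ∀ k ∈ Ico k0 k1, t k 0 = k) (htm : ∀ k ∈ Ico k0 k1, Monotone (t k)) (htb : ∀ k ∈ Ico k0 k1, t k b = P.n + 1)
    (htn : ∀ k ∈ Ico k0 k1, t k (b - 1) ≤ P.n)
    (ℓ : ℕ → ℝ) (hℓ1 : 0 < ℓ 1) (hℓm : ∀ c c', 1 ≤ c → c ≤ c' → ℓ c ≤ ℓ c') (hℓh : hmin ≤ e0 * ℓ 1)
    (hgap : ∀ k ∈ Ico k0 k1, ∀ c, 1 ≤ c → c < b → ℓ c ≤ ∑ j ∈ Ico k (t k c), dr j)
    (Mo : ℕ → ℝ) (hMo : ∀ c, c < b - 1 → ∀ j, ∑ k ∈ Ico k0 k1 with (t k c ≤ j ∧ j < t k (c + 1)), dr k ≤ Mo c)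
    {ϑ : ℝ} (hϑ : ∀ c c', c' ≤ c → 1 ≤ c → c < b → c' < b - 1 → Mo c' ≤ ϑ * ℓ c) (hϑI : ∑ k ∈ Ico k0 k1, dr k ≤ ϑ * ℓ (b - 1))
    {τ : ℝ} (hτ : 0 < τ) :
    ∫ ω, (∑ k ∈ Ico k0 k1, dr k * P.W k ω) ^ q ∂P.μ
      ≤ (b : ℝ) ^ (3 * q) * P.a ^ q *
        (((c1 + 2 * τ * q) * 128 * q * ϑ / (vmin ^ 2 * m * e0)) ^ q
          + 2 ^ (q - 1) * cR * (4 * (∑ k ∈ Ico k0 k1, dr k) / (vmin ^ 2 * m * e0 * ℓ 1 * τ ^ (r - 1))) ^ q
          + (512 * q * Mo 0) ^ q) := by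
  have hprob := h.prob
  have hmR : (0 : ℝ) < m := by exact_mod_cast hm
  have hqR : (1 : ℝ) ≤ q := by exact_mod_cast hq
  have hq0 : (0 : ℝ) < q := by linarith
  have hI0 : 0 ≤ ∑ k ∈ Ico k0 k1, dr k := sum_nonneg fun k _ => hdr k
  have hℓpos : ∀ c, 1 ≤ c → 0 < ℓ c := fun c hc => hℓ1.trans_le (hℓm 1 c le_rfl hc)
  have hϑ0 : 0 ≤ ϑ := by
    have h1 := hI0.trans hϑI
    have h2 := hℓpos (b - 1) (by omega)
    by_contra hcon
    have := mul_neg_of_neg_of_pos (not_le.mp hcon) h2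
    linarith
  have hMo0 : ∀ c, c < b - 1 → 0 ≤ Mo c := fun c hc => (sum_nonneg fun k _ => hdr k).trans (hMo c hc 0)
  obtain ⟨Gd, hGd⟩ : ∃ Gd : ℝ, Gd = vmin ^ 2 * m * e0 := ⟨_, rfl⟩
  have hGd0 : 0 < Gd := by rw [hGd]; positivity
  rw [← hGd]
  -- facts on the blocks
  have f1 : ∀ k ∈ Ico k0 k1, ∀ c, 1 ≤ c → c < b → k < t k c ∧ t k c ≤ P.n := by
    intro k hk c h1 h2
    refine ⟨?_, (htm k hk (by omega : c ≤ b - 1)).trans (htn k hk)⟩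
    by_contra hcon
    have h3 := hgap k hk c h1 h2
    rw [Ico_eq_empty_of_le (not_lt.mp hcon), sum_empty] at h3
    exact absurd (hℓpos c h1) (not_lt.mpr h3)
  have ftop : ∀ k ∈ Ico k0 k1, ∀ c, c ≤ b → t k c ≤ P.n + 1 := fun k hk c hc => (htm k hk hc).trans (htb k hk).le
  have fbot : ∀ k ∈ Ico k0 k1, ∀ c, k0 ≤ t k c := by
    intro k hk c
    have h1 := htm k hk (Nat.zero_le c)
    rw [ht0 k hk] at h1
    exact (mem_Ico.mp hk).1.trans h1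
  have f2 : ∀ k ∈ Ico k0 k1, vmin ≤ P.v k := fun k hk => hv.trans (h.v_mono (mem_Ico.mp hk).1)
  have f3 : ∀ k ∈ Ico k0 k1, ∀ c, 1 ≤ c → c < b → e0 * ℓ c ≤ P.hlen k (t k c) := by
    intro k hk c h1 h2
    calc e0 * ℓ c ≤ e0 * ∑ j ∈ Ico k (t k c), dr j := mul_le_mul_of_nonneg_left (hgap k hk c h1 h2) he0.le
      _ = ∑ j ∈ Ico k (t k c), e0 * dr j := mul_sum _ _ _
      _ ≤ P.hlen k (t k c) := by
          refine sum_le_sum fun j hj => ?_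
          rw [mem_Ico] at hj
          exact hslope j ((mem_Ico.mp hk).1.trans hj.1) (hj.2.trans_le (f1 k hk c h1 h2).2)
  have f4 : ∀ k ∈ Ico k0 k1, ∀ c, 1 ≤ c → c < b → hmin ≤ P.hlen k (t k c) := fun k hk c h1 h2 =>
    (hℓh.trans (mul_le_mul_of_nonneg_left (hℓm 1 c le_rfl h1) he0.le)).trans (f3 k hk c h1 h2)
  have f5 : ∀ k ∈ Ico k0 k1, ∀ c, 1 ≤ c → c < b → P.sc2 k (t k c) ≤ 1 / (Gd * ℓ c) := by
    intro k hk c h1 h2
    unfold L8P.sc2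
    refine one_div_le_one_div_of_le (mul_pos hGd0 (hℓpos c h1)) ?_
    have h3 : vmin ^ 2 ≤ P.v k ^ 2 := pow_le_pow_left₀ hvmin.le (f2 k hk) 2
    calc Gd * ℓ c = vmin ^ 2 * m * (e0 * ℓ c) := by rw [hGd]; ring
      _ ≤ P.v k ^ 2 * m * P.hlen k (t k c) :=
          mul_le_mul (mul_le_mul_of_nonneg_right h3 hmR.le) (f3 k hk c h1 h2) (mul_pos he0 (hℓpos c h1)).le (by positivity)
  have f5' : ∀ k l, 0 ≤ P.sc2 k l := by
    intro k l
    unfold L8P.sc2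
    have : 0 ≤ P.hlen k l := sum_nonneg fun j _ => h.dh_nonneg j
    positivity
  -- the anchors
  obtain ⟨An, hAn⟩ : ∃ An : ℕ → Ω → ℝ, An = fun c ω => ∑ k ∈ Ico k0 k1, dr k * P.nXX (t k c) (t k (c + 1)) ω := ⟨_, rfl⟩
  have hAn0 : ∀ c ω, 0 ≤ An c ω := by
    intro c ω; rw [hAn]
    exact sum_nonneg fun k _ => mul_nonneg (hdr k) (P.l6g_nXX_nonneg _ _ ω)
  have hAnb : ∀ c, L8Bd (An c) := by
    intro c; rw [hAn]
    exact l8k_bd_sum _ fun k _ => l8k_bd_const_mul _ (P.l6p_nXX_bd h _ _)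
  have hov : ∀ c, c < b - 1 → ∫ ω, An c ω ^ q ∂P.μ ≤ (128 * q * Mo c) ^ q := by
    intro c hc
    have h1 := P.l6p_overlap_fam h q hq (n0 := k0) (n1 := P.n + 1) (by omega) (Ico k0 k1) dr (fun k _ => hdr k) (fun k => t k c) (fun k => t k (c + 1))
      (fun k hk => fbot k hk c) (fun k hk => htm k hk (Nat.le_succ c)) (fun k hk => ftop k hk (c + 1) (by omega)) (M := Mo c)
      (fun j _ _ => hMo c hc j)
    have h2 : ∫ ω, P.nXX k0 (P.n + 1) ω ^ q ∂P.μ ≤ 4 ^ q :=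
      P.l6g_int_pow_le_const h (fun ω => P.l6g_nXX_nonneg _ _ ω) (fun ω => P.l6p_nXX_le h _ _ ω) q
    have h3 : 0 ≤ 32 * (q : ℝ) * Mo c := by have := hMo0 c hc; positivity
    calc ∫ ω, An c ω ^ q ∂P.μ ≤ (32 * q * Mo c) ^ q * ∫ ω, P.nXX k0 (P.n + 1) ω ^ q ∂P.μ := by rw [hAn]; exact h1
      _ ≤ (32 * q * Mo c) ^ q * 4 ^ q := mul_le_mul_of_nonneg_left h2 (pow_nonneg h3 q)
      _ = (128 * q * Mo c) ^ q := by rw [← mul_pow]; congr 1; ring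
  have hanch : ∀ c c', c ≤ c' → 1 ≤ c' → c' < b → ∫ ω, An c ω ^ q ∂P.μ ≤ (128 * q * ϑ * ℓ c') ^ q := by
    intro c c' hcc h1 h2
    rcases lt_or_ge c (b - 1) with hc | hc
    · refine (hov c hc).trans (pow_le_pow_left₀ (by have := hMo0 c hc; positivity) ?_ q)
      have := hϑ c' c hcc h1 h2 hc
      calc 128 * (q : ℝ) * Mo c ≤ 128 * q * (ϑ * ℓ c') := mul_le_mul_of_nonneg_left this (by positivity)
        _ = 128 * q * ϑ * ℓ c' := by ring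
    · have hc' : c' = b - 1 := by omega
      subst hc'
      have h3 : ∀ ω, An c ω ≤ 4 * (ϑ * ℓ (b - 1)) := by
        intro ω; rw [hAn]
        calc ∑ k ∈ Ico k0 k1, dr k * P.nXX (t k c) (t k (c + 1)) ω ≤ ∑ k ∈ Ico k0 k1, dr k * 4 :=
              sum_le_sum fun k _ => mul_le_mul_of_nonneg_left (P.l6p_nXX_le h _ _ ω) (hdr k)
          _ = 4 * ∑ k ∈ Ico k0 k1, dr k := by rw [← sum_mul]; ring
          _ ≤ 4 * (ϑ * ℓ (b - 1)) := mul_le_mul_of_nonneg_left hϑI (by norm_num)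
      refine (P.l6g_int_pow_le_const h (hAn0 c) h3 q).trans (pow_le_pow_left₀ ?_ ?_ q)
      · have := hℓpos (b - 1) h1; positivity
      · have h4 : 0 ≤ ϑ * ℓ (b - 1) := mul_nonneg hϑ0 (hℓpos (b - 1) h1).le
        nlinarith
  -- the pairs
  obtain ⟨T, hT⟩ : ∃ T : ℕ → ℕ → Ω → ℝ, T = fun c c' ω =>
      ∑ k ∈ Ico k0 k1, dr k * P.FK k (P.XX (t k c) (t k (c + 1))) (P.XX (t k c') (t k (c' + 1))) ω := ⟨_, rfl⟩
  have hT0 : ∀ c c' ω, 0 ≤ T c c' ω := by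
    intro c c' ω; rw [hT]
    exact sum_nonneg fun k _ => mul_nonneg (hdr k) (P.l6g_FK_nonneg _ _ _ ω)
  have hTb : ∀ c c', L8Bd (T c c') := by
    intro c c'; rw [hT]
    exact l8k_bd_sum _ fun k _ => l8k_bd_const_mul _ (P.l6g_FK_bd h k (fun i => P.l8sb_XX_bd h _ _ i) (fun i => P.l8sb_XX_bd h _ _ i))
  obtain ⟨X1, hX1⟩ : ∃ X1 : ℝ, X1 = ((c1 + 2 * τ * q) * 128 * q * ϑ / Gd) ^ q := ⟨_, rfl⟩
  obtain ⟨X2, hX2⟩ : ∃ X2 : ℝ, X2 = 2 ^ (q - 1) * cR * (4 * (∑ k ∈ Ico k0 k1, dr k) / (Gd * ℓ 1 * τ ^ (r - 1))) ^ q := ⟨_, rfl⟩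
  obtain ⟨X3, hX3⟩ : ∃ X3 : ℝ, X3 = (512 * q * Mo 0) ^ q := ⟨_, rfl⟩
  have hX10 : 0 ≤ X1 := by rw [hX1]; positivity
  have hX20 : 0 ≤ X2 := by rw [hX2]; positivity
  have hX30 : 0 ≤ X3 := by rw [hX3]; have := hMo0 0 (by omega); positivity
  rw [← hX1, ← hX2, ← hX3]
  -- later block on the averaged branch
  have D1 : ∀ c c', c ≤ c' → 1 ≤ c' → c' < b → ∫ ω, T c c' ω ^ q ∂P.μ ≤ X1 := by
    intro c c' hcc h1 h2
    have hpt : ∀ ω, T c c' ω ≤ c1 / (Gd * ℓ c') * An c ω := by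
      intro ω; rw [hT, hAn]
      simp only
      rw [mul_sum]
      refine sum_le_sum fun k hk => ?_
      have h3 := P.l6p_pair_b h hp1 (f1 k hk c' h1 h2).1 (htm k hk (Nat.le_succ c')) ((f1 k hk c' h1 h2).2.trans (Nat.le_succ _))
        (f2 k hk) (f4 k hk c' h1 h2) (P.XX (t k c) (t k (c + 1))) ω
      have h4 : ∑ i, P.XX (t k c) (t k (c + 1)) i ω ^ 2 = P.nXX (t k c) (t k (c + 1)) ω := rfl
      rw [h4] at h3
      have h5 := P.l6g_nXX_nonneg (t k c) (t k (c + 1)) ω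
      calc dr k * P.FK k (P.XX (t k c) (t k (c + 1))) (P.XX (t k c') (t k (c' + 1))) ω
          ≤ dr k * (c1 * P.sc2 k (t k c') * P.nXX (t k c) (t k (c + 1)) ω) := mul_le_mul_of_nonneg_left h3 (hdr k)
        _ ≤ dr k * (c1 * (1 / (Gd * ℓ c')) * P.nXX (t k c) (t k (c + 1)) ω) :=
            mul_le_mul_of_nonneg_left (mul_le_mul_of_nonneg_right (mul_le_mul_of_nonneg_left (f5 k hk c' h1 h2) hc1) h5) (hdr k)
        _ = c1 / (Gd * ℓ c') * (dr k * P.nXX (t k c) (t k (c + 1)) ω) := by ring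
    have hℓc := hℓpos c' h1
    calc ∫ ω, T c c' ω ^ q ∂P.μ ≤ ∫ ω, (c1 / (Gd * ℓ c') * An c ω) ^ q ∂P.μ :=
          P.l6g_int_pow_mono h (l8k_bd_const_mul _ (hAnb c)) (hT0 c c') hpt q
      _ = (c1 / (Gd * ℓ c')) ^ q * ∫ ω, An c ω ^ q ∂P.μ := by simp only [mul_pow]; rw [integral_const_mul]
      _ ≤ (c1 / (Gd * ℓ c')) ^ q * (128 * q * ϑ * ℓ c') ^ q := mul_le_mul_of_nonneg_left (hanch c c' hcc h1 h2) (by positivity)
      _ = (c1 * 128 * q * ϑ / Gd) ^ q := by rw [← mul_pow]; congr 1; field_simp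
      _ ≤ X1 := by
          rw [hX1]
          refine pow_le_pow_left₀ (by positivity) ?_ q
          refine div_le_div_of_nonneg_right ?_ hGd0.le
          refine mul_le_mul_of_nonneg_right (mul_le_mul_of_nonneg_right (mul_le_mul_of_nonneg_right ?_ (by norm_num)) hq0.le) hϑ0
          have : 0 ≤ 2 * τ * q := by positivity
          linarith
  -- later block on the retained branch
  have D2 : ∀ c c', c' < c → c < b → ∫ ω, T c c' ω ^ q ∂P.μ ≤ X1 + X2 := by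
    intro c c' hcc h2
    have h1 : 1 ≤ c := by omega
    have hℓc := hℓpos c h1
    have h3 := P.l6p_pair_a h hm hq hr hvmin hhmin hpR (Ico k0 k1) dr (fun k _ => hdr k) (fun k => k) (fun k => t k c) (fun k => t k (c + 1))
      (fun k _ => le_rfl) (fun k hk => (f1 k hk c h1 h2).1) (fun k hk => htm k hk (Nat.le_succ c)) (fun k hk => (f1 k hk c h1 h2).2.trans (Nat.le_succ _))
      f2 (fun k hk => f4 k hk c h1 h2) (fun k => P.XX (t k c') (t k (c' + 1))) (fun k i => (P.l8sb_XX_bd h _ _ i).1) (R := 4)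
      (fun k ω => P.l6p_nXX_le h _ _ ω) hτ
    have h4 : ∫ ω, (∑ k ∈ Ico k0 k1, dr k * P.sc2 k (t k c) * ∑ i, P.XX (t k c') (t k (c' + 1)) i ω ^ 2) ^ q ∂P.μ
        ≤ (128 * q * ϑ / Gd) ^ q := by
      have hpt : ∀ ω, ∑ k ∈ Ico k0 k1, dr k * P.sc2 k (t k c) * ∑ i, P.XX (t k c') (t k (c' + 1)) i ω ^ 2 ≤ 1 / (Gd * ℓ c) * An c' ω := by
        intro ω; rw [hAn]
        simp only
        rw [mul_sum]
        refine sum_le_sum fun k hk => ?_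
        have h5 := P.l6g_nXX_nonneg (t k c') (t k (c' + 1)) ω
        calc dr k * P.sc2 k (t k c) * ∑ i, P.XX (t k c') (t k (c' + 1)) i ω ^ 2
            = dr k * P.sc2 k (t k c) * P.nXX (t k c') (t k (c' + 1)) ω := rfl
          _ ≤ dr k * (1 / (Gd * ℓ c)) * P.nXX (t k c') (t k (c' + 1)) ω :=
              mul_le_mul_of_nonneg_right (mul_le_mul_of_nonneg_left (f5 k hk c h1 h2) (hdr k)) h5
          _ = 1 / (Gd * ℓ c) * (dr k * P.nXX (t k c') (t k (c' + 1)) ω) := by ring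
      calc _ ≤ ∫ ω, (1 / (Gd * ℓ c) * An c' ω) ^ q ∂P.μ :=
            P.l6g_int_pow_mono h (l8k_bd_const_mul _ (hAnb c'))
              (fun ω => sum_nonneg fun k _ => mul_nonneg (mul_nonneg (hdr k) (f5' _ _)) (sum_nonneg fun _ _ => sq_nonneg _)) hpt q
        _ = (1 / (Gd * ℓ c)) ^ q * ∫ ω, An c' ω ^ q ∂P.μ := by simp only [mul_pow]; rw [integral_const_mul]
        _ ≤ (1 / (Gd * ℓ c)) ^ q * (128 * q * ϑ * ℓ c) ^ q := mul_le_mul_of_nonneg_left (hanch c' c hcc.le h1 h2) (by positivity)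
        _ = (128 * q * ϑ / Gd) ^ q := by rw [← mul_pow]; congr 1; field_simp
    have h6 : ∑ k ∈ Ico k0 k1, dr k * P.sc2 k (t k c) ≤ (∑ k ∈ Ico k0 k1, dr k) / (Gd * ℓ 1) := by
      rw [sum_div]
      refine sum_le_sum fun k hk => ?_
      rw [div_eq_mul_one_div]
      refine mul_le_mul_of_nonneg_left ((f5 k hk c h1 h2).trans ?_) (hdr k)
      exact one_div_le_one_div_of_le (mul_pos hGd0 hℓ1) (mul_le_mul_of_nonneg_left (hℓm 1 c le_rfl h1) hGd0.le)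
    have h60 : 0 ≤ ∑ k ∈ Ico k0 k1, dr k * P.sc2 k (t k c) := sum_nonneg fun k _ => mul_nonneg (hdr k) (f5' _ _)
    have hτr : 0 < τ ^ (r - 1) := pow_pos hτ _
    have h2q : (2 : ℝ) ^ (q - 1) ≤ 2 ^ q := pow_le_pow_right₀ (by norm_num) (Nat.sub_le _ _)
    calc ∫ ω, T c c' ω ^ q ∂P.μ
        ≤ 2 ^ (q - 1) * ((τ * q) ^ q * ∫ ω, (∑ k ∈ Ico k0 k1, dr k * P.sc2 k (t k c) * ∑ i, P.XX (t k c') (t k (c' + 1)) i ω ^ 2) ^ q ∂P.μ
          + cR * (4 / τ ^ (r - 1) * ∑ k ∈ Ico k0 k1, dr k * P.sc2 k (t k c)) ^ q) := by rw [hT]; exact h3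
      _ ≤ 2 ^ (q - 1) * ((τ * q) ^ q * (128 * q * ϑ / Gd) ^ q
          + cR * (4 / τ ^ (r - 1) * ((∑ k ∈ Ico k0 k1, dr k) / (Gd * ℓ 1))) ^ q) := by
          refine mul_le_mul_of_nonneg_left (add_le_add (mul_le_mul_of_nonneg_left h4 (by positivity)) ?_) (by positivity)
          refine mul_le_mul_of_nonneg_left (pow_le_pow_left₀ (by positivity) ?_ q) hcR
          exact mul_le_mul_of_nonneg_left h6 (by positivity)
      _ = 2 ^ (q - 1) * ((τ * q) * (128 * q * ϑ / Gd)) ^ q + X2 := by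
          have hZ : 4 / τ ^ (r - 1) * ((∑ k ∈ Ico k0 k1, dr k) / (Gd * ℓ 1))
              = 4 * (∑ k ∈ Ico k0 k1, dr k) / (Gd * ℓ 1 * τ ^ (r - 1)) := by field_simp
          rw [hX2, hZ, mul_pow (τ * q) (128 * q * ϑ / Gd)]; ring
      _ ≤ 2 ^ q * ((τ * q) * (128 * q * ϑ / Gd)) ^ q + X2 := by
          refine add_le_add (mul_le_mul_of_nonneg_right h2q (by positivity)) le_rfl
      _ = ((2 * τ * q) * 128 * q * ϑ / Gd) ^ q + X2 := by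
          rw [← mul_pow]; congr 2; ring
      _ ≤ X1 + X2 := by
          refine add_le_add ?_ le_rfl
          rw [hX1]
          refine pow_le_pow_left₀ (by positivity) ?_ q
          refine div_le_div_of_nonneg_right ?_ hGd0.le
          refine mul_le_mul_of_nonneg_right (mul_le_mul_of_nonneg_right (mul_le_mul_of_nonneg_right ?_ (by norm_num)) hq0.le) hϑ0
          linarith
  -- two initial blocks
  have D3 : ∫ ω, T 0 0 ω ^ q ∂P.μ ≤ X3 := by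
    have hpt : ∀ ω, T 0 0 ω ≤ 4 * An 0 ω := by
      intro ω; rw [hT, hAn]
      simp only
      rw [mul_sum]
      refine sum_le_sum fun k hk => ?_
      have h3 := P.l6p_pair_00 h k (P.XX (t k 0) (t k (0 + 1))) (P.XX (t k 0) (t k (0 + 1))) (fun i => (P.l8sb_XX_bd h _ _ i).1) (R := 4)
        (fun ω => P.l6p_nXX_le h _ _ ω) ω
      calc dr k * P.FK k (P.XX (t k 0) (t k (0 + 1))) (P.XX (t k 0) (t k (0 + 1))) ω
          ≤ dr k * (4 * ∑ i, P.XX (t k 0) (t k (0 + 1)) i ω ^ 2) := mul_le_mul_of_nonneg_left h3 (hdr k)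
        _ = 4 * (dr k * P.nXX (t k 0) (t k (0 + 1)) ω) := by unfold L8P.nXX; ring
    calc ∫ ω, T 0 0 ω ^ q ∂P.μ ≤ ∫ ω, (4 * An 0 ω) ^ q ∂P.μ :=
          P.l6g_int_pow_mono h (l8k_bd_const_mul _ (hAnb 0)) (hT0 0 0) hpt q
      _ = 4 ^ q * ∫ ω, An 0 ω ^ q ∂P.μ := by simp only [mul_pow]; rw [integral_const_mul]
      _ ≤ 4 ^ q * (128 * q * Mo 0) ^ q := mul_le_mul_of_nonneg_left (hov 0 (by omega)) (by positivity)
      _ = X3 := by rw [hX3, ← mul_pow]; congr 1; ring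
  -- assembly
  refine P.l6g_assemble h hq (by omega) (S := fun ω => ∑ k ∈ Ico k0 k1, dr k * P.W k ω) (T := T)
    (fun ω => sum_nonneg fun k _ => mul_nonneg (hdr k) (P.l8s_W_nonneg h k ω)) hT0 hTb ?_ ?_
  · intro ω
    rw [hT]
    simp only
    have hk : ∀ k ∈ Ico k0 k1, dr k * P.W k ω ≤ b * P.a * ∑ c ∈ range b, ∑ c' ∈ range b,
        dr k * P.FK k (P.XX (t k c) (t k (c + 1))) (P.XX (t k c') (t k (c' + 1))) ω := by
      intro k hk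
      have h3 := P.l6p_blocks h b (t k) (htm k hk) (htb k hk) ω
      rw [ht0 k hk] at h3
      calc dr k * P.W k ω ≤ dr k * (b * ∑ c ∈ range b, ∑ c' ∈ range b,
            P.v (t k (c' + 1) - 1) * P.FK k (P.XX (t k c) (t k (c + 1))) (P.XX (t k c') (t k (c' + 1))) ω) :=
            mul_le_mul_of_nonneg_left h3 (hdr k)
        _ ≤ dr k * (b * ∑ c ∈ range b, ∑ c' ∈ range b,
            P.a * P.FK k (P.XX (t k c) (t k (c + 1))) (P.XX (t k c') (t k (c' + 1))) ω) := by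
            refine mul_le_mul_of_nonneg_left (mul_le_mul_of_nonneg_left (sum_le_sum fun c _ => sum_le_sum fun c' _ => ?_) (by positivity)) (hdr k)
            exact mul_le_mul_of_nonneg_right (P.l8sb_v_le_a h _) (P.l6g_FK_nonneg _ _ _ ω)
        _ = _ := by
            simp only [mul_sum]
            refine sum_congr rfl fun c _ => sum_congr rfl fun c' _ => ?_
            ring
    calc ∑ k ∈ Ico k0 k1, dr k * P.W k ω ≤ ∑ k ∈ Ico k0 k1, b * P.a * ∑ c ∈ range b, ∑ c' ∈ range b,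
          dr k * P.FK k (P.XX (t k c) (t k (c + 1))) (P.XX (t k c') (t k (c' + 1))) ω := sum_le_sum hk
      _ = _ := by
          rw [← mul_sum, sum_comm]
          congr 1
          refine sum_congr rfl fun c _ => ?_
          rw [sum_comm]
  · intro c c' hc hc'
    rcases lt_or_ge c' c with hcc | hcc
    · have := D2 c c' hcc hc; linarith
    · rcases Nat.eq_zero_or_pos c' with rfl | h1
      · have hc0 : c = 0 := by omega
        subst hc0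
        linarith
      · have := D1 c c' hcc h1 hc'; linarith

end L8P

end Claimed.Agent.R286
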