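import Claimed.Agent.R286.LL06.Pot

/-!
# Row 286 (S0533), LL Section 6 (06-global.tex l.223-322): SCALAR TRIAL, COARSE CLOCK COMPARISON (G3), MASS OF NONFLOOR NEIGHBOURHOODS

Owner: helper261 (co-architect LL06 under 291).   Prefixes `l6t_` (trial), `l6g_` (G3, mass).   TEX[LL:global:trial-gap]
Everything is NON-asymptotic with explicit constants; the powers of `x` are inserted in `l6t_trial_pow` / by LL06/Contract (291).

* `l6t_trial`      (l.231-283) `∃ z` quantile: `f_spin(h + b̃ z) + ¼ ∫ b̃ z² ≤ f(b̃,h) + max (y/4) (b̃(1)/4 · mvErr n N lo (y/R) ε ρ)`, if `b̃ 1 ≤ R b̃ 0`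
                   (dichotomy `sup b̃ ≤ y` : `z = 0` + `I.lip`;  else `inf b̃ ≥ y/R` : `mv_quant` = PE Lemma 5.7 quantitative).
* `l6t_trial_pow`  the same with `y = x^(1/10)`, `ε = ρ = lo = x^(1/100)`, `N ≥ 1/x`, `n ≥ 1/x`: error `≤ C x^(1/100)`, `C = 4 (1 + Bm) (1 + R)`.
* `l6g_pen`        (l.285-290) exact penalty decomposition `e r² + b̃ z² = b z̄² + (e b̃/b)(r - z)²`.
* `l6g_energy`     (l.291-296) `c₂ ∫_0^Q P² + ¼ ∫ (e b̃/b)(r - z)² ≤ η₀ + η₁`   from (G2) at `z̄`, the trial inequality and `Φ(θ) ≤ F_* + η₁`.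
* `l6g_G3`         (l.298-316) `‖α_{K^emp} - α_t‖_{L¹(0,Q)} ≤ 3 a + (2/a) √(Q (η₀+η₁)/c₂) + Bm (√μ₂ + 2 √((η₀+η₁)/em))`.
* `l6g_mass`       (l.318-331) near and after a nonfloor point `s₀ ≥ δ` the mass is `> bm δ / (8 C)`;  `l6g_room`: `s₀ ≤ 1 + 1/M`.
-/

set_option autoImplicit false

namespace Claimed.Agent.R286

open MeasureTheory Set Filter Topology

noncomputable section

/-! ## the scalar trial -/

/-- **the scalar trial**, non-asymptotic (LL 06 l.231-283).   TEX[LL:global:trial-gap] -/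
theorem l6t_trial {n : ℕ} (hn : 0 < n) (I : MvIface n) (fspin : (ℝ → ℝ) → ℝ) (hsp : ∀ K, MvClk K → I.f (fun _ => 0) K = fspin K)
    {bt h : ℝ → ℝ} (hb : MvClk bt) (hh : MvClk h) {R y : ℝ} (hR : 0 < R) (hy : 0 < y) (hrat : bt 1 ≤ R * bt 0)
    {N : ℕ} (hN : 0 < N) {lo ε ρ : ℝ} (hlo : 0 < lo) (hlo1 : lo ≤ 1) (hε : 0 < ε) (hε1 : ε ≤ 1) (hρ : 0 < ρ) (hρ1 : ρ ≤ 1) :
    ∃ z : ℝ → ℝ, MvQt z ∧ mvG fspin bt h z ≤ I.f bt h + max (y / 4) (bt 1 / 4 * mvErr n N lo (y / R) ε ρ) := by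
  rcases le_or_gt (bt 1) y with hc | hc
  · refine ⟨fun _ => 0, ⟨MvClk.const le_rfl, zero_le_one⟩, ?_⟩
    have e1 : mvG fspin bt h (fun _ => 0) = I.f (fun _ => 0) h := by
      unfold mvG
      have : (fun u => h u + bt u * 0) = h := by funext u; ring
      simp only [this]
      rw [hsp h hh]
      simp
    have h0 : MvClk (fun _ : ℝ => (0:ℝ)) := MvClk.const le_rfl
    have h1 := I.lip (fun _ => 0) h bt h h0 hh hb hh
    have h2 : ∫ u in (0:ℝ)..1, |h u - h u| = 0 := by simp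
    have h3 : ∫ u in (0:ℝ)..1, |(fun _ : ℝ => (0:ℝ)) u - bt u| ≤ ∫ _u in (0:ℝ)..1, bt 1 := by
      refine intervalIntegral.integral_mono_on zero_le_one ?_ intervalIntegrable_const fun u hu => ?_
      · exact (((MvBM.const 0).sub hb.bm).comp continuous_abs).ii01
      · simp only [zero_sub, abs_neg]
        rw [abs_of_nonneg (hb.nonneg hu)]
        exact hb.le_one hu
    simp only [intervalIntegral.integral_const, sub_zero, one_smul] at h3
    rw [h2] at h1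
    rw [e1]
    have h4 := (abs_le.1 h1).2
    have h5 := le_max_left (y / 4) (bt 1 / 4 * mvErr n N lo (y / R) ε ρ)
    linarith
  · have hbs : 0 < y / R := div_pos hy hR
    have h0 : y / R ≤ bt 0 := by
      rw [div_le_iff₀ hR]
      linarith
    have hb1 : ∀ u ∈ Icc (0:ℝ) 1, y / R ≤ bt u := fun u hu =>
      h0.trans (hb.1 (left_mem_Icc.2 zero_le_one) hu hu.1)
    obtain ⟨d, hd, hq⟩ := mv_quant hn I fspin hsp hb hh hbs hb1 hN hlo hlo1 hε hε1 hρ hρ1
    exact ⟨mvZ d, mvZ_qt hN hlo.le hd, hq.trans (by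
      have := le_max_right (y / 4) (bt 1 / 4 * mvErr n N lo (y / R) ε ρ)
      linarith)⟩

/-- bound of the error term at the powers of `x` of LL 06 l.276-280 -/
theorem l6t_err_pow {n N : ℕ} {x R : ℝ} (hx : 0 < x) (hx1 : x ≤ 1) (hR : 1 ≤ R) (hnx : 1 / x ≤ (n : ℝ)) (hNx : 1 / x ≤ (N : ℝ)) :
    mvErr n N (x ^ (1 / 100 : ℝ)) (x ^ (1 / 10 : ℝ) / R) (x ^ (1 / 100 : ℝ)) (x ^ (1 / 100 : ℝ)) ≤ 48 * R * x ^ (1 / 100 : ℝ) := by
  set w := x ^ (1 / 100 : ℝ) with hw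
  have hw0 : 0 < w := Real.rpow_pos_of_pos hx _
  have hw1 : w ≤ 1 := Real.rpow_le_one hx.le hx1 (by norm_num)
  have hxw : x = w ^ 100 := by
    rw [hw, ← Real.rpow_natCast, ← Real.rpow_mul hx.le]
    norm_num
  have hx10 : x ^ (1 / 10 : ℝ) = w ^ 10 := by
    rw [hw, ← Real.rpow_natCast, ← Real.rpow_mul hx.le]
    norm_num
  rw [hx10]
  have hR0 : 0 < R := by linarith
  have hpw : ∀ k : ℕ, 1 ≤ k → w ^ k ≤ w := fun k hk => by
    calc w ^ k ≤ w ^ 1 := pow_le_pow_of_le_one hw0.le hw1 hk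
      _ = w := pow_one w
  have hn0 : 0 < (n : ℝ) := lt_of_lt_of_le (by positivity) hnx
  have hN0 : 0 < (N : ℝ) := lt_of_lt_of_le (by positivity) hNx
  -- n * w^100 ≥ 1
  have hn1 : 1 ≤ (n : ℝ) * w ^ 100 := by
    rw [← hxw]
    rw [div_le_iff₀ hx] at hnx
    exact hnx
  have hN1 : 1 ≤ (N : ℝ) * w ^ 100 := by
    rw [← hxw]
    rw [div_le_iff₀ hx] at hNx
    exact hNx
  have t1 : 2 / (N : ℝ) ≤ 2 * w := by
    rw [div_le_iff₀ hN0]
    have : w ^ 100 ≤ w := hpw 100 (by norm_num)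
    nlinarith
  have t2 : 2 * w ^ 2 ≤ 2 * w := by
    have := hpw 2 (by norm_num)
    linarith
  -- the common quantity
  set q := (n : ℝ) * (w * (w ^ 10 / R) * w) with hq
  have hq0 : 0 < q := by positivity
  have hq1 : 1 ≤ q * (R * w ^ 88) := by
    have : q * (R * w ^ 88) = (n : ℝ) * w ^ 100 := by
      rw [hq]
      field_simp
    rw [this]
    exact hn1
  have t3 : 32 / (w ^ 2 * q * w) ≤ 32 * R * w := by
    rw [div_le_iff₀ (by positivity)]
    have h1 : w ^ 88 ≤ w ^ 4 := pow_le_pow_of_le_one hw0.le hw1 (by norm_num)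
    have h2 : q * (R * w ^ 88) ≤ q * (R * w ^ 4) := by gcongr
    nlinarith
  have t4 : 1 / (q * w ^ 2) ≤ R * w ^ 86 := by
    rw [div_le_iff₀ (by positivity)]
    have : R * w ^ 86 * (q * w ^ 2) = q * (R * w ^ 88) := by ring
    rw [this]
    exact hq1
  have t4' : 1 / (q * w ^ 2) ≤ R * w := by
    refine t4.trans ?_
    have := hpw 86 (by norm_num)
    gcongr
  have t5 : Real.sqrt (1 / (q * w ^ 2)) ≤ R * w := by
    refine (Real.sqrt_le_sqrt t4).trans ?_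
    rw [Real.sqrt_le_left (by positivity)]
    have h1 : w ^ 86 ≤ w ^ 2 := pow_le_pow_of_le_one hw0.le hw1 (by norm_num)
    have h2 : R * w ^ 86 ≤ R * w ^ 2 := by gcongr
    have h3 : R * w ^ 2 ≤ R ^ 2 * w ^ 2 := by
      have : R ≤ R ^ 2 := by nlinarith
      gcongr
    calc R * w ^ 86 ≤ R ^ 2 * w ^ 2 := h2.trans h3
      _ = (R * w) ^ 2 := by ring
  unfold mvErr
  have hRw : w ≤ R * w := by nlinarith
  linarith

/-- **the scalar trial with a power saving** `c₀ = 1/100` (up to the constant).   TEX[LL:global:trial-gap] -/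
theorem l6t_trial_pow {n : ℕ} (I : MvIface n) (fspin : (ℝ → ℝ) → ℝ) (hsp : ∀ K, MvClk K → I.f (fun _ => 0) K = fspin K)
    {bt h : ℝ → ℝ} (hb : MvClk bt) (hh : MvClk h) {R Bm x : ℝ} (hR : 1 ≤ R) (hrat : bt 1 ≤ R * bt 0) (hBm : bt 1 ≤ Bm)
    (hx : 0 < x) (hx1 : x ≤ 1) (hnx : 1 / x ≤ (n : ℝ)) :
    ∃ z : ℝ → ℝ, MvQt z ∧ mvG fspin bt h z ≤ I.f bt h + (1 + 12 * Bm * R) * x ^ (1 / 100 : ℝ) := by
  have hn0 : 0 < (n : ℝ) := lt_of_lt_of_le (by positivity) hnx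
  have hn : 0 < n := by exact_mod_cast hn0
  have hw0 : 0 < x ^ (1 / 100 : ℝ) := Real.rpow_pos_of_pos hx _
  have hw1 : x ^ (1 / 100 : ℝ) ≤ 1 := Real.rpow_le_one hx.le hx1 (by norm_num)
  have hy0 : 0 < x ^ (1 / 10 : ℝ) := Real.rpow_pos_of_pos hx _
  obtain ⟨z, hz, hle⟩ := l6t_trial hn I fspin hsp hb hh (by linarith : 0 < R) hy0 hrat hn hw0 hw1 hw0 hw1 hw0 hw1
  refine ⟨z, hz, hle.trans ?_⟩
  have herr := l6t_err_pow hx hx1 hR hnx hnx
  have hb1 : 0 ≤ bt 1 := hb.nonneg (by simp)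
  have hyw : x ^ (1 / 10 : ℝ) ≤ x ^ (1 / 100 : ℝ) :=
    Real.rpow_le_rpow_of_exponent_ge hx hx1 (by norm_num)
  have hBR : 0 ≤ Bm * R := mul_nonneg (hb1.trans hBm) (by linarith)
  have h1 : x ^ (1 / 10 : ℝ) / 4 ≤ (1 + 12 * Bm * R) * x ^ (1 / 100 : ℝ) := by nlinarith
  have h2 : bt 1 / 4 * mvErr n n (x ^ (1 / 100 : ℝ)) (x ^ (1 / 10 : ℝ) / R) (x ^ (1 / 100 : ℝ)) (x ^ (1 / 100 : ℝ))
      ≤ (1 + 12 * Bm * R) * x ^ (1 / 100 : ℝ) := by
    calc bt 1 / 4 * mvErr n n (x ^ (1 / 100 : ℝ)) (x ^ (1 / 10 : ℝ) / R) (x ^ (1 / 100 : ℝ)) (x ^ (1 / 100 : ℝ))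
        ≤ bt 1 / 4 * (48 * R * x ^ (1 / 100 : ℝ)) := by gcongr
      _ ≤ Bm / 4 * (48 * R * x ^ (1 / 100 : ℝ)) := by gcongr
      _ = 12 * Bm * R * x ^ (1 / 100 : ℝ) := by ring
      _ ≤ (1 + 12 * Bm * R) * x ^ (1 / 100 : ℝ) := by nlinarith
  have := max_le h1 h2
  linarith

/-! ## the energy inequality -/

/-- exact penalty decomposition (LL 06 l.285-290) -/
theorem l6g_pen {e b r z : ℝ} (hb : b ≠ 0) :
    e * r ^ 2 + (b - e) * z ^ 2 = b * ((e * r + (b - e) * z) / b) ^ 2 + e * (b - e) / b * (r - z) ^ 2 := by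
  field_simp
  ring

/-- the scalar path of the trial `K' = hs + e r + b̃ z` -/
def l6gK (b hs e r z : ℝ → ℝ) : ℝ → ℝ := fun v => hs v + e v * r v + (b v - e v) * z v

/-- the primitive `P s = ∫_s^Q (α_K - α_t)` -/
def l6gP (K t : ℝ → ℝ) (Q s : ℝ) : ℝ := ∫ u in s..Q, (glDist K u - glDist t u)

/-- the scalar coercivity (G2) as a property of the data `(fspin, b, hs, t, F_*, c₂, Q)`: for every scalar path `hs + b z`, `0 ≤ z ≤ 2`.
INSTANCE: 58 (LL06/G2).   TEX[LL:global:trial-gap] -/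
def L6G2 (fspin : (ℝ → ℝ) → ℝ) (b hs t : ℝ → ℝ) (Fs c2 Q : ℝ) : Prop :=
  ∀ z : ℝ → ℝ, MvClk (fun v => hs v + b v * z v) → (∀ v ∈ Icc (0:ℝ) 1, z v ∈ Icc (0:ℝ) 2) →
    Fs + c2 * ∫ s in (0:ℝ)..Q, l6gP (fun v => hs v + b v * z v) t Q s ^ 2
      ≤ fspin (fun v => hs v + b v * z v) + 1 / 4 * ∫ v in (0:ℝ)..1, b v * z v ^ 2

/-- `fspin` only sees the values on `[0,1]` -/
theorem l6g_energy_fspin {n : ℕ} (I : MvIface n) (fspin : (ℝ → ℝ) → ℝ) (hsp : ∀ K, MvClk K → I.f (fun _ => 0) K = fspin K)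
    {K K' : ℝ → ℝ} (hK : MvClk K) (hK' : MvClk K') (h : ∀ v ∈ Icc (0:ℝ) 1, K v = K' v) : fspin K = fspin K' := by
  rw [← hsp K hK, ← hsp K' hK']
  have h0 : MvClk (fun _ : ℝ => (0:ℝ)) := MvClk.const le_rfl
  have h1 := I.lip (fun _ => 0) K (fun _ => 0) K' h0 hK h0 hK'
  have h2 : ∫ u in (0:ℝ)..1, |K u - K' u| = 0 := by
    rw [intervalIntegral.integral_congr (g := fun _ => (0:ℝ))]
    · simp
    · intro u hu
      rw [uIcc_of_le zero_le_one] at hu
      simp [h u hu]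
  rw [h2] at h1
  simp only [sub_self, abs_zero, intervalIntegral.integral_zero, mul_zero, add_zero] at h1
  exact sub_eq_zero.1 (abs_nonpos_iff.1 h1)

/-- the time distribution only sees the values on `(0,1)` -/
theorem l6g_energy_dist {K K' : ℝ → ℝ} (h : ∀ v ∈ Ioo (0:ℝ) 1, K v = K' v) : glDist K = glDist K' := by
  funext t
  unfold glDist
  congr 2
  ext v
  constructor
  · rintro ⟨h1, h2⟩
    exact ⟨h1, by rw [← h v h1]; exact h2⟩
  · rintro ⟨h1, h2⟩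
    exact ⟨h1, by rw [h v h1]; exact h2⟩

theorem L6Fr.b_pos {κ M em ep : ℝ} {b hs e : ℝ → ℝ} (F : L6Fr κ M em ep b hs e) {v : ℝ} (hv : v ∈ Icc (0:ℝ) 1) :
    0 < b v := by
  have h1 : 0 ≤ b v - e v := F.btC.nonneg hv
  have h2 := (F.e_mem v hv).1
  linarith [F.hem]

theorem L6Fr.bC {κ M em ep : ℝ} {b hs e : ℝ → ℝ} (F : L6Fr κ M em ep b hs e) : MvClk b := by
  have := F.btC.add F.eC
  have e1 : (fun u => b u - e u + e u) = b := by funext u; ring
  rwa [e1] at this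

theorem L6Fr.binv_bm {κ M em ep : ℝ} {b hs e : ℝ → ℝ} (F : L6Fr κ M em ep b hs e) : MvBM (fun v => (b v)⁻¹) :=
  MvBM.of_anti fun _ hx _ hy hxy => inv_anti₀ (F.b_pos hx) (F.bC.1 hx hy hxy)

theorem l6gK_clk {κ M em ep : ℝ} {b hs e r z : ℝ → ℝ} (F : L6Fr κ M em ep b hs e) (hr : MvClk r) (hz : MvClk z) :
    MvClk (l6gK b hs e r z) :=
  (F.hsC.add (F.eC.mul hr)).add (F.btC.mul hz)

/-- **energy inequality** (LL 06 l.291-296).   TEX[LL:global:trial-gap] -/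
theorem l6g_energy {n : ℕ} (I : MvIface n) (fspin : (ℝ → ℝ) → ℝ) (hsp : ∀ K, MvClk K → I.f (fun _ => 0) K = fspin K)
    {κ M em ep : ℝ} {b hs e r z t : ℝ → ℝ} (F : L6Fr κ M em ep b hs e) (hr : MvClk r) (hr2 : r 1 ≤ 2) (hz : MvQt z)
    {Fs c2 Q η0 η1 : ℝ} (hG2 : L6G2 fspin b hs t Fs c2 Q)
    (htr : mvG fspin (fun v => b v - e v) (fun v => hs v + e v * r v) z ≤ I.f (fun v => b v - e v) (fun v => hs v + e v * r v) + η0)
    (hΦ : l6oJ I b hs e r ≤ Fs + η1) :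
    c2 * (∫ s in (0:ℝ)..Q, l6gP (l6gK b hs e r z) t Q s ^ 2)
      + 1 / 4 * (∫ v in (0:ℝ)..1, e v * (b v - e v) / b v * (r v - z v) ^ 2) ≤ η0 + η1 := by
  set zb : ℝ → ℝ := fun v => (e v * r v + (b v - e v) * z v) / b v with hzb
  have cK : MvClk (l6gK b hs e r z) := l6gK_clk F hr hz.1
  have hEq : ∀ v ∈ Icc (0:ℝ) 1, l6gK b hs e r z v = hs v + b v * zb v := by
    intro v hv
    have := (F.b_pos hv).ne'
    simp only [l6gK, hzb]
    field_simp
    ring
  have cKb : MvClk (fun v => hs v + b v * zb v) :=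
    ⟨cK.1.congr hEq, by
      show 0 ≤ hs 0 + b 0 * zb 0
      rw [← hEq 0 (by simp)]; exact cK.2⟩
  have hzb2 : ∀ v ∈ Icc (0:ℝ) 1, zb v ∈ Icc (0:ℝ) 2 := by
    intro v hv
    have hb := F.b_pos hv
    have h1 : 0 ≤ b v - e v := F.btC.nonneg hv
    have h2 : 0 ≤ e v := F.eC.nonneg hv
    have h3 := hr.nonneg hv
    have h4 := (hr.le_one hv).trans hr2
    have h5 := hz.mem hv
    simp only [hzb]
    constructor
    · have : 0 ≤ e v * r v + (b v - e v) * z v := add_nonneg (mul_nonneg h2 h3) (mul_nonneg h1 h5.1)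
      positivity
    · rw [div_le_iff₀ hb]
      nlinarith [h5.2, mul_le_mul_of_nonneg_left h4 h2, mul_le_mul_of_nonneg_left h5.2 h1]
  have g2 := hG2 zb cKb hzb2
  rw [← l6g_energy_fspin I fspin hsp cK cKb hEq] at g2
  have eP : ∀ s, l6gP (fun v => hs v + b v * zb v) t Q s = l6gP (l6gK b hs e r z) t Q s := by
    intro s
    unfold l6gP
    rw [l6g_energy_dist (K := fun v => hs v + b v * zb v) (K' := l6gK b hs e r z)
      (fun v hv => (hEq v (Ioo_subset_Icc_self hv)).symm)]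
  simp only [eP] at g2
  -- the penalties
  have mb := F.bC.bm
  have me := F.eC.bm
  have mbt := F.btC.bm
  have mr := hr.bm
  have mz := hz.1.bm
  have mi := F.binv_bm
  have i1 : IntervalIntegrable (fun v => e v * r v ^ 2) volume 0 1 := (me.mul (mr.comp (continuous_pow 2))).ii01
  have i2 : IntervalIntegrable (fun v => (b v - e v) * z v ^ 2) volume 0 1 := (mbt.mul (mz.comp (continuous_pow 2))).ii01
  have mzb : MvBM zb := by
    have := ((me.mul mr).add (mbt.mul mz)).mul mi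
    simpa only [hzb, div_eq_mul_inv] using this
  have i3 : IntervalIntegrable (fun v => b v * zb v ^ 2) volume 0 1 := (mb.mul (mzb.comp (continuous_pow 2))).ii01
  have i4 : IntervalIntegrable (fun v => e v * (b v - e v) / b v * (r v - z v) ^ 2) volume 0 1 := by
    have := (((me.mul mbt).mul mi).mul ((mr.sub mz).comp (continuous_pow 2))).ii01
    simpa only [div_eq_mul_inv] using this
  have epen : (∫ v in (0:ℝ)..1, e v * r v ^ 2) + (∫ v in (0:ℝ)..1, (b v - e v) * z v ^ 2)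
      = (∫ v in (0:ℝ)..1, b v * zb v ^ 2) + ∫ v in (0:ℝ)..1, e v * (b v - e v) / b v * (r v - z v) ^ 2 := by
    rw [← intervalIntegral.integral_add i1 i2, ← intervalIntegral.integral_add i3 i4]
    refine intervalIntegral.integral_congr fun v hv => ?_
    rw [uIcc_of_le zero_le_one] at hv
    exact l6g_pen (F.b_pos hv).ne'
  unfold mvG at htr
  unfold l6oJ at hΦ
  have eK : (fun u => hs u + e u * r u + (b u - e u) * z u) = l6gK b hs e r z := rfl
  rw [eK] at htr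
  linarith

/-! ## (G3) -/

/-- Cauchy-Schwarz for interval integrals in the form `k² ≤ f g` -/
theorem l6g_G3_cs {k f g : ℝ → ℝ} {a b : ℝ} (hab : a ≤ b)
    (hk : IntervalIntegrable k volume a b) (hf : IntervalIntegrable f volume a b)
    (hg : IntervalIntegrable g volume a b)
    (h0f : ∀ v ∈ Ioo a b, 0 ≤ f v) (h0g : ∀ v ∈ Ioo a b, 0 ≤ g v)
    (hkfg : ∀ v ∈ Ioo a b, k v ^ 2 ≤ f v * g v) :
    (∫ v in a..b, k v) ^ 2 ≤ (∫ v in a..b, f v) * ∫ v in a..b, g v := by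
  have key : ∀ t : ℝ, 0 ≤ (∫ v in a..b, f v) * (t * t) + (-2 * ∫ v in a..b, k v) * t
      + ∫ v in a..b, g v := by
    intro t
    have hpt : ∀ v ∈ Ioo a b, (fun _ => (0 : ℝ)) v ≤ f v * (t * t) + (-2 * k v) * t + g v := by
      intro v hv
      have hf0 := h0f v hv
      have hg0 := h0g v hv
      have hk2 := hkfg v hv
      rcases hf0.eq_or_lt with h | h
      · have : k v = 0 := by
          have : k v ^ 2 ≤ 0 := by rw [← h] at hk2; simpa using hk2
          exact pow_eq_zero_iff (two_ne_zero) |>.1 (le_antisymm this (sq_nonneg _))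
        rw [← h, this]; simpa using hg0
      · have : 0 ≤ f v * (f v * (t * t) + (-2 * k v) * t + g v) := by
          nlinarith [sq_nonneg (f v * t - k v)]
        exact nonneg_of_mul_nonneg_right this h
    have hint : IntervalIntegrable (fun v => f v * (t * t) + (-2 * k v) * t + g v) volume a b :=
      ((hf.mul_const _).add ((hk.const_mul (-2)).mul_const t)).add hg
    have h0 : ∫ _v in a..b, (0 : ℝ) ≤ ∫ v in a..b, (f v * (t * t) + (-2 * k v) * t + g v) :=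
      intervalIntegral.integral_mono_on_of_le_Ioo hab intervalIntegrable_const hint hpt
    rw [intervalIntegral.integral_add ((hf.mul_const _).add ((hk.const_mul (-2)).mul_const t)) hg,
      intervalIntegral.integral_add (hf.mul_const _) ((hk.const_mul (-2)).mul_const t),
      intervalIntegral.integral_mul_const, intervalIntegral.integral_mul_const,
      intervalIntegral.integral_const_mul] at h0
    simpa using h0
  have hd := discrim_le_zero key
  unfold discrim at hd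
  nlinarith

/-- `x ≤ y` from `x² ≤ y²`, `0 ≤ y` -/
theorem l6g_G3_le {x y : ℝ} (hy : 0 ≤ y) (h : x ^ 2 ≤ y ^ 2) : x ≤ y :=
  (abs_le_of_sq_le_sq' h hy).2

theorem l6gK_mem {κ M em ep : ℝ} {b hs e r w : ℝ → ℝ} (F : L6Fr κ M em ep b hs e) (hr : MvClk r) (hr2 : r 1 ≤ 2)
    (hw : MvQt w) {Q : ℝ} (hQ : hs 1 + 2 * b 1 ≤ Q) {v : ℝ} (hv : v ∈ Icc (0:ℝ) 1) : l6gK b hs e r w v ∈ Icc 0 Q := by
  have c := l6gK_clk F hr hw.1
  refine ⟨c.nonneg hv, (c.le_one hv).trans ?_⟩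
  have h1 : (1:ℝ) ∈ Icc (0:ℝ) 1 := by simp
  have h2 : 0 ≤ b 1 - e 1 := F.btC.nonneg h1
  have h3 : 0 ≤ e 1 := F.eC.nonneg h1
  simp only [l6gK]
  nlinarith [mul_le_mul_of_nonneg_left hr2 h3, mul_le_mul_of_nonneg_left hw.2 h2]

/-- **(G3)**, non-asymptotic (LL 06 l.298-316); `K^emp = hs + e r + b̃ S`.   TEX[LL:global:trial-gap] -/
theorem l6g_G3 {n : ℕ} (I : MvIface n) (fspin : (ℝ → ℝ) → ℝ) (hsp : ∀ K, MvClk K → I.f (fun _ => 0) K = fspin K)
    {κ M em ep : ℝ} {b hs e r z t : ℝ → ℝ} (F : L6Fr κ M em ep b hs e) (hr : MvClk r) (hr2 : r 1 ≤ 2) (hz : MvQt z)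
    {Fs c2 Q η0 η1 μ2 Bm a : ℝ} (hc2 : 0 < c2) (hG2 : L6G2 fspin b hs t Fs c2 Q)
    (htr : mvG fspin (fun v => b v - e v) (fun v => hs v + e v * r v) z ≤ I.f (fun v => b v - e v) (fun v => hs v + e v * r v) + η0)
    (hΦ : l6oJ I b hs e r ≤ Fs + η1)
    (hmis : ∫ v in (0:ℝ)..1, (l6oS I b hs e r v - r v) ^ 2 ≤ μ2)
    (hBm : b 1 ≤ Bm) (hQ : hs 1 + 2 * b 1 ≤ Q) (ha : 0 < a) (haQ : a ≤ Q) :
    ∫ τ in (0:ℝ)..Q, |glDist (l6gK b hs e r (l6oS I b hs e r)) τ - glDist t τ|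
      ≤ 3 * a + 2 / a * Real.sqrt (Q * ((η0 + η1) / c2)) + Bm * (Real.sqrt μ2 + 2 * Real.sqrt ((η0 + η1) / em)) := by
  have hQ0 : 0 ≤ Q := ha.le.trans haQ
  set S := l6oS I b hs e r with hS
  have cE : MvClk (fun v => hs v + e v * r v) := F.hsC.add (F.eC.mul hr)
  have hSq : MvQt S :=
    ⟨⟨I.S_mono _ _ F.btC cE, (I.S_mem _ _ F.btC cE 0 (by simp)).1⟩, (I.S_mem _ _ F.btC cE 1 (by simp)).2⟩
  set Kz := l6gK b hs e r z with hKz
  set KS := l6gK b hs e r S with hKS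
  have cKz : MvClk Kz := l6gK_clk F hr hz.1
  have cKS : MvClk KS := l6gK_clk F hr hSq.1
  have hem := F.hem
  have hBm0 : 0 ≤ Bm := (F.bC.nonneg (by simp)).trans hBm
  -- the energy inequality
  have E := l6g_energy I fspin hsp F hr hr2 hz hG2 htr hΦ
  set A := ∫ s in (0:ℝ)..Q, l6gP Kz t Q s ^ 2 with hA
  set Bq := ∫ v in (0:ℝ)..1, e v * (b v - e v) / b v * (r v - z v) ^ 2 with hBq
  have hA0 : 0 ≤ A := intervalIntegral.integral_nonneg hQ0 fun s _ => sq_nonneg _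
  have hq0 : ∀ v ∈ Icc (0:ℝ) 1, 0 ≤ e v * (b v - e v) / b v * (r v - z v) ^ 2 := by
    intro v hv
    have h1 : 0 ≤ b v - e v := F.btC.nonneg hv
    have h2 : 0 ≤ e v := F.eC.nonneg hv
    have h3 := F.b_pos hv
    positivity
  have hBq0 : 0 ≤ Bq := intervalIntegral.integral_nonneg zero_le_one hq0
  have hη : 0 ≤ η0 + η1 := by nlinarith
  have hA1 : A ≤ (η0 + η1) / c2 := by
    rw [le_div_iff₀ hc2]
    nlinarith
  have hBq1 : Bq ≤ 4 * (η0 + η1) := by nlinarith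
  -- integrability of the distributions
  have hi : ∀ (K K' : ℝ → ℝ) (x y : ℝ), IntervalIntegrable (fun τ => glDist K τ - glDist K' τ) volume x y := fun K K' x y =>
    (gl_det_dist_mono K).intervalIntegrable.sub (gl_det_dist_mono K').intervalIntegrable
  -- part 3: the primitive
  have gp := gl_det_gp_dist Kz t ha haQ
  have hPc : Continuous (fun s => l6gP Kz t Q s) := by
    have h1 := intervalIntegral.continuous_primitive (μ := volume) (fun x y => hi Kz t x y) Q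
    have e1 : (fun s => l6gP Kz t Q s) = fun s => - ∫ u in Q..s, (glDist Kz u - glDist t u) := by
      funext s
      unfold l6gP
      rw [intervalIntegral.integral_symm]
    rw [e1]
    exact h1.neg
  have cs1 := l6g_G3_cs (k := fun s => |l6gP Kz t Q s|) (f := fun _ => 1) (g := fun s => l6gP Kz t Q s ^ 2) hQ0
    (hPc.abs.intervalIntegrable _ _) intervalIntegrable_const ((hPc.pow 2).intervalIntegrable _ _)
    (fun _ _ => zero_le_one) (fun _ _ => sq_nonneg _) (fun v _ => by rw [sq_abs, one_mul])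
  have hP1 : ∫ s in (0:ℝ)..Q, |l6gP Kz t Q s| ≤ Real.sqrt (Q * ((η0 + η1) / c2)) := by
    refine (le_abs_self _).trans (Real.abs_le_sqrt (cs1.trans ?_))
    simp only [intervalIntegral.integral_const, sub_zero, smul_eq_mul, mul_one]
    exact mul_le_mul_of_nonneg_left hA1 hQ0
  have p3 : ∫ s in (0:ℝ)..Q, |glDist Kz s - glDist t s| ≤ 3 * a + 2 / a * Real.sqrt (Q * ((η0 + η1) / c2)) := by
    refine gp.trans ?_
    have : 0 ≤ 2 / a := by positivity
    have h2 := mul_le_mul_of_nonneg_left hP1 this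
    have e2 : (fun s => |∫ u in s..Q, (glDist Kz u - glDist t u)|) = fun s => |l6gP Kz t Q s| := rfl
    rw [e2]
    linarith
  -- part 2: the two quantiles
  have qt := gl_det_qt_dist hQ0 (cKS.1.mono Ioo_subset_Icc_self) (cKz.1.mono Ioo_subset_Icc_self)
    (fun v hv => l6gK_mem F hr hr2 hSq hQ (Ioo_subset_Icc_self hv))
    (fun v hv => l6gK_mem F hr hr2 hz hQ (Ioo_subset_Icc_self hv))
  have mb := F.bC.bm
  have me := F.eC.bm
  have mbt := F.btC.bm
  have mr := hr.bm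
  have mz := hz.1.bm
  have mS := hSq.1.bm
  have mi := F.binv_bm
  have mei : MvBM (fun v => (e v)⁻¹) :=
    MvBM.of_anti fun x hx y hy hxy => inv_anti₀ (hem.trans_le (F.e_mem x hx).1) (F.eC.1 hx hy hxy)
  have j1 : IntervalIntegrable (fun v => |S v - r v|) volume 0 1 := ((mS.sub mr).comp continuous_abs).ii01
  have j1' : IntervalIntegrable (fun v => (S v - r v) ^ 2) volume 0 1 := ((mS.sub mr).comp (continuous_pow 2)).ii01
  have j2 : IntervalIntegrable (fun v => (b v - e v) * |r v - z v|) volume 0 1 :=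
    (mbt.mul ((mr.sub mz).comp continuous_abs)).ii01
  have j3 : IntervalIntegrable (fun v => (b v - e v) * b v * (e v)⁻¹) volume 0 1 := ((mbt.mul mb).mul mei).ii01
  have j4 : IntervalIntegrable (fun v => e v * (b v - e v) / b v * (r v - z v) ^ 2) volume 0 1 := by
    have := (((me.mul mbt).mul mi).mul ((mr.sub mz).comp (continuous_pow 2))).ii01
    simpa only [div_eq_mul_inv] using this
  have cs2 := l6g_G3_cs (k := fun v => |S v - r v|) (f := fun _ => 1) (g := fun v => (S v - r v) ^ 2) zero_le_one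
    j1 intervalIntegrable_const j1' (fun _ _ => zero_le_one) (fun _ _ => sq_nonneg _) (fun v _ => by rw [sq_abs, one_mul])
  have q1 : ∫ v in (0:ℝ)..1, |S v - r v| ≤ Real.sqrt μ2 := by
    refine (le_abs_self _).trans (Real.abs_le_sqrt (cs2.trans ?_))
    simp only [intervalIntegral.integral_const, sub_zero, smul_eq_mul, mul_one, one_mul]
    exact hmis
  have cs3 := l6g_G3_cs (k := fun v => (b v - e v) * |r v - z v|) (f := fun v => (b v - e v) * b v * (e v)⁻¹)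
    (g := fun v => e v * (b v - e v) / b v * (r v - z v) ^ 2) zero_le_one j2 j3 j4
    (fun v hv => by
      have hv' := Ioo_subset_Icc_self hv
      have h1 : 0 ≤ b v - e v := F.btC.nonneg hv'
      have h2 : 0 < e v := hem.trans_le (F.e_mem v hv').1
      have h3 := F.b_pos hv'
      positivity)
    (fun v hv => hq0 v (Ioo_subset_Icc_self hv))
    (fun v hv => by
      have hv' := Ioo_subset_Icc_self hv
      have h2 : 0 < e v := hem.trans_le (F.e_mem v hv').1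
      have h3 := F.b_pos hv'
      rw [mul_pow, sq_abs]
      apply le_of_eq
      field_simp)
  have hf1 : ∫ v in (0:ℝ)..1, (b v - e v) * b v * (e v)⁻¹ ≤ Bm ^ 2 / em := by
    have : ∫ v in (0:ℝ)..1, (b v - e v) * b v * (e v)⁻¹ ≤ ∫ _v in (0:ℝ)..1, Bm ^ 2 / em := by
      refine intervalIntegral.integral_mono_on zero_le_one j3 intervalIntegrable_const fun v hv => ?_
      have h1 : 0 ≤ b v - e v := F.btC.nonneg hv
      have h2 : 0 < e v := hem.trans_le (F.e_mem v hv).1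
      have h3 := F.b_pos hv
      have h4 : b v ≤ Bm := (F.bC.le_one hv).trans hBm
      have h5 : (e v)⁻¹ ≤ em⁻¹ := inv_anti₀ hem (F.e_mem v hv).1
      rw [div_eq_mul_inv]
      have h6 : (b v - e v) * b v ≤ Bm ^ 2 := by nlinarith
      exact mul_le_mul h6 h5 (by positivity) (by positivity)
    simpa using this
  have q2 : ∫ v in (0:ℝ)..1, (b v - e v) * |r v - z v| ≤ Bm * (2 * Real.sqrt ((η0 + η1) / em)) := by
    refine l6g_G3_le (by positivity) (cs3.trans ?_)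
    rw [mul_pow, mul_pow, Real.sq_sqrt (by positivity)]
    calc (∫ v in (0:ℝ)..1, (b v - e v) * b v * (e v)⁻¹) * Bq ≤ Bm ^ 2 / em * (4 * (η0 + η1)) :=
          mul_le_mul hf1 hBq1 hBq0 (by positivity)
      _ = Bm ^ 2 * (2 ^ 2 * ((η0 + η1) / em)) := by ring
  have p2 : ∫ v in (0:ℝ)..1, |KS v - Kz v| ≤ Bm * Real.sqrt μ2 + Bm * (2 * Real.sqrt ((η0 + η1) / em)) := by
    have h1 : ∫ v in (0:ℝ)..1, |KS v - Kz v| ≤ ∫ v in (0:ℝ)..1, (Bm * |S v - r v| + (b v - e v) * |r v - z v|) := by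
      refine intervalIntegral.integral_mono_on zero_le_one ((cKS.bm.sub cKz.bm).comp continuous_abs).ii01
        ((j1.const_mul Bm).add j2) fun v hv => ?_
      have h1 : 0 ≤ b v - e v := F.btC.nonneg hv
      have h2 : 0 ≤ e v := F.eC.nonneg hv
      have h4 : b v ≤ Bm := (F.bC.le_one hv).trans hBm
      have e1 : KS v - Kz v = (b v - e v) * (S v - z v) := by
        simp only [hKS, hKz, l6gK]
        ring
      rw [e1, abs_mul, abs_of_nonneg h1]
      have h5 : |S v - z v| ≤ |S v - r v| + |r v - z v| := abs_sub_le _ _ _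
      have h6 : (b v - e v) * |S v - r v| ≤ Bm * |S v - r v| :=
        mul_le_mul_of_nonneg_right (by linarith) (abs_nonneg _)
      have h7 := mul_le_mul_of_nonneg_left h5 h1
      rw [mul_add] at h7
      linarith
    rw [intervalIntegral.integral_add (j1.const_mul Bm) j2, intervalIntegral.integral_const_mul] at h1
    have := mul_le_mul_of_nonneg_left q1 hBm0
    linarith
  -- the triangle inequality
  have tri : ∫ τ in (0:ℝ)..Q, |glDist KS τ - glDist t τ|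
      ≤ (∫ τ in (0:ℝ)..Q, |glDist KS τ - glDist Kz τ|) + ∫ τ in (0:ℝ)..Q, |glDist Kz τ - glDist t τ| := by
    rw [← intervalIntegral.integral_add (hi KS Kz 0 Q).abs (hi Kz t 0 Q).abs]
    exact intervalIntegral.integral_mono_on hQ0 (hi KS t 0 Q).abs ((hi KS Kz 0 Q).abs.add (hi Kz t 0 Q).abs)
      fun τ _ => abs_sub_le _ _ _
  rw [qt] at tri
  linarith

/-! ## mass of the neighbourhoods of nonfloor points -/

/-- a nonfloor point is `≤ 1 + 1/M`: room for the buffers (LL 06 l.329-331) -/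
theorem l6g_room {κ M em ep : ℝ} {a St e H : ℝ → ℝ} (P : GlPot κ M em ep a St e H) {s₀ : ℝ} (hs₀ : s₀ ∈ Icc (0:ℝ) 2) (hH : H s₀ ≤ 0) :
    s₀ ≤ 1 + 1 / M := by
  have h1 := P.nonfloor_abs hs₀ hH
  have h2 := (P.St_mem s₀ hs₀).2
  rw [abs_le] at h1
  linarith [h1.1]

/-- **mass near and after a nonfloor point** `s₀ ≥ δ` (LL 06 l.318-329): every cut `s₁ ≥ s₀ - hh` has mass `α(s₁) > bm δ / (8 C)`.
`C` = initial slope of the base clock `t`, `bm ≤ b`, `hh = δ²` in the paper; (G3) enters through `hA`.   TEX[LL:global:trial-gap] -/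
theorem l6g_mass {n : ℕ} (I : MvIface n) {κ M em ep : ℝ} {b hs e al r t a H : ℝ → ℝ} (F : L6Fr κ M em ep b hs e)
    (B : TlBox (fun _ => κ) (fun _ => M) 0 2 0 1 al) (Qr : TlQ al 0 2 0 1 r)
    (P : GlPot κ M em ep a (fun s => l6oS I b hs e r (al s)) (fun s => e (al s)) H)
    {s₀ s₁ δ hh C' C bm Q : ℝ} (hs₀ : s₀ ∈ Icc (0:ℝ) 2) (hH : H s₀ ≤ 0) (hδ : 0 < δ) (hδs : δ ≤ s₀) (hhM : 1 / M ≤ hh)
    (hC' : 2 + 8 * ep / em < C') (hsmall : C' * hh ≤ δ / 2) (hs₁ : s₁ ∈ Ioo (0:ℝ) 2) (h01 : s₀ - hh ≤ s₁)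
    (hbm : 0 < bm) (hb : ∀ v ∈ Icc (0:ℝ) 1, bm ≤ b v) (hC : 0 < C) (ht : ∀ v ∈ Ioo (0:ℝ) 1, t v ≤ C * v)
    (hηC : bm * δ / 2 ≤ C) (hηQ : bm * δ / 2 ≤ Q)
    (hA : ∫ τ in (0:ℝ)..Q, |glDist (l6gK b hs e r (l6oS I b hs e r)) τ - glDist t τ| < (bm * δ / 2) ^ 2 / (8 * C)) :
    bm * δ / (8 * C) < al s₁ := by
  have O : TlOk (fun _ => κ) (fun _ => M) 0 2 0 1 κ M :=
    ⟨by norm_num, F.hκ, intervalIntegrable_const, fun _ _ => le_rfl, continuousOn_const, fun _ _ => le_rfl⟩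
  have hs₁' : s₁ ∈ Icc (0:ℝ) 2 := Ioo_subset_Icc_self hs₁
  have hv₀ : al s₁ ∈ Ioo (0:ℝ) 1 := by
    constructor
    · have := B.strictMonoOn O (by simp : (0:ℝ) ∈ Icc (0:ℝ) 2) hs₁' hs₁.1
      rwa [B.left] at this
    · have := B.strictMonoOn O hs₁' (by simp : (2:ℝ) ∈ Icc (0:ℝ) 2) hs₁.2
      rwa [B.right] at this
  have hv₀' : al s₁ ∈ Icc (0:ℝ) 1 := Ioo_subset_Icc_self hv₀
  have hr : MvClk r := ⟨Qr.monoOn B O, (Qr.left B O).ge⟩
  have cE : MvClk (fun v => hs v + e v * r v) := F.hsC.add (F.eC.mul hr)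
  have hSq : MvQt (l6oS I b hs e r) :=
    ⟨⟨I.S_mono _ _ F.btC cE, (I.S_mem _ _ F.btC cE 0 (by simp)).1⟩, (I.S_mem _ _ F.btC cE 1 (by simp)).2⟩
  have cKS : MvClk (l6gK b hs e r (l6oS I b hs e r)) := l6gK_clk F hr hSq.1
  have hMp := P.M_pos
  have hhp : 0 < hh := lt_of_lt_of_le (by positivity) hhM
  have hC2 : 2 < C' := by
    have : 0 < 8 * ep / em := by
      have := P.ep_pos
      have := P.hem
      positivity
    linarith
  have hh4 : 2 * hh ≤ δ / 2 := by nlinarith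
  have hrv : r (al s₁) = s₁ := Qr.r_al B O hs₁'
  have hSv : s₀ - C' * hh ≤ l6oS I b hs e r (al s₁) :=
    P.le_loc hs₀ hH hhM hC' (by linarith) hs₁' h01
  have hK : bm * δ / 2 ≤ l6gK b hs e r (l6oS I b hs e r) (al s₁) := by
    simp only [l6gK]
    rw [hrv]
    have h1 : 0 ≤ b (al s₁) - e (al s₁) := F.btC.nonneg hv₀'
    have h2 : 0 ≤ e (al s₁) := F.eC.nonneg hv₀'
    have h3 : 0 ≤ hs (al s₁) := F.hsC.nonneg hv₀'
    have h4 := hb _ hv₀'
    have h5 : δ / 2 ≤ s₁ := by linarith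
    have h6 : δ / 2 ≤ l6oS I b hs e r (al s₁) := by linarith
    have h7 := mul_le_mul_of_nonneg_left h5 h2
    have h8 := mul_le_mul_of_nonneg_left h6 h1
    have h9 : bm * (δ / 2) ≤ b (al s₁) * (δ / 2) := mul_le_mul_of_nonneg_right h4 (by positivity)
    nlinarith
  have := gl_det_mass (cKS.1.mono Ioo_subset_Icc_self) hv₀ (by positivity) hK hC ht hηC hηQ hA
  have e1 : bm * δ / (8 * C) = bm * δ / 2 / (4 * C) := by
    field_simp
    ring
  rw [e1]
  exact this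

end

end Claimed.Agent.R286
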