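import Claimed.Agent.R286.LL06.Contract
import Claimed.Agent.R286.LL06.G3
import Claimed.Agent.R286.LL.PathsClkE
import Claimed.Agent.R286.LL.PathsKk

/-!
# Row 286 (S0533), LL Section 6: THE EXIT (G3) AT PATH LEVEL      (owner helper261, co-architect LL06 under 291; 0 sorry)

TEX[LL:global:trial-gap] 06-global.tex l.207-316.      Vocabulary: `LL06/Contract.lean` (291), `LL06/PhiDefs.lean` (58), `LL/PathsDefs.lean` (272).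
* (a) API of the closed clocks: `l6Cl_of_mem`, `l6Cl_mem`, `l6Cl_mono` (GLOBAL monotonicity), `l6Cl_clk`, `l6Nr_mem`, `l6Nr_clk`, `l6Nr_of_mem` (hypotheses on the OPEN interval `(0,a)` only).
* (b) `Ll06Pt p F 𝔹 dg c C` = standing hypotheses at a direct point (`L6pOk bN hN qN x^dg kapG McG`, `c ≤ bN 0`, `bN 1 ≤ C`, `x^dg ≤ c/2`, `MvClk tN`, `2 ≤ McG`, `0 < x ≤ 1/8`);
      **`ll06_ok`** : `LlSec3 𝔹 F ⟹ ∃ c C, 0 < c ∧ ∀ dg > 0, LlUnif F (direct ⟹ Ll06Pt)`   (constants BEFORE `dg`).      `ll06_unif_pow` (`x^s ≤ ε` eventually), `ll06_m_ge` (`1/x ≤ m` on the dyad).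
* (c) `l6g_G3_p` = (G3) in QUANTILE form, non-asymptotic, on `L6pOk` / `L6pMin`;   `l6g_pow_bound` = the arithmetic at `y = x^(1/800)`;
      **`ll06_g3`** : `LlcP 𝔹 F0 → Ll06G2Exit 𝔹 F0 → Ll06G3Exit 𝔹 F0`, with `c1 = 1/800`, `d1 = 1/200` (absolute: `c1` before `dg`, before the exponents).
-/

set_option autoImplicit false

namespace Claimed.Agent.R286

open MeasureTheory Set Filter Topology

noncomputable section

/-! ## (a) API of the closed clocks `l6Cl`, `l6Nr` -/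

theorem l6Cl_of_mem (c : ℝ → ℝ) {u : ℝ} (hu : u ∈ Ioo (0:ℝ) 1) : l6Cl c u = c u := by
  simp [l6Cl, not_le.2 hu.1, hu.2]

theorem l6Cl_of_nonpos (c : ℝ → ℝ) {u : ℝ} (hu : u ≤ 0) : l6Cl c u = sInf (c '' Ioo 0 1) := by
  simp [l6Cl, hu]

theorem l6Cl_of_one_le (c : ℝ → ℝ) {u : ℝ} (hu : 1 ≤ u) : l6Cl c u = sSup (c '' Ioo 0 1) := by
  have h0 : ¬ u ≤ 0 := by linarith
  simp [l6Cl, h0, not_lt.2 hu]

theorem l6Cl_ne : (Ioo (0:ℝ) 1).Nonempty := ⟨1 / 2, by norm_num, by norm_num⟩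

theorem l6Cl_mem {c : ℝ → ℝ} {lo hi : ℝ} (h : ∀ u ∈ Ioo (0:ℝ) 1, c u ∈ Icc lo hi) (u : ℝ) : l6Cl c u ∈ Icc lo hi := by
  have hne : (c '' Ioo 0 1).Nonempty := l6Cl_ne.image c
  have hlo : ∀ y ∈ c '' Ioo 0 1, lo ≤ y := by rintro _ ⟨v, hv, rfl⟩; exact (h v hv).1
  have hhi : ∀ y ∈ c '' Ioo 0 1, y ≤ hi := by rintro _ ⟨v, hv, rfl⟩; exact (h v hv).2
  obtain ⟨y, hy⟩ := hne
  rcases le_or_gt u 0 with h0 | h0
  · rw [l6Cl_of_nonpos c h0]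
    exact ⟨le_csInf ⟨y, hy⟩ hlo, (csInf_le ⟨lo, hlo⟩ hy).trans (hhi y hy)⟩
  · rcases lt_or_ge u 1 with h1 | h1
    · rw [l6Cl_of_mem c ⟨h0, h1⟩]; exact h u ⟨h0, h1⟩
    · rw [l6Cl_of_one_le c h1]
      exact ⟨(hlo y hy).trans (le_csSup ⟨hi, hhi⟩ hy), csSup_le ⟨y, hy⟩ hhi⟩

theorem l6Cl_mono {c : ℝ → ℝ} {lo hi : ℝ} (hm : MonotoneOn c (Ioo (0:ℝ) 1)) (h : ∀ u ∈ Ioo (0:ℝ) 1, c u ∈ Icc lo hi) :
    Monotone (l6Cl c) := by
  have hlo : ∀ y ∈ c '' Ioo 0 1, lo ≤ y := by rintro _ ⟨v, hv, rfl⟩; exact (h v hv).1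
  have hhi : ∀ y ∈ c '' Ioo 0 1, y ≤ hi := by rintro _ ⟨v, hv, rfl⟩; exact (h v hv).2
  have hbot : ∀ v ∈ Ioo (0:ℝ) 1, sInf (c '' Ioo 0 1) ≤ c v := fun v hv => csInf_le ⟨lo, hlo⟩ ⟨v, hv, rfl⟩
  have htop : ∀ v ∈ Ioo (0:ℝ) 1, c v ≤ sSup (c '' Ioo 0 1) := fun v hv => le_csSup ⟨hi, hhi⟩ ⟨v, hv, rfl⟩
  have hbt : sInf (c '' Ioo 0 1) ≤ sSup (c '' Ioo 0 1) := (hbot _ l6Cl_ne.some_mem).trans (htop _ l6Cl_ne.some_mem)
  intro u v huv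
  rcases le_or_gt u 0 with hu0 | hu0
  · rw [l6Cl_of_nonpos c hu0]
    rcases le_or_gt v 0 with hv0 | hv0
    · rw [l6Cl_of_nonpos c hv0]
    · rcases lt_or_ge v 1 with hv1 | hv1
      · rw [l6Cl_of_mem c ⟨hv0, hv1⟩]; exact hbot v ⟨hv0, hv1⟩
      · rw [l6Cl_of_one_le c hv1]; exact hbt
  · have hv0 : 0 < v := hu0.trans_le huv
    rcases lt_or_ge v 1 with hv1 | hv1
    · rw [l6Cl_of_mem c ⟨hu0, huv.trans_lt hv1⟩, l6Cl_of_mem c ⟨hv0, hv1⟩]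
      exact hm ⟨hu0, huv.trans_lt hv1⟩ ⟨hv0, hv1⟩ huv
    · rw [l6Cl_of_one_le c hv1]
      rcases lt_or_ge u 1 with hu1 | hu1
      · rw [l6Cl_of_mem c ⟨hu0, hu1⟩]; exact htop u ⟨hu0, hu1⟩
      · rw [l6Cl_of_one_le c hu1]

theorem l6Cl_clk {c : ℝ → ℝ} {lo hi : ℝ} (hm : MonotoneOn c (Ioo (0:ℝ) 1)) (h : ∀ u ∈ Ioo (0:ℝ) 1, c u ∈ Icc lo hi) (h0 : 0 ≤ lo) :
    MvClk (l6Cl c) := ⟨(l6Cl_mono hm h).monotoneOn _, h0.trans (l6Cl_mem h 0).1⟩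

/-- the rescaled clock `w ↦ a² c(a w)` on `(0,1)` -/
theorem l6Nr_aux {a lo hi : ℝ} {c : ℝ → ℝ} (ha : 0 < a) (hm : MonotoneOn c (Ioo 0 a)) (h : ∀ v ∈ Ioo 0 a, c v ∈ Icc lo hi) :
    MonotoneOn (fun w => a ^ 2 * c (a * w)) (Ioo (0:ℝ) 1) ∧ ∀ u ∈ Ioo (0:ℝ) 1, a ^ 2 * c (a * u) ∈ Icc (a ^ 2 * lo) (a ^ 2 * hi) := by
  have hmem : ∀ u ∈ Ioo (0:ℝ) 1, a * u ∈ Ioo 0 a := fun u hu =>
    ⟨mul_pos ha hu.1, by have := mul_lt_mul_of_pos_left hu.2 ha; linarith⟩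
  refine ⟨fun u hu v hv huv => ?_, fun u hu => ?_⟩
  · exact mul_le_mul_of_nonneg_left (hm (hmem u hu) (hmem v hv) (mul_le_mul_of_nonneg_left huv ha.le)) (by positivity)
  · have := h _ (hmem u hu)
    exact ⟨mul_le_mul_of_nonneg_left this.1 (by positivity), mul_le_mul_of_nonneg_left this.2 (by positivity)⟩

theorem l6Nr_mem {a lo hi : ℝ} {c : ℝ → ℝ} (ha : 0 < a) (hm : MonotoneOn c (Ioo 0 a)) (h : ∀ v ∈ Ioo 0 a, c v ∈ Icc lo hi) (u : ℝ) :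
    l6Nr a c u ∈ Icc (a ^ 2 * lo) (a ^ 2 * hi) := l6Cl_mem (l6Nr_aux ha hm h).2 u

theorem l6Nr_clk {a lo hi : ℝ} {c : ℝ → ℝ} (ha : 0 < a) (hm : MonotoneOn c (Ioo 0 a)) (h : ∀ v ∈ Ioo 0 a, c v ∈ Icc lo hi) (h0 : 0 ≤ lo) :
    MvClk (l6Nr a c) := l6Cl_clk (l6Nr_aux ha hm h).1 (l6Nr_aux ha hm h).2 (by positivity)

theorem l6Nr_of_mem (a : ℝ) (c : ℝ → ℝ) {u : ℝ} (hu : u ∈ Ioo (0:ℝ) 1) : l6Nr a c u = a ^ 2 * c (a * u) := l6Cl_of_mem _ hu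

/-! ## (b) the standing hypotheses at a direct point -/

/-- what the P-list gives at a direct point for the constrained interpolation (`c ≤ b ≤ C` after normalisation) -/
structure Ll06Pt (p : LlPt) (F : LlFix) (𝔹 : LlBase) (dg c C : ℝ) : Prop where
  x0 : 0 < p.x
  x1 : p.x ≤ 1 / 8
  ok : L6pOk (p.bN F 𝔹) (p.hN F 𝔹) (p.qN F 𝔹) (p.e0G dg) p.kapG p.McG
  b_lo : c ≤ p.bN F 𝔹 0
  b_hi : p.bN F 𝔹 1 ≤ C
  e0_le : p.e0G dg ≤ c / 2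
  t_clk : MvClk (p.tN F 𝔹)
  M2 : 2 ≤ p.McG

/-- `x^s ≤ ε` eventually -/
theorem ll06_unif_pow (F : LlFix) {s ε : ℝ} (hs : 0 < s) (hε : 0 < ε) : LlUnif F fun p => p.x ^ s ≤ ε := by
  refine (lce_unif_x F (ε ^ (1 / s)) (Real.rpow_pos_of_pos hε _)).mono fun p hp h => ?_
  have hx := lkk_x_pos hp.N2
  calc p.x ^ s ≤ (ε ^ (1 / s)) ^ s := Real.rpow_le_rpow hx.le h hs.le
    _ = ε := by rw [← Real.rpow_mul hε.le, one_div, inv_mul_cancel₀ hs.ne', Real.rpow_one]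

theorem ll06_ok {𝔹 : LlBase} {F : LlFix} (h3 : LlSec3 𝔹 F) :
    ∃ c C : ℝ, 0 < c ∧ ∀ dg : ℝ, 0 < dg → LlUnif F fun p => p.sm = false → Ll06Pt p F 𝔹 dg c C := by
  obtain ⟨c, C, hc, hadm⟩ := h3.adm
  obtain ⟨c', C', v0, hc', hv0, href⟩ := h3.ref
  refine ⟨c, 2 * C, hc, fun dg hdg => ?_⟩
  have hU := ((hadm.and href).and (lce_unif_x F (1 / 8) (by norm_num))).and (ll06_unif_pow F hdg (half_pos hc))
  refine hU.mono fun p hp h hsm => ?_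
  obtain ⟨⟨⟨⟨mb, -, mhS, mK, mq, hbd, -, -⟩, R⟩, hx8⟩, he0⟩ := h
  have hx := lkk_x_pos hp.N2
  have hx1 : p.x ≤ 1 := by linarith
  have ha : p.a = p.ell := by simp [LlPt.a, hsm]
  have hell : 1 ≤ p.a := by rw [ha]; exact hp.ell1
  have ha0 : 0 < p.a := by linarith
  have ha2 : p.a ^ 2 ≤ 2 := by
    rw [ha]
    have h1 : p.ell ^ 2 ≤ ((2:ℝ) ^ (1 / 6 : ℝ)) ^ 2 := pow_le_pow_left₀ (by linarith [hp.ell1]) hp.ell2 2
    have h2 : ((2:ℝ) ^ (1 / 6 : ℝ)) ^ 2 = (2:ℝ) ^ (1 / 3 : ℝ) := by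
      rw [← Real.rpow_natCast, ← Real.rpow_mul (by norm_num)]; norm_num
    have h3 : (2:ℝ) ^ (1 / 3 : ℝ) ≤ (2:ℝ) ^ (1 : ℝ) := Real.rpow_le_rpow_of_exponent_le (by norm_num) (by norm_num)
    rw [Real.rpow_one] at h3
    linarith
  have ha1 : 1 ≤ p.a ^ 2 := one_le_pow₀ hell
  have sub : Ioo 0 p.a ⊆ Icc 0 p.a := Ioo_subset_Icc_self
  -- bounds
  have bb : ∀ v ∈ Ioo 0 p.a, p.b F 𝔹 v ∈ Icc c C := fun v hv => ⟨(hbd v (sub hv)).1, (hbd v (sub hv)).2.1⟩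
  have hC0 : 0 ≤ C := hc.le.trans ((bb (p.a / 2) ⟨by linarith, by linarith⟩).1.trans (bb (p.a / 2) ⟨by linarith, by linarith⟩).2)
  have Kb : ∀ v ∈ Ioo 0 p.a, p.K F 𝔹 v ∈ Icc 0 (𝔹.xiS F.T) := by
    intro v hv
    have h0 : 0 ≤ p.K F 𝔹 v := (hbd v (sub hv)).2.2.2.2
    have h1 := R.K_top v hv
    simp only [hsm, Bool.false_eq_true, if_false] at h1
    refine ⟨h0, le_trans ?_ h1⟩
    have : 1 ≤ p.ell ^ 2 := by rw [← ha]; exact ha1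
    nlinarith
  have qb : ∀ v ∈ Ioo 0 p.a, p.q F 𝔹 v ∈ Icc (0:ℝ) 1 := by
    intro v hv
    refine ⟨le_trans (mul_nonneg hc'.le hv.1.le) (R.q_lo v hv), ?_⟩
    exact R.gam_le _ (Kb v hv).1
  have hb' : ∀ v ∈ Ioo 0 p.a, p.hS F 𝔹 v ∈ Icc 0 (𝔹.xiS F.T) := by
    intro v hv
    refine ⟨(hbd v (sub hv)).2.2.2.1, ?_⟩
    have h1 : 0 ≤ p.b F 𝔹 v * p.q F 𝔹 v := mul_nonneg (hc.le.trans (bb v hv).1) (qb v hv).1
    simp only [LlPt.hS]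
    linarith [(Kb v hv).2]
  have cb : MvClk (p.bN F 𝔹) := l6Nr_clk ha0 (mb.mono sub) bb hc.le
  have ch : MvClk (p.hN F 𝔹) := l6Nr_clk ha0 (mhS.mono sub) hb' le_rfl
  have ct : MvClk (p.tN F 𝔹) := l6Nr_clk ha0 (mK.mono sub) Kb le_rfl
  have hmem : ∀ u ∈ Ioo (0:ℝ) 1, p.a * u ∈ Ioo 0 p.a := fun u hu =>
    ⟨mul_pos ha0 hu.1, by have := mul_lt_mul_of_pos_left hu.2 ha0; linarith⟩
  have qm : MonotoneOn (fun w => p.q F 𝔹 (p.a * w)) (Ioo (0:ℝ) 1) := fun u hu v hv huv =>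
    mq (sub (hmem u hu)) (sub (hmem v hv)) (mul_le_mul_of_nonneg_left huv ha0.le)
  have qb' : ∀ u ∈ Ioo (0:ℝ) 1, p.q F 𝔹 (p.a * u) ∈ Icc (0:ℝ) 1 := fun u hu => qb _ (hmem u hu)
  have cq : MvQt (p.qN F 𝔹) := ⟨l6Cl_clk qm qb' le_rfl, (l6Cl_mem qb' 1).2⟩
  have blo : c ≤ p.bN F 𝔹 0 := by
    have := (l6Nr_mem ha0 (mb.mono sub) bb 0).1
    refine le_trans ?_ this
    nlinarith
  have bhi : p.bN F 𝔹 1 ≤ 2 * C := by
    have := (l6Nr_mem ha0 (mb.mono sub) bb 1).2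
    refine le_trans this ?_
    nlinarith
  have hκ : p.kapG ≤ 1 / 8 := by
    have : p.x ^ (17 / 4 : ℝ) ≤ p.x ^ (1 : ℝ) := Real.rpow_le_rpow_of_exponent_ge hx hx1 (by norm_num)
    rw [Real.rpow_one] at this
    exact this.trans hx8
  have hM : 2 ≤ p.McG := by
    have h1 : p.x ^ (-1 : ℝ) ≤ p.x ^ (-10 : ℝ) := Real.rpow_le_rpow_of_exponent_ge hx hx1 (by norm_num)
    have h2 : (8:ℝ) ≤ p.x ^ (-1 : ℝ) := by
      rw [Real.rpow_neg_one, le_inv_comm₀ (by norm_num) hx]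
      linarith
    exact le_trans (by linarith) h1
  exact ⟨hx, hx8, ⟨cb, ch, cq, Real.rpow_pos_of_pos hx _, le_trans he0 (by linarith), Real.rpow_pos_of_pos hx _, hκ, by linarith⟩,
    blo, bhi, he0, ct, hM⟩

/-! ## (c1) (G3) in QUANTILE form, non-asymptotic, in the vocabulary of `LL06/PhiDefs.lean` -/

/-- the error `η₀ + η₁` of the energy inequality -/
def l6gEta (b : ℝ → ℝ) (κ M c C x : ℝ) : ℝ := (1 + 12 * C * (2 * C / c)) * x ^ (1 / 100 : ℝ) + l6pLoss b κ M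

theorem l6g_G3_p {m : ℕ} (I : MvIface m) (fspin : (ℝ → ℝ) → ℝ) (hsp : ∀ K, MvClk K → I.f (fun _ => 0) K = fspin K)
    {b hs q t : ℝ → ℝ} {e0 κ M : ℝ} (H : L6pOk b hs q e0 κ M) (hM : 2 ≤ M) {θ : ℝ} (hθ : θ ∈ Icc (0:ℝ) 1) {r : ℝ → ℝ}
    (hr : L6pMin I b hs e0 κ M θ r) {c C c2 Q x a : ℝ} (hc : 0 < c) (hblo : c ≤ b 0) (hbhi : b 1 ≤ C) (he0 : e0 ≤ c / 2) (hc2 : 0 < c2)
    (hG2 : L6G2 fspin b hs t (mvG fspin b hs q) c2 Q) (hQ : hs 1 + 2 * b 1 ≤ Q) (hx : 0 < x) (hx1 : x ≤ 1) (hmx : 1 / x ≤ (m : ℝ))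
    (ha : 0 < a) (haQ : a ≤ Q) (ht : MvClk t) (htQ : t 1 ≤ Q) :
    ∫ u in (0:ℝ)..1, |(l6pH b hs e0 θ r u + l6pB b e0 θ u * I.S (l6pB b e0 θ) (l6pH b hs e0 θ r) u) - t u|
      ≤ 3 * a + 2 / a * Real.sqrt (Q * (l6gEta b κ M c C x / c2))
        + C * (Real.sqrt (1 / M ^ 2 + 8 * κ) + 2 * Real.sqrt (l6gEta b κ M c C x / e0)) := by
  have F := l6o_fr_of_p H hM hθ
  obtain ⟨cr, hr2⟩ := l6p_cls_clk H.κ_pos hr.1
  have h01 : b 0 ≤ b 1 := H.hb.le_one (left_mem_Icc.2 zero_le_one)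
  have hC : 0 < C := hc.trans_le (hblo.trans (h01.trans hbhi))
  have hcC : c ≤ C := hblo.trans (h01.trans hbhi)
  have hθ1 : 0 ≤ 1 - θ := sub_nonneg.2 hθ.2
  -- the trial
  have hbt : ∀ v, b v - l6pE b e0 θ v = (1 - θ) * (b v - e0) := fun v => by simp only [l6pE]; ring
  obtain ⟨z, hz, htr⟩ := l6t_trial_pow I fspin hsp (bt := fun v => b v - l6pE b e0 θ v) (h := fun v => hs v + l6pE b e0 θ v * r v)
    F.btC (F.hClk cr) (R := 2 * C / c) (Bm := C) (by rw [le_div_iff₀ hc]; linarith)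
    (by
      simp only [hbt]
      have h1 : (1 - θ) * (b 1 - e0) ≤ (1 - θ) * C := mul_le_mul_of_nonneg_left (by linarith [H.e0_pos]) hθ1
      have h2 : (1 - θ) * (c / 2) ≤ (1 - θ) * (b 0 - e0) := mul_le_mul_of_nonneg_left (by linarith) hθ1
      have h3 : 2 * C / c * ((1 - θ) * (c / 2)) = (1 - θ) * C := by field_simp
      have h4 : 2 * C / c * ((1 - θ) * (c / 2)) ≤ 2 * C / c * ((1 - θ) * (b 0 - e0)) :=
        mul_le_mul_of_nonneg_left h2 (by positivity)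
      linarith)
    (by
      simp only [hbt]
      have h0 : 0 ≤ b 1 - e0 := by linarith
      have h1 : (1 - θ) * (b 1 - e0) ≤ 1 * (b 1 - e0) := mul_le_mul_of_nonneg_right (by linarith [hθ.1]) h0
      linarith [H.e0_pos])
    hx hx1 hmx
  have hΦ : l6oJ I b hs (l6pE b e0 θ) r ≤ mvG fspin b hs q + l6pLoss b κ M := by
    have h1 := hr.eq I H hθ
    have h2 := l6p_phi_le I fspin hsp H hθ
    have h3 : l6oJ I b hs (l6pE b e0 θ) r = l6pJ I b hs e0 θ r := rfl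
    rw [h3, h1]; exact h2
  have hmis := l6o_mis_p I H hM hθ hr
  have key := l6g_G3 I fspin hsp F cr (hr2 1 (right_mem_Icc.2 zero_le_one)) hz hc2 hG2 htr hΦ hmis hbhi hQ ha haQ
  -- from the distributions to the quantiles
  have hQ0 : 0 ≤ Q := ha.le.trans haQ
  have cS : MvQt (l6oS I b hs (l6pE b e0 θ) r) :=
    ⟨⟨l6o_S_mono I F cr, (l6o_S_mem I F cr (left_mem_Icc.2 zero_le_one)).1⟩, (l6o_S_mem I F cr (right_mem_Icc.2 zero_le_one)).2⟩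
  have cK := l6gK_clk F cr cS.1
  have qt := gl_det_qt_dist (K := l6gK b hs (l6pE b e0 θ) r (l6oS I b hs (l6pE b e0 θ) r)) (K' := t) hQ0
    (cK.1.mono Ioo_subset_Icc_self) (ht.1.mono Ioo_subset_Icc_self)
    (fun v hv => l6gK_mem F cr (hr2 1 (right_mem_Icc.2 zero_le_one)) cS hQ (Ioo_subset_Icc_self hv))
    (fun v hv => ⟨ht.nonneg (Ioo_subset_Icc_self hv), (ht.le_one (Ioo_subset_Icc_self hv)).trans htQ⟩)
  rw [qt] at key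
  have e1 : ∫ u in (0:ℝ)..1, |(l6pH b hs e0 θ r u + l6pB b e0 θ u * I.S (l6pB b e0 θ) (l6pH b hs e0 θ r) u) - t u|
      = ∫ v in (0:ℝ)..1, |l6gK b hs (l6pE b e0 θ) r (l6oS I b hs (l6pE b e0 θ) r) v - t v| := rfl
  rw [e1]
  refine key.trans ?_
  have hη : 0 ≤ l6gEta b κ M c C x := by
    unfold l6gEta l6pLoss
    have h1 : 0 < x ^ (1 / 100 : ℝ) := Real.rpow_pos_of_pos hx _
    have h2 : 0 ≤ b 1 := by linarith
    have h3 := H.κ_pos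
    have h4 : 0 < M := by linarith
    positivity
  have hem : e0 ≤ (1 - θ) * e0 + θ * b 0 := by
    have : θ * e0 ≤ θ * b 0 := mul_le_mul_of_nonneg_left H.e0_le hθ.1
    linarith
  have h5 : Real.sqrt (l6gEta b κ M c C x / ((1 - θ) * e0 + θ * b 0)) ≤ Real.sqrt (l6gEta b κ M c C x / e0) :=
    Real.sqrt_le_sqrt (div_le_div_of_nonneg_left hη H.e0_pos hem)
  have h6 := mul_le_mul_of_nonneg_left h5 (by positivity : (0:ℝ) ≤ C * 2)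
  unfold l6gEta at h6 ⊢
  linarith

/-! ## (c2) the powers of `x` -/

theorem l6g_sqrt_mul_pow {u y : ℝ} (hy : 0 ≤ y) (k : ℕ) : Real.sqrt (u * y ^ (2 * k)) = Real.sqrt u * y ^ k := by
  rw [Real.sqrt_mul' _ (by positivity), pow_mul', Real.sqrt_sq (by positivity)]

/-- arithmetic of the right side of `l6g_G3_p` at `y = x^(1/800)`, `a = y²` -/
theorem l6g_pow_bound {y η κ M e0 Q c2 C A1 : ℝ} (hy : 0 < y) (hy1 : y ≤ 1) (hA1 : 0 ≤ A1) (hη : η ≤ A1 * y ^ 8)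
    (hκ : κ ≤ y ^ 8) (hM' : 1 / M ^ 2 ≤ y ^ 8) (he0 : y ^ 4 ≤ e0) (hQ : 0 ≤ Q) (hc2 : 0 < c2) (hC : 0 ≤ C)
    (hsmall : (3 + 2 * Real.sqrt (Q * (A1 / c2)) + C * (3 + 2 * Real.sqrt A1)) * y ≤ 1) :
    3 * y ^ 2 + 2 / y ^ 2 * Real.sqrt (Q * (η / c2)) + C * (Real.sqrt (1 / M ^ 2 + 8 * κ) + 2 * Real.sqrt (η / e0)) ≤ y := by
  have hy4 : 0 < y ^ 4 := by positivity
  have hy2 : 0 < y ^ 2 := by positivity
  have he0' : 0 < e0 := hy4.trans_le he0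
  have t1 : Real.sqrt (Q * (η / c2)) ≤ Real.sqrt (Q * (A1 / c2)) * y ^ 4 := by
    rw [← l6g_sqrt_mul_pow hy.le 4]
    apply Real.sqrt_le_sqrt
    have : η / c2 ≤ A1 * y ^ 8 / c2 := div_le_div_of_nonneg_right hη hc2.le
    calc Q * (η / c2) ≤ Q * (A1 * y ^ 8 / c2) := mul_le_mul_of_nonneg_left this hQ
      _ = Q * (A1 / c2) * y ^ (2 * 4) := by ring
  have t2 : Real.sqrt (1 / M ^ 2 + 8 * κ) ≤ 3 * y ^ 4 := by
    have : Real.sqrt (9 * y ^ (2 * 4)) = 3 * y ^ 4 := by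
      rw [l6g_sqrt_mul_pow hy.le 4]
      congr 1
      rw [show (9:ℝ) = 3 ^ 2 by norm_num, Real.sqrt_sq (by norm_num)]
    rw [← this]
    apply Real.sqrt_le_sqrt
    have e : y ^ (2 * 4) = y ^ 8 := by norm_num
    rw [e]
    linarith
  have t3 : Real.sqrt (η / e0) ≤ Real.sqrt A1 * y ^ 2 := by
    rw [← l6g_sqrt_mul_pow hy.le 2]
    apply Real.sqrt_le_sqrt
    rw [div_le_iff₀ he0']
    calc η ≤ A1 * y ^ 8 := hη
      _ = A1 * y ^ (2 * 2) * y ^ 4 := by ring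
      _ ≤ A1 * y ^ (2 * 2) * e0 := mul_le_mul_of_nonneg_left he0 (by positivity)
  have t4 : y ^ 4 ≤ y ^ 2 := pow_le_pow_of_le_one hy.le hy1 (by norm_num)
  have s1 : 2 / y ^ 2 * Real.sqrt (Q * (η / c2)) ≤ 2 * Real.sqrt (Q * (A1 / c2)) * y ^ 2 := by
    calc 2 / y ^ 2 * Real.sqrt (Q * (η / c2)) ≤ 2 / y ^ 2 * (Real.sqrt (Q * (A1 / c2)) * y ^ 4) :=
          mul_le_mul_of_nonneg_left t1 (by positivity)
      _ = 2 * Real.sqrt (Q * (A1 / c2)) * y ^ 2 := by field_simp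
  have s2 : C * (Real.sqrt (1 / M ^ 2 + 8 * κ) + 2 * Real.sqrt (η / e0)) ≤ C * (3 + 2 * Real.sqrt A1) * y ^ 2 := by
    calc C * (Real.sqrt (1 / M ^ 2 + 8 * κ) + 2 * Real.sqrt (η / e0)) ≤ C * (3 * y ^ 2 + 2 * (Real.sqrt A1 * y ^ 2)) :=
          mul_le_mul_of_nonneg_left (by linarith) hC
      _ = C * (3 + 2 * Real.sqrt A1) * y ^ 2 := by ring
  have s3 := mul_le_mul_of_nonneg_right hsmall hy.le
  calc 3 * y ^ 2 + 2 / y ^ 2 * Real.sqrt (Q * (η / c2)) + C * (Real.sqrt (1 / M ^ 2 + 8 * κ) + 2 * Real.sqrt (η / e0))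
      ≤ 3 * y ^ 2 + 2 * Real.sqrt (Q * (A1 / c2)) * y ^ 2 + C * (3 + 2 * Real.sqrt A1) * y ^ 2 := by linarith
    _ = (3 + 2 * Real.sqrt (Q * (A1 / c2)) + C * (3 + 2 * Real.sqrt A1)) * y * y := by ring
    _ ≤ 1 * y := s3
    _ = y := one_mul y

/-- powers of `x` in terms of `y = x^(1/800)` -/
theorem l6g_pow_y {x : ℝ} (hx : 0 < x) (k : ℕ) : x ^ ((k : ℝ) / 800) = (x ^ (1 / 800 : ℝ)) ^ k := by
  rw [← Real.rpow_natCast, ← Real.rpow_mul hx.le]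
  congr 1
  ring

/-! ## (c3) the exit -/

/-- a trial `z` whose scalar path is a clock is integrable -/
theorem l6g_z_int {b hs z : ℝ → ℝ} {c : ℝ} (hc : 0 < c) (hb : MvClk b) (hb0 : c ≤ b 0) (hh : MvClk hs)
    (hK : MvClk (fun u => hs u + b u * z u)) : IntervalIntegrable z volume 0 1 := by
  have hpos : ∀ u ∈ Icc (0:ℝ) 1, 0 < b u := fun u hu => hc.trans_le (hb0.trans (hb.1 (left_mem_Icc.2 zero_le_one) hu hu.1))
  have mi : MvBM (fun u => 1 / b u) := MvBM.of_anti fun u hu v hv huv =>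
    one_div_le_one_div_of_le (hpos u hu) (hb.1 hu hv huv)
  have m1 : MvBM (fun u => ((hs u + b u * z u) - hs u) * (1 / b u)) := (hK.bm.sub hh.bm).mul mi
  refine (intervalIntegrable_congr ?_).1 m1.ii01
  intro u hu
  rw [uIoc_of_le zero_le_one] at hu
  have := (hpos u (Ioc_subset_Icc_self hu)).ne'
  simp only
  field_simp
  ring

/-- the size of the dyad dominates `1/x` -/
theorem ll06_m_ge {p : LlPt} (hN : 2 ≤ p.N) (hx8 : p.x ≤ 1 / 8) {m : ℕ} (hm : p.N ≤ 2 * m) : 1 / p.x ≤ (m : ℝ) := by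
  have hx := lkk_x_pos hN
  have hN0 : (0:ℝ) ≤ (p.N : ℝ) := Nat.cast_nonneg _
  have e : (p.N : ℝ) = (1 / p.x) ^ 6 := by
    rw [one_div, ← Real.rpow_neg_one, LlPt.x, ← Real.rpow_mul hN0, ← Real.rpow_natCast, ← Real.rpow_mul hN0]
    norm_num
  have hX : 8 ≤ 1 / p.x := by
    rw [le_div_iff₀ hx]; linarith
  have h5 : (2:ℝ) ≤ (1 / p.x) ^ 5 := by
    calc (2:ℝ) ≤ 8 ^ 5 := by norm_num
      _ ≤ (1 / p.x) ^ 5 := pow_le_pow_left₀ (by norm_num) hX 5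
  have h6 : 2 * (1 / p.x) ≤ (p.N : ℝ) := by
    rw [e]
    calc 2 * (1 / p.x) ≤ (1 / p.x) ^ 5 * (1 / p.x) := mul_le_mul_of_nonneg_right h5 (by positivity)
      _ = (1 / p.x) ^ 6 := by ring
  have h7 : (p.N : ℝ) ≤ 2 * (m : ℝ) := by exact_mod_cast hm
  linarith

/-- **(G3)** (06 l.207-316): `c1 = 1/800` BEFORE `dg ≤ 1/200`.      TEX[LL:global:trial-gap] -/
theorem ll06_g3 (𝔹 : LlBase) (F0 : LlFix) (hP : LlcP 𝔹 F0) (hG2 : Ll06G2Exit 𝔹 F0) : Ll06G3Exit 𝔹 F0 := by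
  refine ⟨1 / 800, 1 / 200, by norm_num, by norm_num, fun dg hdg hdg1 sS eta pS hE => ?_⟩
  obtain ⟨c2, Q0, hc2, hQ0, hG⟩ := hG2
  have hG' := hG sS eta pS hE
  obtain ⟨c, C, hc, hok⟩ := ll06_ok (hP sS eta pS hE).sec3
  set F := F0.wExp sS eta pS with hF
  set A1 : ℝ := (1 + 12 * C * (2 * C / c)) + 3 / 2 * |C| * 17 with hA1
  set A2 : ℝ := 3 + 2 * Real.sqrt (Q0 * (A1 / c2)) + |C| * (3 + 2 * Real.sqrt A1) with hA2
  have hA2pos : 0 < A2 := by positivity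
  have hU := ((hok dg hdg).and hG').and (ll06_unif_pow F (s := 1 / 800) (ε := min (1 / A2) Q0) (by norm_num) (by positivity))
  refine hU.mono fun p hp h hsm m hm1 hm2 θ hθ r hr => ?_
  obtain ⟨⟨P, G⟩, hy⟩ := h
  have P := P hsm
  have G := G hsm
  have hx := P.x0
  have hx1 : p.x ≤ 1 := by linarith [P.x1]
  set y := p.x ^ (1 / 800 : ℝ) with hydef
  have hy0 : 0 < y := Real.rpow_pos_of_pos hx _
  have hy1 : y ≤ 1 := Real.rpow_le_one hx.le hx1 (by norm_num)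
  have H := P.ok
  have h01 : p.bN F 𝔹 0 ≤ p.bN F 𝔹 1 := H.hb.le_one (left_mem_Icc.2 zero_le_one)
  have hC : 0 < C := hc.trans_le (P.b_lo.trans (h01.trans P.b_hi))
  have hCabs : |C| = C := abs_of_pos hC
  -- end values from (G2) at `z = 2`
  have G2' := (G (fun _ => 2) (fun _ _ => by norm_num) intervalIntegrable_const (H.hh.add (H.hb.mul (MvClk.const (by norm_num))))).1 1
    (right_mem_Icc.2 zero_le_one)
  -- the shape `L6G2`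
  have hL : L6G2 macSpin (p.bN F 𝔹) (p.hN F 𝔹) (p.tN F 𝔹) (mvG macSpin (p.bN F 𝔹) (p.hN F 𝔹) (p.qN F 𝔹)) c2 Q0 := by
    intro z hK hz
    exact (G z hz (l6g_z_int hc H.hb P.b_lo H.hh hK) hK).2
  have key := l6g_G3_p (macI m) macSpin (macI_spin m) H P.M2 ⟨hθ.1.le, hθ.2.le⟩ hr hc P.b_lo P.b_hi P.e0_le hc2 hL
    (by linarith [G2'.2]) hx hx1 (ll06_m_ge hp.N2 P.x1 hm1) (a := y ^ 2) (by positivity)
    ((pow_le_of_le_one hy0.le hy1 (by norm_num)).trans (hy.trans (min_le_right _ _))) P.t_clk G2'.1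
  refine key.trans ?_
  -- powers
  have pw : ∀ s : ℝ, 1 / 100 ≤ s → p.x ^ s ≤ y ^ 8 := by
    intro s hs
    have : y ^ 8 = p.x ^ (1 / 100 : ℝ) := by
      rw [hydef, ← l6g_pow_y hx 8]; norm_num
    rw [this]
    exact Real.rpow_le_rpow_of_exponent_ge hx hx1 hs
  have hκ : p.kapG ≤ y ^ 8 := pw _ (by norm_num)
  have hMi : 1 / p.McG ≤ y ^ 8 := by
    have : 1 / p.McG = p.x ^ (10 : ℝ) := by
      rw [LlPt.McG, Real.rpow_neg hx.le, one_div, inv_inv]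
    rw [this]; exact pw _ (by norm_num)
  have hMi2 : 1 / p.McG ^ 2 ≤ y ^ 8 := by
    have h2 : 1 / p.McG ^ 2 = (1 / p.McG) * (1 / p.McG) := by ring
    have h3 : 0 ≤ 1 / p.McG := by have := P.M2; positivity
    have h4 : 1 / p.McG ≤ 1 := hMi.trans (pow_le_one₀ hy0.le hy1)
    rw [h2]
    calc 1 / p.McG * (1 / p.McG) ≤ 1 / p.McG * 1 := mul_le_mul_of_nonneg_left h4 h3
      _ ≤ y ^ 8 := by rw [mul_one]; exact hMi
  have he0 : y ^ 4 ≤ p.e0G dg := by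
    have : y ^ 4 = p.x ^ (1 / 200 : ℝ) := by
      rw [hydef, ← l6g_pow_y hx 4]; norm_num
    rw [this]
    exact Real.rpow_le_rpow_of_exponent_ge hx hx1 hdg1
  have hη : l6gEta (p.bN F 𝔹) p.kapG p.McG c C p.x ≤ A1 * y ^ 8 := by
    unfold l6gEta l6pLoss
    have h1 : p.x ^ (1 / 100 : ℝ) ≤ y ^ 8 := pw _ le_rfl
    have h2 : 0 ≤ 1 + 12 * C * (2 * C / c) := by positivity
    have h3 := mul_le_mul_of_nonneg_left h1 h2
    have h4 : 16 * p.kapG + 1 / p.McG ≤ 17 * y ^ 8 := by linarith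
    have h5 : 0 ≤ p.bN F 𝔹 1 := by linarith [P.b_lo]
    have h6 : 3 / 2 * p.bN F 𝔹 1 * (16 * p.kapG + 1 / p.McG) ≤ 3 / 2 * C * (17 * y ^ 8) :=
      mul_le_mul (by linarith [P.b_hi]) h4 (by have := H.κ_pos; have := P.M2; positivity) (by positivity)
    rw [hA1, hCabs]
    nlinarith
  have hsm' : A2 * y ≤ 1 := by
    have := hy.trans (min_le_left _ _)
    rw [le_div_iff₀ hA2pos] at this
    linarith
  have := l6g_pow_bound (η := l6gEta (p.bN F 𝔹) p.kapG p.McG c C p.x) (κ := p.kapG) (M := p.McG) (e0 := p.e0G dg) (Q := Q0) (c2 := c2)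
    (C := C) (A1 := A1) hy0 hy1 (by rw [hA1]; positivity) hη hκ hMi2 he0 hQ0.le hc2 hC.le (by rw [hA2, hCabs] at hsm'; exact hsm')
  exact this

theorem ll06_g3exit_eqns_cite : True := by
  have := @l6gEta.eq_1
  trivial

end

end Claimed.Agent.R286
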