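import Claimed.Agent.R286.LL06.Conc
import Claimed.Agent.R286.LL06.G3Exit

/-!
# Row 286 (S0533), LL Section 6: THE DETERMINISTIC GEOMETRY AT A MINIMISER = INSTANCE OF `L6cGeo` (130, `LL06/Conc.lean`)      (owner helper261, co-architect LL06 under 291; 0 sorry)

TEX[LL:global:trial-gap] 06-global.tex l.318-331 (LOC, MASS, ROOM), l.444-470 (BAND, FLOOR).      Vocabulary: `LL06/Contract.lean` (291), `LL06/PhiDefs.lean` (58), `LL06/Pot.lean`, `LL06/G3.lean`, `LL06/G3Exit.lean` (261), `Glob/Det.lean` (292).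
* (a) `l6c_levy_hi`, `l6c_levy_lo`: two clocks with `INT |K - t| ≤ ε` satisfy `t (u - w) - ε / w ≤ K u ≤ t (u + w) + ε / w`.
* (b) `l6cNF H` = nonfloor radii of a potential (`IsClosed`, measurable), `l6c_floor_inc` (FLOOR), `l6c_exists_nf` (a mass `> 2 κ` meets the nonfloor set).
* (c) `l6c_band` (BAND, raw form).      (d) **`l6c_geo`** = `L6cGeo` from `GlPot`, non-asymptotic; `L6cGeo.mono`.      (e) `l6c_geo_p` = the same on `L6pOk` / `L6pMin`, masses `v1 = (4 C / ct) δ`, the smallness conditions one by one.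
* (f) `Ll06Sl`, `ll06_slopes`: slopes of `tN`, `hN` at the direct points from (P2), (P4).
* (g) **`ll06_geo`** : `LlcP 𝔹 F0 → Ll06G3Exit 𝔹 F0 → Ll06GeoExit 𝔹 F0`   (`δ = x^ag`, `hh = x^ah`, ANY `0 < ag ≤ a1 = min (c1/4) 1`, `ag < ah ≤ 10`; constants `Cl, cv, C1` after the exponents, BEFORE `ag, ah, dg`);
      `ll06_geo_pow` = the same in pure powers (`ηL = x^(ah - sl)`, `vmin = x^(ag + sl)`, `C1 = x^(-sl)`, any slack `sl > 0`).      CONSUMER: 130 (`LL06/ConcTop.lean`, `ll06_conc`).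
-/

set_option autoImplicit false

namespace Claimed.Agent.R286

open MeasureTheory Set Filter Topology

noncomputable section


/-! ## (a) Levy bounds for two clocks which are close in `L¹` -/

theorem l6c_abs_ii {K t : ℝ → ℝ} (hK : MvClk K) (ht : MvClk t) {x y : ℝ} (hx : x ∈ Icc (0:ℝ) 1) (hy : y ∈ Icc (0:ℝ) 1) :
    IntervalIntegrable (fun v => |K v - t v|) volume x y :=
  ((hK.bm.sub ht.bm).comp continuous_abs).ii hx hy

/-- the integral over a subinterval is at most the whole integral -/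
theorem l6c_abs_sub {K t : ℝ → ℝ} (hK : MvClk K) (ht : MvClk t) {ε x y : ℝ} (hε : ∫ v in (0:ℝ)..1, |K v - t v| ≤ ε)
    (hx : 0 ≤ x) (hxy : x ≤ y) (hy : y ≤ 1) : ∫ v in x..y, |K v - t v| ≤ ε := by
  have hxI : x ∈ Icc (0:ℝ) 1 := ⟨hx, hxy.trans hy⟩
  have hyI : y ∈ Icc (0:ℝ) 1 := ⟨hx.trans hxy, hy⟩
  have h0 : (0:ℝ) ∈ Icc (0:ℝ) 1 := by simp
  have h1 : (1:ℝ) ∈ Icc (0:ℝ) 1 := by simp
  have a1 := intervalIntegral.integral_add_adjacent_intervals (l6c_abs_ii hK ht h0 hxI) (l6c_abs_ii hK ht hxI hyI)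
  have a2 := intervalIntegral.integral_add_adjacent_intervals (l6c_abs_ii hK ht h0 hyI) (l6c_abs_ii hK ht hyI h1)
  have n1 : 0 ≤ ∫ v in (0:ℝ)..x, |K v - t v| := intervalIntegral.integral_nonneg hx fun _ _ => abs_nonneg _
  have n2 : 0 ≤ ∫ v in y..1, |K v - t v| := intervalIntegral.integral_nonneg hy fun _ _ => abs_nonneg _
  linarith

/-- **Levy, upper half**: `K u ≤ t (u + w) + ε / w` -/
theorem l6c_levy_hi {K t : ℝ → ℝ} (hK : MvClk K) (ht : MvClk t) {ε u w : ℝ} (hε : ∫ v in (0:ℝ)..1, |K v - t v| ≤ ε)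
    (hu : 0 ≤ u) (hw : 0 < w) (huw : u + w ≤ 1) : K u ≤ t (u + w) + ε / w := by
  have huI : u ∈ Icc (0:ℝ) 1 := ⟨hu, by linarith⟩
  have hwI : u + w ∈ Icc (0:ℝ) 1 := ⟨by linarith, huw⟩
  have h1 : ∫ _v in u..(u + w), (K u - t (u + w)) ≤ ∫ v in u..(u + w), |K v - t v| := by
    refine intervalIntegral.integral_mono_on (by linarith) intervalIntegrable_const (l6c_abs_ii hK ht huI hwI) fun v hv => ?_
    have hvI : v ∈ Icc (0:ℝ) 1 := ⟨hu.trans hv.1, hv.2.trans huw⟩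
    have e1 := hK.1 huI hvI hv.1
    have e2 := ht.1 hvI hwI hv.2
    have e3 := le_abs_self (K v - t v)
    linarith
  have h2 := l6c_abs_sub hK ht hε hu (by linarith : u ≤ u + w) huw
  rw [intervalIntegral.integral_const, smul_eq_mul] at h1
  have h3 : w * (K u - t (u + w)) ≤ ε := by
    have : u + w - u = w := by ring
    rw [this] at h1
    linarith
  have h4 : K u - t (u + w) ≤ ε / w := by
    rw [le_div_iff₀ hw]; linarith
  linarith

/-- **Levy, lower half**: `t (u - w) - ε / w ≤ K u` -/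
theorem l6c_levy_lo {K t : ℝ → ℝ} (hK : MvClk K) (ht : MvClk t) {ε u w : ℝ} (hε : ∫ v in (0:ℝ)..1, |K v - t v| ≤ ε)
    (hu : u ≤ 1) (hw : 0 < w) (huw : 0 ≤ u - w) : t (u - w) - ε / w ≤ K u := by
  have huI : u ∈ Icc (0:ℝ) 1 := ⟨by linarith, hu⟩
  have hwI : u - w ∈ Icc (0:ℝ) 1 := ⟨huw, by linarith⟩
  have h1 : ∫ _v in (u - w)..u, (t (u - w) - K u) ≤ ∫ v in (u - w)..u, |K v - t v| := by
    refine intervalIntegral.integral_mono_on (by linarith) intervalIntegrable_const (l6c_abs_ii hK ht hwI huI) fun v hv => ?_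
    have hvI : v ∈ Icc (0:ℝ) 1 := ⟨huw.trans hv.1, hv.2.trans hu⟩
    have e1 := hK.1 hvI huI hv.2
    have e2 := ht.1 hwI hvI hv.1
    have e3 := neg_abs_le (K v - t v)
    linarith
  have h2 := l6c_abs_sub hK ht hε huw (by linarith : u - w ≤ u) hu
  rw [intervalIntegral.integral_const, smul_eq_mul] at h1
  have h3 : w * (t (u - w) - K u) ≤ ε := by
    have : u - (u - w) = w := by ring
    rw [this] at h1
    linarith
  have h4 : t (u - w) - K u ≤ ε / w := by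
    rw [le_div_iff₀ hw]; linarith
  linarith


/-! ## (b) the nonfloor set of a potential -/

/-- the nonfloor radii of a potential `H` -/
def l6cNF (H : ℝ → ℝ) : Set ℝ := {s | s ∈ Icc (0:ℝ) 2 ∧ H s ≤ 0}

theorem l6cNF_eqns_cite : True := by
  have := @l6cNF.eq_1
  trivial

section pot

variable {κ M em ep : ℝ} {a St e' H al : ℝ → ℝ}

/-- a potential is continuous on `[0,2]` -/
theorem l6c_H_cont (P : GlPot κ M em ep a St e' H) : ContinuousOn H (Icc (0:ℝ) 2) := by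
  have h02 : (0:ℝ) ≤ 2 := by norm_num
  have h1 : ContinuousOn (fun t => H 0 + ∫ u in (0:ℝ)..t, e' u * (u - St u)) (Icc (0:ℝ) 2) := by
    have := intervalIntegral.continuousOn_primitive_interval (μ := volume) (f := fun u => e' u * (u - St u)) (a := 0) (b := 2)
      (by rw [uIcc_of_le h02]; exact (intervalIntegrable_iff_integrableOn_Icc_of_le h02).1 P.phi_int)
    rw [uIcc_of_le h02] at this
    exact continuousOn_const.add this
  refine h1.congr fun t ht => ?_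
  have := P.H_eq 0 (by simp) t ht
  simp only
  linarith

theorem l6c_NF_closed (P : GlPot κ M em ep a St e' H) : IsClosed (l6cNF H) := by
  have := (l6c_H_cont P).preimage_isClosed_of_isClosed isClosed_Icc (isClosed_Iic (a := (0:ℝ)))
  exact this

theorem l6c_NF_meas (P : GlPot κ M em ep a St e' H) : MeasurableSet (l6cNF H) := (l6c_NF_closed P).measurableSet

/-- **FLOOR**: `al' = κ` off the nonfloor set -/
theorem l6c_floor_inc (Cv : Tl106Cov al a 0 2) (P : GlPot κ M em ep a St e' H) {s t : ℝ} (hs : 0 ≤ s) (hst : s ≤ t) (ht : t ≤ 2)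
    (hfl : ∀ x ∈ Icc s t, x ∉ l6cNF H) : al t - al s ≤ κ * (t - s) := by
  rw [Cv.prim s t hs hst ht]
  have e1 : ∫ x in s..t, a x = ∫ _x in s..t, κ := by
    refine intervalIntegral.integral_congr_ae ?_
    filter_upwards [P.bang_pos] with x hx hmem
    rw [uIoc_of_le hst] at hmem
    have hxI : x ∈ Icc (0:ℝ) 2 := ⟨hs.trans hmem.1.le, hmem.2.trans ht⟩
    refine hx hxI ?_
    by_contra hcon
    exact hfl x ⟨hmem.1.le, hmem.2⟩ ⟨hxI, not_lt.1 hcon⟩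
  rw [e1, intervalIntegral.integral_const, smul_eq_mul]
  linarith [mul_comm κ (t - s)]

/-- between two radii whose masses differ by more than `2 κ` there is a nonfloor radius -/
theorem l6c_exists_nf (Cv : Tl106Cov al a 0 2) (P : GlPot κ M em ep a St e' H) (hκ : 0 ≤ κ) {s t : ℝ} (hs : 0 ≤ s) (hst : s ≤ t) (ht : t ≤ 2)
    (hm : 2 * κ < al t - al s) : ∃ x ∈ Icc s t, x ∈ l6cNF H := by
  by_contra hcon
  push Not at hcon
  have h1 := l6c_floor_inc Cv P hs hst ht hcon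
  have h2 : κ * (t - s) ≤ κ * 2 := mul_le_mul_of_nonneg_left (by linarith) hκ
  linarith

end pot

/-! ## (c) BAND -/

/-- **BAND**, raw form: a nonfloor radius whose mass lies in `[v1, 2 v1]`, with the two bounds which the Levy bounds give.      TEX[LL:global:trial-gap] -/
theorem l6c_band {n : ℕ} (I : MvIface n) {κ M em ep : ℝ} {b hs e al r a H t : ℝ → ℝ} (F : L6Fr κ M em ep b hs e)
    (B : TlBox (fun _ => κ) (fun _ => M) 0 2 0 1 al) (Qr : TlQ al 0 2 0 1 r) (Cv : Tl106Cov al a 0 2)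
    (P : GlPot κ M em ep a (fun s => l6oS I b hs e r (al s)) (fun s => e (al s)) H) (ht : MvClk t)
    {ε1 v1 bm Bm : ℝ} (hε : ∫ v in (0:ℝ)..1, |l6gK b hs e r (l6oS I b hs e r) v - t v| ≤ ε1)
    (hv1 : 0 < v1) (hv3 : 3 * v1 ≤ 1) (hκv : 2 * κ < v1) (hb : ∀ v ∈ Icc (0:ℝ) 1, bm ≤ b v) (hB : b 1 ≤ Bm) :
    ∃ sa ∈ l6cNF H, t (v1 / 2) - 2 * ε1 / v1 - hs (2 * v1) - Bm / M ≤ Bm * sa ∧ bm * sa ≤ t (3 * v1) + ε1 / v1 + Bm / M := by
  have O := l6o_ok M F.hκ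
  have hMp := F.M_pos
  have hr : MvClk r := ⟨Qr.monoOn B O, (Qr.left B O).ge⟩
  have cE : MvClk (fun v => hs v + e v * r v) := F.hsC.add (F.eC.mul hr)
  have hSq : MvQt (l6oS I b hs e r) :=
    ⟨⟨I.S_mono _ _ F.btC cE, (I.S_mem _ _ F.btC cE 0 (by simp)).1⟩, (I.S_mem _ _ F.btC cE 1 (by simp)).2⟩
  have cK : MvClk (l6gK b hs e r (l6oS I b hs e r)) := l6gK_clk F hr hSq.1
  have i1 : v1 ∈ Icc (0:ℝ) 1 := ⟨hv1.le, by linarith⟩
  have i2 : 2 * v1 ∈ Icc (0:ℝ) 1 := ⟨by linarith, by linarith⟩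
  have i3 : 3 * v1 ∈ Icc (0:ℝ) 1 := ⟨by linarith, hv3⟩
  have ih : v1 / 2 ∈ Icc (0:ℝ) 1 := ⟨by linarith, by linarith⟩
  have m1 := Qr.mem _ i1
  have m2 := Qr.mem _ i2
  have h12 : r v1 ≤ r (2 * v1) := Qr.monoOn B O i1 i2 (by linarith)
  obtain ⟨sa, hsa, hNF⟩ := l6c_exists_nf Cv P F.hκ.le m1.1 h12 m2.2 (by rw [Qr.al_r _ i1, Qr.al_r _ i2]; linarith)
  have hsaI : sa ∈ Icc (0:ℝ) 2 := hNF.1
  refine ⟨sa, hNF, ?_, ?_⟩
  all_goals
    have hu1 : v1 ≤ al sa := by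
      have := B.monoOn O m1 hsaI hsa.1
      rwa [Qr.al_r _ i1] at this
    have hu2 : al sa ≤ 2 * v1 := by
      have := B.monoOn O hsaI m2 hsa.2
      rwa [Qr.al_r _ i2] at this
    have huI : al sa ∈ Icc (0:ℝ) 1 := ⟨by linarith, by linarith⟩
    have hru : r (al sa) = sa := Qr.r_al B O hsaI
    have hS := abs_le.1 (P.nonfloor_abs hsaI hNF.2)
    have hbe : 0 ≤ b (al sa) - e (al sa) := F.btC.nonneg huI
    have he0 : 0 ≤ e (al sa) := F.eC.nonneg huI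
    have hbB : b (al sa) ≤ Bm := by
      have h1 := F.btC.le_one huI
      have h2 := F.eC.le_one huI
      linarith
    have hKu : l6gK b hs e r (l6oS I b hs e r) (al sa) = hs (al sa) + e (al sa) * sa + (b (al sa) - e (al sa)) * l6oS I b hs e r (al sa) := by
      simp only [l6gK]; rw [hru]
    have hiM : 0 < 1 / M := by positivity
    have hBM : (b (al sa) - e (al sa)) * (1 / M) ≤ Bm / M := by
      rw [div_eq_mul_one_div Bm M]
      exact mul_le_mul_of_nonneg_right (by linarith) hiM.le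
  · have L := l6c_levy_lo cK ht hε huI.2 (half_pos hv1) (by linarith : 0 ≤ al sa - v1 / 2)
    have e1 : t (v1 / 2) ≤ t (al sa - v1 / 2) := ht.1 ih ⟨by linarith, by linarith⟩ (by linarith)
    have e2 : ε1 / (v1 / 2) = 2 * ε1 / v1 := by field_simp
    have e3 : hs (al sa) ≤ hs (2 * v1) := F.hsC.1 huI i2 hu2
    have e4 : (b (al sa) - e (al sa)) * l6oS I b hs e r (al sa) ≤ (b (al sa) - e (al sa)) * (sa + 1 / M) :=
      mul_le_mul_of_nonneg_left (by linarith [hS.2]) hbe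
    have e5 : b (al sa) * sa ≤ Bm * sa := mul_le_mul_of_nonneg_right hbB hsaI.1
    rw [e2, hKu] at L
    nlinarith
  · have L := l6c_levy_hi cK ht hε huI.1 hv1 (by linarith : al sa + v1 ≤ 1)
    have e1 : t (al sa + v1) ≤ t (3 * v1) := ht.1 ⟨by linarith, by linarith⟩ i3 (by linarith)
    have e3 : 0 ≤ hs (al sa) := F.hsC.nonneg huI
    have e4 : (b (al sa) - e (al sa)) * (sa - 1 / M) ≤ (b (al sa) - e (al sa)) * l6oS I b hs e r (al sa) :=
      mul_le_mul_of_nonneg_left (by linarith [hS.1]) hbe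
    have e5 : bm * sa ≤ b (al sa) * sa := mul_le_mul_of_nonneg_right (hb _ huI) hsaI.1
    rw [hKu] at L
    nlinarith


/-! ## (d) the instance of `L6cGeo`, non-asymptotic -/

/-- `L6cGeo` is monotone in the three constants -/
theorem L6cGeo.mono {NF : Set ℝ} {St al : ℝ → ℝ} {κ δ hh ηL vmin C1 ηL' vmin' C1' : ℝ} (Y : L6cGeo NF St al κ δ hh ηL vmin C1)
    (hδ : 0 ≤ δ) (h1 : ηL ≤ ηL') (h2 : vmin' ≤ vmin) (h3 : C1 ≤ C1') : L6cGeo NF St al κ δ hh ηL' vmin' C1' := by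
  refine ⟨Y.al_mono, Y.al0, Y.sub, fun s0 h0 hd s hs hh' => (Y.loc s0 h0 hd s hs hh').trans h1,
    fun s0 h0 hd => h2.trans (Y.mass s0 h0 hd), ?_, Y.floor⟩
  obtain ⟨sa, ha, hb, hc⟩ := Y.band
  exact ⟨sa, ha, hb, hc.trans (mul_le_mul_of_nonneg_right h3 hδ)⟩

/-- **the deterministic geometry at a minimiser** (LL 06 l.318-331, l.444-470), non-asymptotic: LOC (`GlPot.loc`), MASS (`l6g_mass`), ROOM (`l6g_room`), BAND (`l6c_band`), FLOOR (`bang_pos`).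
(G3) enters in QUANTILE form through `hε`.      TEX[LL:global:trial-gap] -/
theorem l6c_geo {n : ℕ} (I : MvIface n) {κ M em ep : ℝ} {b hs e al r a H t : ℝ → ℝ} (F : L6Fr κ M em ep b hs e)
    (B : TlBox (fun _ => κ) (fun _ => M) 0 2 0 1 al) (Qr : TlQ al 0 2 0 1 r) (Cv : Tl106Cov al a 0 2)
    (P : GlPot κ M em ep a (fun s => l6oS I b hs e r (al s)) (fun s => e (al s)) H) (ht : MvClk t)
    {ε1 δ hh C' Ct bm Bm v1 C1 : ℝ} (hε : ∫ v in (0:ℝ)..1, |l6gK b hs e r (l6oS I b hs e r) v - t v| ≤ ε1)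
    (hM4 : 4 ≤ M) (hδ : 0 < δ) (hδ1 : δ ≤ 1) (hhM : 1 / M ≤ 3 * hh) (hC' : 2 + 8 * ep / em < C') (hsm : C' * (4 * hh) ≤ δ / 2)
    (hbm : 0 < bm) (hb : ∀ v ∈ Icc (0:ℝ) 1, bm ≤ b v) (hB : b 1 ≤ Bm)
    (hCt : 0 < Ct) (htC : ∀ v ∈ Ioo (0:ℝ) 1, t v ≤ Ct * v) (hηC : bm * δ / 2 ≤ Ct) (hε1 : ε1 < (bm * δ / 2) ^ 2 / (8 * Ct))
    (hv1 : 0 < v1) (hv3 : 3 * v1 ≤ 1) (hκv : 2 * κ < v1)
    (hlo : Bm * δ ≤ t (v1 / 2) - 2 * ε1 / v1 - hs (2 * v1) - Bm / M)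
    (hhi : t (3 * v1) + ε1 / v1 + Bm / M ≤ bm * (C1 * δ)) :
    L6cGeo (l6cNF H) (fun s => l6oS I b hs e r (al s)) al κ δ hh (C' * (4 * hh)) (bm * δ / (8 * Ct)) C1 := by
  have O := l6o_ok M F.hκ
  have hMp := F.M_pos
  have hiM : 0 < 1 / M := by positivity
  have hhp : 0 < hh := by linarith
  have hiM4 : 1 / M ≤ 1 / 4 := one_div_le_one_div_of_le (by norm_num) hM4
  have hr : MvClk r := ⟨Qr.monoOn B O, (Qr.left B O).ge⟩
  have hr2 : r 1 ≤ 2 := (Qr.mem 1 (by simp)).2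
  have cE : MvClk (fun v => hs v + e v * r v) := F.hsC.add (F.eC.mul hr)
  have hSq : MvQt (l6oS I b hs e r) :=
    ⟨⟨I.S_mono _ _ F.btC cE, (I.S_mem _ _ F.btC cE 0 (by simp)).1⟩, (I.S_mem _ _ F.btC cE 1 (by simp)).2⟩
  have cK : MvClk (l6gK b hs e r (l6oS I b hs e r)) := l6gK_clk F hr hSq.1
  have hC2 : 2 < C' := by
    have : 0 < 8 * ep / em := by
      have := P.ep_pos
      have := P.hem
      positivity
    linarith
  have hsub : ∀ s0 ∈ l6cNF H, s0 ≤ 5 / 4 := fun s0 h0 => by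
    have := l6g_room P h0.1 h0.2
    linarith
  have hBm : 0 < Bm := hbm.trans_le ((hb 1 (by simp)).trans hB)
  refine ⟨B.monoOn O, B.left, fun s0 h0 => ⟨h0.1.1, hsub s0 h0⟩, ?_, ?_, ?_, ?_⟩
  · intro s0 h0 hd s hs' habs
    exact P.loc h0.1 h0.2 (by linarith) hC' (by linarith [hsub s0 h0]) (by linarith) hs' habs
  · intro s0 h0 hd
    set Q := max (hs 1 + 2 * b 1) (t 1) with hQ
    have hQ1 : hs 1 + 2 * b 1 ≤ Q := le_max_left _ _
    have hQ2 : t 1 ≤ Q := le_max_right _ _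
    have hs1 : 0 ≤ hs 1 := F.hsC.nonneg (by simp)
    have hb1 : bm ≤ b 1 := hb 1 (by simp)
    have hQ0 : 0 ≤ Q := by linarith
    have qt := gl_det_qt_dist hQ0 (cK.1.mono Ioo_subset_Icc_self) (ht.1.mono Ioo_subset_Icc_self)
      (fun v hv => l6gK_mem F hr hr2 hSq hQ1 (Ioo_subset_Icc_self hv))
      (fun v hv => ⟨ht.nonneg (Ioo_subset_Icc_self hv), (ht.le_one (Ioo_subset_Icc_self hv)).trans hQ2⟩)
    have h3 : 3 * hh ≤ δ / 4 := by nlinarith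
    refine (l6g_mass I F B Qr P (s₁ := s0 - 3 * hh) (hh := 3 * hh) (C' := C') (C := Ct) (bm := bm) (Q := Q) (t := t) h0.1 h0.2 hδ hd hhM hC'
      (by nlinarith) ⟨by linarith, by linarith [hsub s0 h0]⟩ le_rfl hbm hb hCt htC hηC (by nlinarith) (by rw [qt]; linarith)).le
  · obtain ⟨sa, hNF, h1, h2⟩ := l6c_band I F B Qr Cv P ht hε hv1 hv3 hκv hb hB
    refine ⟨sa, hNF, ?_, ?_⟩
    · exact le_of_mul_le_mul_left (hlo.trans h1) hBm
    · exact le_of_mul_le_mul_left (h2.trans hhi) hbm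
  · intro s t' hs' hst ht' hfl
    exact l6c_floor_inc Cv P hs' hst ht' hfl


/-! ## (e) the same in the vocabulary of `LL06/PhiDefs.lean`, with the masses `v1 = (4 C / ct) δ` -/

/-- **geometry at a minimiser**, vocabulary of 58; the smallness conditions are listed one by one.
`c ≤ b ≤ C`; `ct v ≤ t v` and `hs v ≤ σ v` on `(0,v0]`; `t v ≤ Ct v` on `(0,1)`.      TEX[LL:global:trial-gap] -/
theorem l6c_geo_p {m : ℕ} (I : MvIface m) {b hs q t : ℝ → ℝ} {e0 κ M : ℝ} (H : L6pOk b hs q e0 κ M) {θ : ℝ} (hθ : θ ∈ Icc (0:ℝ) 1)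
    {r : ℝ → ℝ} (hr : L6pMin I b hs e0 κ M θ r) (ht : MvClk t) {c C ct Ct σ v0 ε1 δ hh : ℝ} (hc : 0 < c) (hblo : c ≤ b 0) (hbhi : b 1 ≤ C)
    (hε : ∫ u in (0:ℝ)..1, |(l6pH b hs e0 θ r u + l6pB b e0 θ u * I.S (l6pB b e0 θ) (l6pH b hs e0 θ r) u) - t u| ≤ ε1)
    (hct : 0 < ct) (hctC : ct ≤ Ct) (htlo : ∀ v ∈ Ioc 0 v0, ct * v ≤ t v) (hthi : ∀ v ∈ Ioo (0:ℝ) 1, t v ≤ Ct * v)
    (hσ : ∀ v ∈ Ioc 0 v0, hs v ≤ σ * v) (hσ1 : σ ≤ ct / 24)
    (hM4 : 4 ≤ M) (hδ : 0 < δ) (hδ1 : δ ≤ 1) (hhM : 1 / M ≤ 3 * hh) (hsm : (3 + 8 * (C / c)) * (4 * hh) ≤ δ / 2)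
    (hA1 : 4 * (4 * C / ct * δ) ≤ 1) (hA2 : 2 * (4 * C / ct * δ) ≤ v0) (hκ : 2 * κ < 4 * C / ct * δ) (hMδ : 3 / M ≤ δ)
    (hε1 : ε1 < (c * δ / 2) ^ 2 / (8 * Ct)) (hcC : c * δ / 2 ≤ Ct) :
    ∃ al : ℝ → ℝ, TlBox (fun _ => κ) (fun _ => M) 0 2 0 1 al ∧ TlQ al 0 2 0 1 r ∧ ∃ NF : Set ℝ, MeasurableSet NF ∧
      L6cGeo NF (fun s => I.S (l6pB b e0 θ) (l6pH b hs e0 θ r) (al s)) al κ δ hh ((3 + 8 * (C / c)) * (4 * hh)) (c * δ / (8 * Ct))
        ((12 * Ct * C / ct + C) / c) := by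
  have hM : 2 ≤ M := by linarith
  have hMp : 0 < M := by linarith
  have F := l6o_fr_of_p H hM hθ
  obtain ⟨al, hm⟩ := l6o_min_of_p hr
  obtain ⟨a, Hp, Cv, -, P⟩ := l6o_pot I F hm
  have h01 : b 0 ≤ b 1 := H.hb.le_one (left_mem_Icc.2 zero_le_one)
  have hC : 0 < C := hc.trans_le (hblo.trans (h01.trans hbhi))
  have hcC' : c ≤ C := hblo.trans (h01.trans hbhi)
  have hCt : 0 < Ct := hct.trans_le hctC
  have hb0 : 0 < b 0 := hc.trans_le hblo
  refine ⟨al, hm.box, hm.inv, l6cNF Hp, l6c_NF_meas P, ?_⟩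
  set v1 := 4 * C / ct * δ with hv1def
  have hv1 : 0 < v1 := by positivity
  have hratio : 2 + 8 * ((1 - θ) * e0 + θ * b 1) / ((1 - θ) * e0 + θ * b 0) < 3 + 8 * (C / c) := by
    have h1 := l6o_ratio_of_p H hθ
    have h2 : b 1 / b 0 ≤ C / c := div_le_div₀ hC.le hbhi hc hblo
    rw [mul_div_assoc]
    linarith
  have hctv : ct * v1 = 4 * C * δ := by rw [hv1def]; field_simp
  -- `ε1 / v1 ≤ C δ / 6`
  have hεv : ε1 / v1 ≤ C * δ / 6 := by
    rw [div_le_iff₀ hv1]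
    have e1 : (c * δ / 2) ^ 2 / (8 * Ct) ≤ (C * δ / 2) ^ 2 / (8 * ct) := by
      apply div_le_div₀ (by positivity) _ (by positivity) (by linarith)
      exact pow_le_pow_left₀ (by positivity) (by nlinarith) 2
    have e2 : (C * δ / 2) ^ 2 / (8 * ct) ≤ C * δ / 6 * v1 := by
      rw [hv1def, div_le_iff₀ (by positivity)]
      have : C * δ / 6 * (4 * C / ct * δ) * (8 * ct) = 16 / 3 * (C * δ) ^ 2 := by field_simp; ring
      rw [this]
      nlinarith [sq_nonneg (C * δ)]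
    linarith
  have hCM : C / M ≤ C * δ / 3 := by
    have : C / M = C * (3 / M) / 3 := by field_simp
    rw [this]
    exact div_le_div_of_nonneg_right (mul_le_mul_of_nonneg_left hMδ hC.le) (by norm_num)
  refine l6c_geo I F hm.box hm.inv Cv P ht (ε1 := ε1) (v1 := v1) (Bm := C) hε hM4 hδ hδ1 hhM hratio hsm hc
    (fun v hv => hblo.trans (H.hb.1 (left_mem_Icc.2 zero_le_one) hv hv.1)) hbhi hCt hthi hcC hε1 hv1 (by linarith) hκ ?_ ?_
  · have e1 := htlo (v1 / 2) ⟨by linarith, by linarith⟩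
    have e2 := hσ (2 * v1) ⟨by linarith, hA2⟩
    have e3 : σ * (2 * v1) ≤ ct / 24 * (2 * v1) := mul_le_mul_of_nonneg_right hσ1 (by linarith)
    have e4 : 2 * ε1 / v1 = 2 * (ε1 / v1) := by ring
    rw [e4]
    nlinarith
  · have e1 := hthi (3 * v1) ⟨by linarith, by linarith⟩
    have e2 : c * ((12 * Ct * C / ct + C) / c * δ) = 3 * Ct * v1 + C * δ := by
      rw [hv1def]; field_simp; ring
    rw [e2]
    nlinarith


/-! ## (f) the slopes of the normalised reference clocks at a direct point -/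

/-- initial slopes of the normalised scalar clock `tN` and of the normalised field `hN` -/
structure Ll06Sl (p : LlPt) (F : LlFix) (𝔹 : LlBase) (ct Ct Cs v0 : ℝ) : Prop where
  t_lo : ∀ v ∈ Ioc 0 v0, ct * v ≤ p.tN F 𝔹 v
  t_hi : ∀ v ∈ Ioo (0:ℝ) 1, p.tN F 𝔹 v ≤ Ct * v
  h_hi : ∀ v ∈ Ioc 0 v0, p.hN F 𝔹 v ≤ Cs * p.lam * v

/-- (P2) and (P4) after the normalisation `ℓ → 1` -/
theorem ll06_slopes {𝔹 : LlBase} {F : LlFix} (h3 : LlSec3 𝔹 F) :
    ∃ ct Ct Cs v0 : ℝ, 0 < ct ∧ ct ≤ Ct ∧ 0 ≤ Cs ∧ 0 < v0 ∧ LlUnif F fun p => p.sm = false → Ll06Sl p F 𝔹 ct Ct Cs v0 := by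
  obtain ⟨c', C', v0, hc', hv0, href⟩ := h3.ref
  obtain ⟨c4, C4, v4, hc4, hv4, hp4⟩ := h3.p4
  set w0 : ℝ := min (min v0 v4 / 2) (1 / 2) with hw0
  have hw0pos : 0 < w0 := by
    rw [hw0]; exact lt_min (by have := lt_min hv0 hv4; linarith) (by norm_num)
  have hw1 : 2 * w0 ≤ v0 := by
    have h1 : w0 ≤ min v0 v4 / 2 := min_le_left _ _
    have h2 : min v0 v4 ≤ v0 := min_le_left _ _
    linarith
  have hw2 : 2 * w0 ≤ v4 := by
    have h1 : w0 ≤ min v0 v4 / 2 := min_le_left _ _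
    have h2 : min v0 v4 ≤ v4 := min_le_right _ _
    linarith
  have hw3 : w0 ≤ 1 / 2 := min_le_right _ _
  refine ⟨c', max (4 * C' + 2 * 𝔹.xiS F.T / v0) c', 8 * |C4|, w0, hc', le_max_right _ _, by positivity, hw0pos, ?_⟩
  refine (href.and hp4).mono fun p hp h hsm => ?_
  obtain ⟨R, -, h4⟩ := h
  have hx := lkk_x_pos hp.N2
  have ha : p.a = p.ell := by simp [LlPt.a, hsm]
  have hell : 1 ≤ p.a := by rw [ha]; exact hp.ell1
  have ha0 : 0 < p.a := by linarith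
  have ha2 : p.a ^ 2 ≤ 2 := by
    rw [ha]
    have h1 : p.ell ^ 2 ≤ ((2:ℝ) ^ (1 / 6 : ℝ)) ^ 2 := pow_le_pow_left₀ (by linarith [hp.ell1]) hp.ell2 2
    have h2 : ((2:ℝ) ^ (1 / 6 : ℝ)) ^ 2 = (2:ℝ) ^ (1 / 3 : ℝ) := by
      rw [← Real.rpow_natCast, ← Real.rpow_mul (by norm_num)]; norm_num
    have h3 : (2:ℝ) ^ (1 / 3 : ℝ) ≤ (2:ℝ) ^ (1 : ℝ) := Real.rpow_le_rpow_of_exponent_le (by norm_num) (by norm_num)
    rw [Real.rpow_one] at h3
    linarith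
  have ha1 : 1 ≤ p.a ^ 2 := one_le_pow₀ hell
  have hale2 : p.a ≤ 2 := by nlinarith
  have ha3 : p.a ^ 2 * p.a ≤ 4 := by nlinarith
  have ha3' : 1 ≤ p.a ^ 2 * p.a := by nlinarith
  have hlam : 0 < p.lam := (Real.rpow_pos_of_pos hx _).trans_le hp.lam_lo
  have hC' : 0 ≤ C' := by
    have h1 := R.K_lo0 v0 hv0 le_rfl
    have h2 := R.K_hi0 v0 hv0 le_rfl
    have : c' * v0 ≤ C' * v0 := h1.trans h2
    have := le_of_mul_le_mul_right this hv0
    linarith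
  have hmem : ∀ u ∈ Ioo (0:ℝ) 1, p.a * u ∈ Ioo 0 p.a := fun u hu =>
    ⟨mul_pos ha0 hu.1, by have := mul_lt_mul_of_pos_left hu.2 ha0; linarith⟩
  have hxi : ∀ u ∈ Ioo (0:ℝ) 1, p.a ^ 2 * p.K F 𝔹 (p.a * u) ≤ 𝔹.xiS F.T := by
    intro u hu
    have h1 := R.K_top _ (hmem u hu)
    simp only [hsm, Bool.false_eq_true, if_false] at h1
    rw [ha] at h1 ⊢
    exact h1
  have hxi0 : 0 ≤ 𝔹.xiS F.T := by
    have h1 := hxi w0 ⟨hw0pos, by linarith⟩
    have h2 := R.K_lo0 (p.a * w0) (by positivity) (by nlinarith)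
    have h3 : 0 ≤ c' * (p.a * w0) := by positivity
    have h4 : 0 ≤ p.a ^ 2 * p.K F 𝔹 (p.a * w0) := mul_nonneg (by positivity) (h3.trans h2)
    linarith
  refine ⟨fun v hv => ?_, fun v hv => ?_, fun v hv => ?_⟩
  · have hvI : v ∈ Ioo (0:ℝ) 1 := ⟨hv.1, by linarith [hv.2]⟩
    rw [LlPt.tN, l6Nr_of_mem _ _ hvI]
    have h1 := R.K_lo0 (p.a * v) (mul_pos ha0 hv.1) (by nlinarith [hv.1, hv.2])
    have h2 : p.a ^ 2 * (c' * (p.a * v)) ≤ p.a ^ 2 * p.K F 𝔹 (p.a * v) := mul_le_mul_of_nonneg_left h1 (by positivity)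
    have h3 : c' * v * 1 ≤ c' * v * (p.a ^ 2 * p.a) := mul_le_mul_of_nonneg_left ha3' (mul_nonneg hc'.le hv.1.le)
    nlinarith
  · rw [LlPt.tN, l6Nr_of_mem _ _ hv]
    have hmax : (4 * C' + 2 * 𝔹.xiS F.T / v0) * v ≤ max (4 * C' + 2 * 𝔹.xiS F.T / v0) c' * v :=
      mul_le_mul_of_nonneg_right (le_max_left _ _) hv.1.le
    refine le_trans ?_ hmax
    have hq : 0 ≤ 2 * 𝔹.xiS F.T / v0 * v := by have := hv.1; positivity
    have hq' : 0 ≤ 4 * C' * v := by have := hv.1; positivity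
    rcases le_or_gt (p.a * v) v0 with hle | hgt
    · have h1 := R.K_hi0 (p.a * v) (mul_pos ha0 hv.1) hle
      have h2 : p.a ^ 2 * p.K F 𝔹 (p.a * v) ≤ p.a ^ 2 * (C' * (p.a * v)) := mul_le_mul_of_nonneg_left h1 (by positivity)
      have h3 : C' * v * (p.a ^ 2 * p.a) ≤ C' * v * 4 := mul_le_mul_of_nonneg_left ha3 (mul_nonneg hC' hv.1.le)
      nlinarith
    · have h1 := hxi v hv
      have h2 : v0 ≤ 2 * v := by nlinarith [hv.1]
      have h3 : 𝔹.xiS F.T ≤ 2 * 𝔹.xiS F.T / v0 * v := by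
        rw [div_mul_eq_mul_div, le_div_iff₀ hv0]
        nlinarith
      linarith
  · have hvI : v ∈ Ioo (0:ℝ) 1 := ⟨hv.1, by linarith [hv.2]⟩
    rw [LlPt.hN, l6Nr_of_mem _ _ hvI]
    have hav : p.a * v ≤ 2 * w0 := by nlinarith [hv.1, hv.2]
    have hav0 : 0 < p.a * v := mul_pos ha0 hv.1
    have h1 := h4 (p.a * v) ⟨hav0, hav.trans hw2⟩
    have hU0 : 0 ≤ p.U F := by
      unfold LlPt.U
      exact le_min zero_le_one (mul_nonneg hx.le (Real.rpow_nonneg hlam.le _))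
    have hU1 : p.U F ≤ 1 := min_le_left _ _
    have hU2 : p.U F ^ 2 ≤ 1 := pow_le_one₀ hU0 hU1
    have hav1 : (p.a * v) ^ 2 ≤ 1 := pow_le_one₀ hav0.le (by linarith)
    have h2 : (p.a * v) ^ 3 + p.a * v * p.U F ^ 2 ≤ 2 * (p.a * v) := by nlinarith
    have h20 : 0 ≤ (p.a * v) ^ 3 + p.a * v * p.U F ^ 2 := by positivity
    have h3 : C4 * p.lam * ((p.a * v) ^ 3 + p.a * v * p.U F ^ 2) ≤ |C4| * p.lam * (2 * (p.a * v)) := by
      calc C4 * p.lam * ((p.a * v) ^ 3 + p.a * v * p.U F ^ 2) ≤ |C4| * p.lam * ((p.a * v) ^ 3 + p.a * v * p.U F ^ 2) :=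
            mul_le_mul_of_nonneg_right (mul_le_mul_of_nonneg_right (le_abs_self _) hlam.le) h20
        _ ≤ |C4| * p.lam * (2 * (p.a * v)) := mul_le_mul_of_nonneg_left h2 (by positivity)
    have h5 : p.a ^ 2 * p.hS F 𝔹 (p.a * v) ≤ p.a ^ 2 * (|C4| * p.lam * (2 * (p.a * v))) :=
      mul_le_mul_of_nonneg_left (h1.trans h3) (by positivity)
    have h6 : |C4| * p.lam * v * 2 * (p.a ^ 2 * p.a) ≤ |C4| * p.lam * v * 2 * 4 :=
      mul_le_mul_of_nonneg_left ha3 (by have := hv.1; positivity)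
    nlinarith


/-! ## (g) the exit at path level -/

/-- the geometry at the minimisers: `δ = x^ag`, `hh = x^ah`, `ηL = Cl x^ah`, `vmin = cv x^ag` -/
def Ll06Geo (𝔹 : LlBase) (F : LlFix) (dg ag ah Cl cv C1 : ℝ) : Prop :=
  Ll06UM 𝔹 F dg fun p m θ r => ∃ al : ℝ → ℝ, TlBox (fun _ => p.kapG) (fun _ => p.McG) 0 2 0 1 al ∧ TlQ al 0 2 0 1 r ∧
    ∃ NF : Set ℝ, MeasurableSet NF ∧
      L6cGeo NF (fun s => p.SG F 𝔹 dg m θ r (al s)) al p.kapG (p.x ^ ag) (p.x ^ ah) (Cl * p.x ^ ah) (cv * p.x ^ ag) C1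

/-- **(GEO)** LOC + MASS + ROOM + BAND + FLOOR at all minimisers, all scales `x^ah ≪ x^ag`, `ag ≤ a1` (`4 a1 ≤ c1` of (G3)).      The constants depend on the P-list only. -/
def Ll06GeoExit (𝔹 : LlBase) (F0 : LlFix) : Prop :=
  ∃ a1 d1 : ℝ, 0 < a1 ∧ 0 < d1 ∧ ∀ sS eta pS : ℝ, LlExpOk sS eta pS → ∃ Cl cv C1 : ℝ, 0 < Cl ∧ 0 < cv ∧ 0 < C1 ∧
    ∀ ag ah dg : ℝ, 0 < ag → ag ≤ a1 → ag < ah → ah ≤ 10 → 0 < dg → dg ≤ d1 → Ll06Geo 𝔹 (F0.wExp sS eta pS) dg ag ah Cl cv C1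

theorem ll06_geo_eqns_cite : True := by
  have := @Ll06Geo.eq_1
  have := @Ll06GeoExit.eq_1
  trivial

/-- `x^s = x^(s - a) * x^a` -/
theorem ll06_pow_split {x : ℝ} (hx : 0 < x) (s a : ℝ) : x ^ s = x ^ (s - a) * x ^ a := by
  rw [← Real.rpow_add hx]; congr 1; ring

/-- **(GEO)** from the P-list and (G3).      TEX[LL:global:trial-gap] -/
theorem ll06_geo (𝔹 : LlBase) (F0 : LlFix) (hP : LlcP 𝔹 F0) (hG3 : Ll06G3Exit 𝔹 F0) : Ll06GeoExit 𝔹 F0 := by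
  obtain ⟨c1, d1, hc1, hd1, hG⟩ := hG3
  refine ⟨min (c1 / 4) 1, d1, lt_min (by linarith) one_pos, hd1, fun sS eta pS hE => ?_⟩
  obtain ⟨c, C, hc, hok⟩ := ll06_ok (hP sS eta pS hE).sec3
  obtain ⟨ct, Ct, Cs, v0, hct, hctC, hCs, hv0, hsl⟩ := ll06_slopes (hP sS eta pS hE).sec3
  set F := F0.wExp sS eta pS with hF
  have hCt : 0 < Ct := hct.trans_le hctC
  -- `C` may be replaced by `|C| + c`
  set C' : ℝ := max C c with hC'
  have hC'pos : 0 < C' := hc.trans_le (le_max_right _ _)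
  refine ⟨(3 + 8 * (C' / c)) * 4, c / (8 * Ct), (12 * Ct * C' / ct + C') / c, by positivity, by positivity, by positivity, ?_⟩
  intro ag ah dg hag hag1 hah hah10 hdg hdg1
  have hagc : ag ≤ c1 / 4 := hag1.trans (min_le_left _ _)
  have hag1' : ag ≤ 1 := hag1.trans (min_le_right _ _)
  have hpS : 0 < pS := hE.p_lo
  have U4 := ll06_unif_pow F hag (ε := min (min 1 (ct / (16 * C'))) (min (v0 * ct / (8 * C')) (2 * Ct / c))) (by positivity)
  have U5 := ll06_unif_pow F (s := ah - ag) (ε := 1 / (8 * (3 + 8 * (C' / c)))) (by linarith) (by positivity)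
  have U6 := ll06_unif_pow F (s := c1 - 2 * ag) (ε := c ^ 2 / (64 * Ct)) (by linarith) (by positivity)
  have U7 := ll06_unif_pow F (s := 17 / 4 - ag) (ε := C' / ct) (by linarith) (by positivity)
  have U8 := ll06_unif_pow F (s := 10 - ag) (ε := 1 / 3) (by linarith) (by norm_num)
  have U9 := ll06_unif_pow F (s := pS) (ε := ct / (24 * (Cs + 1))) hpS (by positivity)
  have hU := (((((((((hok dg hdg).and hsl).and (hG dg hdg hdg1 sS eta pS hE)).and U4).and U5).and U6).and U7).and U8).and U9)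
  refine hU.mono fun p hp h hsm m hm1 hm2 θ hθ r hr => ?_
  obtain ⟨⟨⟨⟨⟨⟨⟨⟨Pt, Sl⟩, G⟩, u4⟩, u5⟩, u6⟩, u7⟩, u8⟩, u9⟩ := h
  have Pt := Pt hsm
  have Sl := Sl hsm
  have G := G hsm m hm1 hm2 θ hθ r hr
  have hx := Pt.x0
  have hx1 : p.x ≤ 1 := by linarith [Pt.x1]
  set δ := p.x ^ ag with hδdef
  set hh := p.x ^ ah with hhdef
  have hδ : 0 < δ := Real.rpow_pos_of_pos hx _
  have hhp : 0 < hh := Real.rpow_pos_of_pos hx _
  have u41 : δ ≤ 1 := u4.trans ((min_le_left _ _).trans (min_le_left _ _))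
  have u42 : δ ≤ ct / (16 * C') := u4.trans ((min_le_left _ _).trans (min_le_right _ _))
  have u43 : δ ≤ v0 * ct / (8 * C') := u4.trans ((min_le_right _ _).trans (min_le_left _ _))
  have u44 : δ ≤ 2 * Ct / c := u4.trans ((min_le_right _ _).trans (min_le_right _ _))
  have hMi : 1 / p.McG = p.x ^ (10 : ℝ) := by
    rw [LlPt.McG, Real.rpow_neg hx.le, one_div, inv_inv]
  have hMpos : 0 < p.McG := by linarith [Pt.M2]
  have hM4 : 4 ≤ p.McG := by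
    have h1 : p.x ^ (-1 : ℝ) ≤ p.x ^ (-10 : ℝ) := Real.rpow_le_rpow_of_exponent_ge hx hx1 (by norm_num)
    have h2 : (8:ℝ) ≤ p.x ^ (-1 : ℝ) := by
      rw [Real.rpow_neg_one, le_inv_comm₀ (by norm_num) hx]
      linarith [Pt.x1]
    exact le_trans (by linarith) h1
  have key := l6c_geo_p (macI m) Pt.ok ⟨hθ.1.le, hθ.2.le⟩ hr Pt.t_clk (c := c) (C := C') (ct := ct) (Ct := Ct) (σ := Cs * p.lam) (v0 := v0)
    (ε1 := p.x ^ c1) (δ := δ) (hh := hh) hc Pt.b_lo (Pt.b_hi.trans (le_max_left _ _)) G hct hctC Sl.t_lo Sl.t_hi Sl.h_hi ?_ hM4 hδ u41 ?_ ?_ ?_ ?_ ?_ ?_ ?_ ?_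
  · obtain ⟨al, B, Q, NF, hNF, Y⟩ := key
    refine ⟨al, B, Q, NF, hNF, ?_⟩
    have e1 : (3 + 8 * (C' / c)) * (4 * hh) = (3 + 8 * (C' / c)) * 4 * hh := by ring
    have e2 : c * δ / (8 * Ct) = c / (8 * Ct) * δ := by ring
    rw [e1, e2] at Y
    exact Y
  · -- `σ ≤ ct / 24`
    have h1 : p.lam ≤ p.x ^ pS := hp.lam_hi
    have h2 : Cs * p.lam ≤ Cs * (ct / (24 * (Cs + 1))) := mul_le_mul_of_nonneg_left (h1.trans u9) hCs
    have h3 : Cs * (ct / (24 * (Cs + 1))) ≤ ct / 24 := by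
      rw [mul_div_assoc', div_le_div_iff₀ (by positivity) (by norm_num)]
      nlinarith
    exact h2.trans h3
  · -- `1 / M ≤ 3 hh`
    rw [hMi]
    have : p.x ^ (10 : ℝ) ≤ hh := Real.rpow_le_rpow_of_exponent_ge hx hx1 hah10
    linarith
  · -- `C' (4 hh) ≤ δ / 2`
    have h1 : hh = p.x ^ (ah - ag) * δ := ll06_pow_split hx ah ag
    have h2 : hh ≤ 1 / (8 * (3 + 8 * (C' / c))) * δ := by rw [h1]; exact mul_le_mul_of_nonneg_right u5 hδ.le
    have h3 : (3 + 8 * (C' / c)) * (4 * hh) ≤ (3 + 8 * (C' / c)) * (4 * (1 / (8 * (3 + 8 * (C' / c))) * δ)) :=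
      mul_le_mul_of_nonneg_left (by linarith) (by positivity)
    have h4 : (3 + 8 * (C' / c)) * (4 * (1 / (8 * (3 + 8 * (C' / c))) * δ)) = δ / 2 := by
      have : (3 + 8 * (C' / c)) ≠ 0 := by positivity
      field_simp
      ring
    linarith
  · have h1 : 4 * (4 * C' / ct * δ) ≤ 4 * (4 * C' / ct * (ct / (16 * C'))) :=
      mul_le_mul_of_nonneg_left (mul_le_mul_of_nonneg_left u42 (by positivity)) (by norm_num)
    have h2 : 4 * (4 * C' / ct * (ct / (16 * C'))) = 1 := by field_simp; ring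
    linarith
  · have h1 : 2 * (4 * C' / ct * δ) ≤ 2 * (4 * C' / ct * (v0 * ct / (8 * C'))) :=
      mul_le_mul_of_nonneg_left (mul_le_mul_of_nonneg_left u43 (by positivity)) (by norm_num)
    have h2 : 2 * (4 * C' / ct * (v0 * ct / (8 * C'))) = v0 := by field_simp; ring
    linarith
  · -- `2 κ < (4 C / ct) δ`
    have h1 : p.kapG = p.x ^ (17 / 4 - ag) * δ := ll06_pow_split hx _ ag
    have h2 : p.kapG ≤ C' / ct * δ := by rw [h1]; exact mul_le_mul_of_nonneg_right u7 hδ.le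
    have h3 : 0 < C' / ct * δ := by positivity
    have h4 : 4 * C' / ct * δ = 4 * (C' / ct * δ) := by ring
    rw [h4]; linarith
  · -- `3 / M ≤ δ`
    have h1 : 3 / p.McG = 3 * (1 / p.McG) := by ring
    have h2 : p.x ^ (10 : ℝ) = p.x ^ (10 - ag) * δ := ll06_pow_split hx _ ag
    have h3 : p.x ^ (10 - ag) * δ ≤ 1 / 3 * δ := mul_le_mul_of_nonneg_right u8 hδ.le
    rw [h1, hMi, h2]; linarith
  · -- `ε1 < (c δ / 2)² / (8 Ct)`
    have h1 : p.x ^ c1 = p.x ^ (c1 - 2 * ag) * δ ^ 2 := by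
      rw [ll06_pow_split hx c1 (2 * ag)]
      congr 1
      rw [hδdef, ← Real.rpow_natCast, ← Real.rpow_mul hx.le]
      congr 1
      push_cast; ring
    have h2 : p.x ^ c1 ≤ c ^ 2 / (64 * Ct) * δ ^ 2 := by rw [h1]; exact mul_le_mul_of_nonneg_right u6 (by positivity)
    have h3 : (c * δ / 2) ^ 2 / (8 * Ct) = 2 * (c ^ 2 / (64 * Ct) * δ ^ 2) := by field_simp; ring
    have h4 : 0 < c ^ 2 / (64 * Ct) * δ ^ 2 := by positivity
    rw [h3]; linarith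
  · -- `c δ / 2 ≤ Ct`
    have h1 : c * δ ≤ c * (2 * Ct / c) := mul_le_mul_of_nonneg_left u44 hc.le
    have h2 : c * (2 * Ct / c) = 2 * Ct := by field_simp
    linarith


/-- the geometry at the minimisers in PURE POWERS: slack `sl` for the three constants -/
def Ll06GeoP (𝔹 : LlBase) (F : LlFix) (dg ag ah sl : ℝ) : Prop :=
  Ll06UM 𝔹 F dg fun p m θ r => ∃ al : ℝ → ℝ, TlBox (fun _ => p.kapG) (fun _ => p.McG) 0 2 0 1 al ∧ TlQ al 0 2 0 1 r ∧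
    ∃ NF : Set ℝ, MeasurableSet NF ∧
      L6cGeo NF (fun s => p.SG F 𝔹 dg m θ r (al s)) al p.kapG (p.x ^ ag) (p.x ^ ah) (p.x ^ (ah - sl)) (p.x ^ (ag + sl)) (p.x ^ (-sl))

theorem ll06_geoP_eqns_cite : True := by
  have := @Ll06GeoP.eq_1
  trivial

/-- the constants of (GEO) are absorbed by an arbitrarily small power -/
theorem ll06_geo_pow {𝔹 : LlBase} {F0 : LlFix} (h : Ll06GeoExit 𝔹 F0) :
    ∃ a1 d1 : ℝ, 0 < a1 ∧ 0 < d1 ∧ ∀ ag ah dg sl : ℝ, 0 < ag → ag ≤ a1 → ag < ah → ah ≤ 10 → 0 < dg → dg ≤ d1 → 0 < sl →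
      ∀ sS eta pS : ℝ, LlExpOk sS eta pS → Ll06GeoP 𝔹 (F0.wExp sS eta pS) dg ag ah sl := by
  obtain ⟨a1, d1, ha1, hd1, h⟩ := h
  refine ⟨a1, d1, ha1, hd1, fun ag ah dg sl hag hag1 hah hah10 hdg hdg1 hsl sS eta pS hE => ?_⟩
  obtain ⟨Cl, cv, C1, hCl, hcv, hC1, h⟩ := h sS eta pS hE
  have U := ll06_unif_pow (F0.wExp sS eta pS) hsl (ε := min (1 / Cl) (min cv (1 / C1))) (by positivity)
  refine ((h ag ah dg hag hag1 hah hah10 hdg hdg1).and U).mono fun p hp h hsm m hm1 hm2 θ hθ r hr => ?_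
  obtain ⟨h, u⟩ := h
  obtain ⟨al, B, Q, NF, hNF, Y⟩ := h hsm m hm1 hm2 θ hθ r hr
  have hx := lkk_x_pos hp.N2
  have u1 : p.x ^ sl ≤ 1 / Cl := u.trans (min_le_left _ _)
  have u2 : p.x ^ sl ≤ cv := u.trans ((min_le_right _ _).trans (min_le_left _ _))
  have u3 : p.x ^ sl ≤ 1 / C1 := u.trans ((min_le_right _ _).trans (min_le_right _ _))
  have hs : 0 < p.x ^ sl := Real.rpow_pos_of_pos hx _
  have hneg : p.x ^ (-sl) = 1 / p.x ^ sl := by rw [Real.rpow_neg hx.le, one_div]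
  have inv : ∀ K : ℝ, 0 < K → p.x ^ sl ≤ 1 / K → K ≤ p.x ^ (-sl) := by
    intro K hK hle
    rw [hneg, le_div_iff₀ hs]
    rw [le_div_iff₀ hK] at hle
    linarith
  refine ⟨al, B, Q, NF, hNF, Y.mono (Real.rpow_pos_of_pos hx _).le ?_ ?_ (inv C1 hC1 u3)⟩
  · have : p.x ^ (ah - sl) = p.x ^ (-sl) * p.x ^ ah := by rw [← Real.rpow_add hx]; congr 1; ring
    rw [this]
    exact mul_le_mul_of_nonneg_right (inv Cl hCl u1) (Real.rpow_pos_of_pos hx _).le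
  · have : p.x ^ (ag + sl) = p.x ^ sl * p.x ^ ag := by rw [← Real.rpow_add hx]; congr 1; ring
    rw [this]
    exact mul_le_mul_of_nonneg_right u2 (Real.rpow_pos_of_pos hx _).le

end

end Claimed.Agent.R286
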