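import Claimed.Agent.R286.LL06.Contract
import Claimed.Agent.R286.LL06.G2
import Claimed.Agent.R286.LL06.G3Exit
import Claimed.Agent.R286.LL06.Gap
import Claimed.Agent.R286.Exit.ScUp
import Claimed.Agent.R286.Sc.LinkClk

/-!
# Row 286 (S0533), LL Sec. 6: THE JUNCTION `Ll06G2Exit` OF `LL06/Contract.lean`      (architect + prover helper58; head LL06 helper291, deputy helper200, ADV helper130; prefix `l6j`, `L6j`; 0 sorry)

TEX[LL:global:trial-gap] l.106-137 (G2): the P-list of LL Sec. 3 (`LlSec3`) is fed into the scalar coercivity `l6g_G2` (`LL06/G2.lean`, CLOSED).      (The junction [S1] is `ll06_s1_exit` of helper53, `LL06/S1Exit.lean`.)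
## EXIT (= the hypothesis `hG2` of `ll06_g1`)
* `l6j_g2 T hPr : ∀ F0, F0.T = T → LlBaseProfile llBase T → LlcP llBase F0 → Ll06G2Exit llBase F0`      CONCRETE base (the scalar model must be THE one of `macSpin`);   `Q0 = 3 T + 4`, `c = e^{-18 Q0}/4` (BEFORE the exponents);
  cites `l6g_G2`, `exit_sc_up_l6gU` (159), `exit_sc_l6gLink` (229), `llMod_id` (95), `ll06_ok` (261), `l6q_bm` (292);
  ONE missing field of `LlSec3`: `Ll06Prof` of `LL06/Contract.lean` (ask of 291 to 272 / 253, 04:03Z), here a hypothesis `hPr`.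
## CONTENT
* `L6jFr 𝔹 F p` = the normalised clocks `bN, hN, tN, qN` of a direct point: clocks, `sup b ≤ |T| + 2`, `t, h_* ≤ ξ_*`, `t = h_* + b q`;   `l6j_frame : LlSec3 𝔹 F → LlUnif ..`.
* `l6j_id`: the PE package `pkPkg Q0` (normalised time) at the time profile of a clock = the LL model `llMod` (variance time) at any profile which agrees with it on `[0,Q0)`.
* `l6j_prof`: `A_λ` is an admissible profile of `llMod`;   `l6j_p5`: (P5) and `q = Γ(t)` after the normalisation `ℓ → 1`;   `l6j_A_clock`: the coercive norm in the clock time.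
-/

set_option autoImplicit false

namespace Claimed.Agent.R286

open MeasureTheory Set Filter Topology

noncomputable section

/-! ## 1. the frame of a direct point -/

/-- the normalised clocks of a direct point: clocks, bounds which do not depend on the exponents, `t = h_* + b q` -/
structure L6jFr (𝔹 : LlBase) (F : LlFix) (p : LlPt) : Prop where
  b : MvClk (p.bN F 𝔹)
  h : MvClk (p.hN F 𝔹)
  t : MvClk (p.tN F 𝔹)
  q : MvQt (p.qN F 𝔹)
  b_le : p.bN F 𝔹 1 ≤ |F.T| + 2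
  t_le : p.tN F 𝔹 1 ≤ 𝔹.xiS F.T
  h_le : p.hN F 𝔹 1 ≤ 𝔹.xiS F.T
  fix : ∀ u ∈ Ioo (0:ℝ) 1, p.tN F 𝔹 u = p.hN F 𝔹 u + p.bN F 𝔹 u * p.qN F 𝔹 u

variable {𝔹 : LlBase} {F : LlFix}

/-- the frame from (P2), (P3), (P9) -/
theorem l6j_frame (h3 : LlSec3 𝔹 F) : LlUnif F fun p => p.sm = false → L6jFr 𝔹 F p := by
  obtain ⟨c, C, -, hok⟩ := ll06_ok h3
  obtain ⟨ca, Ca, hca, hadm⟩ := h3.adm
  obtain ⟨c', C', v0, hc', -, href⟩ := h3.ref
  obtain ⟨κ9, hκ9, h9⟩ := h3.p9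
  obtain ⟨C9, h9⟩ := h9 1 one_pos
  have hU := ((((hok 1 one_pos).and hadm).and href).and h9).and (ll06_unif_pow F hκ9 (ε := 1 / (|C9| + 1)) (by positivity))
  refine hU.mono fun p hp h hsm => ?_
  obtain ⟨⟨⟨⟨P, -, -, -, -, -, hbd, -, -⟩, R⟩, k1, k2⟩, u2⟩ := h
  replace P := P hsm
  obtain ⟨ha, hell, -, -⟩ := l6q_a hp hsm
  have ha0 : 0 < p.a := by linarith
  have hmem : ∀ u ∈ Ioo (0:ℝ) 1, p.a * u ∈ Ioo 0 p.a := fun u hu =>
    ⟨mul_pos ha0 hu.1, by have := mul_lt_mul_of_pos_left hu.2 ha0; linarith⟩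
  have hKt : ∀ w ∈ Ioo (0:ℝ) 1, l6Nr p.a (p.K F 𝔹) w ≤ 𝔹.xiS F.T := by
    intro w hw
    rw [l6Nr_of_mem _ _ hw]
    have h1 := R.K_top _ (hmem w hw)
    simp only [hsm, Bool.false_eq_true, if_false] at h1
    rwa [← ha] at h1
  have hht : ∀ w ∈ Ioo (0:ℝ) 1, l6Nr p.a (p.hS F 𝔹) w ≤ 𝔹.xiS F.T := by
    intro w hw
    have h1 := hKt w hw
    rw [l6Nr_of_mem _ _ hw] at h1 ⊢
    have hb0 : 0 ≤ p.b F 𝔹 (p.a * w) := hca.le.trans (hbd _ (Ioo_subset_Icc_self (hmem w hw))).1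
    have hq0 : 0 ≤ p.q F 𝔹 (p.a * w) := (mul_nonneg hc'.le (hmem w hw).1.le).trans (R.q_lo _ (hmem w hw))
    have h2 : 0 ≤ p.a ^ 2 * (p.b F 𝔹 (p.a * w) * p.q F 𝔹 (p.a * w)) := by positivity
    simp only [LlPt.hS]
    linarith
  refine ⟨P.ok.hb, P.ok.hh, P.t_clk, P.ok.hq, l6q_bm ha P.ok.hb P.x0 (by linarith [P.x1]) k1 (fun w hw hxw => (k2 hsm w hw hxw).1) u2,
    l6q_top_le hKt, l6q_top_le hht, fun u hu => ?_⟩
  show l6Nr p.a (p.K F 𝔹) u = l6Nr p.a (p.hS F 𝔹) u + l6Nr p.a (p.b F 𝔹) u * l6Cl (fun w => p.q F 𝔹 (p.a * w)) u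
  rw [l6Nr_of_mem _ _ hu, l6Nr_of_mem _ _ hu, l6Nr_of_mem _ _ hu, l6Cl_of_mem _ hu]
  simp only [LlPt.hS]
  ring

/-! ## 2. the scalar model -/

/-- only the values on `(0,1)` matter -/
theorem l6j_alK_congr {K K' : ℝ → ℝ} (h : ∀ v ∈ Ioo (0:ℝ) 1, K v = K' v) : scAlK 1 K = scAlK 1 K' := by
  funext t
  unfold scAlK
  congr 2
  ext v
  constructor
  · rintro ⟨hv, h1⟩
    exact ⟨hv, by rw [← h v hv]; exact h1⟩
  · rintro ⟨hv, h1⟩
    exact ⟨hv, by rw [h v hv]; exact h1⟩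

/-- the package `pkPkg Q0` at the time profile of a clock = the model `llMod` at any profile which agrees with it on `[0,Q0)`.
`pk_mv_Gam`, `pk_mv_M2`; `pkA Q0 (l6gAl Q0 K) = scAlK 1 K`; `scDy` reads the profile on `[0,Q0)` only (as in `scg_congr`); `llMod_id` at the horizon `R = Q0` (`V`: `deriv_sub_const`; `P`: the tests `(∂_z^k V)²` are `ScE 0` by `pk_pol_reg`). -/
theorem l6j_id {Q0 Ξ : ℝ} (hQ : 0 < Q0) {A K : ℝ → ℝ} (hA : LscProf 1 Ξ A) (hΞ : Ξ ≤ Q0) (he : ∀ s ∈ Ico 0 Q0, scAlK 1 K s = A s)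
    {s : ℝ} (hs : s ∈ Icc 0 Q0) :
    (pkPkg Q0 hQ).toSvPkg.Gam (l6gAl Q0 K) (s / Q0) = llMod.Gam A 1 s ∧
      (pkPkg Q0 hQ).toSvPkg.M2 (l6gAl Q0 K) (s / Q0) = llMod.Gam1 A 1 s := by
  have e : pkA Q0 (l6gAl Q0 K) = scAlK 1 K := by
    funext t
    unfold pkA l6gAl
    rw [mul_div_cancel₀ _ hQ.ne']
  have es : Q0 * (s / Q0) = s := mul_div_cancel₀ _ hQ.ne'
  have ed : ∀ n, scDy (scAlK 1 K) Q0 n = scDy A Q0 n := by
    intro n
    unfold scDy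
    refine List.map_congr_left fun k hk => ?_
    have hk' : k < 2 ^ n := List.mem_range.1 hk
    have h2 : (0 : ℝ) < 2 ^ n := by positivity
    have hk'' : (k : ℝ) < 2 ^ n := by exact_mod_cast hk'
    rw [he (k * Q0 / 2 ^ n) ⟨by positivity, by rw [div_lt_iff₀ h2]; nlinarith⟩]
  have eV : scVa (scLC 1) (scAlK 1 K) Q0 = scVa (scLC 1) A Q0 := scg_congr _ hQ he
  have eP : ∀ φ : ℝ → ℝ, scaEx (scLC 1) (scAlK 1 K) Q0 s φ = scaEx (scLC 1) A Q0 s φ := by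
    intro φ
    unfold scaEx scPa
    simp only [ed]
  have eD : ∀ k, scaD k (scLC 1) (scAlK 1 K) Q0 s = scaD k (scLC 1) A Q0 s := by
    intro k
    unfold scaD
    rw [eV]
  obtain ⟨hV, hP⟩ := llMod_id A 1 Ξ Q0 one_pos hA hΞ
  have hVs := hV s hs
  have hcoef : ScCoef 1 Q0 A := hA.coef Q0
  have hD : ∀ k, llMod.D (k + 1) A 1 s = scaD (k + 1) (scLC 1) A Q0 s := by
    intro k
    unfold LscMod.D scaD
    rw [hVs, Function.iterate_succ_apply, Function.iterate_succ_apply]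
    congr 1
    funext z
    exact deriv_sub_const _
  have hE : ∀ k, ScE 0 (fun y => scaD (k + 1) (scLC 1) A Q0 s y ^ 2) := by
    intro k
    have h := (pk_pol_reg one_pos hQ hcoef hs (MvPolynomial.X k ^ 2) 0).scE
    have e2 : pkPol (scLC 1) A Q0 s (MvPolynomial.X k ^ 2) = fun y => scaD (k + 1) (scLC 1) A Q0 s y ^ 2 := by
      funext z
      simp [pkPol]
    rwa [e2] at h
  constructor
  · show pkMom Q0 (l6gAl Q0 K) (MvPolynomial.X 0 ^ 2) (s / Q0) = _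
    unfold pkMom
    rw [e, es, pk_mv_Gam]
    unfold scaGam LscMod.Gam LscMod.E
    rw [eP, eD, hD 0, hP 0 s le_rfl hs.1 hs.2 _ (hE 0)]
    rfl
  · show pkMom Q0 (l6gAl Q0 K) (MvPolynomial.X 1 ^ 2) (s / Q0) = _
    unfold pkMom
    rw [e, es, pk_mv_M2]
    unfold scaM2 LscMod.Gam1 LscMod.E
    rw [eP, eD, hD 1, hP 0 s le_rfl hs.1 hs.2 _ (hE 1)]
    rfl

/-- the profile `A_λ` is admissible for the scalar model: monotone, `≥ 0` (`slc_alK_mono`, `slc_alK_nonneg`), `= 1` from `ξ_*` on (`slc_alK_top`, frame `t_le`) -/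
theorem l6j_prof (h3 : LlSec3 𝔹 F) (hb : LlBaseProfile 𝔹 F.T) (hPr : Ll06Prof 𝔹 F) : LlUnif F fun p => p.sm = false →
    LscProf 1 (𝔹.xiS F.T) (p.Aprof F 𝔹) := by
  refine ((l6j_frame h3).and hPr).mono fun p _ h hsm => ?_
  obtain ⟨fr, hA⟩ := h
  replace fr := fr hsm
  replace hA := hA hsm
  refine ⟨fun s hs s' hs' hss => ?_, ?_, fun ξ hξ => ?_, hb.xi_pos.le⟩
  · rw [← hA s hs, ← hA s' hs']
    exact slc_alK_mono 1 _ hss
  · rw [← hA 0 le_rfl]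
    exact slc_alK_nonneg 1 _ 0
  · rw [← hA ξ (hb.xi_pos.le.trans hξ)]
    exact slc_alK_top zero_le_one fr.t (fr.t_le.trans hξ)

/-- (P5) with the weight `1 - y`, and `q = Γ(t)`, after the normalisation:   `b(v) Γ'(K + y b (z - q)) = ℓ² b(v) · Γ̂'(ℓ² K + y ℓ² b (z - q))`, `v = ℓ u`. -/
theorem l6j_p5 (h3 : LlSec3 𝔹 F) : LlUnif F fun p => p.sm = false → ∀ u ∈ Ioo (0:ℝ) 1,
    p.qN F 𝔹 u = p.GamN F 𝔹 (p.tN F 𝔹 u) ∧ ∀ z : ℝ, 0 ≤ z →
      0 ≤ ∫ y in (0:ℝ)..1, (1 - y) * (1 - p.bN F 𝔹 u * p.Gam1N F 𝔹 (p.tN F 𝔹 u + y * (p.bN F 𝔹 u * (z - p.qN F 𝔹 u)))) := by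
  obtain ⟨c, hc, N0, h5⟩ := h3.p5
  refine ⟨N0, fun p hp hN hsm u hu => ?_⟩
  have ha : p.a = p.ell := by
    unfold LlPt.a
    rw [hsm]
    rfl
  have hl : 0 < p.ell := by linarith [hp.ell1]
  have hv : p.ell * u ∈ Ioo 0 p.a := by
    rw [ha]
    exact ⟨mul_pos hl hu.1, by nlinarith [hu.2]⟩
  have eb : p.bN F 𝔹 u = p.ell ^ 2 * p.b F 𝔹 (p.ell * u) := by
    unfold LlPt.bN l6Nr
    rw [l6Cl_of_mem _ hu, ha]
  have et : p.tN F 𝔹 u = p.ell ^ 2 * p.K F 𝔹 (p.ell * u) := by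
    unfold LlPt.tN l6Nr
    rw [l6Cl_of_mem _ hu, ha]
  have eq : p.qN F 𝔹 u = p.q F 𝔹 (p.ell * u) := by
    unfold LlPt.qN
    rw [l6Cl_of_mem _ hu, ha]
  constructor
  · rw [eq, et]
    rfl
  · intro z hz
    have h := (h5 p hp hN (p.ell * u) hv z hz).2
    have hlam : 0 ≤ p.lam := (Real.rpow_pos_of_pos (lkk_x_pos hp.N2) _).le.trans hp.lam_lo
    have hpos : 0 ≤ c * p.lam * ((p.ell * u) ^ 2 + p.U F ^ 2) := by positivity
    refine (hpos.trans h).trans_eq (intervalIntegral.integral_congr fun y _ => ?_)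
    show (1 - y) * (1 - p.b F 𝔹 (p.ell * u) * p.Gam1 F 𝔹 (p.K F 𝔹 (p.ell * u) + y * p.b F 𝔹 (p.ell * u) * (z - p.q F 𝔹 (p.ell * u))))
      = (1 - y) * (1 - p.bN F 𝔹 u * p.Gam1N F 𝔹 (p.tN F 𝔹 u + y * (p.bN F 𝔹 u * (z - p.qN F 𝔹 u))))
    rw [eb, et, eq]
    unfold LlPt.Gam1
    have e1 : p.ell ^ 2 * (p.K F 𝔹 (p.ell * u) + y * p.b F 𝔹 (p.ell * u) * (z - p.q F 𝔹 (p.ell * u)))
        = p.ell ^ 2 * p.K F 𝔹 (p.ell * u) + y * (p.ell ^ 2 * p.b F 𝔹 (p.ell * u) * (z - p.q F 𝔹 (p.ell * u))) := by ring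
    rw [e1]
    ring

/-- the coercive norm in the clock time -/
theorem l6j_A_clock {Q0 : ℝ} (hQ : 0 < Q0) (K K' : ℝ → ℝ) :
    Q0 ^ 3 * l6gA (l6gAl Q0 K) (l6gAl Q0 K') = ∫ s in (0:ℝ)..Q0, (∫ y in s..Q0, (scAlK 1 K' y - scAlK 1 K y)) ^ 2 := by
  have h1 : ∀ τ : ℝ, ∫ σ in τ..1, (l6gAl Q0 K' σ - l6gAl Q0 K σ) = Q0⁻¹ * ∫ y in (Q0 * τ)..Q0, (scAlK 1 K' y - scAlK 1 K y) := by
    intro τ
    have := intervalIntegral.integral_comp_mul_left (a := τ) (b := 1) (fun y => scAlK 1 K' y - scAlK 1 K y) hQ.ne'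
    rw [mul_one, smul_eq_mul] at this
    exact this
  have h2 := intervalIntegral.integral_comp_mul_left (a := 0) (b := 1)
    (fun s => (∫ y in s..Q0, (scAlK 1 K' y - scAlK 1 K y)) ^ 2) hQ.ne'
  rw [mul_one, mul_zero, smul_eq_mul] at h2
  unfold l6gA
  simp only [h1, mul_pow]
  rw [intervalIntegral.integral_const_mul, h2]
  field_simp

/-- **EXIT (G2)** = the hypothesis `hG2` of `ll06_g1` at `llBase`.      GLUE: `l6g_G2` at `S = pkPkg Q0`, `Q0 = 3 T + 4`, `c = e^{-18 Q0}/4`. -/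
theorem l6j_g2 (T : ℝ) (hPr : ∀ F0 : LlFix, F0.T = T → LlcP llBase F0 → ∀ sS eta pS : ℝ, LlExpOk sS eta pS → Ll06Prof llBase (F0.wExp sS eta pS)) :
    ∀ F0 : LlFix, F0.T = T → LlBaseProfile llBase T → LlcP llBase F0 → Ll06G2Exit llBase F0 := by
  intro F0 hT hprof hP
  have hT1 : 1 < T := by
    have := (hP (1 / 4) (1 / 8) 1 ⟨le_rfl, by norm_num, by norm_num, le_rfl, one_pos, le_rfl⟩).sec3.ok.T1
    rwa [← hT]
  obtain ⟨Q0, hQdef⟩ : ∃ Q0 : ℝ, Q0 = 3 * T + 4 := ⟨_, rfl⟩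
  have hQ : 0 < Q0 := by rw [hQdef]; linarith
  refine ⟨Real.exp (-(18 * Q0)) / 4, Q0, by positivity, hQ, fun sS eta pS hE => ?_⟩
  have h3 := (hP sS eta pS hE).sec3
  have hFT : (F0.wExp sS eta pS).T = T := hT
  have hfr := l6j_frame h3
  have hall := hfr.and (((l6j_prof h3 (by rw [hFT]; exact hprof) (hPr F0 hT hP sS eta pS hE)).and (hPr F0 hT hP sS eta pS hE)).and (l6j_p5 h3))
  obtain ⟨N0, hN0⟩ := hall
  refine ⟨N0, fun p hp hN hsm z hz hzi hK => ?_⟩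
  obtain ⟨fr, hpf, h5⟩ := hN0 p hp hN
  replace fr := fr hsm
  have hb1 := fr.b_le
  have hA := hpf.1 hsm
  have hAe := hpf.2 hsm
  replace h5 := h5 hsm
  rw [hFT, abs_of_pos (by linarith : (0:ℝ) < T)] at hb1
  obtain ⟨F, hF⟩ : ∃ F : LlFix, F = F0.wExp sS eta pS := ⟨_, rfl⟩
  rw [← hF] at fr hb1 hA hAe h5 hK ⊢
  have hFT' : F.T = T := by rw [hF]; exact hT
  have hxi : llBase.xiS F.T ≤ T := by rw [hFT']; exact hprof.xi_le
  have h01 : (1:ℝ) ∈ Icc (0:ℝ) 1 := ⟨zero_le_one, le_rfl⟩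
  have hbn : ∀ u ∈ Icc (0:ℝ) 1, 0 ≤ p.bN F llBase u ∧ p.bN F llBase u ≤ T + 2 := fun u hu => ⟨fr.b.nonneg hu, (fr.b.le_one hu).trans hb1⟩
  have hKle : ∀ u ∈ Icc (0:ℝ) 1, p.hN F llBase u + p.bN F llBase u * z u ≤ Q0 := by
    intro u hu
    have e1 := (fr.h.le_one hu).trans (fr.h_le.trans hxi)
    have e2 : p.bN F llBase u * z u ≤ (T + 2) * 2 := mul_le_mul (hbn u hu).2 (hz u hu).2 (hz u hu).1 (by linarith)
    rw [hQdef]
    linarith
  have htle : ∀ u ∈ Icc (0:ℝ) 1, p.tN F llBase u ≤ Q0 := by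
    intro u hu
    have e1 := (fr.t.le_one hu).trans (fr.t_le.trans hxi)
    rw [hQdef]
    linarith
  refine ⟨fun u hu => ⟨htle u hu, hKle u hu⟩, ?_⟩
  have hzm : MvBM z := ⟨hzi.1.aestronglyMeasurable, 2, fun u hu => by rw [abs_of_nonneg (hz u hu).1]; exact (hz u hu).2⟩
  have hcong : scAlK 1 (fun v => p.hN F llBase v + p.bN F llBase v * p.qN F llBase v) = scAlK 1 (p.tN F llBase) :=
    l6j_alK_congr fun v hv => (fr.fix v hv).symm
  have hΞ : llBase.xiS F.T ≤ Q0 := by rw [hQdef]; linarith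
  have hid : ∀ s ∈ Icc 0 Q0, _ := fun s hs => l6j_id hQ hA hΞ (K := fun v => p.hN F llBase v + p.bN F llBase v * p.qN F llBase v)
    (fun s hs => by rw [hcong]; exact hAe s hs.1) (s := s) hs
  have hj : p.j = 1 := by unfold LlPt.j; rw [hsm]; rfl
  have hGN : ∀ ξ, p.GamN F llBase ξ = llMod.Gam (p.Aprof F llBase) 1 ξ := fun ξ => by unfold LlPt.GamN; rw [hj]; rfl
  have hG1N : ∀ ξ, p.Gam1N F llBase ξ = llMod.Gam1 (p.Aprof F llBase) 1 ξ := fun ξ => by unfold LlPt.Gam1N; rw [hj]; rfl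
  have key := l6g_G2 hQ (pkPkg Q0 hQ).toSvPkg (exit_sc_up_l6gU hQ) macSpin (exit_sc_l6gLink hQ) fr.b fr.h fr.q hzm
    (by
      have e2 : p.bN F llBase 1 * p.qN F llBase 1 ≤ (T + 2) * 1 := mul_le_mul hb1 fr.q.2 (fr.q.1.nonneg h01) (by linarith)
      have e1 := fr.h_le.trans hxi
      rw [hQdef]
      linarith)
    hK (hKle 1 h01)
    (by
      intro v hv
      have hv' : v ∈ Icc (0:ℝ) 1 := ⟨hv.1.le, hv.2.le⟩
      rw [(hid _ (by rw [← fr.fix v hv]; exact ⟨fr.t.nonneg hv', htle v hv'⟩)).1, ← fr.fix v hv, ← hGN]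
      exact (h5 v hv).1)
    (by
      intro v hv
      have hv' : v ∈ Icc (0:ℝ) 1 := ⟨hv.1.le, hv.2.le⟩
      have e := (h5 v hv).2 (z v) (hz v hv').1
      refine e.trans_eq (intervalIntegral.integral_congr fun y hy => ?_)
      rw [uIcc_of_le zero_le_one] at hy
      have harg : p.hN F llBase v + p.bN F llBase v * p.qN F llBase v + y * (p.bN F llBase v * (z v - p.qN F llBase v)) ∈ Icc 0 Q0 := by
        have e0 : p.hN F llBase v + p.bN F llBase v * p.qN F llBase v + y * (p.bN F llBase v * (z v - p.qN F llBase v))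
            = (1 - y) * p.tN F llBase v + y * (p.hN F llBase v + p.bN F llBase v * z v) := by
          rw [fr.fix v hv]
          ring
        rw [e0]
        have a1 := fr.t.nonneg hv'
        have a2 := htle v hv'
        have a3 : 0 ≤ p.hN F llBase v + p.bN F llBase v * z v := hK.nonneg hv'
        have a4 := hKle v hv'
        have y1 : 0 ≤ 1 - y := by linarith [hy.2]
        constructor
        · exact add_nonneg (mul_nonneg y1 a1) (mul_nonneg hy.1 a3)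
        · nlinarith [mul_le_mul_of_nonneg_left a2 y1, mul_le_mul_of_nonneg_left a4 hy.1]
      rw [(hid _ harg).2, hG1N, fr.fix v hv])
  have hA3 := l6j_A_clock hQ (fun v => p.hN F llBase v + p.bN F llBase v * p.qN F llBase v) (fun v => p.hN F llBase v + p.bN F llBase v * z v)
  rw [hcong] at hA3
  rw [← hA3]
  have e4 : Real.exp (-(18 * Q0)) / 4 * (Q0 ^ 3 * l6gA (l6gAl Q0 fun v => p.hN F llBase v + p.bN F llBase v * p.qN F llBase v) (l6gAl Q0 fun v => p.hN F llBase v + p.bN F llBase v * z v))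
      = 4 * (Q0 ^ 3 / 16 * Real.exp (-(18 * Q0))) * l6gA (l6gAl Q0 fun v => p.hN F llBase v + p.bN F llBase v * p.qN F llBase v) (l6gAl Q0 fun v => p.hN F llBase v + p.bN F llBase v * z v) := by
    ring
  rw [e4]
  exact key

end

end Claimed.Agent.R286
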