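import Claimed.Agent.R286.LL06.MartDefs

/-!
# Row 286 (S0533), LL06/MartBB : LEMMA 6.3 (buffer brackets)      owner helper284 (prover), architect helper200; prefix `l6m_`
See the header of `LL06/MartDefs.lean`.      Helper lemmas of helper284: prefix `l6b_`.      0 sorry.
-/

set_option autoImplicit false
set_option linter.unusedSectionVars false

namespace Claimed.Agent.R286

open MeasureTheory ProbabilityTheory
open scoped ENNReal NNReal RealInnerProductSpace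

variable {Ω : Type*} {m0 : MeasurableSpace Ω} {μ : Measure Ω} {E : Type*} [NormedAddCommGroup E] [InnerProductSpace ℝ E] [CompleteSpace E]

/-! ## 0. Helper lemmas for the canonical version `Y k = μ[y|ℱ k]` -/

section helpers

variable {ℱ : Filtration ℕ m0} {y : Ω → E}

theorem l6b_L_congr {X X' : ℕ → Ω → E} (k : ℕ) (h : X k =ᵐ[μ] X' k) : l6L y X k =ᵐ[μ] l6L y X' k := by
  filter_upwards [h] with ω hω
  simp [l6L, hω]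

theorem l6b_L_abs_le {X : ℕ → Ω → E} {k : ℕ} {K : ℝ} {ω : Ω} (hy : ‖y ω‖ ≤ K) (hX : ‖X k ω‖ ≤ K) :
    |l6L y X k ω| ≤ 2 * K ^ 2 := by
  have h1 := abs_real_inner_le_norm (y ω) (X k ω)
  have h2 : ‖y ω‖ * ‖X k ω‖ ≤ K * K := mul_le_mul hy hX (norm_nonneg _) ((norm_nonneg _).trans hy)
  have h3 : ‖X k ω‖ ^ 2 ≤ K ^ 2 := pow_le_pow_left₀ (norm_nonneg _) hX 2
  have h4 : 0 ≤ ‖X k ω‖ ^ 2 := by positivity
  rw [l6L, abs_le]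
  have := abs_le.1 h1
  constructor <;> nlinarith [this.1, this.2]

theorem l6b_bdd [IsFiniteMeasure μ] {m : MeasurableSpace Ω} (hm : m ≤ m0) {K : ℝ}
    (hym : AEStronglyMeasurable[m0] y μ) (hyb : ∀ᵐ ω ∂μ, ‖y ω‖ ≤ K) :
    ∀ᵐ ω ∂μ, ‖(μ[y | m]) ω‖ ≤ K := by
  have hint : Integrable y μ := (MemLp.of_bound hym K hyb (p := 1)).integrable le_rfl
  have h1 := norm_condExp_le (μ := μ) (m := m) y
  have h2 : μ[fun ω => ‖y ω‖ | m] ≤ᵐ[μ] μ[fun _ => K | m] :=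
    condExp_mono hint.norm (integrable_const K) hyb
  rw [condExp_const hm] at h2
  filter_upwards [h1, h2] with ω a b using a.trans b

/-- a cut `k` before `w` -/
theorem l6b_past [IsFiniteMeasure μ] (ℱ : Filtration ℕ m0) {K : ℝ}
    (hym : AEStronglyMeasurable y μ) (hyb : ∀ᵐ ω ∂μ, ‖y ω‖ ≤ K) {k w : ℕ} (hkw : k ≤ w) :
    μ[l6L y (fun j => μ[y | ℱ j]) k | ℱ w] =ᵐ[μ]
      fun ω => (‖(μ[y | ℱ w]) ω‖ ^ 2 - ‖(μ[y | ℱ w]) ω - (μ[y | ℱ k]) ω‖ ^ 2) / 2 := by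
  have hint : Integrable y μ := (MemLp.of_bound hym K hyb (p := 1)).integrable le_rfl
  have hYm : StronglyMeasurable[ℱ w] (μ[y | ℱ k]) :=
    stronglyMeasurable_condExp.mono (ℱ.mono hkw)
  have hYm0 : AEStronglyMeasurable (μ[y | ℱ k]) μ := (hYm.mono (ℱ.le w)).aestronglyMeasurable
  have hYb := l6b_bdd (μ := μ) (ℱ.le k) hym hyb
  have hI1 : Integrable (fun ω => ⟪y ω, (μ[y | ℱ k]) ω⟫) μ := by
    refine (MemLp.of_bound (hym.inner hYm0) (K * K) ?_ (p := 1)).integrable le_rfl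
    filter_upwards [hyb, hYb] with ω a b
    exact (norm_inner_le_norm _ _).trans (mul_le_mul a b (norm_nonneg _) ((norm_nonneg _).trans a))
  have hI2m : StronglyMeasurable[ℱ w] (fun ω => ‖(μ[y | ℱ k]) ω‖ ^ 2 / 2) := by
    simpa [div_eq_mul_inv] using (hYm.norm.pow 2).mul_const (2 : ℝ)⁻¹
  have hI2 : Integrable (fun ω => ‖(μ[y | ℱ k]) ω‖ ^ 2 / 2) μ := by
    refine (MemLp.of_bound (hI2m.mono (ℱ.le w)).aestronglyMeasurable (K ^ 2 / 2) ?_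
      (p := 1)).integrable le_rfl
    filter_upwards [hYb] with ω b
    rw [Real.norm_eq_abs, abs_of_nonneg (by positivity)]
    have : ‖(μ[y | ℱ k]) ω‖ ^ 2 ≤ K ^ 2 := pow_le_pow_left₀ (norm_nonneg _) b 2
    linarith
  have e1 := condExp_bilin_of_stronglyMeasurable_right (μ := μ) (innerSL ℝ) hYm hI1 hint
  have e2 : μ[fun ω => ‖(μ[y | ℱ k]) ω‖ ^ 2 / 2 | ℱ w] = fun ω => ‖(μ[y | ℱ k]) ω‖ ^ 2 / 2 :=
    condExp_of_stronglyMeasurable (ℱ.le w) hI2m hI2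
  have e3 := condExp_sub hI1 hI2 (ℱ w)
  have e0 : l6L y (fun j => μ[y | ℱ j]) k
      = (fun ω => ⟪y ω, (μ[y | ℱ k]) ω⟫) - fun ω => ‖(μ[y | ℱ k]) ω‖ ^ 2 / 2 := rfl
  rw [e0]
  filter_upwards [e1, e3] with ω h1 h3
  rw [h3, Pi.sub_apply, e2]
  have h1' : (μ[fun ω => ⟪y ω, (μ[y | ℱ k]) ω⟫ | ℱ w]) ω = ⟪(μ[y | ℱ w]) ω, (μ[y | ℱ k]) ω⟫ := h1
  rw [h1', norm_sub_sq_real]
  ring

theorem l6b_sq_integrable [IsFiniteMeasure μ] (ℱ : Filtration ℕ m0) {K : ℝ}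
    (hym : AEStronglyMeasurable y μ) (hyb : ∀ᵐ ω ∂μ, ‖y ω‖ ≤ K) (k : ℕ) :
    Integrable (fun ω => ‖(μ[y | ℱ k]) ω‖ ^ 2) μ := by
  have hYm0 : AEStronglyMeasurable (μ[y | ℱ k]) μ :=
    (stronglyMeasurable_condExp.mono (ℱ.le k)).aestronglyMeasurable
  refine (MemLp.of_bound (hYm0.norm.pow 2) (K ^ 2) ?_ (p := 1)).integrable le_rfl
  filter_upwards [l6b_bdd (μ := μ) (ℱ.le k) hym hyb] with ω b
  simp only [Pi.pow_apply]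
  rw [Real.norm_eq_abs, abs_of_nonneg (by positivity)]
  exact pow_le_pow_left₀ (norm_nonneg _) b 2

theorem l6b_L_memLp [IsFiniteMeasure μ] (ℱ : Filtration ℕ m0) {K : ℝ}
    (hym : AEStronglyMeasurable y μ) (hyb : ∀ᵐ ω ∂μ, ‖y ω‖ ≤ K) (k : ℕ) (p : ℝ≥0∞) :
    MemLp (l6L y (fun j => μ[y | ℱ j]) k) p μ := by
  have hYm0 : AEStronglyMeasurable (μ[y | ℱ k]) μ :=
    (stronglyMeasurable_condExp.mono (ℱ.le k)).aestronglyMeasurable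
  have hsq : AEStronglyMeasurable (fun ω => ‖(μ[y | ℱ k]) ω‖ ^ 2 / 2) μ := by
    simpa [div_eq_mul_inv] using (hYm0.norm.pow 2).mul_const (2 : ℝ)⁻¹
  refine MemLp.of_bound ((hym.inner hYm0).sub hsq) (2 * K ^ 2) ?_
  filter_upwards [hyb, l6b_bdd (μ := μ) (ℱ.le k) hym hyb] with ω a b
  exact l6b_L_abs_le (X := fun j => μ[y | ℱ j]) a b

/-- a cut `k` after `w` -/
theorem l6b_future [IsFiniteMeasure μ] (ℱ : Filtration ℕ m0) {K : ℝ}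
    (hym : AEStronglyMeasurable y μ) (hyb : ∀ᵐ ω ∂μ, ‖y ω‖ ≤ K) {k w : ℕ} (hwk : w ≤ k) :
    μ[l6L y (fun j => μ[y | ℱ j]) k | ℱ w] =ᵐ[μ]
      fun ω => (μ[fun ω => ‖(μ[y | ℱ k]) ω‖ ^ 2 | ℱ w]) ω / 2 := by
  have h1 := l6b_past (μ := μ) ℱ hym hyb (le_refl k)
  have h2 : μ[μ[l6L y (fun j => μ[y | ℱ j]) k | ℱ k] | ℱ w] =ᵐ[μ] μ[l6L y (fun j => μ[y | ℱ j]) k | ℱ w] :=
    condExp_condExp_of_le (ℱ.mono hwk) (ℱ.le k)
  have h3 : μ[l6L y (fun j => μ[y | ℱ j]) k | ℱ k] =ᵐ[μ] (2⁻¹ : ℝ) • fun ω => ‖(μ[y | ℱ k]) ω‖ ^ 2 := by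
    filter_upwards [h1] with ω hω
    rw [hω]
    simp
    ring
  have h4 := condExp_congr_ae (m := ℱ w) h3
  have h5 := condExp_smul (μ := μ) (2⁻¹ : ℝ) (fun ω => ‖(μ[y | ℱ k]) ω‖ ^ 2) (ℱ w)
  filter_upwards [h2, h4, h5] with ω a b c
  rw [← a, b, c]
  simp
  ring

theorem l6b_jensen [IsFiniteMeasure μ] (ℱ : Filtration ℕ m0) {K : ℝ}
    (hym : AEStronglyMeasurable y μ) (hyb : ∀ᵐ ω ∂μ, ‖y ω‖ ≤ K) {k w : ℕ} (hwk : w ≤ k) :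
    (fun ω => ‖(μ[y | ℱ w]) ω‖ ^ 2) ≤ᵐ[μ] μ[fun ω => ‖(μ[y | ℱ k]) ω‖ ^ 2 | ℱ w] := by
  have hI := l6b_sq_integrable (μ := μ) ℱ hym hyb k
  have h1 := Integrable.norm_condExp_rpow_le (μ := μ) (f := μ[y | ℱ k]) (m := ℱ w) (p := 2)
    one_le_two (by simpa only [Real.rpow_two] using hI)
  simp only [Real.rpow_two] at h1
  have h2 : μ[μ[y | ℱ k] | ℱ w] =ᵐ[μ] μ[y | ℱ w] := condExp_condExp_of_le (ℱ.mono hwk) (ℱ.le k)
  filter_upwards [h1, h2] with ω a b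
  rw [← b]
  exact a

/-- one edge of the bracket: `‖2 E_w A - S̄‖_p ≤ η + 2 ε` -/
theorem l6b_edge [IsProbabilityMeasure μ] {m : MeasurableSpace Ω} (hm : m ≤ m0) {A : Ω → ℝ} {p : ℝ≥0∞}
    (hp : 1 ≤ p) (hA : Integrable A μ) {Sb η : ℝ} {ε : ℝ≥0∞}
    (hη : |2 * ∫ ω, A ω ∂μ - Sb| ≤ η)
    (hε : eLpNorm (fun ω => A ω - ∫ ω', A ω' ∂μ) p μ ≤ ε) :
    eLpNorm (fun ω => 2 * (μ[A | m]) ω - Sb) p μ ≤ ENNReal.ofReal η + 2 * ε := by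
  have hp0 : p ≠ 0 := (zero_lt_one.trans_le hp).ne'
  obtain ⟨c, hc⟩ : ∃ c : ℝ, c = ∫ ω, A ω ∂μ := ⟨_, rfl⟩
  rw [← hc] at hη hε
  have h1 : μ[A - (fun _ => c) | m] =ᵐ[μ] μ[A | m] - μ[fun _ => c | m] :=
    condExp_sub hA (integrable_const c) m
  rw [condExp_const hm] at h1
  have h2 : (fun ω => 2 * (μ[A | m]) ω - Sb)
      =ᵐ[μ] (2 : ℝ) • μ[A - (fun _ => c) | m] + fun _ => 2 * c - Sb := by
    filter_upwards [h1] with ω hω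
    simp only [Pi.add_apply, Pi.smul_apply, smul_eq_mul, hω, Pi.sub_apply]
    ring
  have h3 : eLpNorm (μ[A - (fun _ => c) | m]) p μ ≤ ε :=
    (eLpNorm_condExp_le_eLpNorm _ hp).trans hε
  have hm1 : AEStronglyMeasurable[m0] (μ[A - (fun _ => c) | m]) μ :=
    (stronglyMeasurable_condExp.mono hm).aestronglyMeasurable
  rw [eLpNorm_congr_ae h2]
  calc eLpNorm ((2 : ℝ) • μ[A - (fun _ => c) | m] + fun _ => 2 * c - Sb) p μ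
      ≤ eLpNorm ((2 : ℝ) • μ[A - (fun _ => c) | m]) p μ
          + eLpNorm (fun _ : Ω => 2 * c - Sb) p μ :=
        eLpNorm_add_le (hm1.const_smul _) aestronglyMeasurable_const hp
    _ ≤ 2 * ε + ENNReal.ofReal η := by
        refine add_le_add ?_ ?_
        · rw [eLpNorm_const_smul, Real.enorm_eq_ofReal (by norm_num)]
          have : ENNReal.ofReal 2 = 2 := by simp
          rw [this]
          exact mul_le_mul_right h3 _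
        · rw [eLpNorm_const _ hp0 (IsProbabilityMeasure.ne_zero μ), measure_univ,
            ENNReal.one_rpow, mul_one, Real.enorm_eq_ofReal_abs]
          exact ENNReal.ofReal_le_ofReal hη
    _ = ENNReal.ofReal η + 2 * ε := add_comm _ _

/-- a function dominated by the sum of two absolute values -/
theorem l6b_squeeze {p : ℝ≥0∞} (hp : 1 ≤ p) {f a b : Ω → ℝ} (ha : AEStronglyMeasurable a μ)
    (hb : AEStronglyMeasurable b μ) (h : ∀ᵐ ω ∂μ, |f ω| ≤ |a ω| + |b ω|) :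
    eLpNorm f p μ ≤ eLpNorm a p μ + eLpNorm b p μ := by
  calc eLpNorm f p μ ≤ eLpNorm ((fun ω => |a ω|) + fun ω => |b ω|) p μ :=
        eLpNorm_mono_ae_real (by simpa using h)
    _ ≤ eLpNorm (fun ω => |a ω|) p μ + eLpNorm (fun ω => |b ω|) p μ :=
        eLpNorm_add_le ha.norm hb.norm hp
    _ = eLpNorm a p μ + eLpNorm b p μ := by
        have e1 : eLpNorm (fun ω => |a ω|) p μ = eLpNorm a p μ := eLpNorm_norm a
        have e2 : eLpNorm (fun ω => |b ω|) p μ = eLpNorm b p μ := eLpNorm_norm b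
        rw [e1, e2]

theorem l6b_par (u v z : E) : ‖u - v‖ ^ 2 ≤ 2 * ‖u - z‖ ^ 2 + 2 * ‖v - z‖ ^ 2 := by
  have h1 : ‖u - v‖ ≤ ‖u - z‖ + ‖v - z‖ := by
    have := norm_sub_le_norm_sub_add_norm_sub u z v
    rwa [norm_sub_rev z v] at this
  have h2 : ‖u - v‖ ^ 2 ≤ (‖u - z‖ + ‖v - z‖) ^ 2 := pow_le_pow_left₀ (norm_nonneg _) h1 2
  nlinarith [sq_nonneg (‖u - z‖ - ‖v - z‖)]

end helpers

/-! ## 1. Lemma 6.3 (buffer brackets and a common past) -/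

section brackets

variable {ℱ : Filtration ℕ m0} {y : Ω → E} {X : ℕ → Ω → E}

/-- `|X_k| ≤ 1` -/
theorem l6m_bdd [IsProbabilityMeasure μ] (h : L6Path μ ℱ y X) (k : ℕ) : ∀ᵐ ω ∂μ, ‖X k ω‖ ≤ 1 := by
  filter_upwards [h.ver k, l6b_bdd (μ := μ) (ℱ.le k) h.ym h.yb] with ω a b
  rw [a]
  exact b

theorem l6b_X_meas (h : L6Path μ ℱ y X) (k : ℕ) : AEStronglyMeasurable (X k) μ :=
  (stronglyMeasurable_condExp.mono (ℱ.le k)).aestronglyMeasurable.congr (h.ver k).symm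

theorem l6b_L_memLp' [IsProbabilityMeasure μ] (h : L6Path μ ℱ y X) (k : ℕ) (p : ℝ≥0∞) :
    MemLp (l6L y X k) p μ :=
  (l6b_L_memLp ℱ h.ym h.yb k p).ae_eq (l6b_L_congr (X := X) (X' := fun j => μ[y | ℱ j]) k (h.ver k)).symm

/-- past identity: `2 E_w L_v = |X_w|² - |X_w - X_v|²` for `v ≤ w` -/
theorem l6m_past [IsProbabilityMeasure μ] (h : L6Path μ ℱ y X) {v w : ℕ} (hvw : v ≤ w) :
    (fun ω => 2 * (μ[l6L y X v|ℱ w]) ω) =ᵐ[μ] fun ω => ‖X w ω‖ ^ 2 - ‖X w ω - X v ω‖ ^ 2 := by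
  have h0 := condExp_congr_ae (m := ℱ w) (l6b_L_congr (y := y) (X := X) (X' := fun j => μ[y | ℱ j]) v (h.ver v))
  filter_upwards [h0, l6b_past (μ := μ) ℱ h.ym h.yb hvw, h.ver v, h.ver w] with ω a b c d
  rw [a, b, c, d]
  ring

/-- `2 E L_v = S_v` -/
theorem l6m_mean [IsProbabilityMeasure μ] (h : L6Path μ ℱ y X) (v : ℕ) : 2 * ∫ ω, l6L y X v ω ∂μ = l6S μ X v := by
  rw [← integral_condExp (ℱ.le v), ← integral_const_mul, integral_congr_ae (l6m_past h (le_refl v)), l6S]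
  simp

/-- future identity: `2 E_w L_v = E_w |X_v|²` for `w ≤ v` -/
theorem l6m_future [IsProbabilityMeasure μ] (h : L6Path μ ℱ y X) {v w : ℕ} (hwv : w ≤ v) :
    (fun ω => 2 * (μ[l6L y X v|ℱ w]) ω) =ᵐ[μ] μ[fun ω => ‖X v ω‖ ^ 2|ℱ w] := by
  have h0 := condExp_congr_ae (m := ℱ w) (l6b_L_congr (y := y) (X := X) (X' := fun j => μ[y | ℱ j]) v (h.ver v))
  have h1 : (fun ω => ‖X v ω‖ ^ 2) =ᵐ[μ] fun ω => ‖(μ[y | ℱ v]) ω‖ ^ 2 := by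
    filter_upwards [h.ver v] with ω hω
    rw [hω]
  have h2 := condExp_congr_ae (m := ℱ w) h1
  filter_upwards [h0, l6b_future (μ := μ) ℱ h.ym h.yb hwv, h2] with ω a b c
  rw [a, b, c]
  ring

/-- `|X_w|² ≤ E_w |X_v|²` for `w ≤ v` -/
theorem l6m_future_ge [IsProbabilityMeasure μ] (h : L6Path μ ℱ y X) {v w : ℕ} (hwv : w ≤ v) :
    (fun ω => ‖X w ω‖ ^ 2) ≤ᵐ[μ] μ[fun ω => ‖X v ω‖ ^ 2|ℱ w] := by
  have h1 : (fun ω => ‖X v ω‖ ^ 2) =ᵐ[μ] fun ω => ‖(μ[y | ℱ v]) ω‖ ^ 2 := by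
    filter_upwards [h.ver v] with ω hω
    rw [hω]
  have h2 := condExp_congr_ae (m := ℱ w) h1
  filter_upwards [l6b_jensen (μ := μ) ℱ h.ym h.yb hwv, h2, h.ver w] with ω a b c
  rw [b, c]
  exact a

theorem l6b_A_memLp [IsProbabilityMeasure μ] (h : L6Path μ ℱ y X) (s : Finset ℕ) (ρ : ℕ → ℝ) (p : ℝ≥0∞) :
    MemLp (l6A y X s ρ) p μ := by
  have := memLp_finsetSum' (μ := μ) (p := p) s (f := fun k => ρ k • l6L y X k)
    fun k _ => (l6b_L_memLp' h k p).const_smul (ρ k)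
  refine this.ae_eq (ae_of_all _ fun ω => ?_)
  simp [l6A, Finset.sum_apply]

theorem l6b_condExp_A [IsProbabilityMeasure μ] (h : L6Path μ ℱ y X) (s : Finset ℕ) (ρ : ℕ → ℝ)
    (m : MeasurableSpace Ω) :
    μ[l6A y X s ρ | m] =ᵐ[μ] fun ω => ∑ k ∈ s, ρ k * (μ[l6L y X k | m]) ω := by
  have e : l6A y X s ρ = ∑ k ∈ s, ρ k • l6L y X k := by
    funext ω
    simp [l6A, Finset.sum_apply]
  have h1 : μ[∑ k ∈ s, ρ k • l6L y X k | m] =ᵐ[μ] ∑ k ∈ s, μ[ρ k • l6L y X k | m] :=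
    condExp_finsetSum (fun k _ => ((l6b_L_memLp' h k 1).integrable le_rfl).smul (ρ k)) m
  have h2 : ∀ᵐ ω ∂μ, ∀ k ∈ s, (μ[ρ k • l6L y X k | m]) ω = (ρ k • μ[l6L y X k | m]) ω :=
    (Filter.eventually_all_finset s).2 fun k _ => condExp_smul (ρ k) _ m
  rw [e]
  filter_upwards [h1, h2] with ω b c
  rw [b, Finset.sum_apply]
  exact Finset.sum_congr rfl fun k hk => by rw [c k hk]; rfl

/-- first bracket identity: `2 E_w A_- = |X_w|² - ∑ ρ_v |X_w - X_v|²` -/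
theorem l6b_minus [IsProbabilityMeasure μ] (h : L6Path μ ℱ y X) {w : ℕ} {s : Finset ℕ} {ρ : ℕ → ℝ}
    (hs : ∀ k ∈ s, k ≤ w) (hρ : L6Buf s ρ) :
    (fun ω => 2 * (μ[l6A y X s ρ | ℱ w]) ω) =ᵐ[μ]
      fun ω => ‖X w ω‖ ^ 2 - ∑ k ∈ s, ρ k * ‖X w ω - X k ω‖ ^ 2 := by
  have h0 := l6b_condExp_A (μ := μ) h s ρ (ℱ w)
  have h1 : ∀ᵐ ω ∂μ, ∀ k ∈ s, 2 * (μ[l6L y X k | ℱ w]) ω = ‖X w ω‖ ^ 2 - ‖X w ω - X k ω‖ ^ 2 :=
    (Filter.eventually_all_finset s).2 fun k hk => l6m_past h (hs k hk)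
  filter_upwards [h0, h1] with ω a b
  rw [a, Finset.mul_sum]
  have : ∀ k ∈ s, 2 * (ρ k * (μ[l6L y X k | ℱ w]) ω)
      = ρ k * ‖X w ω‖ ^ 2 - ρ k * ‖X w ω - X k ω‖ ^ 2 := by
    intro k hk
    rw [← mul_sub, ← b k hk]
    ring
  rw [Finset.sum_congr rfl this, Finset.sum_sub_distrib, ← Finset.sum_mul, hρ.sum, one_mul]

/-- second bracket inequality: `|X_w|² ≤ 2 E_w A_+` -/
theorem l6b_plus [IsProbabilityMeasure μ] (h : L6Path μ ℱ y X) {w : ℕ} {s : Finset ℕ} {ρ : ℕ → ℝ}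
    (hs : ∀ k ∈ s, w ≤ k) (hρ : L6Buf s ρ) :
    (fun ω => ‖X w ω‖ ^ 2) ≤ᵐ[μ] fun ω => 2 * (μ[l6A y X s ρ | ℱ w]) ω := by
  have h0 := l6b_condExp_A (μ := μ) h s ρ (ℱ w)
  have h1 : ∀ᵐ ω ∂μ, ∀ k ∈ s, 2 * (μ[l6L y X k | ℱ w]) ω = (μ[fun ω => ‖X k ω‖ ^ 2 | ℱ w]) ω :=
    (Filter.eventually_all_finset s).2 fun k hk => l6m_future h (hs k hk)
  have h2 : ∀ᵐ ω ∂μ, ∀ k ∈ s, ‖X w ω‖ ^ 2 ≤ (μ[fun ω => ‖X k ω‖ ^ 2 | ℱ w]) ω :=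
    (Filter.eventually_all_finset s).2 fun k hk => l6m_future_ge h (hs k hk)
  filter_upwards [h0, h1, h2] with ω a b c
  rw [a, Finset.mul_sum]
  calc ‖X w ω‖ ^ 2 = ∑ k ∈ s, ρ k * ‖X w ω‖ ^ 2 := by rw [← Finset.sum_mul, hρ.sum, one_mul]
    _ ≤ ∑ k ∈ s, 2 * (ρ k * (μ[l6L y X k | ℱ w]) ω) := by
        refine Finset.sum_le_sum fun k hk => ?_
        have := mul_le_mul_of_nonneg_left ((c k hk).trans (b k hk).ge) (hρ.nonneg k hk)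
        linarith

theorem l6b_buf_mean [IsProbabilityMeasure μ] (h : L6Path μ ℱ y X) {s : Finset ℕ} {ρ : ℕ → ℝ}
    (hρ : L6Buf s ρ) {Sb η : ℝ} (hS : ∀ v ∈ s, |l6S μ X v - Sb| ≤ η) :
    |2 * ∫ ω, l6A y X s ρ ω ∂μ - Sb| ≤ η := by
  have hI : ∀ k ∈ s, Integrable (fun ω => ρ k * l6L y X k ω) μ := fun k _ =>
    ((l6b_L_memLp' h k 1).integrable le_rfl).const_mul _
  have e : 2 * ∫ ω, l6A y X s ρ ω ∂μ - Sb = ∑ k ∈ s, ρ k * (l6S μ X k - Sb) := by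
    simp only [l6A]
    rw [integral_finsetSum s hI, Finset.mul_sum]
    simp only [mul_sub]
    rw [Finset.sum_sub_distrib, ← Finset.sum_mul, hρ.sum, one_mul]
    congr 1
    refine Finset.sum_congr rfl fun k _ => ?_
    rw [integral_const_mul, ← l6m_mean h k]
    ring
  rw [e]
  calc |∑ k ∈ s, ρ k * (l6S μ X k - Sb)|
      ≤ ∑ k ∈ s, |ρ k * (l6S μ X k - Sb)| := Finset.abs_sum_le_sum_abs _ _
    _ ≤ ∑ k ∈ s, ρ k * η := by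
        refine Finset.sum_le_sum fun k hk => ?_
        rw [abs_mul, abs_of_nonneg (hρ.nonneg k hk)]
        exact mul_le_mul_of_nonneg_left (hS k hk) (hρ.nonneg k hk)
    _ = η := by rw [← Finset.sum_mul, hρ.sum, one_mul]

theorem l6b_G_meas (h : L6Path μ ℱ y X) (w : ℕ) (s : Finset ℕ) (ρ : ℕ → ℝ) :
    AEStronglyMeasurable (fun ω => ∑ k ∈ s, ρ k * ‖X w ω - X k ω‖ ^ 2) μ := by
  have h' : ∀ k ∈ s, AEStronglyMeasurable (fun ω => ρ k * ‖X w ω - X k ω‖ ^ 2) μ := fun k _ =>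
    (((l6b_X_meas h w).sub (l6b_X_meas h k)).norm.pow 2).const_mul (ρ k)
  have := Finset.aestronglyMeasurable_sum s h'
  refine this.congr (ae_of_all _ fun ω => ?_)
  simp [Finset.sum_apply]

/-- both bounds with the constant `2` -/
theorem l6b_bracket [IsProbabilityMeasure μ] (h : L6Path μ ℱ y X) {p : ℝ≥0∞} (hp : 1 ≤ p) {w : ℕ} {sm sp : Finset ℕ} {ρm ρp : ℕ → ℝ}
    (hm : L6Buf sm ρm) (hpl : L6Buf sp ρp) (hmw : ∀ v ∈ sm, v ≤ w) (hpw : ∀ v ∈ sp, w ≤ v)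
    {Sb η : ℝ} {ε : ℝ≥0∞} (hSm : ∀ v ∈ sm, |l6S μ X v - Sb| ≤ η) (hSp : ∀ v ∈ sp, |l6S μ X v - Sb| ≤ η)
    (hAm : eLpNorm (fun ω => l6A y X sm ρm ω - ∫ ω', l6A y X sm ρm ω' ∂μ) p μ ≤ ε)
    (hAp : eLpNorm (fun ω => l6A y X sp ρp ω - ∫ ω', l6A y X sp ρp ω' ∂μ) p μ ≤ ε) :
    eLpNorm (fun ω => ‖X w ω‖ ^ 2 - Sb) p μ ≤ 2 * (ENNReal.ofReal η + 2 * ε) ∧
    eLpNorm (fun ω => ∑ v ∈ sm, ρm v * ‖X w ω - X v ω‖ ^ 2) p μ ≤ 2 * (ENNReal.ofReal η + 2 * ε) := by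
  have ea := l6b_edge (μ := μ) (ℱ.le w) hp ((l6b_A_memLp h sm ρm 1).integrable le_rfl)
    (l6b_buf_mean h hm hSm) hAm
  have eb := l6b_edge (μ := μ) (ℱ.le w) hp ((l6b_A_memLp h sp ρp 1).integrable le_rfl)
    (l6b_buf_mean h hpl hSp) hAp
  have hma : AEStronglyMeasurable (fun ω => 2 * (μ[l6A y X sm ρm | ℱ w]) ω - Sb) μ :=
    (((stronglyMeasurable_condExp.mono (ℱ.le w)).aestronglyMeasurable).const_mul 2).sub
      aestronglyMeasurable_const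
  have hmb : AEStronglyMeasurable (fun ω => 2 * (μ[l6A y X sp ρp | ℱ w]) ω - Sb) μ :=
    (((stronglyMeasurable_condExp.mono (ℱ.le w)).aestronglyMeasurable).const_mul 2).sub
      aestronglyMeasurable_const
  have h1 := l6b_minus (μ := μ) h hmw hm
  have h2 := l6b_plus (μ := μ) h hpw hpl
  have hsum : (ENNReal.ofReal η + 2 * ε) + (ENNReal.ofReal η + 2 * ε)
      = 2 * (ENNReal.ofReal η + 2 * ε) := (two_mul _).symm
  have hG : ∀ ω, 0 ≤ ∑ k ∈ sm, ρm k * ‖X w ω - X k ω‖ ^ 2 := fun ω =>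
    Finset.sum_nonneg fun k hk => mul_nonneg (hm.nonneg k hk) (by positivity)
  constructor
  · refine (l6b_squeeze hp hma hmb ?_).trans ((add_le_add ea eb).trans hsum.le)
    filter_upwards [h1, h2] with ω a b
    have hg := hG ω
    have a' : 2 * (μ[l6A y X sm ρm | ℱ w]) ω = ‖X w ω‖ ^ 2 - ∑ k ∈ sm, ρm k * ‖X w ω - X k ω‖ ^ 2 := a
    have b' : ‖X w ω‖ ^ 2 ≤ 2 * (μ[l6A y X sp ρp | ℱ w]) ω := b
    rw [abs_le]
    constructor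
    · have := neg_abs_le (2 * (μ[l6A y X sm ρm | ℱ w]) ω - Sb)
      have := abs_nonneg (2 * (μ[l6A y X sp ρp | ℱ w]) ω - Sb)
      linarith
    · have := le_abs_self (2 * (μ[l6A y X sp ρp | ℱ w]) ω - Sb)
      have := abs_nonneg (2 * (μ[l6A y X sm ρm | ℱ w]) ω - Sb)
      linarith
  · refine (l6b_squeeze hp hma hmb ?_).trans ((add_le_add ea eb).trans hsum.le)
    filter_upwards [h1, h2] with ω a b
    have hg := hG ω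
    have a' : 2 * (μ[l6A y X sm ρm | ℱ w]) ω = ‖X w ω‖ ^ 2 - ∑ k ∈ sm, ρm k * ‖X w ω - X k ω‖ ^ 2 := a
    have b' : ‖X w ω‖ ^ 2 ≤ 2 * (μ[l6A y X sp ρp | ℱ w]) ω := b
    rw [abs_of_nonneg hg]
    have := neg_abs_le (2 * (μ[l6A y X sm ρm | ℱ w]) ω - Sb)
    have := le_abs_self (2 * (μ[l6A y X sp ρp | ℱ w]) ω - Sb)
    linarith

/-- **Lemma 6.3, one cut.**  TEX[LL:global:buffer-brackets]
`ρm` lives on cuts before `w`, `ρp` on cuts after `w`; `|S_v - Sb| ≤ η` on both buffers, `‖A_± - E A_±‖_p ≤ ε`.  Then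
`‖|X_w|² - Sb‖_p ≤ 2 (η + 2 ε)` and `‖∑ ρm_v |X_w - X_v|²‖_p ≤ 3 (η + 2 ε)`. -/
theorem l6m_bracket [IsProbabilityMeasure μ] (h : L6Path μ ℱ y X) {p : ℝ≥0∞} (hp : 1 ≤ p) {w : ℕ} {sm sp : Finset ℕ} {ρm ρp : ℕ → ℝ}
    (hm : L6Buf sm ρm) (hpl : L6Buf sp ρp) (hmw : ∀ v ∈ sm, v ≤ w) (hpw : ∀ v ∈ sp, w ≤ v)
    {Sb η : ℝ} {ε : ℝ≥0∞} (hSm : ∀ v ∈ sm, |l6S μ X v - Sb| ≤ η) (hSp : ∀ v ∈ sp, |l6S μ X v - Sb| ≤ η)
    (hAm : eLpNorm (fun ω => l6A y X sm ρm ω - ∫ ω', l6A y X sm ρm ω' ∂μ) p μ ≤ ε)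
    (hAp : eLpNorm (fun ω => l6A y X sp ρp ω - ∫ ω', l6A y X sp ρp ω' ∂μ) p μ ≤ ε) :
    eLpNorm (fun ω => ‖X w ω‖ ^ 2 - Sb) p μ ≤ 2 * (ENNReal.ofReal η + 2 * ε) ∧
    eLpNorm (fun ω => ∑ v ∈ sm, ρm v * ‖X w ω - X v ω‖ ^ 2) p μ ≤ 3 * (ENNReal.ofReal η + 2 * ε) := by
  obtain ⟨h1, h2⟩ := l6b_bracket h hp hm hpl hmw hpw hSm hSp hAm hAp
  exact ⟨h1, h2.trans (mul_le_mul_left (by norm_num) _)⟩

/-- **Lemma 6.3, two cuts with a common past buffer.**  TEX[LL:global:buffer-brackets] -/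
theorem l6m_bracket_two [IsProbabilityMeasure μ] (h : L6Path μ ℱ y X) {p : ℝ≥0∞} (hp : 1 ≤ p) {w w' : ℕ} {sm sp sp' : Finset ℕ} {ρm ρp ρp' : ℕ → ℝ}
    (hm : L6Buf sm ρm) (hpl : L6Buf sp ρp) (hpl' : L6Buf sp' ρp') (hmw : ∀ v ∈ sm, v ≤ w) (hmw' : ∀ v ∈ sm, v ≤ w')
    (hpw : ∀ v ∈ sp, w ≤ v) (hpw' : ∀ v ∈ sp', w' ≤ v)
    {Sb η : ℝ} {ε : ℝ≥0∞} (hSm : ∀ v ∈ sm, |l6S μ X v - Sb| ≤ η) (hSp : ∀ v ∈ sp, |l6S μ X v - Sb| ≤ η) (hSp' : ∀ v ∈ sp', |l6S μ X v - Sb| ≤ η)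
    (hAm : eLpNorm (fun ω => l6A y X sm ρm ω - ∫ ω', l6A y X sm ρm ω' ∂μ) p μ ≤ ε)
    (hAp : eLpNorm (fun ω => l6A y X sp ρp ω - ∫ ω', l6A y X sp ρp ω' ∂μ) p μ ≤ ε)
    (hAp' : eLpNorm (fun ω => l6A y X sp' ρp' ω - ∫ ω', l6A y X sp' ρp' ω' ∂μ) p μ ≤ ε) :
    eLpNorm (fun ω => ‖X w ω - X w' ω‖ ^ 2) p μ ≤ 12 * (ENNReal.ofReal η + 2 * ε) := by
  have h1 := (l6b_bracket h hp hm hpl hmw hpw hSm hSp hAm hAp).2
  have h2 := (l6b_bracket h hp hm hpl' hmw' hpw' hSm hSp' hAm hAp').2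
  have m1 := l6b_G_meas (μ := μ) h w sm ρm
  have m2 := l6b_G_meas (μ := μ) h w' sm ρm
  have hsq : ∀ ω, |‖X w ω - X w' ω‖ ^ 2|
      ≤ |((2 : ℝ) • fun ω => ∑ k ∈ sm, ρm k * ‖X w ω - X k ω‖ ^ 2) ω|
        + |((2 : ℝ) • fun ω => ∑ k ∈ sm, ρm k * ‖X w' ω - X k ω‖ ^ 2) ω| := by
    intro ω
    have g1 : 0 ≤ ∑ k ∈ sm, ρm k * ‖X w ω - X k ω‖ ^ 2 :=
      Finset.sum_nonneg fun k hk => mul_nonneg (hm.nonneg k hk) (by positivity)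
    have g2 : 0 ≤ ∑ k ∈ sm, ρm k * ‖X w' ω - X k ω‖ ^ 2 :=
      Finset.sum_nonneg fun k hk => mul_nonneg (hm.nonneg k hk) (by positivity)
    simp only [Pi.smul_apply, smul_eq_mul]
    rw [abs_of_nonneg (by positivity), abs_of_nonneg (by positivity), abs_of_nonneg (by positivity)]
    calc ‖X w ω - X w' ω‖ ^ 2 = ∑ k ∈ sm, ρm k * ‖X w ω - X w' ω‖ ^ 2 := by
          rw [← Finset.sum_mul, hm.sum, one_mul]
      _ ≤ ∑ k ∈ sm, (2 * (ρm k * ‖X w ω - X k ω‖ ^ 2) + 2 * (ρm k * ‖X w' ω - X k ω‖ ^ 2)) := by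
          refine Finset.sum_le_sum fun k hk => ?_
          have := mul_le_mul_of_nonneg_left (l6b_par (X w ω) (X w' ω) (X k ω)) (hm.nonneg k hk)
          linarith
      _ = _ := by rw [Finset.sum_add_distrib, ← Finset.mul_sum, ← Finset.mul_sum]
  refine (l6b_squeeze hp (m1.const_smul (2 : ℝ)) (m2.const_smul (2 : ℝ))
    (ae_of_all _ hsq)).trans ?_
  have e2 : ENNReal.ofReal 2 = 2 := by simp
  rw [eLpNorm_const_smul, eLpNorm_const_smul, Real.enorm_eq_ofReal (by norm_num), e2]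
  calc 2 * eLpNorm (fun ω => ∑ k ∈ sm, ρm k * ‖X w ω - X k ω‖ ^ 2) p μ
        + 2 * eLpNorm (fun ω => ∑ k ∈ sm, ρm k * ‖X w' ω - X k ω‖ ^ 2) p μ
      ≤ 2 * (2 * (ENNReal.ofReal η + 2 * ε)) + 2 * (2 * (ENNReal.ofReal η + 2 * ε)) :=
        add_le_add (mul_le_mul_right h1 _) (mul_le_mul_right h2 _)
    _ = 8 * (ENNReal.ofReal η + 2 * ε) := by ring
    _ ≤ 12 * (ENNReal.ofReal η + 2 * ε) := mul_le_mul_left (by norm_num) _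

end brackets

end Claimed.Agent.R286
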