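import Claimed.Agent.R286.LL06.MartBB

/-!
# Row 286 (S0533), LL06/MartBlk : LEMMA 6.2, (global-block-decomposition)      owner helper200; prefix `l6m_`
See the header of `LL06/MartDefs.lean`.      Proved by helper112 (helper lemmas: prefix `l6k_`).      0 sorry.
-/

set_option autoImplicit false
set_option linter.unusedSectionVars false

namespace Claimed.Agent.R286

open MeasureTheory ProbabilityTheory
open scoped ENNReal NNReal RealInnerProductSpace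

variable {Ω : Type*} {m0 : MeasurableSpace Ω} {μ : Measure Ω} {E : Type*} [NormedAddCommGroup E] [InnerProductSpace ℝ E] [CompleteSpace E]

/-! ## 3. Lemma 6.2, (global-block-decomposition) -/

/-- a `μ`-a.e. property holds `κ ω`-a.e. for `μ`-a.e. `ω` -/
theorem l6k_ker_ae {ℱ : Filtration ℕ m0} {k : ℕ} {κ : Kernel Ω Ω} (hκ : L6Ker μ κ (ℱ k)) {p : Ω → Prop} (hp : ∀ᵐ ω' ∂μ, p ω') :
    ∀ᵐ ω ∂μ, ∀ᵐ ω' ∂(κ ω), p ω' := by
  have := hκ.markov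
  set N := toMeasurable μ {ω' | ¬ p ω'} with hN
  have hNm : MeasurableSet N := measurableSet_toMeasurable _ _
  have hN0 : μ N = 0 := by rw [hN, measure_toMeasurable]; exact hp
  have hf0 : N.indicator (fun _ => (1 : ℝ)) =ᵐ[μ] 0 := by
    have : ∀ᵐ ω ∂μ, ω ∉ N := measure_eq_zero_iff_ae_notMem.mp hN0
    filter_upwards [this] with ω hω
    simp [hω]
  have hfi : Integrable (N.indicator (fun _ => (1 : ℝ))) μ := (integrable_zero _ _ _).congr hf0.symm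
  have h1 := hκ.ce _ hfi
  have h2 : μ[N.indicator (fun _ => (1 : ℝ))|ℱ k] =ᵐ[μ] 0 := by
    have := condExp_congr_ae (m := ℱ k) hf0
    rwa [condExp_zero] at this
  filter_upwards [h1, h2] with ω a b
  rw [b] at a
  simp only [Pi.zero_apply] at a
  have e : ∫ ω', N.indicator (fun _ => (1 : ℝ)) ω' ∂(κ ω) = (κ ω).real N := by
    exact integral_indicator_one (μ := κ ω) hNm
  rw [e, measureReal_eq_zero_iff] at a
  rw [ae_iff]
  exact measure_mono_null (subset_toMeasurable _ _) a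

section orth

variable {ℱ : Filtration ℕ m0} {y : Ω → E}

/-- bound and measurability of the scalar increments of the canonical version -/
theorem l6k_sc_bdd [IsFiniteMeasure μ] (hym : AEStronglyMeasurable y μ) (hyb : ∀ᵐ ω ∂μ, ‖y ω‖ ≤ 1) (e : E) (j : ℕ) :
    ∀ᵐ ω ∂μ, |⟪e, (μ[y|ℱ (j + 1)]) ω - (μ[y|ℱ j]) ω⟫| ≤ 2 * ‖e‖ := by
  filter_upwards [l6b_bdd (μ := μ) (ℱ.le (j + 1)) hym hyb, l6b_bdd (μ := μ) (ℱ.le j) hym hyb] with ω a b
  have h1 := abs_real_inner_le_norm e ((μ[y|ℱ (j + 1)]) ω - (μ[y|ℱ j]) ω)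
  have h2 := norm_sub_le ((μ[y|ℱ (j + 1)]) ω) ((μ[y|ℱ j]) ω)
  have h3 : ‖e‖ * ‖(μ[y|ℱ (j + 1)]) ω - (μ[y|ℱ j]) ω‖ ≤ ‖e‖ * 2 :=
    mul_le_mul_of_nonneg_left (by linarith) (norm_nonneg _)
  linarith

theorem l6k_sc_meas (e : E) {j l : ℕ} (hjl : j + 1 ≤ l) :
    StronglyMeasurable[ℱ l] (fun ω => ⟪e, (μ[y|ℱ (j + 1)]) ω - (μ[y|ℱ j]) ω⟫) := by
  have h1 : StronglyMeasurable[ℱ l] (μ[y|ℱ (j + 1)]) := stronglyMeasurable_condExp.mono (ℱ.mono hjl)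
  have h2 : StronglyMeasurable[ℱ l] (μ[y|ℱ j]) := stronglyMeasurable_condExp.mono (ℱ.mono (by omega))
  exact StronglyMeasurable.inner stronglyMeasurable_const (h1.sub h2)

/-- conditional orthogonality of the scalar increments -/
theorem l6k_orth_ce [IsFiniteMeasure μ] (hym : AEStronglyMeasurable y μ) (hyb : ∀ᵐ ω ∂μ, ‖y ω‖ ≤ 1) (e e' : E) {k i j : ℕ}
    (hki : k ≤ i) (hij : i < j) :
    μ[fun ω => ⟪e, (μ[y|ℱ (i + 1)]) ω - (μ[y|ℱ i]) ω⟫ * ⟪e', (μ[y|ℱ (j + 1)]) ω - (μ[y|ℱ j]) ω⟫|ℱ k] =ᵐ[μ] 0 := by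
  have hx : Martingale (fun l => μ[y|ℱ l]) ℱ μ := martingale_condExp y ℱ μ
  set g1 : Ω → ℝ := fun ω => ⟪e, (μ[y|ℱ (i + 1)]) ω - (μ[y|ℱ i]) ω⟫ with hg1
  set g2 : Ω → ℝ := fun ω => ⟪e', (μ[y|ℱ (j + 1)]) ω - (μ[y|ℱ j]) ω⟫ with hg2
  have m1 : StronglyMeasurable[ℱ j] g1 := l6k_sc_meas e hij
  have m2 : StronglyMeasurable[ℱ (j + 1)] g2 := l6k_sc_meas e' le_rfl
  have b1 := l6k_sc_bdd (ℱ := ℱ) hym hyb e i
  have b2 := l6k_sc_bdd (ℱ := ℱ) hym hyb e' j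
  have i2 : Integrable g2 μ :=
    (MemLp.of_bound (m2.mono (ℱ.le _)).aestronglyMeasurable (2 * ‖e'‖) b2 (p := 1)).integrable le_rfl
  have i12 : Integrable (g1 * g2) μ :=
    i2.bdd_mul (m1.mono (ℱ.le _)).aestronglyMeasurable b1
  -- `E[g2 | ℱ j] = 0`
  have z2 : μ[g2|ℱ j] =ᵐ[μ] 0 := by
    obtain ⟨B, hB⟩ : ∃ B : E →L[ℝ] E →L[ℝ] ℝ, ∀ v w, B v w = ⟪v, w⟫ := ⟨innerSL ℝ, fun _ _ => rfl⟩
    have hd : Integrable (fun ω => (μ[y|ℱ (j + 1)]) ω - (μ[y|ℱ j]) ω) μ := integrable_condExp.sub integrable_condExp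
    have h1 := condExp_bilin_of_stronglyMeasurable_left (μ := μ) (m := ℱ j) B (f := fun _ => e')
      (g := fun ω => (μ[y|ℱ (j + 1)]) ω - (μ[y|ℱ j]) ω) stronglyMeasurable_const (by simpa only [hB] using i2) hd
    simp only [hB] at h1
    have h0 := sk_mt_incr hx (Nat.le_succ j)
    filter_upwards [h1, h0] with ω a b
    rw [hg2, a]
    have : (μ[fun ω => (μ[y|ℱ (j + 1)]) ω - (μ[y|ℱ j]) ω|ℱ j]) ω = 0 := b
    rw [this]; simp
  have z12 : μ[g1 * g2|ℱ j] =ᵐ[μ] 0 := by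
    have h1 := condExp_mul_of_stronglyMeasurable_left (μ := μ) m1 i12 i2
    filter_upwards [h1, z2] with ω a b
    rw [a, Pi.mul_apply, b]; simp
  have tower := condExp_condExp_of_le (μ := μ) (f := g1 * g2) (ℱ.mono (hki.trans hij.le)) (ℱ.le j)
  have h3 : μ[μ[g1 * g2|ℱ j]|ℱ k] =ᵐ[μ] 0 := by
    have := condExp_congr_ae (m := ℱ k) z12
    rwa [condExp_zero] at this
  exact tower.symm.trans h3

end orth

section det

/-- Pythagoras for a finite orthogonal family -/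
theorem l6k_pyth {ν : Measure Ω} (I : Finset ℕ) (u : ℕ → Ω → ℝ)
    (hint : ∀ i ∈ I, ∀ j ∈ I, Integrable (fun ω => u i ω * u j ω) ν)
    (horth : ∀ i ∈ I, ∀ j ∈ I, i ≠ j → ∫ ω, u i ω * u j ω ∂ν = 0) :
    ∫ ω, (∑ j ∈ I, u j ω) ^ 2 ∂ν = ∑ j ∈ I, ∫ ω, u j ω ^ 2 ∂ν := by
  have e : ∀ ω, (∑ j ∈ I, u j ω) ^ 2 = ∑ i ∈ I, ∑ j ∈ I, u i ω * u j ω := by
    intro ω; rw [sq, Finset.sum_mul_sum]
  simp only [e]
  rw [integral_finsetSum _ (fun i hi => integrable_finsetSum _ (fun j hj => hint i hi j hj))]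
  apply Finset.sum_congr rfl
  intro i hi
  rw [integral_finsetSum _ (fun j hj => hint i hi j hj), Finset.sum_eq_single i]
  · simp only [sq]
  · intro j hj hji
    exact horth i hi j hj (Ne.symm hji)
  · intro h; exact absurd hi h

variable [FiniteDimensional ℝ E]

theorem l6k_expand (a v w : E) : ⟪a, v⟫ * ⟪a, w⟫ = ∑ p, ∑ q, (⟪a, stdOrthonormalBasis ℝ E p⟫ * ⟪a, stdOrthonormalBasis ℝ E q⟫) *
    (⟪stdOrthonormalBasis ℝ E p, v⟫ * ⟪stdOrthonormalBasis ℝ E q, w⟫) := by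
  rw [← (stdOrthonormalBasis ℝ E).sum_inner_mul_inner a v, ← (stdOrthonormalBasis ℝ E).sum_inner_mul_inner a w,
    Finset.sum_mul_sum]
  apply Finset.sum_congr rfl; intro p _
  apply Finset.sum_congr rfl; intro q _
  ring

variable {ν : Measure Ω} [IsFiniteMeasure ν] {x : ℕ → Ω → E}

theorem l6k_U_int (hxm : ∀ l, AEStronglyMeasurable (x l) ν) (hxb : ∀ l, ∀ᵐ ω' ∂ν, ‖x l ω'‖ ≤ 1) (a a' : E) (s e s' e' : ℕ) :
    Integrable (fun ω' => ⟪a, x e ω' - x s ω'⟫ * ⟪a', x e' ω' - x s' ω'⟫) ν := by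
  have hm : ∀ (c : E) (s e : ℕ), AEStronglyMeasurable (fun ω' => ⟪c, x e ω' - x s ω'⟫) ν := fun c s e =>
    AEStronglyMeasurable.inner aestronglyMeasurable_const ((hxm e).sub (hxm s))
  have hb : ∀ (c : E) (s e : ℕ), ∀ᵐ ω' ∂ν, ‖⟪c, x e ω' - x s ω'⟫‖ ≤ 2 * ‖c‖ := fun c s e => by
    filter_upwards [hxb e, hxb s] with ω' h1 h2
    have h3 := abs_real_inner_le_norm c (x e ω' - x s ω')
    have h4 := norm_sub_le (x e ω') (x s ω')
    have h5 : ‖c‖ * ‖x e ω' - x s ω'‖ ≤ ‖c‖ * 2 := mul_le_mul_of_nonneg_left (by linarith) (norm_nonneg _)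
    rw [Real.norm_eq_abs]; linarith
  have i2 : Integrable (fun ω' => ⟪a', x e' ω' - x s' ω'⟫) ν :=
    (MemLp.of_bound (hm a' s' e') (2 * ‖a'‖) (hb a' s' e') (p := 1)).integrable le_rfl
  exact i2.bdd_mul (hm a s e) (hb a s e)

theorem l6k_det (hxm : ∀ l, AEStronglyMeasurable (x l) ν) (hxb : ∀ l, ∀ᵐ ω' ∂ν, ‖x l ω'‖ ≤ 1) {k : ℕ}
    (horth : ∀ p q i j, k ≤ i → i < j → ∫ ω', ⟪stdOrthonormalBasis ℝ E p, x (i + 1) ω' - x i ω'⟫ *
      ⟪stdOrthonormalBasis ℝ E q, x (j + 1) ω' - x j ω'⟫ ∂ν = 0) (a : E) {s e : ℕ} (hks : k ≤ s) (hse : s ≤ e) :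
    ∫ ω', ⟪a, x e ω' - x s ω'⟫ ^ 2 ∂ν = ∑ l ∈ Finset.Ico s e, ∫ ω', ⟪a, x (l + 1) ω' - x l ω'⟫ ^ 2 ∂ν := by
  have htel : ∀ ω', x e ω' - x s ω' = ∑ l ∈ Finset.Ico s e, (x (l + 1) ω' - x l ω') := by
    intro ω'
    induction e, hse using Nat.le_induction with
    | base => simp
    | succ e hse ih => rw [Finset.sum_Ico_succ_top hse, ← ih]; abel
  have e1 : ∀ ω', ⟪a, x e ω' - x s ω'⟫ ^ 2 = (∑ l ∈ Finset.Ico s e, ⟪a, x (l + 1) ω' - x l ω'⟫) ^ 2 := by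
    intro ω'; rw [htel ω', inner_sum]
  simp only [e1]
  apply l6k_pyth
  · intro i _ j _
    exact l6k_U_int hxm hxb a a i (i + 1) j (j + 1)
  · -- orthogonality
    have key : ∀ i j, k ≤ i → i < j → ∫ ω', ⟪a, x (i + 1) ω' - x i ω'⟫ * ⟪a, x (j + 1) ω' - x j ω'⟫ ∂ν = 0 := by
      intro i j hki hij
      rw [show (fun ω' => ⟪a, x (i + 1) ω' - x i ω'⟫ * ⟪a, x (j + 1) ω' - x j ω'⟫) = _ from
        funext fun ω' => l6k_expand a _ _]
      rw [integral_finsetSum _ (fun p _ => integrable_finsetSum _ (fun q _ =>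
        (l6k_U_int hxm hxb _ _ i (i + 1) j (j + 1)).const_mul _))]
      apply Finset.sum_eq_zero; intro p _
      rw [integral_finsetSum _ (fun q _ => (l6k_U_int hxm hxb _ _ i (i + 1) j (j + 1)).const_mul _)]
      apply Finset.sum_eq_zero; intro q _
      rw [integral_const_mul, horth p q i j hki hij, mul_zero]
    intro i hi j hj hij
    have hi' := (Finset.mem_Ico.mp hi).1
    have hj' := (Finset.mem_Ico.mp hj).1
    rcases lt_or_gt_of_ne hij with h | h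
    · exact key i j (hks.trans hi') h
    · have := key j i (hks.trans hj') h
      simpa only [mul_comm] using this

/-- split of a sum over `[t 0, t K)` into blocks -/
theorem l6k_split {t : ℕ → ℕ} (ht : Monotone t) (f : ℕ → ℝ) (K : ℕ) :
    ∑ j ∈ Finset.Ico (t 0) (t K), f j = ∑ b ∈ Finset.range K, ∑ j ∈ Finset.Ico (t b) (t (b + 1)), f j := by
  induction K with
  | zero => simp
  | succ K ih =>
    rw [Finset.sum_range_succ, ← ih, Finset.sum_Ico_consecutive _ (ht (Nat.zero_le K)) (ht (Nat.le_succ K))]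

/-- the block decomposition for a fixed law `ν` of the continuation -/
theorem l6k_fix (hxm : ∀ l, AEStronglyMeasurable (x l) ν) (hxb : ∀ l, ∀ᵐ ω' ∂ν, ‖x l ω'‖ ≤ 1) {k : ℕ}
    (horth : ∀ p q i j, k ≤ i → i < j → ∫ ω', ⟪stdOrthonormalBasis ℝ E p, x (i + 1) ω' - x i ω'⟫ *
      ⟪stdOrthonormalBasis ℝ E q, x (j + 1) ω' - x j ω'⟫ ∂ν = 0)
    {n : ℕ} {v : ℕ → ℝ} (hv : ∀ j, 0 ≤ v j) {K : ℕ} {t : ℕ → ℕ} (ht : Monotone t) (ht0 : t 0 = k) (htK : t K = n + 1)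
    {mu' : ℕ → ℝ} (hmu : ∀ j < K, ∀ i, t j ≤ i → i < t (j + 1) → v i ≤ mu' j) (D : ℕ → E) :
    ∑ j ∈ Finset.Icc k n, v j * ∫ ω', ⟪∑ i ∈ Finset.range K, D i, x (j + 1) ω' - x j ω'⟫ ^ 2 ∂ν
      ≤ K * ∑ i ∈ Finset.range K, ∑ j ∈ Finset.range K,
        mu' j * ∫ ω', ⟪D i, x (t (j + 1)) ω' - x (t j) ω'⟫ ^ 2 ∂ν := by
  set A : E := ∑ i ∈ Finset.range K, D i with hA
  have hIcc : Finset.Icc k n = Finset.Ico (t 0) (t K) := by
    rw [ht0, htK]; ext j; simp only [Finset.mem_Icc, Finset.mem_Ico]; omega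
  rw [hIcc, l6k_split ht, Finset.sum_comm, Finset.mul_sum]
  apply Finset.sum_le_sum
  intro b hb
  have hbK : b < K := Finset.mem_range.mp hb
  have hkb : k ≤ t b := ht0 ▸ ht (Nat.zero_le b)
  have hbb : t b ≤ t (b + 1) := ht (Nat.le_succ b)
  have hsq : ∀ (a : E) (s e : ℕ), Integrable (fun ω' => ⟪a, x e ω' - x s ω'⟫ ^ 2) ν := by
    intro a s e
    simpa only [sq] using l6k_U_int hxm hxb a a s e s e
  -- step 1: dominate the masses
  have s1 : ∑ j ∈ Finset.Ico (t b) (t (b + 1)), v j * ∫ ω', ⟪A, x (j + 1) ω' - x j ω'⟫ ^ 2 ∂ν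
      ≤ mu' b * ∫ ω', ⟪A, x (t (b + 1)) ω' - x (t b) ω'⟫ ^ 2 ∂ν := by
    rw [l6k_det hxm hxb horth A hkb hbb, Finset.mul_sum]
    apply Finset.sum_le_sum
    intro j hj
    obtain ⟨h1, h2⟩ := Finset.mem_Ico.mp hj
    exact mul_le_mul_of_nonneg_right (hmu b hbK j h1 h2) (integral_nonneg fun _ => sq_nonneg _)
  -- step 2: Cauchy-Schwarz
  have s2 : mu' b * ∫ ω', ⟪A, x (t (b + 1)) ω' - x (t b) ω'⟫ ^ 2 ∂ν
      ≤ K * ∑ i ∈ Finset.range K, mu' b * ∫ ω', ⟪D i, x (t (b + 1)) ω' - x (t b) ω'⟫ ^ 2 ∂ν := by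
    rcases hbb.eq_or_lt with he | hlt
    · simp [← he]
    · have hm0 : 0 ≤ mu' b := (hv (t b)).trans (hmu b hbK (t b) le_rfl hlt)
      have hcs : ∫ ω', ⟪A, x (t (b + 1)) ω' - x (t b) ω'⟫ ^ 2 ∂ν
          ≤ K * ∑ i ∈ Finset.range K, ∫ ω', ⟪D i, x (t (b + 1)) ω' - x (t b) ω'⟫ ^ 2 ∂ν := by
        rw [← integral_finsetSum _ (fun i _ => hsq (D i) _ _), ← integral_const_mul]
        apply integral_mono (hsq A _ _) ((integrable_finsetSum _ (fun i _ => hsq (D i) _ _)).const_mul _)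
        intro ω'
        simp only [hA, sum_inner]
        have := sq_sum_le_card_mul_sum_sq (s := Finset.range K)
          (f := fun i => ⟪D i, x (t (b + 1)) ω' - x (t b) ω'⟫)
        simpa using this
      calc mu' b * ∫ ω', ⟪A, x (t (b + 1)) ω' - x (t b) ω'⟫ ^ 2 ∂ν
          ≤ mu' b * (K * ∑ i ∈ Finset.range K, ∫ ω', ⟪D i, x (t (b + 1)) ω' - x (t b) ω'⟫ ^ 2 ∂ν) :=
            mul_le_mul_of_nonneg_left hcs hm0
        _ = _ := by rw [Finset.mul_sum, Finset.mul_sum, Finset.mul_sum]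
                    apply Finset.sum_congr rfl; intro i _; ring
  exact s1.trans s2

end det

section blocks

variable {ℱ : Filtration ℕ m0} {y : Ω → E} {X : ℕ → Ω → E}

/-- **(global-block-decomposition).**  TEX[LL:global:residual-blocks]
The future of the cut `k` is cut into `K` blocks `[t j, t (j+1))`, `t 0 = k`, `t K = n + 1`; `mu' j` dominates the masses in the block `j`. -/
theorem l6m_blocks [IsProbabilityMeasure μ] [FiniteDimensional ℝ E] (h : L6Path μ ℱ y X) {n : ℕ} (hterm : X (n + 1) =ᵐ[μ] y)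
    {v : ℕ → ℝ} (hv : ∀ j, 0 ≤ v j) {k K : ℕ} {κ : Kernel Ω Ω} (hκ : L6Ker μ κ (ℱ k)) {t : ℕ → ℕ} (ht : Monotone t) (ht0 : t 0 = k) (htK : t K = n + 1)
    {mu' : ℕ → ℝ} (hmu : ∀ j < K, ∀ i, t j ≤ i → i < t (j + 1) → v i ≤ mu' j) :
    ∀ᵐ ω ∂μ, l6W κ v n y X k ω ≤ K * ∑ i ∈ Finset.range K, ∑ j ∈ Finset.range K,
      mu' j * l6Fk κ (fun ω => X (t (i + 1)) ω - X (t i) ω) (fun ω' => X (t (j + 1)) ω' - X (t j) ω') ω := by
  have hmk := hκ.markov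
  set x : ℕ → Ω → E := fun l => μ[y|ℱ l] with hx
  have hxm : ∀ (ν : Measure Ω) l, AEStronglyMeasurable (x l) ν := fun ν l =>
    (stronglyMeasurable_condExp.mono (ℱ.le l)).aestronglyMeasurable
  have c2 : ∀ᵐ ω ∂μ, ∀ l, X l =ᵐ[κ ω] x l := by
    rw [ae_all_iff]; intro l
    exact l6k_ker_ae hκ (h.ver l)
  have c3 : ∀ᵐ ω ∂μ, ∀ l, ∀ᵐ ω' ∂(κ ω), ‖x l ω'‖ ≤ 1 := by
    rw [ae_all_iff]; intro l
    exact l6k_ker_ae hκ (l6b_bdd (μ := μ) (ℱ.le l) h.ym h.yb)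
  have c4 : ∀ᵐ ω ∂μ, ∀ p q i j, k ≤ i → i < j → ∫ ω', ⟪stdOrthonormalBasis ℝ E p, x (i + 1) ω' - x i ω'⟫ *
      ⟪stdOrthonormalBasis ℝ E q, x (j + 1) ω' - x j ω'⟫ ∂(κ ω) = 0 := by
    rw [ae_all_iff]; intro p
    rw [ae_all_iff]; intro q
    rw [ae_all_iff]; intro i
    rw [ae_all_iff]; intro j
    by_cases hki : k ≤ i
    · by_cases hij : i < j
      · have hi : Integrable (fun ω' => ⟪stdOrthonormalBasis ℝ E p, x (i + 1) ω' - x i ω'⟫ *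
            ⟪stdOrthonormalBasis ℝ E q, x (j + 1) ω' - x j ω'⟫) μ :=
          l6k_U_int (hxm μ) (fun l => l6b_bdd (μ := μ) (ℱ.le l) h.ym h.yb) _ _ i (i + 1) j (j + 1)
        filter_upwards [hκ.ce _ hi, l6k_orth_ce (ℱ := ℱ) h.ym h.yb (stdOrthonormalBasis ℝ E p)
          (stdOrthonormalBasis ℝ E q) hki hij] with ω a b _ _
        rw [a]; exact b
      · exact Filter.Eventually.of_forall fun _ _ h' => absurd h' hij
    · exact Filter.Eventually.of_forall fun _ h' => absurd h' hki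
  filter_upwards [hterm, c2, c3, c4] with ω a1 a2 a3 a4
  have hrep : ∀ (a : E) (s e : ℕ), ∫ ω', ⟪a, X e ω' - X s ω'⟫ ^ 2 ∂(κ ω) = ∫ ω', ⟪a, x e ω' - x s ω'⟫ ^ 2 ∂(κ ω) := by
    intro a s e
    apply integral_congr_ae
    filter_upwards [a2 e, a2 s] with ω' h1 h2
    rw [h1, h2]
  have hA : y ω - X k ω = ∑ i ∈ Finset.range K, (X (t (i + 1)) ω - X (t i) ω) := by
    rw [Finset.sum_range_sub (fun i => X (t i) ω), htK, ht0, a1]
  simp only [l6W, l6Fk, hrep]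
  rw [hA]
  exact l6k_fix (hxm _) a3 a4 hv ht ht0 htK hmu _

end blocks

end Claimed.Agent.R286
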