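import Claimed.Agent.R286.Box.MartSq

/-!
# Row 286 (S0533), LL Section 6, file LL06/MartDefs (defs; statements in MartBB, MartGrid, MartBlk; LL06/Mart imports all) : LEMMAS 6.2 AND 6.3 AS MARTINGALE FACTS
owner helper200 (LL06); provers helper284, helper287; prefix `l6m_`, defs `l6*`, `L6*`.      Mathlib + MART kit of helper22 (`Box/MartCore`, `Box/MartSq`) only.

FINE LEVEL (ledger LD3b): a probability space `(Ω, μ)`, a filtration `ℱ : Filtration ℕ m0` (`ℱ k` = the prefix revealed by the first `k` revelations = the CUT `k`),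
`y : Ω → E` the normalised terminal spin (`E` = a real Hilbert space, e.g. `EuclideanSpace ℝ (Fin m)`), `X k` = ANY version of `μ[y|ℱ k]`.
All "∫ dv", "∫ ds" of the paper are finite sums over cuts with deterministic weights.     `‖·‖_p` = `eLpNorm · p μ`;   `q`-th moments as in `Box/MartSq`: `∫⁻ (·)^q`.
The conditionally independent continuation `𝖻` forked at the cut `k` is `ω' ∼ κ ω`, `κ` = ANY regular version of the conditional law given `ℱ k` (`L6Ker μ κ (ℱ k)`: `condExpKernel μ (ℱ k)`, or `P.κ k` of `L08/SP.lean`); `E_𝖻[Φ(𝖺,𝖻)|𝖺] (ω) = ∫ Φ(ω,ω') ∂(κ ω)`.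
The SAME lemmas in the vocabulary of the abstract single path `L8P` (helper75): `L08/SPB`, `L08/SPD` (owner helper22) and `LL06/Pw.lean`.

EXITS
* L6.3  TEX[LL:global:buffer-brackets] : `l6m_mean`, `l6m_past`, `l6m_future`, `l6m_future_ge` (the identities), `l6m_bracket`, `l6m_bracket_two`.
* L6.2  TEX[LL:global:residual-blocks] :
    (global-block-decomposition) = `l6m_blocks`;
    (global-grid) = `l6m_overlap` (BOUNDED OVERLAP form: any deterministic weights `wt b e` on pairs of cuts such that every elementary step is covered with total weight `≤ M`),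
                    `l6m_grid` (the paper's form, a real coordinate `s ↦` cut);
    (global-dual-doob) = `sk_mt_dual_ce` of `Box/MartSq.lean` (helper22, PROVED), nothing to add.
-/

set_option autoImplicit false

namespace Claimed.Agent.R286

open MeasureTheory ProbabilityTheory
open scoped ENNReal NNReal RealInnerProductSpace

variable {Ω : Type*} {m0 : MeasurableSpace Ω} {μ : Measure Ω} {E : Type*} [NormedAddCommGroup E] [InnerProductSpace ℝ E] [CompleteSpace E]

/-! ## 0. The single path -/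

/-- single path data: `y` bounded by `1`, `X k` = a version of `μ[y|ℱ k]` -/
structure L6Path (μ : Measure Ω) (ℱ : Filtration ℕ m0) (y : Ω → E) (X : ℕ → Ω → E) : Prop where
  ym : AEStronglyMeasurable y μ
  yb : ∀ᵐ ω ∂μ, ‖y ω‖ ≤ 1
  ver : ∀ k, X k =ᵐ[μ] μ[y|ℱ k]

/-- `L_k = y·X_k - |X_k|²/2` -/
noncomputable def l6L (y : Ω → E) (X : ℕ → Ω → E) (k : ℕ) (ω : Ω) : ℝ := ⟪y ω, X k ω⟫ - ‖X k ω‖ ^ 2 / 2

/-- `S_k = E |X_k|²` -/
noncomputable def l6S (μ : Measure Ω) (X : ℕ → Ω → E) (k : ℕ) : ℝ := ∫ ω, ‖X k ω‖ ^ 2 ∂μ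

/-- a deterministic probability weight `ρ` on the finite set `s` of cuts -/
structure L6Buf (s : Finset ℕ) (ρ : ℕ → ℝ) : Prop where
  nonneg : ∀ v ∈ s, 0 ≤ ρ v
  sum : ∑ v ∈ s, ρ v = 1

/-- the buffer average `A = ∑ ρ_v L_v` -/
noncomputable def l6A (y : Ω → E) (X : ℕ → Ω → E) (s : Finset ℕ) (ρ : ℕ → ℝ) (ω : Ω) : ℝ := ∑ v ∈ s, ρ v * l6L y X v ω

/-! ## the fork kernel -/

section fork

/-- `κ` is a regular version of the conditional law given the sub-sigma-field `m`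
(instances: `condExpKernel μ m` on a standard Borel space; the explicit kernel `P.κ k` of `L08/SP.lean`) -/
structure L6Ker (μ : Measure Ω) (κ : Kernel Ω Ω) (m : MeasurableSpace Ω) : Prop where
  markov : IsMarkovKernel κ
  ce : ∀ f : Ω → ℝ, Integrable f μ → (fun ω => ∫ ω', f ω' ∂(κ ω)) =ᵐ[μ] μ[f|m]

/-- `E_𝖻[(A(𝖺)·Z(𝖻))² | 𝖺]` for the continuation `𝖻 ∼ κ ω` forked from `𝖺 = ω` -/
noncomputable def l6Fk (κ : Kernel Ω Ω) (A Z : Ω → E) (ω : Ω) : ℝ := ∫ ω', ⟪A ω, Z ω'⟫ ^ 2 ∂(κ ω)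

/-- `W_k = (y - X_k)ᵀ H_k (y - X_k)`, `H_k = E_k ∑_{k ≤ j ≤ n} v_j d_j d_jᵀ`, `d_j = X_{j+1} - X_j`
(`κ` = the fork kernel at the cut `k`; `v_j` = mass of the revelation `j`; `j = n` = the terminal draw, `v_n = a`, `X_{n+1} = y`) -/
noncomputable def l6W (κ : Kernel Ω Ω) (v : ℕ → ℝ) (n : ℕ) (y : Ω → E) (X : ℕ → Ω → E) (k : ℕ) (ω : Ω) : ℝ :=
  ∑ j ∈ Finset.Icc k n, v j * l6Fk κ (fun ω => y ω - X k ω) (fun ω' => X (j + 1) ω' - X j ω') ω

end fork

theorem l6m_eqns_cite : True := by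
  have := @l6L.eq_1.{0, 0}
  have := @l6S.eq_1.{0, 0}
  have := @l6A.eq_1.{0, 0}
  have := @l6Fk.eq_1.{0, 0}
  have := @l6W.eq_1.{0, 0}
  trivial

end Claimed.Agent.R286
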