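import Claimed.Agent.R286.Macro.Interp
import Claimed.Agent.R286.Tool.Box252
import Claimed.Agent.R286.Tool.Danskin

/-!
# Row 286 (S0533), LL Sec. 6 (06-global.tex l.9-170), Prop. global:trial-gap = (G1): THE CONSTRAINED INTERPOLATION, definitions      (architect helper58; head L05 helper291, ADV helper130; prefix `l6p`)

TEX[LL:global:trial-gap] l.9-170.      AFTER the normalisation `ℓ = 1` (leaf `l6p_norm`, file `LL06/PhiS1.lean`).      NON-ASYMPTOTIC: one size `m`, one pair of clocks.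
NO NEW INTERFACE: the model enters through `I : MvIface m` of helper67 (`Macro/Iface.lean`; INSTANCE `mac_supply_iface` / `macI m`, `Macro/Contract.lean`, owner PE Sec. 2: 118 / 42 / 10)
and `fspin` with `hsp : ∀ K, MvClk K → I.f 0 K = fspin K` (INSTANCE `macSpin`, `macI_spin`).
* `b` matrix clock (P3), `hs = h_* = t - b q` unmasked unseeded field, `q` the scalar quantile; the scalar clock is `t = hs + b q`;  `F_* = mvG fspin b hs q`  (`= f_spin(t) + ¼ ∫ b q²`).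
* `l6pE b e0 θ = (1-θ) e0 + θ b`   the removed matrix strength;   `l6pB = b - e`,   `l6pH = h_* + e r`   the changed clocks;
* `l6pJ I b hs e0 θ r = f_m(b - e, h_* + e r) + ¼ ∫ e r²`   the objective;
* `l6pCls κ M`   the density box: quantiles `r : [0,1] → [0,2]` of onto inverse paths `al : [0,2] → [0,1]`, `κ ≤ al' ≤ M` (vocabulary `TlBox`, `TlQ` of `Tool/Box252.lean`); `r`-form: `l6p_cls_iff`;
* `l6pPhi I b hs e0 κ M θ = min_r J`;      `l6pDer` = the envelope derivative `¼ ∫ (b - e0) (D² + (S - r)²)` at the changed path;      `L6pMin` = "`r` is a minimiser at `θ`".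
* `L6pOk b hs q e0 κ M`   the standing hypotheses (a bundle of hypotheses on explicit data, not an interface).
-/

set_option autoImplicit false

namespace Claimed.Agent.R286

open MeasureTheory Set Filter Topology

noncomputable section

/-- the removed matrix strength `e = (1-θ) e0 + θ b` -/
def l6pE (b : ℝ → ℝ) (e0 θ : ℝ) (u : ℝ) : ℝ := (1 - θ) * e0 + θ * b u

/-- the remaining matrix clock `b~ = b - e` -/
def l6pB (b : ℝ → ℝ) (e0 θ : ℝ) (u : ℝ) : ℝ := b u - l6pE b e0 θ u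

/-- the changed field clock `h_* + e r` -/
def l6pH (b hs : ℝ → ℝ) (e0 θ : ℝ) (r : ℝ → ℝ) (u : ℝ) : ℝ := hs u + l6pE b e0 θ u * r u

/-- the objective `f_m(b - e, h_* + e r) + ¼ ∫ e r²` -/
def l6pJ {m : ℕ} (I : MvIface m) (b hs : ℝ → ℝ) (e0 θ : ℝ) (r : ℝ → ℝ) : ℝ :=
  I.f (l6pB b e0 θ) (l6pH b hs e0 θ r) + 1 / 4 * ∫ u in (0:ℝ)..1, l6pE b e0 θ u * r u ^ 2

/-- the density box: quantiles of onto inverse paths `al : [0,2] → [0,1]` with `κ ≤ al' ≤ M` -/
def l6pCls (κ M : ℝ) : Set (ℝ → ℝ) :=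
  {r | ∃ al : ℝ → ℝ, TlBox (fun _ => κ) (fun _ => M) 0 2 0 1 al ∧ TlQ al 0 2 0 1 r}

/-- `Φ(θ) = min_r J(θ,r)` -/
def l6pPhi {m : ℕ} (I : MvIface m) (b hs : ℝ → ℝ) (e0 κ M θ : ℝ) : ℝ := tl12Val (l6pJ I b hs e0) (l6pCls κ M) θ

/-- `r` is a minimiser at `θ` -/
def L6pMin {m : ℕ} (I : MvIface m) (b hs : ℝ → ℝ) (e0 κ M θ : ℝ) (r : ℝ → ℝ) : Prop :=
  r ∈ l6pCls κ M ∧ ∀ r' ∈ l6pCls κ M, l6pJ I b hs e0 θ r ≤ l6pJ I b hs e0 θ r'

/-- the envelope derivative `¼ ∫ (b - e0) (D_v² + (S_v - r)²) dv`, `S, B` at the changed path -/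
def l6pDer {m : ℕ} (I : MvIface m) (b hs : ℝ → ℝ) (e0 θ : ℝ) (r : ℝ → ℝ) : ℝ :=
  1 / 4 * ∫ u in (0:ℝ)..1, (b u - e0) *
    ((I.B (l6pB b e0 θ) (l6pH b hs e0 θ r) u - I.S (l6pB b e0 θ) (l6pH b hs e0 θ r) u ^ 2)
      + (I.S (l6pB b e0 θ) (l6pH b hs e0 θ r) u - r u) ^ 2)

/-- standing hypotheses of the constrained interpolation -/
structure L6pOk (b hs q : ℝ → ℝ) (e0 κ M : ℝ) : Prop where
  hb : MvClk b
  hh : MvClk hs
  hq : MvQt q
  e0_pos : 0 < e0
  e0_le : e0 ≤ b 0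
  κ_pos : 0 < κ
  κ_le : κ ≤ 1 / 8
  M_ge : 1 ≤ M

/-- the loss of the passage to the density box -/
def l6pLoss (b : ℝ → ℝ) (κ M : ℝ) : ℝ := 3 / 2 * b 1 * (16 * κ + 1 / M)

theorem l6p_eqns_cite : True := by
  have := @l6pE.eq_1
  have := @l6pB.eq_1
  have := @l6pH.eq_1
  have := @l6pJ.eq_1
  have := @l6pCls.eq_1
  have := @l6pPhi.eq_1
  have := @L6pMin.eq_1
  have := @l6pDer.eq_1
  have := @l6pLoss.eq_1
  trivial

end

end Claimed.Agent.R286
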