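import Claimed.Agent.R286.L08.SPC
import Claimed.Agent.R286.L08.SPD
import Claimed.Agent.R286.LL06.MartGrid

/-!
# Row 286 (S0533), LL Section 6, file LL06/Pw : "A REUSABLE RESIDUAL ESTIMATE" over the abstract single path `L8P`
owner helper200 (LL06); prefix `l6p_`; vocabulary = `L08/SP.lean` + API `L08/SPA-SPD` (helper75, helper22).      NON-asymptotic, explicit constants, natural moment orders.
Source: LL 06-global.tex, paragraph `par:global-block-estimates`, Lemma 6.2, and the paragraph "Application to the integrated pinned moment" (l.337-466).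
USERS: (G4) [LL06/Fine], (C9), (C15) [LL07: 176], (D6) and the refined bootstrap [LL08: 37].      Every `sorry` = one leaf (claim286 by its Lean name).

The recipe of the paper for `‖∑_k w_k W_k‖_q` (forks `k ∈ J`, deterministic weights):
 1. `l6p_blocks`   : `W_k ≤ b ∑_{c,c'} v(block c') E_𝖻[(Δ_c^𝖺·Δ_c'^𝖻)²|𝖺]`                                     TEX[LL:global:residual-blocks]
 2. project the block which starts LATER; the other increment is the ANCHOR: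
    `l6p_pair_b`   : the later block is on the averaged branch `𝖻`: POINTWISE bound by `(projection scale)² |anchor|²`, no truncation;
    `l6p_pair_a`   : the later block is on the retained branch `𝖺`: truncation of the normalised projection at the level `τ`, high moment `r q`,
                     then dual Doob brings the squared anchor of `𝖻` back to the path;
    `l6p_pair_00`  : two initial blocks: bound one of them by a constant.
 3. the integrated squared anchor: `l6p_overlap`, `l6p_overlap_fam` ((global-grid) in BOUNDED OVERLAP form: no uniform grid needed).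
-/

set_option autoImplicit false

namespace Claimed.Agent.R286

open MeasureTheory ProbabilityTheory Finset
open scoped ENNReal

variable {Ω : Type} [mΩ : MeasurableSpace Ω] {m : ℕ}

namespace L8P

variable (P : L8P Ω m)

/-- `|X_l - X_k|²` -/
noncomputable def nXX (k l : ℕ) (ω : Ω) : ℝ := ∑ i, P.XX k l i ω ^ 2

/-- `E_𝖻[(D(𝖺)·A(𝖻))²|𝖺]` for the continuation `𝖻` forked at the cut `k` -/
noncomputable def FK (k : ℕ) (D A : Fin m → Ω → ℝ) (ω : Ω) : ℝ := ∫ ω', (∑ i, D i ω * A i ω') ^ 2 ∂(P.κ k ω)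

/-- squared projection scale of the gap from the cut `k` to the cut `l`: `1 / (v_k² m Δh)` -/
noncomputable def sc2 (k l : ℕ) : ℝ := 1 / (P.v k ^ 2 * m * P.hlen k l)

theorem l6p_nXX_le (h : P.Ok) (k l : ℕ) (ω : Ω) : P.nXX k l ω ≤ 4 := by
  have h1 := P.l8s_nX_le_one h k ω
  have h2 := P.l8s_nX_le_one h l ω
  have h3 : P.nXX k l ω ≤ 2 * P.nX l ω + 2 * P.nX k ω := by
    simp only [nXX, nX, XX, Finset.mul_sum]
    rw [← Finset.sum_add_distrib]
    refine Finset.sum_le_sum fun i _ => ?_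
    nlinarith [sq_nonneg (P.X l i ω + P.X k i ω)]
  linarith

theorem l6p_nXX_bd (h : P.Ok) (k l : ℕ) : L8Bd (P.nXX k l) :=
  L8Bd.sum _ fun i _ => (P.l8sb_XX_bd h k l i).pow 2

/-- **(global-block-decomposition)**, both branches expanded.  TEX[LL:global:residual-blocks]
Blocks `[t c, t (c+1))`, `t 0` = the fork, `t b = n + 1`; weight = the largest mass of the block of the branch `𝖻`.
Proof: `l8s_H_le_blocks` at `u = R (t 0) ω = ∑_c XX (t c) (t (c+1)) ω`, Cauchy-Schwarz in `c`. -/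
theorem l6p_blocks (h : P.Ok) (b : ℕ) (t : ℕ → ℕ) (ht : Monotone t) (hb : t b = P.n + 1) (ω : Ω) :
    P.W (t 0) ω ≤ b * ∑ c ∈ range b, ∑ c' ∈ range b,
      P.v (t (c' + 1) - 1) * P.FK (t 0) (P.XX (t c) (t (c + 1))) (P.XX (t c') (t (c' + 1))) ω := by
  have hu : ∀ i, P.R (t 0) i ω = ∑ c ∈ range b, P.XX (t c) (t (c + 1)) i ω := by
    intro i
    simp only [XX]
    rw [Finset.sum_range_sub (fun c => P.X (t c) i ω) b, hb, P.l8s_X_term h (Nat.lt_succ_self _)]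
    rfl
  have bq : ∀ (u : Fin m → ℝ) (c' : ℕ), L8Bd (fun ω' => (∑ i, u i * P.XX (t c') (t (c' + 1)) i ω') ^ 2) :=
    fun u c' => (L8Bd.sum _ fun i _ => (P.l8sb_XX_bd h _ _ i).const_mul _).pow 2
  have h1 := P.l8s_H_le_blocks h b t ht hb (fun i => P.R (t 0) i ω) ω
  have h2 : P.E (t 0) (fun ω' => ∑ c' ∈ range b, P.v (t (c' + 1) - 1)
        * (∑ i, P.R (t 0) i ω * P.XX (t c') (t (c' + 1)) i ω') ^ 2) ω
      ≤ P.E (t 0) (fun ω' => ∑ c' ∈ range b, P.v (t (c' + 1) - 1)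
        * (b * ∑ c ∈ range b, (∑ i, P.XX (t c) (t (c + 1)) i ω * P.XX (t c') (t (c' + 1)) i ω') ^ 2)) ω := by
    refine P.l8s_E_mono h _ (L8Bd.sum _ fun c' _ => (bq _ c').const_mul _)
      (L8Bd.sum _ fun c' _ => ((L8Bd.sum _ fun c _ => bq _ c').const_mul _).const_mul _) (fun ω' => ?_) ω
    refine Finset.sum_le_sum fun c' _ => mul_le_mul_of_nonneg_left ?_ (h.v_nonneg _)
    have e : ∑ i, P.R (t 0) i ω * P.XX (t c') (t (c' + 1)) i ω'
        = ∑ c ∈ range b, ∑ i, P.XX (t c) (t (c + 1)) i ω * P.XX (t c') (t (c' + 1)) i ω' := by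
      rw [Finset.sum_comm]
      refine Finset.sum_congr rfl fun i _ => ?_
      rw [hu i, Finset.sum_mul]
    rw [e]
    have := sq_sum_le_card_mul_sum_sq (s := range b)
      (f := fun c => ∑ i, P.XX (t c) (t (c + 1)) i ω * P.XX (t c') (t (c' + 1)) i ω')
    simpa using this
  have h3 : P.E (t 0) (fun ω' => ∑ c' ∈ range b, P.v (t (c' + 1) - 1)
        * (b * ∑ c ∈ range b, (∑ i, P.XX (t c) (t (c + 1)) i ω * P.XX (t c') (t (c' + 1)) i ω') ^ 2)) ω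
      = b * ∑ c ∈ range b, ∑ c' ∈ range b,
        P.v (t (c' + 1) - 1) * P.FK (t 0) (P.XX (t c) (t (c + 1))) (P.XX (t c') (t (c' + 1))) ω := by
    rw [P.l8s_E_sum h _ _ fun c' _ => ((L8Bd.sum _ fun c _ => bq _ c').const_mul _).const_mul _,
      Finset.sum_comm, Finset.mul_sum]
    refine Finset.sum_congr rfl fun c' _ => ?_
    rw [P.l8s_E_const_mul, P.l8s_E_const_mul, P.l8s_E_sum h _ _ fun c _ => bq _ c', ← Finset.mul_sum]
    simp only [FK, E]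
    ring
  exact (h1.trans h2).trans h3.le

/-- (A3) for an increment seen from the fork `k`; the gap `[p0, l₁]` may start after the fork (tower `k → p0`) -/
theorem l6p_proj_gen (h : P.Ok) {N : ℕ} {c vmin hmin : ℝ} (hp : P.Proj N c vmin hmin) {k p0 l₁ l₂ : ℕ} (hk0 : k ≤ p0) (hkl : p0 < l₁)
    (hl : l₁ ≤ l₂) (hl1 : l₁ ≤ P.n + 1) (hv : vmin ≤ P.v p0) (hh : hmin ≤ P.hlen p0 l₁) (ω : Ω) (u : Fin m → ℝ) :
    ∫ ω', (∑ i, u i * P.XX l₁ l₂ i ω') ^ (2 * N) ∂(P.κ k ω)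
      ≤ c * (∑ i, u i ^ 2) ^ N / (P.v p0 ^ 2 * m * P.hlen p0 l₁) ^ N := by
  have bf : L8Bd (fun ω' => (∑ i, u i * P.XX l₁ l₂ i ω') ^ (2 * N)) :=
    (L8Bd.sum _ fun i _ => (P.l8sb_XX_bd h _ _ i).const_mul _).pow _
  have h1 := P.l8s_E_tower h hk0 bf ω
  have h2 := P.l8s_E_mono h k (P.l8s_E_bd h p0 bf)
    (l8Bd_const (c * (∑ i, u i ^ 2) ^ N / (P.v p0 ^ 2 * m * P.hlen p0 l₁) ^ N))
    (fun x => P.l8s_proj_incr h hp hkl hl hl1 hv hh x u) ω
  rw [h1, P.l8s_E_const h] at h2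
  exact h2

/-- **the later block is on the averaged branch**, the (A3) gap `[p0, l₁]` starts at `p0 ≥ k`: pointwise, second moment of (A3).   `D` = any anchor on the retained branch. -/
theorem l6p_pair_b_gen (h : P.Ok) {c vmin hmin : ℝ} (hp : P.Proj 1 c vmin hmin) {k p0 l₁ l₂ : ℕ} (hk0 : k ≤ p0) (hkl : p0 < l₁) (hl : l₁ ≤ l₂)
    (hl1 : l₁ ≤ P.n + 1) (hv : vmin ≤ P.v p0) (hh : hmin ≤ P.hlen p0 l₁) (D : Fin m → Ω → ℝ) (ω : Ω) :
    P.FK k D (P.XX l₁ l₂) ω ≤ c * P.sc2 p0 l₁ * ∑ i, D i ω ^ 2 := by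
  have h1 := P.l6p_proj_gen h hp hk0 hkl hl hl1 hv hh ω (fun i => D i ω)
  simp only [mul_one, pow_one] at h1
  refine h1.trans (le_of_eq ?_)
  simp only [sc2]
  ring

/-- **the later block is on the averaged branch**: pointwise, second moment of (A3).   `D` = any anchor on the retained branch. -/
theorem l6p_pair_b (h : P.Ok) {c vmin hmin : ℝ} (hp : P.Proj 1 c vmin hmin) {k l₁ l₂ : ℕ} (hkl : k < l₁) (hl : l₁ ≤ l₂) (hl1 : l₁ ≤ P.n + 1)
    (hv : vmin ≤ P.v k) (hh : hmin ≤ P.hlen k l₁) (D : Fin m → Ω → ℝ) (ω : Ω) :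
    P.FK k D (P.XX l₁ l₂) ω ≤ c * P.sc2 k l₁ * ∑ i, D i ω ^ 2 :=
  P.l6p_pair_b_gen h hp le_rfl hkl hl hl1 hv hh D ω

/-! ### helpers for `l6p_pair_a` (helper284) -/

theorem l6p_pair_a_trunc {x t : ℝ} (hx : 0 ≤ x) (ht : 0 < t) {r : ℕ} (hr : 1 ≤ r) :
    x ≤ t + x ^ r / t ^ (r - 1) := by
  rcases le_or_gt x t with h | h
  · have : 0 ≤ x ^ r / t ^ (r - 1) := by positivity
    linarith
  · have h1 : x * t ^ (r - 1) ≤ x ^ r := by
      obtain ⟨s, rfl⟩ : ∃ s, r = s + 1 := ⟨r - 1, by omega⟩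
      simp only [Nat.add_sub_cancel]
      rw [pow_succ, mul_comm]
      exact mul_le_mul_of_nonneg_right (pow_le_pow_left₀ ht.le h.le s) hx
    have h2 : x ≤ x ^ r / t ^ (r - 1) := by
      rw [le_div_iff₀ (by positivity)]
      exact h1
    linarith

/-- the normalised anchor `A / |A|` (`0` where `A = 0`) -/
noncomputable def l6pHat (A : Fin m → Ω → ℝ) (i : Fin m) (ω : Ω) : ℝ := A i ω / Real.sqrt (∑ j, A j ω ^ 2)

omit mΩ in
theorem l6pHat_sq_le (A : Fin m → Ω → ℝ) (ω : Ω) : ∑ i, l6pHat A i ω ^ 2 ≤ 1 := by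
  have ha : 0 ≤ ∑ j, A j ω ^ 2 := Finset.sum_nonneg fun j _ => sq_nonneg _
  simp only [l6pHat, div_pow, Real.sq_sqrt ha]
  rw [← Finset.sum_div]
  exact div_self_le_one _

omit mΩ in
theorem l6pHat_mul (A : Fin m → Ω → ℝ) (D : Fin m → ℝ) (ω : Ω) :
    (∑ i, D i * A i ω) ^ 2 = (∑ j, A j ω ^ 2) * (∑ i, D i * l6pHat A i ω) ^ 2 := by
  have ha : 0 ≤ ∑ j, A j ω ^ 2 := Finset.sum_nonneg fun j _ => sq_nonneg _
  rcases ha.eq_or_lt with h0 | hpos
  · have hz : ∀ i, A i ω = 0 := by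
      intro i
      have := (Finset.sum_eq_zero_iff_of_nonneg (fun j _ => sq_nonneg (A j ω))).1 h0.symm i
        (Finset.mem_univ i)
      exact pow_eq_zero_iff (two_ne_zero) |>.1 this
    simp [hz]
  · have hs : 0 < Real.sqrt (∑ j, A j ω ^ 2) := Real.sqrt_pos.2 hpos
    have e : ∑ i, D i * A i ω = Real.sqrt (∑ j, A j ω ^ 2) * ∑ i, D i * l6pHat A i ω := by
      rw [Finset.mul_sum]
      refine Finset.sum_congr rfl fun i _ => ?_
      simp only [l6pHat]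
      field_simp
    rw [e, mul_pow, Real.sq_sqrt ha]

theorem l6pHat_bd {A : Fin m → Ω → ℝ} (hA : ∀ i, Measurable (A i)) (i : Fin m) : L8Bd (l6pHat A i) := by
  refine ⟨(hA i).div ((Finset.measurable_sum _ fun j _ => (hA j).pow_const 2).sqrt), 1, fun ω => ?_⟩
  have h1 : l6pHat A i ω ^ 2 ≤ ∑ j, l6pHat A j ω ^ 2 :=
    Finset.single_le_sum (f := fun j => l6pHat A j ω ^ 2) (fun j _ => sq_nonneg _) (Finset.mem_univ i)
  exact (sq_le_one_iff_abs_le_one _).1 (h1.trans (l6pHat_sq_le A ω))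

theorem l6p_pair_a_fst {f : Ω → ℝ} (hf : L8Bd f) : L8Bd (fun p : Ω × Ω => f p.1) := by
  obtain ⟨hm, c, hc⟩ := hf
  exact ⟨hm.comp measurable_fst, c, fun p => hc p.1⟩

theorem l6p_pair_a_snd {f : Ω → ℝ} (hf : L8Bd f) : L8Bd (fun p : Ω × Ω => f p.2) := by
  obtain ⟨hm, c, hc⟩ := hf
  exact ⟨hm.comp measurable_snd, c, fun p => hc p.2⟩

theorem l6p_pair_a_G {D B : Fin m → Ω → ℝ} (hD : ∀ i, L8Bd (D i)) (hB : ∀ i, L8Bd (B i)) (N : ℕ) :
    L8Bd (fun p : Ω × Ω => (∑ i, D i p.1 * B i p.2) ^ N) :=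
  (L8Bd.sum _ fun i _ => (l6p_pair_a_fst (hD i)).mul (l6p_pair_a_snd (hB i))).pow N

theorem l6p_pair_a_ker (h : P.Ok) (k : ℕ) {F : Ω × Ω → ℝ} (hF : L8Bd F) :
    L8Bd (fun ω => ∫ ω', F (ω, ω') ∂(P.κ k ω)) := by
  have := h.markov k
  obtain ⟨hm, C, hC⟩ := hF
  refine ⟨(hm.stronglyMeasurable.integral_kernel_prod_right' (κ := P.κ k)).measurable, C, fun ω => ?_⟩
  have h1 := norm_integral_le_of_norm_le_const (μ := P.κ k ω) (f := fun ω' => F (ω, ω')) (C := C)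
    (ae_of_all _ fun x => by simpa [Real.norm_eq_abs] using hC (ω, x))
  simpa [Real.norm_eq_abs] using h1

theorem l6p_pair_a_A_bd {A : Fin m → Ω → ℝ} (hA : ∀ i, Measurable (A i)) {R : ℝ}
    (hAR : ∀ ω, ∑ i, A i ω ^ 2 ≤ R) (i : Fin m) : L8Bd (A i) := by
  refine ⟨hA i, R + 1, fun ω => ?_⟩
  have h1 : A i ω ^ 2 ≤ ∑ j, A j ω ^ 2 :=
    Finset.single_le_sum (f := fun j => A j ω ^ 2) (fun j _ => sq_nonneg _) (Finset.mem_univ i)
  have h2 := hAR ω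
  have h3 : |A i ω| ^ 2 = A i ω ^ 2 := sq_abs _
  nlinarith [sq_nonneg (|A i ω| - 1)]

/-- truncation of the normalised projection at the level `t` -/
theorem l6p_pair_a_FK (h : P.Ok) (k : ℕ) (D : Fin m → Ω → ℝ) {A : Fin m → Ω → ℝ} (hA : ∀ i, Measurable (A i)) {R : ℝ}
    (hAR : ∀ ω, ∑ i, A i ω ^ 2 ≤ R) {t : ℝ} (ht : 0 < t) {r : ℕ} (hr : 1 ≤ r) (ω : Ω) :
    P.FK k D A ω ≤ t * P.E k (fun ω' => ∑ i, A i ω' ^ 2) ω
      + R / t ^ (r - 1) * ∫ ω', (∑ i, D i ω * l6pHat A i ω') ^ (2 * r) ∂(P.κ k ω) := by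
  have bA := l6p_pair_a_A_bd hA hAR
  have b1 : L8Bd (fun ω' => ∑ i, A i ω' ^ 2) := L8Bd.sum _ fun i _ => (bA i).pow 2
  have b2 : L8Bd (fun ω' => (∑ i, D i ω * l6pHat A i ω') ^ (2 * r)) :=
    (L8Bd.sum _ fun i _ => (l6pHat_bd hA i).const_mul _).pow _
  have b3 : L8Bd (fun ω' => (∑ i, D i ω * A i ω') ^ 2) :=
    (L8Bd.sum _ fun i _ => (bA i).const_mul _).pow _
  have hpt : ∀ ω', (∑ i, D i ω * A i ω') ^ 2 ≤ t * (∑ i, A i ω' ^ 2)
      + R / t ^ (r - 1) * (∑ i, D i ω * l6pHat A i ω') ^ (2 * r) := by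
    intro ω'
    rw [l6pHat_mul A (fun i => D i ω) ω', pow_mul]
    obtain ⟨x, hx⟩ : ∃ x, x = (∑ i, D i ω * l6pHat A i ω') ^ 2 := ⟨_, rfl⟩
    rw [← hx]
    have hx0 : 0 ≤ x := hx ▸ sq_nonneg _
    have ha : 0 ≤ ∑ j, A j ω' ^ 2 := Finset.sum_nonneg fun j _ => sq_nonneg _
    have h1 := l6p_pair_a_trunc hx0 ht hr
    have h2 : 0 ≤ x ^ r / t ^ (r - 1) := by positivity
    calc (∑ j, A j ω' ^ 2) * x ≤ (∑ j, A j ω' ^ 2) * (t + x ^ r / t ^ (r - 1)) :=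
          mul_le_mul_of_nonneg_left h1 ha
      _ = t * (∑ j, A j ω' ^ 2) + (∑ j, A j ω' ^ 2) * (x ^ r / t ^ (r - 1)) := by ring
      _ ≤ t * (∑ j, A j ω' ^ 2) + R * (x ^ r / t ^ (r - 1)) := by
          have := mul_le_mul_of_nonneg_right (hAR ω') h2
          linarith
      _ = t * (∑ j, A j ω' ^ 2) + R / t ^ (r - 1) * x ^ r := by ring
  have h1 := P.l8s_E_mono h k b3 ((b1.const_mul t).add (b2.const_mul (R / t ^ (r - 1)))) hpt ω
  rw [P.l8s_E_add h k (b1.const_mul t) (b2.const_mul _), P.l8s_E_const_mul, P.l8s_E_const_mul] at h1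
  exact h1

theorem l6p_pair_a_c_nonneg (h : P.Ok) (hm : 0 < m) {N : ℕ} {c vmin hmin : ℝ} (hp : P.Proj N c vmin hmin) {k l₁ : ℕ}
    (hkl : k < l₁) (hl1 : l₁ ≤ P.n + 1) (hv : vmin ≤ P.v k) (hh : hmin ≤ P.hlen k l₁)
    (hpos : 0 < P.v k ^ 2 * m * P.hlen k l₁) : 0 ≤ c := by
  have := h.prob
  obtain ⟨ω⟩ := nonempty_of_isProbabilityMeasure P.μ
  have h1 := hp k l₁ hkl hl1 hv hh ω (fun i => if i = ⟨0, hm⟩ then 1 else 0)
  have h2 : 0 ≤ ∫ ω', (∑ i, (fun i : Fin m => if i = ⟨0, hm⟩ then (1 : ℝ) else 0) i * P.R l₁ i ω') ^ (2 * N)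
      ∂(P.κ k ω) := integral_nonneg fun ω' => by
    rw [pow_mul]
    positivity
  have h3 : ∑ i : Fin m, (if i = ⟨0, hm⟩ then (1 : ℝ) else 0) ^ 2 = 1 := by
    simp
  rw [h3, one_pow, mul_one] at h1
  have h4 := h2.trans h1
  have h5 : 0 < (P.v k ^ 2 * m * P.hlen k l₁) ^ N := by positivity
  rcases le_or_gt 0 c with hc | hc
  · exact hc
  · exact absurd h4 (not_le.2 (div_neg_of_neg_of_pos hc h5))

/-- the high moment of the normalised projection, after exchanging the two branches of the fork -/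
theorem l6p_pair_a_U (h : P.Ok) (hm : 0 < m) {N : ℕ} {c vmin hmin : ℝ} (hp : P.Proj N c vmin hmin) {k p0 l₁ l₂ : ℕ}
    (hk0 : k ≤ p0) (hkl : p0 < l₁) (hl : l₁ ≤ l₂) (hl1 : l₁ ≤ P.n + 1) (hv : vmin ≤ P.v p0) (hh : hmin ≤ P.hlen p0 l₁)
    (hpos : 0 < P.v p0 ^ 2 * m * P.hlen p0 l₁) {B : Fin m → Ω → ℝ} (hB : ∀ i, L8Bd (B i)) (hB1 : ∀ ω, ∑ i, B i ω ^ 2 ≤ 1) :
    ∫ ω, ∫ ω', (∑ i, P.XX l₁ l₂ i ω * B i ω') ^ (2 * N) ∂(P.κ k ω) ∂P.μ ≤ c * P.sc2 p0 l₁ ^ N := by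
  have := h.prob
  have hc := P.l6p_pair_a_c_nonneg h hm hp hkl hl1 hv hh hpos
  have bF := l6p_pair_a_G (fun i => P.l8sb_XX_bd h l₁ l₂ i) hB (2 * N)
  have bF' : L8Bd (fun p : Ω × Ω => (∑ i, P.XX l₁ l₂ i p.2 * B i p.1) ^ (2 * N)) :=
    (L8Bd.sum _ fun i _ => (l6p_pair_a_snd (P.l8sb_XX_bd h l₁ l₂ i)).mul (l6p_pair_a_fst (hB i))).pow _
  obtain ⟨C, hC⟩ := bF.2
  obtain ⟨C', hC'⟩ := bF'.2
  have e1 := P.l8s_fork_integral h k bF.1 hC
  have e2 := P.l8s_fork_integral h k bF'.1 hC'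
  have e3 : ∫ p, (∑ i, P.XX l₁ l₂ i p.1 * B i p.2) ^ (2 * N) ∂(P.fork k)
      = ∫ p, (∑ i, P.XX l₁ l₂ i p.2 * B i p.1) ^ (2 * N) ∂(P.fork k) := by
    conv_lhs => rw [← P.l8s_fork_swap h k]
    rw [integral_map measurable_swap.aemeasurable bF.1.aestronglyMeasurable]
    rfl
  rw [← e1, e3, e2]
  have hin : ∀ ω, ∫ ω', (∑ i, P.XX l₁ l₂ i ω' * B i ω) ^ (2 * N) ∂(P.κ k ω) ≤ c * P.sc2 p0 l₁ ^ N := by
    intro ω
    have h1 := P.l6p_proj_gen h hp hk0 hkl hl hl1 hv hh ω (fun i => B i ω)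
    have e : (fun ω' => (∑ i, P.XX l₁ l₂ i ω' * B i ω) ^ (2 * N))
        = fun ω' => (∑ i, B i ω * P.XX l₁ l₂ i ω') ^ (2 * N) := by
      funext ω'
      congr 1
      exact Finset.sum_congr rfl fun i _ => mul_comm _ _
    rw [e]
    refine h1.trans ?_
    have h2 : (∑ i, B i ω ^ 2) ^ N ≤ 1 :=
      pow_le_one₀ (Finset.sum_nonneg fun i _ => sq_nonneg _) (hB1 ω)
    have h3 : P.sc2 p0 l₁ ^ N = 1 / (P.v p0 ^ 2 * m * P.hlen p0 l₁) ^ N := by
      simp only [sc2, div_pow, one_pow]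
    rw [h3, mul_one_div]
    have h5 : 0 < (P.v p0 ^ 2 * m * P.hlen p0 l₁) ^ N := by positivity
    exact div_le_div_of_nonneg_right (by nlinarith) h5.le
  have h6 := integral_mono ((P.l6p_pair_a_ker h k bF').integrable P.μ) (integrable_const _) hin
  simpa using h6

theorem l6p_pair_a_jensen {ι : Type} (J : Finset ι) (lam u : ι → ℝ) (hl : ∀ k ∈ J, 0 ≤ lam k) (hu : ∀ k ∈ J, 0 ≤ u k)
    {q : ℕ} (hq : 1 ≤ q) : (∑ k ∈ J, lam k * u k) ^ q ≤ (∑ k ∈ J, lam k) ^ (q - 1) * ∑ k ∈ J, lam k * u k ^ q := by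
  have hL : 0 ≤ ∑ k ∈ J, lam k := Finset.sum_nonneg hl
  rcases hL.eq_or_lt with h0 | hpos
  · have hz : ∀ k ∈ J, lam k = 0 := (Finset.sum_eq_zero_iff_of_nonneg hl).1 h0.symm
    have e1 : ∑ k ∈ J, lam k * u k = 0 := Finset.sum_eq_zero fun k hk => by rw [hz k hk, zero_mul]
    have e2 : ∑ k ∈ J, lam k * u k ^ q = 0 := Finset.sum_eq_zero fun k hk => by rw [hz k hk, zero_mul]
    rw [e1, e2, mul_zero, zero_pow (by omega)]
  · obtain ⟨L, hLd⟩ : ∃ L, L = ∑ k ∈ J, lam k := ⟨_, rfl⟩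
    rw [← hLd] at hpos ⊢
    have h1 := Real.pow_arith_mean_le_arith_mean_pow J (fun k => lam k / L) u
      (fun k hk => div_nonneg (hl k hk) hpos.le) (by rw [← Finset.sum_div, ← hLd, div_self hpos.ne']) hu q
    have e1 : ∑ k ∈ J, lam k / L * u k = (∑ k ∈ J, lam k * u k) / L := by
      rw [Finset.sum_div]
      exact Finset.sum_congr rfl fun k _ => by ring
    have e2 : ∑ k ∈ J, lam k / L * u k ^ q = (∑ k ∈ J, lam k * u k ^ q) / L := by
      rw [Finset.sum_div]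
      exact Finset.sum_congr rfl fun k _ => by ring
    rw [e1, e2, div_pow, div_le_div_iff₀ (by positivity) hpos] at h1
    obtain ⟨s, rfl⟩ : ∃ s, q = s + 1 := ⟨q - 1, by omega⟩
    simp only [Nat.add_sub_cancel]
    rw [pow_succ L s] at h1
    have h2 : (∑ k ∈ J, lam k * u k) ^ (s + 1) * L ≤ (L ^ s * ∑ k ∈ J, lam k * u k ^ (s + 1)) * L := by
      calc _ ≤ (∑ k ∈ J, lam k * u k ^ (s + 1)) * (L ^ s * L) := h1
        _ = _ := by ring
    exact le_of_mul_le_mul_right h2 hpos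

/-- **the later block is on the retained branch**: forks `k ∈ J`, weights `w k ≥ 0`, projected increments `XX (p₁ k) (p₂ k)`, (A3) gap `[p₀ k, p₁ k]` with `k ≤ p₀ k < p₁ k`,
anchors `A k` on the averaged branch (measurable, `|A k|² ≤ R`).   Threshold `τ > 0`, `r ≥ 1`, (A3) of order `2 r q`:
`‖∑ w T‖_q^q ≤ 2^(q-1) [ (τ q)^q ‖∑ w sc2 |A|²‖_q^q + c (R τ^(1-r) ∑ w sc2)^q ]`. -/
theorem l6p_pair_a (h : P.Ok) (hm : 0 < m) {q r : ℕ} (hq : 1 ≤ q) (hr : 1 ≤ r) {c vmin hmin : ℝ} (hvmin : 0 < vmin) (hhmin : 0 < hmin)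
    (hp : P.Proj (r * q) c vmin hmin) (J : Finset ℕ) (w : ℕ → ℝ) (hw : ∀ k ∈ J, 0 ≤ w k) (p₀ p₁ p₂ : ℕ → ℕ)
    (hk0 : ∀ k ∈ J, k ≤ p₀ k) (hkp : ∀ k ∈ J, p₀ k < p₁ k) (hp12 : ∀ k ∈ J, p₁ k ≤ p₂ k) (hp1 : ∀ k ∈ J, p₁ k ≤ P.n + 1)
    (hv : ∀ k ∈ J, vmin ≤ P.v (p₀ k)) (hh : ∀ k ∈ J, hmin ≤ P.hlen (p₀ k) (p₁ k))
    (A : ℕ → Fin m → Ω → ℝ) (hA : ∀ k i, Measurable (A k i)) {R : ℝ} (hAR : ∀ k ω, ∑ i, A k i ω ^ 2 ≤ R) {τ : ℝ} (hτ : 0 < τ) :
    ∫ ω, (∑ k ∈ J, w k * P.FK k (P.XX (p₁ k) (p₂ k)) (A k) ω) ^ q ∂P.μ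
      ≤ 2 ^ (q - 1) * ((τ * q) ^ q * ∫ ω, (∑ k ∈ J, w k * P.sc2 (p₀ k) (p₁ k) * ∑ i, A k i ω ^ 2) ^ q ∂P.μ
          + c * (R / τ ^ (r - 1) * ∑ k ∈ J, w k * P.sc2 (p₀ k) (p₁ k)) ^ q) := by
  have := h.prob
  obtain ⟨ω0⟩ := nonempty_of_isProbabilityMeasure P.μ
  have hσ : ∀ k ∈ J, 0 < P.v (p₀ k) ^ 2 * m * P.hlen (p₀ k) (p₁ k) := by
    intro k hk
    have h1 : 0 < P.v (p₀ k) := hvmin.trans_le (hv k hk)
    have h2 : 0 < P.hlen (p₀ k) (p₁ k) := hhmin.trans_le (hh k hk)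
    have h3 : (0 : ℝ) < m := by exact_mod_cast hm
    positivity
  have hs : ∀ k ∈ J, 0 < P.sc2 (p₀ k) (p₁ k) := fun k hk => by
    simp only [sc2]
    exact one_div_pos.2 (hσ k hk)
  have hR : 0 ≤ R := (Finset.sum_nonneg fun i _ => sq_nonneg _).trans (hAR 0 ω0)
  obtain ⟨U, hU⟩ : ∃ U : ℕ → Ω → ℝ, U = fun k ω =>
      ∫ ω', (∑ i, P.XX (p₁ k) (p₂ k) i ω * l6pHat (A k) i ω') ^ (2 * r) ∂(P.κ k ω) := ⟨_, rfl⟩
  have bU : ∀ k, L8Bd (U k) := fun k => by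
    rw [hU]
    exact P.l6p_pair_a_ker h k
      (l6p_pair_a_G (fun i => P.l8sb_XX_bd h _ _ i) (l6pHat_bd (hA k)) (2 * r))
  have U0 : ∀ k ω, 0 ≤ U k ω := fun k ω => by
    rw [hU]
    exact integral_nonneg fun ω' => by
      rw [pow_mul]
      positivity
  have ba : ∀ k, L8Bd (fun ω => ∑ i, A k i ω ^ 2) := fun k =>
    L8Bd.sum _ fun i _ => (l6p_pair_a_A_bd (hA k) (hAR k) i).pow 2
  have hUq : ∀ k ∈ J, ∫ ω, (U k ω / P.sc2 (p₀ k) (p₁ k) ^ r) ^ q ∂P.μ ≤ c := by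
    intro k hk
    have h1 : ∀ ω, U k ω ^ q
        ≤ ∫ ω', (∑ i, P.XX (p₁ k) (p₂ k) i ω * l6pHat (A k) i ω') ^ (2 * (r * q)) ∂(P.κ k ω) := by
      intro ω
      have hb : L8Bd (fun ω' => (∑ i, P.XX (p₁ k) (p₂ k) i ω * l6pHat (A k) i ω') ^ (2 * r)) :=
        (L8Bd.sum _ fun i _ => (l6pHat_bd (hA k) i).const_mul _).pow _
      have h2 := P.l8s_E_pow_le h k hb q ω
      have e1 : P.E k (fun ω' => (∑ i, P.XX (p₁ k) (p₂ k) i ω * l6pHat (A k) i ω') ^ (2 * r)) ω = U k ω := by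
        rw [hU]
        rfl
      rw [e1, abs_of_nonneg (U0 k ω)] at h2
      refine h2.trans (le_of_eq ?_)
      simp only [E]
      congr 1
      funext ω'
      rw [abs_of_nonneg (by rw [pow_mul]; positivity), ← pow_mul, mul_assoc]
    have h2 := P.l6p_pair_a_U h hm hp (hk0 k hk) (hkp k hk) (hp12 k hk) (hp1 k hk) (hv k hk) (hh k hk) (hσ k hk)
      (l6pHat_bd (hA k)) (l6pHat_sq_le (A k))
    have h3 : ∫ ω, U k ω ^ q ∂P.μ ≤ c * P.sc2 (p₀ k) (p₁ k) ^ (r * q) :=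
      (integral_mono (((bU k).pow q).integrable _) ((P.l6p_pair_a_ker h k
        (l6p_pair_a_G (fun i => P.l8sb_XX_bd h _ _ i) (l6pHat_bd (hA k)) (2 * (r * q)))).integrable _)
        h1).trans h2
    simp only [div_pow, ← pow_mul]
    rw [integral_div, div_le_iff₀ (pow_pos (hs k hk) _)]
    exact h3
  obtain ⟨lam, hlam⟩ : ∃ lam : ℕ → ℝ, lam = fun k => w k * P.sc2 (p₀ k) (p₁ k) := ⟨_, rfl⟩
  have hlam0 : ∀ k ∈ J, 0 ≤ lam k := fun k hk => by
    rw [hlam]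
    exact mul_nonneg (hw k hk) (hs k hk).le
  have hτr : 0 < τ ^ (r - 1) := pow_pos hτ _
  -- the pointwise splitting
  have hpt : ∀ ω, ∑ k ∈ J, w k * P.FK k (P.XX (p₁ k) (p₂ k)) (A k) ω
      ≤ τ * (∑ k ∈ J, lam k * P.E k (fun ω' => ∑ i, A k i ω' ^ 2) ω)
        + R / τ ^ (r - 1) * ∑ k ∈ J, lam k * (U k ω / P.sc2 (p₀ k) (p₁ k) ^ r) := by
    intro ω
    rw [Finset.mul_sum, Finset.mul_sum, ← Finset.sum_add_distrib]
    refine Finset.sum_le_sum fun k hk => ?_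
    have h1 := P.l6p_pair_a_FK h k (P.XX (p₁ k) (p₂ k)) (hA k) (hAR k) (mul_pos hτ (hs k hk)) hr ω
    have h2 := mul_le_mul_of_nonneg_left h1 (hw k hk)
    refine h2.trans (le_of_eq ?_)
    have e1 : ∫ ω', (∑ i, P.XX (p₁ k) (p₂ k) i ω * l6pHat (A k) i ω') ^ (2 * r) ∂(P.κ k ω) = U k ω := by
      rw [hU]
    rw [e1, hlam]
    have hsk := (hs k hk).ne'
    obtain ⟨s, rfl⟩ : ∃ s, r = s + 1 := ⟨r - 1, by omega⟩
    simp only [Nat.add_sub_cancel]
    have hτ' := hτ.ne'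
    field_simp
    ring
  have bFK : ∀ k, L8Bd (P.FK k (P.XX (p₁ k) (p₂ k)) (A k)) := fun k =>
    P.l6p_pair_a_ker h k (l6p_pair_a_G (fun i => P.l8sb_XX_bd h _ _ i)
      (l6p_pair_a_A_bd (hA k) (hAR k)) 2)
  have FK0 : ∀ k ω, 0 ≤ P.FK k (P.XX (p₁ k) (p₂ k)) (A k) ω := fun k ω =>
    integral_nonneg fun ω' => sq_nonneg _
  have bx : L8Bd (fun ω => ∑ k ∈ J, lam k * P.E k (fun ω' => ∑ i, A k i ω' ^ 2) ω) :=
    L8Bd.sum _ fun k _ => (P.l8s_E_bd h k (ba k)).const_mul _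
  have by' : L8Bd (fun ω => ∑ k ∈ J, lam k * (U k ω / P.sc2 (p₀ k) (p₁ k) ^ r)) :=
    L8Bd.sum _ fun k _ => ((bU k).div_const _).const_mul _
  have x0 : ∀ ω, 0 ≤ ∑ k ∈ J, lam k * P.E k (fun ω' => ∑ i, A k i ω' ^ 2) ω := fun ω =>
    Finset.sum_nonneg fun k hk => mul_nonneg (hlam0 k hk)
      (P.l8s_E_nonneg k (fun ω' => Finset.sum_nonneg fun i _ => sq_nonneg _) ω)
  have y0 : ∀ ω, 0 ≤ ∑ k ∈ J, lam k * (U k ω / P.sc2 (p₀ k) (p₁ k) ^ r) := fun ω =>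
    Finset.sum_nonneg fun k hk => mul_nonneg (hlam0 k hk)
      (div_nonneg (U0 k ω) (pow_pos (hs k hk) _).le)
  have hpt2 : ∀ ω, (∑ k ∈ J, w k * P.FK k (P.XX (p₁ k) (p₂ k)) (A k) ω) ^ q
      ≤ 2 ^ (q - 1) * (τ ^ q * (∑ k ∈ J, lam k * P.E k (fun ω' => ∑ i, A k i ω' ^ 2) ω) ^ q
        + (R / τ ^ (r - 1)) ^ q * (∑ k ∈ J, lam k * (U k ω / P.sc2 (p₀ k) (p₁ k) ^ r)) ^ q) := by
    intro ω
    have h1 : 0 ≤ ∑ k ∈ J, w k * P.FK k (P.XX (p₁ k) (p₂ k)) (A k) ω :=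
      Finset.sum_nonneg fun k hk => mul_nonneg (hw k hk) (FK0 k ω)
    have h2 := pow_le_pow_left₀ h1 (hpt ω) q
    have h3 := add_pow_le (mul_nonneg hτ.le (x0 ω))
      (mul_nonneg (div_nonneg hR hτr.le) (y0 ω)) q
    rw [mul_pow, mul_pow] at h3
    exact h2.trans h3
  have hint := integral_mono ((L8Bd.sum J fun k _ => (bFK k).const_mul (w k)).pow q |>.integrable P.μ)
    ((((bx.pow q).const_mul (τ ^ q)).add ((by'.pow q).const_mul ((R / τ ^ (r - 1)) ^ q))).const_mul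
      (2 ^ (q - 1)) |>.integrable P.μ) hpt2
  rw [integral_const_mul, integral_add (((bx.pow q).const_mul (τ ^ q)).integrable _)
    (((by'.pow q).const_mul ((R / τ ^ (r - 1)) ^ q)).integrable _), integral_const_mul,
    integral_const_mul] at hint
  refine hint.trans (mul_le_mul_of_nonneg_left (add_le_add ?_ ?_) (by positivity))
  · -- dual Doob
    obtain ⟨N, hN⟩ : ∃ N, J ⊆ range N := ⟨J.sup id + 1, fun k hk => by
      rw [Finset.mem_range]
      exact Nat.lt_succ_of_le (Finset.le_sup (f := id) hk)⟩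
    have hsum : ∀ f : ℕ → ℝ, ∑ k ∈ range N, (if k ∈ J then lam k else 0) * f k = ∑ k ∈ J, lam k * f k := by
      intro f
      rw [← Finset.sum_subset hN (fun k _ hk => by simp [hk])]
      exact Finset.sum_congr rfl fun k hk => by rw [if_pos hk]
    have h1 := P.l8s_dual_doob h q hq N (fun k => if k ∈ J then lam k else 0)
      (fun k => by
        by_cases hk : k ∈ J
        · simp only [if_pos hk]; exact hlam0 k hk
        · simp only [if_neg hk]; exact le_rfl)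
      (fun k ω => ∑ i, A k i ω ^ 2) ba (fun k ω => Finset.sum_nonneg fun i _ => sq_nonneg _)
    simp only [hsum] at h1
    have h2 := mul_le_mul_of_nonneg_left h1 (pow_pos hτ q).le
    refine h2.trans (le_of_eq ?_)
    rw [mul_pow, mul_assoc, hlam]
  · -- the high moment
    have h1 : ∀ ω, (∑ k ∈ J, lam k * (U k ω / P.sc2 (p₀ k) (p₁ k) ^ r)) ^ q
        ≤ (∑ k ∈ J, lam k) ^ (q - 1) * ∑ k ∈ J, lam k * (U k ω / P.sc2 (p₀ k) (p₁ k) ^ r) ^ q := fun ω =>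
      l6p_pair_a_jensen J lam _ hlam0
        (fun k hk => div_nonneg (U0 k ω) (pow_pos (hs k hk) _).le) hq
    have bz : ∀ k, L8Bd (fun ω => lam k * (U k ω / P.sc2 (p₀ k) (p₁ k) ^ r) ^ q) := fun k =>
      (((bU k).div_const _).pow q).const_mul _
    have h2 := integral_mono ((by'.pow q).integrable P.μ)
      (((L8Bd.sum J fun k _ => bz k).const_mul ((∑ k ∈ J, lam k) ^ (q - 1))).integrable P.μ) h1
    rw [integral_const_mul, integral_finsetSum _ fun k _ => (bz k).integrable P.μ] at h2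
    have hL : 0 ≤ ∑ k ∈ J, lam k := Finset.sum_nonneg hlam0
    have h3 : ∑ k ∈ J, ∫ ω, lam k * (U k ω / P.sc2 (p₀ k) (p₁ k) ^ r) ^ q ∂P.μ ≤ ∑ k ∈ J, lam k * c := by
      refine Finset.sum_le_sum fun k hk => ?_
      rw [integral_const_mul]
      exact mul_le_mul_of_nonneg_left (hUq k hk) (hlam0 k hk)
    have h4 : ∫ ω, (∑ k ∈ J, lam k * (U k ω / P.sc2 (p₀ k) (p₁ k) ^ r)) ^ q ∂P.μ
        ≤ c * (∑ k ∈ J, lam k) ^ q := by
      refine h2.trans ((mul_le_mul_of_nonneg_left h3 (pow_nonneg hL _)).trans (le_of_eq ?_))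
      rw [← Finset.sum_mul]
      obtain ⟨s, rfl⟩ : ∃ s, q = s + 1 := ⟨q - 1, by omega⟩
      simp only [Nat.add_sub_cancel]
      ring
    have h5 := mul_le_mul_of_nonneg_left h4 (pow_nonneg (div_nonneg hR hτr.le) q)
    refine h5.trans (le_of_eq ?_)
    rw [mul_pow, hlam]
    ring

/-- two initial blocks (or any pair): bound the averaged one by a constant -/
theorem l6p_pair_00 (h : P.Ok) (k : ℕ) (D A : Fin m → Ω → ℝ) (hA : ∀ i, Measurable (A i)) {R : ℝ} (hAR : ∀ ω, ∑ i, A i ω ^ 2 ≤ R) (ω : Ω) :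
    P.FK k D A ω ≤ R * ∑ i, D i ω ^ 2 := by
  have := h.markov k
  have hb : ∀ ω', (∑ i, D i ω * A i ω') ^ 2 ≤ R * ∑ i, D i ω ^ 2 := by
    intro ω'
    have h1 := Finset.sum_mul_sq_le_sq_mul_sq Finset.univ (fun i => D i ω) (fun i => A i ω')
    have h2 : 0 ≤ ∑ i, D i ω ^ 2 := Finset.sum_nonneg fun i _ => sq_nonneg _
    nlinarith [hAR ω']
  have hI : Integrable (fun ω' => (∑ i, D i ω * A i ω') ^ 2) (P.κ k ω) := by
    refine Integrable.of_bound ((Finset.measurable_sum _ fun i _ =>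
      (hA i).const_mul (D i ω)).pow_const 2).aestronglyMeasurable (R * ∑ i, D i ω ^ 2)
      (ae_of_all _ fun ω' => ?_)
    rw [Real.norm_eq_abs, abs_of_nonneg (sq_nonneg _)]
    exact hb ω'
  have h3 := integral_mono hI (integrable_const _) hb
  simpa [FK] using h3

/-- the `EuclideanSpace ℝ (Fin m)`-valued posterior mean -/
theorem l6p_nXX_eq (k l : ℕ) (ω : Ω) :
    P.nXX k l ω = ‖(WithLp.toLp 2 (fun i => P.X l i ω) : EuclideanSpace ℝ (Fin m)) - WithLp.toLp 2 (fun i => P.X k i ω)‖ ^ 2 := by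
  rw [EuclideanSpace.norm_sq_eq]
  simp [nXX, XX]

/-- **(global-grid), bounded overlap form.**  TEX[LL:global:residual-blocks]
`wt b e ≥ 0` = weight of the increment `X_e - X_b`, `n0 ≤ b < e ≤ n1`; every elementary step `j → j+1` is covered with total weight `≤ M`.
Proof: `l6m_overlap` of `LL06/MartGrid.lean` for the `EuclideanSpace ℝ (Fin m)`-valued martingale `X` (bridge `l8s_X_martingale`), or directly Garsia-Neveu + Doob. -/
theorem l6p_overlap (h : P.Ok) (q : ℕ) (hq : 1 ≤ q) {n0 n1 : ℕ} (h01 : n0 ≤ n1) (wt : ℕ → ℕ → ℝ) (hwt : ∀ b e, 0 ≤ wt b e) {M : ℝ}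
    (hM : ∀ j, n0 ≤ j → j < n1 → ∑ b ∈ Icc n0 j, ∑ e ∈ Ioc j n1, wt b e ≤ M) :
    ∫ ω, (∑ b ∈ Icc n0 n1, ∑ e ∈ Ioc b n1, wt b e * P.nXX b e ω) ^ q ∂P.μ ≤ (32 * q * M) ^ q * ∫ ω, P.nXX n0 n1 ω ^ q ∂P.μ := by
  classical
  have := h.prob
  have hmart := l6m_vec_mart (ℱ := P.ℱ) (μ := P.μ) (x := fun k i => P.X k i) fun i => P.l8s_X_martingale h i
  have hint : Integrable (fun ω => P.nXX n0 n1 ω ^ q) P.μ := ((P.l6p_nXX_bd h n0 n1).pow q).integrable P.μ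
  simp only [l6p_nXX_eq] at hint ⊢
  have hg := l6m_gen_real hmart hq h01 hint ((Icc n0 n1).sigma fun b => Ioc b n1) (fun i => wt i.1 i.2) (fun i _ => hwt _ _)
    (fun i => i.1) (fun i => i.2) ?_ ?_ ?_ (M := M) ?_
  · simpa only [Finset.sum_sigma] using hg
  · intro i hi
    simp only [Finset.mem_sigma, Finset.mem_Icc, Finset.mem_Ioc] at hi
    omega
  · intro i hi
    simp only [Finset.mem_sigma, Finset.mem_Icc, Finset.mem_Ioc] at hi
    omega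
  · intro i hi
    simp only [Finset.mem_sigma, Finset.mem_Icc, Finset.mem_Ioc] at hi
    omega
  · intro j hj0 hj1
    refine le_trans ?_ (hM j hj0 hj1)
    rw [Finset.sum_sigma' (Icc n0 j) (fun _ => Ioc j n1) (fun b e => wt b e)]
    refine Finset.sum_le_sum_of_subset_of_nonneg (fun i hi => ?_) fun i _ _ => hwt _ _
    simp only [Finset.mem_filter, Finset.mem_sigma, Finset.mem_Icc, Finset.mem_Ioc] at hi ⊢
    omega

/-- the same for a finite family of increments `X_(ee k) - X_(bb k)`, `k ∈ J`, with weights `w k` -/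
theorem l6p_overlap_fam (h : P.Ok) (q : ℕ) (hq : 1 ≤ q) {n0 n1 : ℕ} (h01 : n0 ≤ n1) {ι : Type} (J : Finset ι) (w : ι → ℝ) (hw : ∀ k ∈ J, 0 ≤ w k) (bb ee : ι → ℕ)
    (hb : ∀ k ∈ J, n0 ≤ bb k) (hbe : ∀ k ∈ J, bb k ≤ ee k) (he : ∀ k ∈ J, ee k ≤ n1) {M : ℝ}
    (hM : ∀ j, n0 ≤ j → j < n1 → ∑ k ∈ J with (bb k ≤ j ∧ j < ee k), w k ≤ M) :
    ∫ ω, (∑ k ∈ J, w k * P.nXX (bb k) (ee k) ω) ^ q ∂P.μ ≤ (32 * q * M) ^ q * ∫ ω, P.nXX n0 n1 ω ^ q ∂P.μ := by
  have := h.prob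
  have hmart := l6m_vec_mart (ℱ := P.ℱ) (μ := P.μ) (x := fun k i => P.X k i) fun i => P.l8s_X_martingale h i
  have hint : Integrable (fun ω => P.nXX n0 n1 ω ^ q) P.μ := ((P.l6p_nXX_bd h n0 n1).pow q).integrable P.μ
  simp only [l6p_nXX_eq] at hint ⊢
  exact l6m_gen_real hmart hq h01 hint J w hw bb ee hb hbe he hM

/-! ### INSTANCE of `L6Path`, `L6Ker` (LL06/MartDefs) from the abstract single path      (helper225) -/

/-- the `EuclideanSpace`-valued terminal spin -/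
noncomputable def yE (ω : Ω) : EuclideanSpace ℝ (Fin m) := WithLp.toLp 2 fun i => P.y i ω

/-- the `EuclideanSpace`-valued posterior mean -/
noncomputable def XE (k : ℕ) (ω : Ω) : EuclideanSpace ℝ (Fin m) := WithLp.toLp 2 fun i => P.X k i ω

/-- **producer of `L6Path`** -/
theorem l6p_path (h : P.Ok) : L6Path P.μ P.ℱ P.yE P.XE := by
  have := h.prob
  have hmart := l6m_vec_mart (ℱ := P.ℱ) (μ := P.μ) (x := fun k i => P.X k i) fun i => P.l8s_X_martingale h i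
  have hterm : ∀ k, P.n < k → P.XE k = P.yE := fun k hk => by
    funext ω
    simp only [XE, yE]
    congr 1
    funext i
    exact P.l8s_X_term h hk i ω
  refine ⟨?_, ?_, fun k => ?_⟩
  · have : Measurable P.yE := by
      unfold yE
      exact (WithLp.measurable_toLp 2 _).comp (measurable_pi_iff.2 fun i => h.y_meas i)
    exact this.aestronglyMeasurable
  · refine Filter.Eventually.of_forall fun ω => ?_
    have h1 : ‖P.yE ω‖ ^ 2 = 1 := by
      rw [EuclideanSpace.norm_sq_eq]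
      simpa [yE] using h.y_sq ω
    nlinarith [norm_nonneg (P.yE ω)]
  · have h1 := hmart.2 k (max k (P.n + 1)) (le_max_left _ _)
    have h2 : (fun ω => (WithLp.toLp 2 (fun i => P.X (max k (P.n + 1)) i ω) : EuclideanSpace ℝ (Fin m))) = P.yE :=
      hterm _ (lt_of_lt_of_le (Nat.lt_succ_self _) (le_max_right _ _))
    simp only [h2] at h1
    exact h1.symm

/-- the path law is invariant under the redrawing kernels -/
theorem l6p_comp (h : P.Ok) (k : ℕ) : P.κ k ∘ₘ P.μ = P.μ := by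
  have := h.prob
  obtain ⟨ω⟩ := nonempty_of_isProbabilityMeasure P.μ
  ext s hs
  rw [Measure.bind_apply hs (P.κ k).aemeasurable]
  have h1 := h.tower 0 k (Nat.zero_le k) ω s hs
  rwa [h.root ω] at h1

/-- **producer of `L6Ker`**: the explicit kernel is a regular version of the conditional law, for ALL integrable tests -/
theorem l6p_ker (h : P.Ok) (k : ℕ) : L6Ker P.μ (P.κ k) (P.ℱ k) := by
  have := h.prob
  have := h.markov k
  refine ⟨h.markov k, fun f hf => ?_⟩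
  have hc := P.l6p_comp h k
  have hfc : Integrable f (P.κ k ∘ₘ P.μ) := by rw [hc]; exact hf
  -- a measurable version
  obtain ⟨f', hf'm, hff'⟩ := hf.1
  have hae : ∀ᵐ ω ∂P.μ, f =ᵐ[P.κ k ω] f' := by
    have : ∀ᵐ ω ∂(P.κ k ∘ₘ P.μ), f ω = f' ω := by rw [hc]; exact hff'
    exact Measure.ae_ae_of_ae_comp this
  have hg : (fun ω => ∫ ω', f ω' ∂(P.κ k ω)) =ᵐ[P.μ] fun ω => ∫ ω', f' ω' ∂(P.κ k ω) := by
    filter_upwards [hae] with ω hω using integral_congr_ae hω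
  have hsm : StronglyMeasurable[P.ℱ k] fun ω => ∫ ω', f' ω' ∂(P.κ k ω) := by
    let κ' : @Kernel Ω Ω (P.ℱ k) mΩ :=
      @Kernel.mk Ω Ω (P.ℱ k) mΩ (fun ω => P.κ k ω)
        (@Measure.measurable_of_measurable_coe Ω Ω mΩ (P.ℱ k) _ (h.adapted k))
    exact @StronglyMeasurable.integral_kernel Ω Ω (P.ℱ k) mΩ κ' ℝ _ _ f' hf'm
  have hint : Integrable (fun ω => ∫ ω', f ω' ∂(P.κ k ω)) P.μ := by
    refine (Measure.integrable_integral_norm_of_integrable_comp hfc).mono'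
      ((hsm.mono (P.ℱ.le k)).aestronglyMeasurable.congr hg.symm)
      (Filter.Eventually.of_forall fun ω => norm_integral_le_integral_norm _)
  refine ae_eq_condExp_of_forall_setIntegral_eq (P.ℱ.le k) hf (fun s _ _ => hint.integrableOn) (fun s hs _ => ?_)
    (hsm.aestronglyMeasurable.congr hg.symm)
  have hs' : MeasurableSet s := P.ℱ.le k s hs
  -- `1_s f` is integrable
  have hfs : Integrable (s.indicator f) (P.κ k ∘ₘ P.μ) := hfc.indicator hs'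
  have h1 : ∫ z, s.indicator f z ∂(P.κ k ∘ₘ P.μ) = ∫ x, ∫ y, s.indicator f y ∂(P.κ k x) ∂P.μ := by
    have hfs' := hfs
    rw [Measure.comp_eq_comp_const_apply] at hfs' ⊢
    rw [ProbabilityTheory.Kernel.integral_comp hfs', Kernel.const_apply]
  rw [hc, integral_indicator hs'] at h1
  rw [h1, ← integral_indicator hs']
  refine integral_congr_ae (Filter.Eventually.of_forall fun ω => ?_)
  have hind : Measurable[P.ℱ k] (s.indicator fun _ => (1 : ℝ)) := measurable_const.indicator hs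
  have h2 := P.l8s_proper_ae h k hind ω
  by_cases hω : ω ∈ s
  · rw [Set.indicator_of_mem hω]
    refine integral_congr_ae ?_
    filter_upwards [h2] with ω' hω'
    rw [Set.indicator_of_mem hω] at hω'
    have : ω' ∈ s := by
      by_contra hn
      rw [Set.indicator_of_notMem hn] at hω'
      exact zero_ne_one hω'
    rw [Set.indicator_of_mem this]
  · rw [Set.indicator_of_notMem hω]
    symm
    refine integral_eq_zero_of_ae ?_
    filter_upwards [h2] with ω' hω'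
    rw [Set.indicator_of_notMem hω] at hω'
    have : ω' ∉ s := by
      intro hn
      rw [Set.indicator_of_mem hn] at hω'
      exact one_ne_zero hω'
    simp [Set.indicator_of_notMem this]

end L8P

theorem l6pw_eqns_cite : True := by
  have := @L8P.nXX.eq_1
  have := @L8P.FK.eq_1
  have := @L8P.sc2.eq_1
  have := @L8P.yE.eq_1
  have := @L8P.XE.eq_1
  trivial

end Claimed.Agent.R286
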