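import Claimed.Agent.R286.Exit.PairInv
import Claimed.Agent.R286.Exit.LL02A7
import Claimed.Agent.R286.L02.Inst
import Claimed.Agent.R286.Fd.ObsTw

/-!
# Row 286 (S0533), LL Section 6, file LL06/Var : CENTERED INVERSION AND ABSORPTION (S12 of the DAG of (G1))
owner helper156 (architect + prover; LL06 deputy head helper200); prefix `l6v_`.      0 sorry of its own: stands on the exits `exit_a7` (LL02, 93) and `exit_pair_inv` (LL05, 84/177).
L-STEP level, shape (U): a universal inequality of numbers for an ARBITRARY admissible finite hierarchy, mesh-free constants.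
Source: LL 06-global.tex l.553-632 ("Centered inversion and absorption").      Part of TEX[LL:global:trial-gap].

`P : LlStp` = fine path (mass, db, dh, dK): matrix clock `b~ = b - e`, field clock `h_* + e r`, scalar reference `K = K^emp = h + b~ S` with the path's OWN `S` (`L6vEmp`).
Terminal mass `1` (the proof of (G1) normalises `ℓ = 1`).      A level `t ≤ P.length` = a cut = the fork of a pair which shares `t` revelations; its weight in `∫ dv` is `skGap 1 (llMat P) t`.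
 `l6vChi2 P t = E χ_t² = pkX2 1 P t`, `χ_t = V_zz(K_t, Z_{K_t})` (one-site model with the clock `K`; `= obTrH2 1 1 (llSc P) 0 t`: `l6x_chi2_ob` of LL06/VarMin);   gap of (H1): `1 - b~_t E χ_t² ≥ e`.
 `l6vTail n P θ t = ν[ |Q - S_t| > θ ]` for two branches forked at `t`.

## PROOF (re-derived; sections of the file)
 1. PURE allocation (`Defs/Tr`): **V4** `l6v_alloc`: under the absolute allocation measure of `k` labels the split depth of any pair has a bounded `dm`-density + atoms at the OLD forks (from `tr_split_density` = PE L2.8, `tr_absK_le`).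
 2. ABSTRACT (`X : JtCtx S` with `X.Law ms` of L02/Law, untilted, `K = h + b S`).   Fix the old pair `01` forked at `t0`, `T = Q_01 - S_t0`, `u_τ = ν_τ[T (Q_23 - S_{τ 23})]` (`l6vU`, a `PkFn 2`).
    **V1** `l6v_lin`: (A7) at `k = 2`: order `0` is `q ν[T] = 0`, order `1` is `∑ M b u` because `J = b (Q - S)`: `|(H1) u| ≤ C rem_2 + E`.
    **V2** `l6v_U_tau`: at `23 = 01`: `u = D²_t0`.      **V3** `l6v_point`: `ν[|T||Δ_45||Δ_67|] ≤ θ (D²_t0 + D²_45)/2 + 8 ν[|Δ_67| > θ]`.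
    Step A `l6v_rem_le`, Step B `l6v_one` ((H1) a-priori inequality + V1 + V3 + V4 twice), `l6v_abs`: integrate `dm(t0)`: the atom at the old fork `t0` becomes a density.
 3. INSTANCE `X = llJs n 1 P none`: bridges `l6v_XS_eq`, `l6v_XD_eq`, `l6v_XT_eq` (`obS`, `obD2`, `obT2`), `l6v_bd` (`LlBd`), `l6v_mul` (`PkMul`, `Λ = (1 + |Kb|)/e`), `l6v_ovbd`;   **`l6v_absorb`**.
-/

set_option autoImplicit false
set_option linter.unusedSectionVars false

namespace Claimed.Agent.R286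

open Finset

/-! ## 1. pure allocation lemmas (`Defs/Tr`) -/

/-- monotonicity of the total variation sums: only trees which extend the old tree are seen -/
theorem l6v_absK_mono {N q : ℕ} {τ : ℕ → ℕ → ℕ} {ms : ℕ → ℝ} (hτ : IsTr N q τ) (k : ℕ) (Φ Ψ : (ℕ → ℕ → ℕ) → ℝ)
    (h : ∀ τ', IsTr N (q + k) τ' → (∀ y z, y < q → z < q → τ' y z = τ y z) → Φ τ' ≤ Ψ τ') :
    trAbsK ms N k q τ Φ ≤ trAbsK ms N k q τ Ψ := by
  induction k generalizing q τ with
  | zero => exact h τ hτ fun _ _ _ _ => rfl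
  | succ k ih =>
    rw [trAbsK, trAbsK]
    unfold trAbs
    refine Finset.sum_le_sum fun x hx => Finset.sum_le_sum fun j hj => ?_
    have hx' := Finset.mem_range.mp hx
    have hj' := Finset.mem_range.mp hj
    refine mul_le_mul_of_nonneg_left (ih (tr_att_isTr hτ hx' (by omega)) ?_) (abs_nonneg _)
    intro τ' hτ' hag
    refine h τ' (by rwa [show q + (k + 1) = q + 1 + k by omega]) ?_
    intro y z hy hz
    rw [hag y z (by omega) (by omega), tr_att_old hy hz]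

theorem l6v_absK_add (ms : ℕ → ℝ) (N k : ℕ) : ∀ (q : ℕ) (τ : ℕ → ℕ → ℕ) (Φ Ψ : (ℕ → ℕ → ℕ) → ℝ),
    trAbsK ms N k q τ (fun τ' => Φ τ' + Ψ τ') = trAbsK ms N k q τ Φ + trAbsK ms N k q τ Ψ := by
  induction k with
  | zero => intro q τ Φ Ψ; rfl
  | succ k ih =>
    intro q τ Φ Ψ
    simp only [trAbsK, trAbs, ih, mul_add, Finset.sum_add_distrib]

theorem l6v_absK_sum (ms : ℕ → ℝ) (N k q : ℕ) (τ : ℕ → ℕ → ℕ) {κ : Type} (s : Finset κ) (Φ : κ → (ℕ → ℕ → ℕ) → ℝ) :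
    trAbsK ms N k q τ (fun τ' => ∑ i ∈ s, Φ i τ') = ∑ i ∈ s, trAbsK ms N k q τ (Φ i) := by
  classical
  induction s using Finset.induction_on with
  | empty =>
    simp only [Finset.sum_empty]
    have := tra2_absK_const_mul (N := N) (q := q) (τ := τ) (ms := ms) k 0 fun _ => 0
    simpa using this
  | insert a s ha ih =>
    simp only [Finset.sum_insert ha]
    rw [l6v_absK_add, ih]

/-- total variation of `k` labels, constant summand -/
theorem l6v_absK_const {N q : ℕ} {τ : ℕ → ℕ → ℕ} {ms : ℕ → ℝ} (hτ : IsTr N q τ) (hms : IsMs N ms) (k : ℕ) {c : ℝ} (hc : 0 ≤ c) :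
    trAbsK ms N k q τ (fun _ => c) ≤ (2 * ms N) ^ k * (∏ i ∈ Finset.range k, ((q : ℝ) + i)) * c := by
  have h := tr_absK_le hτ hms k (fun _ => c) c (fun _ _ => by rw [abs_of_nonneg hc])
  simpa [abs_of_nonneg hc] using h

/-- a function of a split depth, `0` at coincidences -/
def l6vGN (N : ℕ) (g : ℕ → ℝ) (t : ℕ) : ℝ := if t ≤ N then g t else 0

/-- `∫ g dm` -/
def l6vIG (ms : ℕ → ℝ) (N : ℕ) (g : ℕ → ℝ) : ℝ := ∑ t ∈ range (N + 1), (ms t - trPm ms t) * g t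

/-- sum of `g` over the forks of a tree on `q` labels -/
def l6vFK (N q : ℕ) (τ : ℕ → ℕ → ℕ) (g : ℕ → ℝ) : ℝ := ∑ u ∈ range q, ∑ v ∈ range q, l6vGN N g (τ u v)

theorem l6v_GN_nonneg {N : ℕ} {g : ℕ → ℝ} (hg : ∀ t, 0 ≤ g t) (t : ℕ) : 0 ≤ l6vGN N g t := by
  unfold l6vGN; split_ifs; exacts [hg t, le_rfl]

theorem l6v_IG_nonneg {N : ℕ} {ms : ℕ → ℝ} (hms : IsMs N ms) {g : ℕ → ℝ} (hg : ∀ t, 0 ≤ g t) : 0 ≤ l6vIG ms N g :=
  Finset.sum_nonneg fun t ht => mul_nonneg (trw_step_nonneg hms (by have := Finset.mem_range.mp ht; omega)) (hg t)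

theorem l6v_FK_nonneg {N q : ℕ} {τ : ℕ → ℕ → ℕ} {g : ℕ → ℝ} (hg : ∀ t, 0 ≤ g t) : 0 ≤ l6vFK N q τ g :=
  Finset.sum_nonneg fun _ _ => Finset.sum_nonneg fun _ _ => l6v_GN_nonneg hg _

theorem l6v_IG_one (ms : ℕ → ℝ) (N : ℕ) : l6vIG ms N (fun _ => 1) = ms N := by
  unfold l6vIG
  induction N with
  | zero => simp [trPm]
  | succ n ih => rw [Finset.sum_range_succ, ih, tra2_pm_succ]; ring

theorem l6v_GN_eq_sum (N : ℕ) (g : ℕ → ℝ) (t : ℕ) : l6vGN N g t = ∑ j ∈ range (N + 1), g j * (if t = j then 1 else 0) := by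
  unfold l6vGN
  by_cases h : t ≤ N
  · rw [if_pos h, Finset.sum_eq_single t]
    · simp
    · intro b _ hb; rw [if_neg (Ne.symm hb), mul_zero]
    · intro h'; exact absurd (Finset.mem_range.mpr (by omega)) h'
  · rw [if_neg h]
    symm
    refine Finset.sum_eq_zero fun j hj => ?_
    have := Finset.mem_range.mp hj
    rw [if_neg (by omega), mul_zero]

/-- the allocation bound with the constant `C` -/
def L6vAl (q k : ℕ) (A C : ℝ) : Prop :=
  0 ≤ C ∧ ∀ (N : ℕ) (τ : ℕ → ℕ → ℕ) (ms : ℕ → ℝ), IsTr N q τ → IsMs N ms → ms N ≤ A →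
    ∀ (g : ℕ → ℝ), (∀ t, 0 ≤ g t) → ∀ x y : ℕ, x < q + k → y < q + k →
      trAbsK ms N k q τ (fun τ' => l6vGN N g (τ' x y)) ≤ C * (l6vIG ms N g + l6vFK N q τ g)

/-- **V4 (PE Lemma 2.8 in integrated form).**  The absolute allocation measure of `k` labels: the split depth of ANY pair of distinct leaves has a bounded density
with respect to `dm`, except for atoms at the forks of the old tree. -/
theorem l6v_alloc (q k : ℕ) (A : ℝ) : ∃ C : ℝ, L6vAl q k A C := by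
  obtain ⟨C1, hC1⟩ := tr_split_density q k A
  set TV : ℝ := (2 * |A|) ^ k * (∏ i ∈ Finset.range k, ((q : ℝ) + i)) with hTV
  have hTV0 : 0 ≤ TV := mul_nonneg (by positivity) (Finset.prod_nonneg fun i _ => by positivity)
  refine ⟨|C1| + TV, by positivity, fun N τ ms hτ hms hA g hg x y hx hy => ?_⟩
  have hmN : 0 ≤ ms N := hms.nonneg N
  -- total variation
  have htv : ∀ Φ : (ℕ → ℕ → ℕ) → ℝ, (∀ τ', Φ τ' ≤ 1) → trAbsK ms N k q τ Φ ≤ TV := by
    intro Φ hΦ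
    refine (trw_absK_mono ms N k q τ hΦ).trans ((l6v_absK_const hτ hms k zero_le_one).trans ?_)
    rw [mul_one, hTV]
    refine mul_le_mul_of_nonneg_right ?_ (Finset.prod_nonneg fun i _ => by positivity)
    exact pow_le_pow_left₀ (by positivity) (by nlinarith [le_abs_self A]) k
  have hzero : ∀ Φ : (ℕ → ℕ → ℕ) → ℝ, (∀ τ', IsTr N (q + k) τ' → (∀ y z, y < q → z < q → τ' y z = τ y z) → Φ τ' ≤ 0) →
      trAbsK ms N k q τ Φ ≤ 0 := by
    intro Φ hΦ
    refine (l6v_absK_mono hτ k Φ (fun _ => 0) hΦ).trans ?_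
    have := l6v_absK_const (ms := ms) hτ hms k (le_refl (0 : ℝ))
    simpa using this
  -- one depth
  have hone : ∀ j, j ≤ N → trAbsK ms N k q τ (fun τ' => if τ' x y = j then (1 : ℝ) else 0)
      ≤ |C1| * (ms j - trPm ms j) + TV * ∑ u ∈ range q, ∑ v ∈ range q, (if τ u v = j then (1 : ℝ) else 0) := by
    intro j hj
    have hG := trw_step_nonneg hms hj
    have hsum0 : 0 ≤ ∑ u ∈ range q, ∑ v ∈ range q, (if τ u v = j then (1 : ℝ) else 0) :=
      Finset.sum_nonneg fun _ _ => Finset.sum_nonneg fun _ _ => by split_ifs <;> norm_num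
    by_cases hf : ∃ u v, u < q ∧ v < q ∧ τ u v = j
    · obtain ⟨u, v, hu, hv, huv⟩ := hf
      have h1 : (1 : ℝ) ≤ ∑ u ∈ range q, ∑ v ∈ range q, (if τ u v = j then (1 : ℝ) else 0) := by
        have h2 : (if τ u v = j then (1 : ℝ) else 0) ≤ ∑ v ∈ range q, (if τ u v = j then (1 : ℝ) else 0) :=
          Finset.single_le_sum (f := fun v => if τ u v = j then (1 : ℝ) else 0) (fun _ _ => by split_ifs <;> norm_num)
            (Finset.mem_range.mpr hv)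
        have h3 : (∑ v ∈ range q, (if τ u v = j then (1 : ℝ) else 0))
            ≤ ∑ u ∈ range q, ∑ v ∈ range q, (if τ u v = j then (1 : ℝ) else 0) :=
          Finset.single_le_sum (f := fun u => ∑ v ∈ range q, (if τ u v = j then (1 : ℝ) else 0))
            (fun _ _ => Finset.sum_nonneg fun _ _ => by split_ifs <;> norm_num) (Finset.mem_range.mpr hu)
        rw [if_pos huv] at h2
        linarith
      have h4 := htv (fun τ' => if τ' x y = j then (1 : ℝ) else 0) (fun τ' => by split_ifs <;> norm_num)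
      have h5 : 0 ≤ |C1| * (ms j - trPm ms j) := mul_nonneg (abs_nonneg _) hG
      nlinarith
    · push Not at hf
      have hno : ∀ u v, u < q → v < q → τ u v ≠ j := hf
      have hgoal : trAbsK ms N k q τ (fun τ' => if τ' x y = j then (1 : ℝ) else 0) ≤ |C1| * (ms j - trPm ms j) := by
        have hpos : 0 ≤ |C1| * (ms j - trPm ms j) := mul_nonneg (abs_nonneg _) hG
        by_cases hxy : x = y
        · refine (hzero _ fun τ' hτ' _ => ?_).trans hpos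
          rw [if_neg]
          rw [hxy, hτ'.diag y hy]; omega
        by_cases hyq : q ≤ y
        · refine (hC1 N τ ms hτ hms hA x y j hx hyq hy hxy hj hno).trans ?_
          exact mul_le_mul_of_nonneg_right (le_abs_self _) hG
        by_cases hxq : q ≤ x
        · have h6 := hC1 N τ ms hτ hms hA y x j hy hxq hx (Ne.symm hxy) hj hno
          refine le_trans (l6v_absK_mono hτ k _ _ fun τ' hτ' _ => ?_) (h6.trans ?_)
          · rw [hτ'.symm x y hx hy]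
          · exact mul_le_mul_of_nonneg_right (le_abs_self _) hG
        · refine (hzero _ fun τ' _ hag => ?_).trans hpos
          rw [if_neg]
          rw [hag x y (by omega) (by omega)]
          exact hno x y (by omega) (by omega)
      have : 0 ≤ TV * ∑ u ∈ range q, ∑ v ∈ range q, (if τ u v = j then (1 : ℝ) else 0) := mul_nonneg hTV0 hsum0
      linarith
  -- summation over the depths
  have e1 : trAbsK ms N k q τ (fun τ' => l6vGN N g (τ' x y))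
      = ∑ j ∈ range (N + 1), g j * trAbsK ms N k q τ (fun τ' => if τ' x y = j then (1 : ℝ) else 0) := by
    simp only [l6v_GN_eq_sum]
    rw [l6v_absK_sum]
    exact Finset.sum_congr rfl fun j _ => tra2_absK_const_mul k (g j) _
  have e2 : l6vFK N q τ g = ∑ j ∈ range (N + 1), g j * ∑ u ∈ range q, ∑ v ∈ range q, (if τ u v = j then (1 : ℝ) else 0) := by
    unfold l6vFK
    simp only [l6v_GN_eq_sum, Finset.mul_sum]
    conv_rhs => rw [Finset.sum_comm]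
    refine Finset.sum_congr rfl fun u _ => ?_
    conv_rhs => rw [Finset.sum_comm]
  rw [e1]
  calc ∑ j ∈ range (N + 1), g j * trAbsK ms N k q τ (fun τ' => if τ' x y = j then (1 : ℝ) else 0)
      ≤ ∑ j ∈ range (N + 1), g j * (|C1| * (ms j - trPm ms j)
          + TV * ∑ u ∈ range q, ∑ v ∈ range q, (if τ u v = j then (1 : ℝ) else 0)) :=
        Finset.sum_le_sum fun j hj => mul_le_mul_of_nonneg_left (hone j (by have := Finset.mem_range.mp hj; omega)) (hg j)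
    _ = |C1| * l6vIG ms N g + TV * l6vFK N q τ g := by
        rw [e2]
        unfold l6vIG
        rw [Finset.mul_sum, Finset.mul_sum, ← Finset.sum_add_distrib]
        exact Finset.sum_congr rfl fun j _ => by ring
    _ ≤ (|C1| + TV) * (l6vIG ms N g + l6vFK N q τ g) := by
        have h1 := l6v_IG_nonneg hms hg
        have h2 := l6v_FK_nonneg (N := N) (q := q) (τ := τ) hg
        nlinarith [abs_nonneg C1, mul_nonneg hTV0 h1, mul_nonneg (abs_nonneg C1) h2]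

/-! ## 2. pairs under the laws of a jet context -/

section ctx
variable {S : Type} [Fintype S] [Inhabited S]

/-- `S_u = ν[Q]` at a pair which shares `u` stages -/
noncomputable def l6vXS (X : JtCtx S) (u : ℕ) : ℝ := X.nu 2 (trPair X.N u) fun σ => X.ov (σ 0) (σ 1)

/-- `D_u² = ν[(Q - S_u)²]` -/
noncomputable def l6vXD (X : JtCtx S) (u : ℕ) : ℝ := X.nu 2 (trPair X.N u) fun σ => (X.ov (σ 0) (σ 1) - l6vXS X u) ^ 2

/-- `ν[|Q - S_u| > θ]` -/
noncomputable def l6vXT (X : JtCtx S) (θ : ℝ) (u : ℕ) : ℝ :=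
  X.nu 2 (trPair X.N u) fun σ => if θ < |X.ov (σ 0) (σ 1) - l6vXS X u| then 1 else 0

/-- the test `T = Q_{01} - S_{t0}` -/
noncomputable def l6vT (X : JtCtx S) (t0 : ℕ) (σ : ℕ → S) : ℝ := X.ov (σ 0) (σ 1) - l6vXS X t0

/-- `ν_τ[T (Q_{23} - S_{τ 23})]` -/
noncomputable def l6vV (X : JtCtx S) (t0 : ℕ) (τ : JtTopo) : ℝ :=
  X.nu 4 τ fun σ => l6vT X t0 σ * (X.ov (σ 2) (σ 3) - l6vXS X (τ 2 3))

/-- the pair function of the centered inversion (symmetrised: on trees it is `l6vV`) -/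
noncomputable def l6vU (X : JtCtx S) (t0 : ℕ) (τ : JtTopo) : ℝ := (l6vV X t0 τ + l6vV X t0 (pkPull 2 3 2 τ)) / 2

/-- the old pair `01` forked at `t0`, with the pair `23` on top of it -/
def l6vTau (N t0 : ℕ) : JtTopo := fun x y => trPair N t0 (x % 2) (y % 2)

theorem l6v_pair_isTr {N t : ℕ} (ht : t ≤ N + 1) : IsTr N 2 (trPair N t) := by
  refine ⟨fun x y _ _ => ?_, fun x _ => by simp [trPair], fun x y _ _ => ?_, fun x y z _ _ _ => ?_⟩
  · unfold trPair; split_ifs <;> omega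
  · unfold trPair; by_cases h : x = y
    · simp [h]
    · rw [if_neg h, if_neg (Ne.symm h)]
  · unfold trPair; split_ifs <;> omega

theorem l6v_tau_isTr {N t : ℕ} (ht : t ≤ N + 1) : IsTr N 4 (l6vTau N t) :=
  tr_comap_isTr (l6v_pair_isTr ht) (fun x => x % 2) fun x _ => Nat.mod_lt x (by norm_num)

/-- the law of one pair of labels -/
theorem l6v_pair {N : ℕ} {nu : ℕ → JtTopo → ((ℕ → S) → ℝ) → ℝ} (h : JtNuLaw N nu) {q : ℕ} {τ : JtTopo} (hτ : IsTr N q τ)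
    {c d : ℕ} (hc : c < q) (hd : d < q) (f : S → S → ℝ) :
    nu q τ (fun σ => f (σ c) (σ d)) = nu 2 (trPair N (τ c d)) fun σ => f (σ 0) (σ 1) := by
  have h1 := h.comap q 2 τ hτ (fun x => if x = 0 then c else d) (fun x _ => by split_ifs <;> assumption)
    (fun σ => f (σ 0) (σ 1)) (fun σ σ' e => by beta_reduce; rw [e 0 (by norm_num), e 1 (by norm_num)])
  simp only [if_true, one_ne_zero, if_false] at h1
  rw [h1]
  refine h.congr 2 _ _ (fun x y hx hy => ?_) _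
  have hx' : x = 0 ∨ x = 1 := by omega
  have hy' : y = 0 ∨ y = 1 := by omega
  unfold trPair
  rcases hx' with rfl | rfl <;> rcases hy' with rfl | rfl
  · simp [hτ.diag c hc]
  · simp
  · simp [hτ.symm d c hd hc]
  · simp [hτ.diag d hd]

theorem l6v_XS_abs {X : JtCtx S} {ms : ℕ → ℝ} (hX : X.Law ms) (u : ℕ) : |l6vXS X u| ≤ 1 :=
  hX.nu.abs_le_const 2 _ fun _ => hX.ov_abs _ _

theorem l6v_dl_abs {X : JtCtx S} {ms : ℕ → ℝ} (hX : X.Law ms) (u : ℕ) (s s' : S) : |X.ov s s' - l6vXS X u| ≤ 2 := by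
  have h1 := hX.ov_abs s s'
  have h2 := l6v_XS_abs hX u
  rw [abs_le] at h1 h2 ⊢
  constructor <;> linarith

theorem l6v_XD_nonneg {X : JtCtx S} {ms : ℕ → ℝ} (hX : X.Law ms) (u : ℕ) : 0 ≤ l6vXD X u :=
  hX.nu.nonneg 2 _ fun _ => sq_nonneg _

theorem l6v_XT_nonneg {X : JtCtx S} {ms : ℕ → ℝ} (hX : X.Law ms) (θ : ℝ) (u : ℕ) : 0 ≤ l6vXT X θ u :=
  hX.nu.nonneg 2 _ fun σ => by split_ifs <;> norm_num

theorem l6v_XT_le_one {X : JtCtx S} {ms : ℕ → ℝ} (hX : X.Law ms) (θ : ℝ) (u : ℕ) : l6vXT X θ u ≤ 1 := by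
  have h := hX.nu.mono 2 (trPair X.N u) (P := fun σ => if θ < |X.ov (σ 0) (σ 1) - l6vXS X u| then (1 : ℝ) else 0) (P' := fun _ => 1)
    fun σ => by split_ifs <;> norm_num
  rwa [hX.nu.const] at h

/-- `ν_τ[T] = 0` -/
theorem l6v_T_zero {X : JtCtx S} {ms : ℕ → ℝ} (hX : X.Law ms) {q : ℕ} {τ : JtTopo} (hτ : IsTr X.N q τ) (hq : 2 ≤ q) :
    X.nu q τ (l6vT X (τ 0 1)) = 0 := by
  have h := l6v_pair hX.nu hτ (c := 0) (d := 1) (by omega) (by omega) fun s s' => X.ov s s' - l6vXS X (τ 0 1)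
  unfold l6vT
  rw [h, hX.nu.sub, hX.nu.const]
  exact sub_self _

theorem l6v_V_tree {X : JtCtx S} {ms : ℕ → ℝ} (_hX : X.Law ms) (t0 : ℕ) {τ : JtTopo} (_hτ : IsTr X.N 4 τ) :
    l6vV X t0 τ = X.nu 4 τ fun σ => l6vT X t0 σ * (X.ov (σ 2) (σ 3) - l6vXS X (τ 2 3)) := rfl

theorem l6v_sub_lt {q0 x : ℕ} (hx : x < q0 + 2) : pkSub q0 (q0 + 2) (q0 + 3) x < q0 + 2 + 2 := by
  unfold pkSub; split_ifs <;> omega

theorem l6v_pull_isTr {N q0 : ℕ} {τ : JtTopo} (h : IsTr N (q0 + 2 + 2) τ) : IsTr N (q0 + 2) (pkPull q0 (q0 + 2) (q0 + 3) τ) :=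
  tr_comap_isTr h _ fun _ hx => l6v_sub_lt hx

theorem l6v_swap_isTr {N : ℕ} {τ : JtTopo} (hτ : IsTr N 4 τ) : IsTr N 4 (pkPull 2 3 2 τ) :=
  tr_comap_isTr hτ _ fun x hx => by unfold pkSub; split_ifs <;> omega

theorem l6v_V_swap {X : JtCtx S} {ms : ℕ → ℝ} (hX : X.Law ms) (t0 : ℕ) {τ : JtTopo} (hτ : IsTr X.N 4 τ) :
    l6vV X t0 (pkPull 2 3 2 τ) = l6vV X t0 τ := by
  rw [l6v_V_tree hX t0 (l6v_swap_isTr hτ), l6v_V_tree hX t0 hτ]
  have h := hX.nu.comap 4 4 τ hτ (pkSub 2 3 2) (fun x hx => by unfold pkSub; split_ifs <;> omega)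
    (fun σ => l6vT X t0 σ * (X.ov (σ 2) (σ 3) - l6vXS X (τ 2 3)))
    (fun σ σ' e => by
      simp only [l6vT]
      rw [e 0 (by norm_num), e 1 (by norm_num), e 2 (by norm_num), e 3 (by norm_num)])
  have e23 : pkPull 2 3 2 τ 2 3 = τ 2 3 := by
    simp only [pkPull, pkSub]
    norm_num
    exact hτ.symm 3 2 (by norm_num) (by norm_num)
  rw [e23]
  refine Eq.trans h.symm ?_
  congr 1
  funext σ
  simp only [l6vT, pkSub]
  norm_num
  left
  exact hX.ov_symm _ _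

theorem l6v_U_tree {X : JtCtx S} {ms : ℕ → ℝ} (hX : X.Law ms) (t0 : ℕ) {τ : JtTopo} (hτ : IsTr X.N 4 τ) :
    l6vU X t0 τ = X.nu 4 τ fun σ => l6vT X t0 σ * (X.ov (σ 2) (σ 3) - l6vXS X (τ 2 3)) := by
  unfold l6vU
  rw [l6v_V_swap hX t0 hτ, l6v_V_tree hX t0 hτ]
  ring

theorem l6v_V_uses {X : JtCtx S} {ms : ℕ → ℝ} (hX : X.Law ms) (t0 : ℕ) {τ τ' : JtTopo}
    (e : ∀ x y, x < 2 + 2 → y < 2 + 2 → τ x y = τ' x y) : l6vV X t0 τ = l6vV X t0 τ' := by
  unfold l6vV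
  rw [e 2 3 (by norm_num) (by norm_num)]
  exact hX.nu.congr 4 _ _ e _

/-- the pair function is admissible for (H1) -/
theorem l6v_U_fn {X : JtCtx S} {ms : ℕ → ℝ} (hX : X.Law ms) (t0 : ℕ) : PkFn 2 (l6vU X t0) where
  uses := by
    intro τ τ' e
    unfold l6vU
    rw [l6v_V_uses hX t0 e, l6v_V_uses hX t0 (τ := pkPull 2 3 2 τ) (τ' := pkPull 2 3 2 τ')]
    intro x y hx hy
    refine e _ _ ?_ ?_ <;> unfold pkSub <;> split_ifs <;> omega
  symm := by
    intro τ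
    have e : pkPull 2 (2 + 1) 2 (pkPull 2 (2 + 1) 2 τ) = τ := by
      funext x y
      have hs : ∀ z, pkSub 2 (2 + 1) 2 (pkSub 2 (2 + 1) 2 z) = z := by
        intro z; unfold pkSub; split_ifs <;> omega
      simp only [pkPull, hs]
    show (l6vV X t0 (pkPull 2 (2 + 1) 2 τ) + l6vV X t0 (pkPull 2 (2 + 1) 2 (pkPull 2 (2 + 1) 2 τ))) / 2 = (l6vV X t0 τ + l6vV X t0 (pkPull 2 (2 + 1) 2 τ)) / 2
    rw [e]
    ring

/-- **V2**: at the pair `23 = 01` the pair function is the variance -/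
theorem l6v_U_tau {X : JtCtx S} {ms : ℕ → ℝ} (hX : X.Law ms) {t0 : ℕ} (ht : t0 ≤ X.N) : l6vU X t0 (l6vTau X.N t0) = l6vXD X t0 := by
  rw [l6v_U_tree hX t0 (l6v_tau_isTr (by omega))]
  have h := hX.nu.comap 2 4 (trPair X.N t0) (l6v_pair_isTr (by omega)) (fun x => x % 2) (fun x _ => Nat.mod_lt x (by norm_num))
    (fun σ => l6vT X t0 σ * (X.ov (σ 2) (σ 3) - l6vXS X t0))
    (fun σ σ' e => by
      simp only [l6vT]
      rw [e 0 (by norm_num), e 1 (by norm_num), e 2 (by norm_num), e 3 (by norm_num)])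
  have e23 : l6vTau X.N t0 2 3 = t0 := by simp [l6vTau, trPair]
  rw [e23]
  refine Eq.trans h.symm ?_
  unfold l6vXD
  congr 1
  funext σ
  simp only [l6vT]
  norm_num
  ring

theorem l6v_off_one (X : JtCtx S) (q : ℕ) (τ : JtTopo) : X.off q 1 τ = if τ q (q + 1) ≤ X.N then 1 else 0 := by
  simp [JtCtx.off, jtC, jtD]

/-- the insertion at the empirical reference is `b (Q - S)` -/
theorem l6v_J {X : JtCtx S} (hmsk : ∀ u, X.msk u = 1) (hK : ∀ u, u ≤ X.N → X.KC u = X.hC u + X.bC u * l6vXS X u)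
    {τ : JtTopo} {c d : ℕ} (h : τ c d ≤ X.N) (σ : ℕ → S) :
    X.J τ σ c d = X.bC (τ c d) * (X.ov (σ c) (σ d) - l6vXS X (τ c d)) := by
  unfold JtCtx.J JtCtx.Qs
  rw [hK _ h, hmsk]
  ring

/-- one insertion against `T` = multiplier times the pair function at the inserted pair -/
theorem l6v_ins {X : JtCtx S} {ms : ℕ → ℝ} (hX : X.Law ms) (hmsk : ∀ u, X.msk u = 1)
    (hK : ∀ u, u ≤ X.N → X.KC u = X.hC u + X.bC u * l6vXS X u) (t0 : ℕ) {τ : JtTopo} (hτ : IsTr X.N 6 τ) (h45 : τ 4 5 ≤ X.N) :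
    X.nu 6 τ (fun σ => l6vT X t0 σ * X.J τ σ 4 5) = X.bC (τ 4 5) * l6vU X t0 (pkPull 2 4 5 τ) := by
  have hp : IsTr X.N 4 (pkPull 2 4 5 τ) := l6v_pull_isTr (q0 := 2) hτ
  rw [l6v_U_tree hX t0 hp]
  have h := hX.nu.comap 6 4 τ hτ (pkSub 2 4 5) (fun x hx => by unfold pkSub; split_ifs <;> omega)
    (fun σ => l6vT X t0 σ * (X.ov (σ 2) (σ 3) - l6vXS X (τ 4 5)))
    (fun σ σ' e => by
      simp only [l6vT]
      rw [e 0 (by norm_num), e 1 (by norm_num), e 2 (by norm_num), e 3 (by norm_num)])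
  have e23 : pkPull 2 4 5 τ 2 3 = τ 4 5 := by simp [pkPull, pkSub]
  rw [e23]
  have h' : X.nu 4 (pkPull 2 4 5 τ) (fun σ => l6vT X t0 σ * (X.ov (σ 2) (σ 3) - l6vXS X (τ 4 5)))
      = X.nu 6 τ fun σ => l6vT X t0 σ * (X.ov (σ 4) (σ 5) - l6vXS X (τ 4 5)) := by
    refine Eq.trans h.symm ?_
    simp [l6vT, pkSub]
  rw [h', ← hX.nu.const_mul]
  congr 1
  funext σ
  rw [l6v_J hmsk hK h45]
  ring

/-- **V1 (LL 06 l.585-600)**: (A7) at `k = 2` says that `u_{cd} = ν[T (Q_{cd} - S_{cd})]` solves (H1) up to the quadratic remainder.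
Order `0` vanishes (`ν[T] = 0`), order `1` is the linear cavity sum with `J = b (Q - S)`. -/
theorem l6v_lin {X : JtCtx S} {ms : ℕ → ℝ} (hX : X.Law ms) (hmsk : ∀ u, X.msk u = 1)
    (hK : ∀ u, u ≤ X.N → X.KC u = X.hC u + X.bC u * l6vXS X u) {τ : JtTopo} (hτ : IsTr X.N 4 τ) {C E : ℝ}
    (hA7 : X.A7 4 τ (l6vT X (τ 0 1)) 2 3 2 C E) :
    |pkL X 2 X.bC (l6vU X (τ 0 1)) τ| ≤ C * X.rem 4 τ (l6vT X (τ 0 1)) 2 + E := by
  set t0 := τ 0 1 with ht0
  have hT0 : X.nu 4 τ (l6vT X t0) = 0 := l6v_T_zero hX hτ (by norm_num)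
  -- the left side of (A7)
  have e1 : X.nu 4 τ (fun σ => l6vT X t0 σ * X.Qs τ σ 2 3) = l6vU X t0 τ := by
    rw [l6v_U_tree hX t0 hτ]
    have : (fun σ => l6vT X t0 σ * (X.ov (σ 2) (σ 3) - l6vXS X (τ 2 3)))
        = fun σ => l6vT X t0 σ * X.Qs τ σ 2 3 - l6vT X t0 σ * l6vXS X (τ 2 3) := by
      funext σ
      unfold JtCtx.Qs
      rw [hmsk]
      ring
    rw [this, hX.nu.sub, hX.nu.mul_const, hT0]
    ring
  -- order zero
  have e2 : X.ev 4 τ (fun r τ' => X.Quo r 4 2 3 τ') (l6vT X t0) 0 = 0 := by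
    unfold JtCtx.ev
    rw [hX.sumK]
    simp only [Nat.mul_zero, trSumK, Nat.add_zero, JtCtx.Jprod, Finset.range_zero, Finset.prod_empty, mul_one]
    rw [hT0]
    ring
  -- order one
  have e3 : X.ev 4 τ (fun r τ' => X.Quo r 4 2 3 τ') (l6vT X t0) 1
      = pkM X 2 (fun τ' => X.bC (τ' (2 + 2) (2 + 3)) * l6vU X t0 (pkPull 2 (2 + 2) (2 + 3) τ')) τ := by
    unfold JtCtx.ev pkM
    rw [hX.sumK, hX.sumK, tcb_sumK_mul_left]
    refine tr_sumK_congr hτ 2 _ _ fun τ' hτ' _ => ?_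
    have hτ6 : IsTr X.N 6 τ' := hτ'
    show ((2 : ℝ) ^ 1 * ((Nat.factorial 1 : ℕ) : ℝ))⁻¹ * (X.off 4 1 τ' * X.Quo 6 4 2 3 τ' (Finset.range 1)
        * X.nu 6 τ' fun σ => l6vT X t0 σ * X.Jprod 4 1 τ' σ)
      = X.off 4 1 τ' * X.Mker 6 4 2 3 τ' * (X.bC (τ' 4 5) * l6vU X t0 (pkPull 2 4 5 τ'))
    rw [l6v_off_one]
    by_cases h45 : τ' 4 5 ≤ X.N
    · rw [if_pos h45, ← l6v_ins hX hmsk hK t0 hτ6 h45]
      have : (fun σ => l6vT X t0 σ * X.Jprod 4 1 τ' σ) = fun σ => l6vT X t0 σ * X.J τ' σ 4 5 := by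
        funext σ
        simp [JtCtx.Jprod, jtC, jtD]
      rw [this]
      unfold JtCtx.Mker
      simp only [Finset.range_one, Nat.factorial_one, Nat.cast_one, pow_one, mul_one, one_mul]
      ring
    · rw [if_neg h45]
      ring
  have e4 : pkL X 2 X.bC (l6vU X t0) τ
      = X.nu 4 τ (fun σ => l6vT X t0 σ * X.Qs τ σ 2 3) - X.evLt 4 τ (fun r τ' => X.Quo r 4 2 3 τ') (l6vT X t0) 2 := by
    unfold pkL JtCtx.evLt
    rw [Finset.sum_range_succ, Finset.sum_range_succ, Finset.sum_range_zero, e1, e2, e3]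
    ring
  rw [e4]
  exact hA7

/-- elementary: three numbers in `[0,2]` -/
theorem l6v_three {a b c θ : ℝ} (ha : 0 ≤ a) (ha2 : a ≤ 2) (hb : 0 ≤ b) (hb2 : b ≤ 2) (hc : 0 ≤ c) (hc2 : c ≤ 2) (hθ : 0 ≤ θ) :
    a * b * c ≤ θ / 2 * a ^ 2 + θ / 2 * b ^ 2 + 8 * (if θ < c then 1 else 0) := by
  have hab : 0 ≤ a * b := mul_nonneg ha hb
  by_cases h : θ < c
  · rw [if_pos h]
    have h1 : a * b ≤ 4 := by nlinarith
    have h2 : a * b * c ≤ 8 := by nlinarith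
    have h3 : 0 ≤ θ / 2 * a ^ 2 + θ / 2 * b ^ 2 := by positivity
    linarith
  · rw [if_neg h]
    have h1 : a * b * c ≤ a * b * θ := mul_le_mul_of_nonneg_left (not_lt.1 h) hab
    have h2 : a * b * θ ≤ θ / 2 * a ^ 2 + θ / 2 * b ^ 2 := by nlinarith [mul_nonneg hθ (sq_nonneg (a - b))]
    linarith

/-- **V3 (LL 06 l.601-615)**: the quadratic remainder, pointwise in the topology: one factor is small off the tail event, the two others go to the variances. -/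
theorem l6v_point {X : JtCtx S} {ms : ℕ → ℝ} (hX : X.Law ms) (hmsk : ∀ u, X.msk u = 1)
    (hK : ∀ u, u ≤ X.N → X.KC u = X.hC u + X.bC u * l6vXS X u) {M0 : ℝ} (hb : ∀ u, u ≤ X.N → 0 ≤ X.bC u ∧ X.bC u ≤ M0)
    {θ : ℝ} (hθ : 0 ≤ θ) (t0 : ℕ) {τ : JtTopo} (hτ : IsTr X.N 8 τ) (h01 : τ 0 1 = t0) (h45 : τ 4 5 ≤ X.N) (h67 : τ 6 7 ≤ X.N) :
    X.nu 8 τ (fun σ => |l6vT X t0 σ| * |X.Jprod 4 2 τ σ|)
      ≤ M0 ^ 2 * (θ / 2 * l6vXD X t0 + θ / 2 * l6vXD X (τ 4 5) + 8 * l6vXT X θ (τ 6 7)) := by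
  have hM0 : 0 ≤ M0 := (hb _ h45).1.trans (hb _ h45).2
  have hpt : ∀ σ : ℕ → S, |l6vT X t0 σ| * |X.Jprod 4 2 τ σ|
      ≤ M0 ^ 2 * (θ / 2 * (X.ov (σ 0) (σ 1) - l6vXS X t0) ^ 2 + θ / 2 * (X.ov (σ 4) (σ 5) - l6vXS X (τ 4 5)) ^ 2
          + 8 * (if θ < |X.ov (σ 6) (σ 7) - l6vXS X (τ 6 7)| then 1 else 0)) := by
    intro σ
    have eJ : X.Jprod 4 2 τ σ = X.J τ σ 4 5 * X.J τ σ 6 7 := by
      simp [JtCtx.Jprod, jtC, jtD, Finset.prod_range_succ]
    rw [eJ, l6v_J hmsk hK h45, l6v_J hmsk hK h67]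
    set A := X.ov (σ 0) (σ 1) - l6vXS X t0 with hA
    set B := X.ov (σ 4) (σ 5) - l6vXS X (τ 4 5) with hB
    set Cc := X.ov (σ 6) (σ 7) - l6vXS X (τ 6 7) with hCc
    have h3 := l6v_three (abs_nonneg A) (l6v_dl_abs hX _ _ _) (abs_nonneg B) (l6v_dl_abs hX _ _ _) (abs_nonneg Cc)
      (l6v_dl_abs hX _ _ _) hθ
    rw [sq_abs, sq_abs] at h3
    have e1 : |l6vT X t0 σ| * |X.bC (τ 4 5) * B * (X.bC (τ 6 7) * Cc)| = (X.bC (τ 4 5) * X.bC (τ 6 7)) * (|A| * |B| * |Cc|) := by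
      rw [abs_mul, abs_mul, abs_mul, abs_of_nonneg (hb _ h45).1, abs_of_nonneg (hb _ h67).1]
      show |A| * _ = _
      ring
    rw [e1]
    have h4 : X.bC (τ 4 5) * X.bC (τ 6 7) ≤ M0 ^ 2 := by
      rw [sq]; exact mul_le_mul (hb _ h45).2 (hb _ h67).2 (hb _ h67).1 hM0
    have h5 : 0 ≤ |A| * |B| * |Cc| := by positivity
    calc X.bC (τ 4 5) * X.bC (τ 6 7) * (|A| * |B| * |Cc|) ≤ M0 ^ 2 * (|A| * |B| * |Cc|) := mul_le_mul_of_nonneg_right h4 h5
      _ ≤ _ := mul_le_mul_of_nonneg_left h3 (sq_nonneg _)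
  refine (hX.nu.mono 8 τ hpt).trans (le_of_eq ?_)
  rw [hX.nu.const_mul, hX.nu.add, hX.nu.add, hX.nu.const_mul, hX.nu.const_mul, hX.nu.const_mul]
  have p01 := l6v_pair hX.nu hτ (c := 0) (d := 1) (by norm_num) (by norm_num) fun s s' => (X.ov s s' - l6vXS X t0) ^ 2
  have p45 := l6v_pair hX.nu hτ (c := 4) (d := 5) (by norm_num) (by norm_num) fun s s' => (X.ov s s' - l6vXS X (τ 4 5)) ^ 2
  have p67 := l6v_pair hX.nu hτ (c := 6) (d := 7) (by norm_num) (by norm_num)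
    fun s s' => if θ < |X.ov s s' - l6vXS X (τ 6 7)| then (1 : ℝ) else 0
  rw [p01, p45, p67, h01]
  rfl

/-- the density which collects the quadratic remainder: `θ D²/2 + 8 ν[|Q - S| > θ]` -/
noncomputable def l6vH (X : JtCtx S) (θ : ℝ) (t : ℕ) : ℝ := θ / 2 * l6vXD X t + 8 * l6vXT X θ t

theorem l6v_H_nonneg {X : JtCtx S} {ms : ℕ → ℝ} (hX : X.Law ms) {θ : ℝ} (hθ : 0 ≤ θ) (t : ℕ) : 0 ≤ l6vH X θ t := by
  have h1 := l6v_XD_nonneg hX t
  have h2 := l6v_XT_nonneg hX θ t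
  unfold l6vH
  positivity

theorem l6v_off_two (X : JtCtx S) (τ : JtTopo) :
    X.off 4 2 τ = (if τ 4 5 ≤ X.N then 1 else 0) * (if τ 6 7 ≤ X.N then 1 else 0) := by
  simp [JtCtx.off, jtC, jtD, Finset.prod_range_succ]

/-- **Step A**: the remainder of (A7) at `k = 2` over a tree on `4` labels -/
theorem l6v_rem_le {A C44 : ℝ} (h44 : L6vAl 4 4 A C44) {X : JtCtx S} {ms : ℕ → ℝ} (hX : X.Law ms) (hmsk : ∀ u, X.msk u = 1) (hA : ms X.N ≤ A)
    (hK : ∀ u, u ≤ X.N → X.KC u = X.hC u + X.bC u * l6vXS X u) {M0 : ℝ} (hb : ∀ u, u ≤ X.N → 0 ≤ X.bC u ∧ X.bC u ≤ M0)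
    {θ : ℝ} (hθ : 0 ≤ θ) {τ : JtTopo} (hτ : IsTr X.N 4 τ) (h01 : τ 0 1 ≤ X.N) :
    X.rem 4 τ (l6vT X (τ 0 1)) 2 ≤ M0 ^ 2 * (3 * C44) * (l6vIG ms X.N (l6vH X θ) + l6vFK X.N 4 τ (l6vH X θ)) := by
  have hH := l6v_H_nonneg hX hθ
  unfold JtCtx.rem
  rw [hX.absK]
  have hpt : ∀ τ', IsTr X.N (4 + 4) τ' → (∀ y z, y < 4 → z < 4 → τ' y z = τ y z) →
      X.off 4 2 τ' * X.nu (4 + 2 * 2) τ' (fun σ => |l6vT X (τ 0 1) σ| * |X.Jprod 4 2 τ' σ|)
        ≤ M0 ^ 2 * (l6vGN X.N (l6vH X θ) (τ' 0 1) + l6vGN X.N (l6vH X θ) (τ' 4 5) + l6vGN X.N (l6vH X θ) (τ' 6 7)) := by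
    intro τ' hτ' hag
    have e01 : τ' 0 1 = τ 0 1 := hag 0 1 (by norm_num) (by norm_num)
    have hr : 0 ≤ M0 ^ 2 * (l6vGN X.N (l6vH X θ) (τ' 0 1) + l6vGN X.N (l6vH X θ) (τ' 4 5) + l6vGN X.N (l6vH X θ) (τ' 6 7)) :=
      mul_nonneg (sq_nonneg _) (add_nonneg (add_nonneg (l6v_GN_nonneg hH _) (l6v_GN_nonneg hH _)) (l6v_GN_nonneg hH _))
    rw [l6v_off_two]
    by_cases h45 : τ' 4 5 ≤ X.N
    · by_cases h67 : τ' 6 7 ≤ X.N
      · rw [if_pos h45, if_pos h67, one_mul, one_mul]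
        refine (l6v_point hX hmsk hK hb hθ (τ 0 1) (τ := τ') hτ' e01 h45 h67).trans ?_
        refine mul_le_mul_of_nonneg_left ?_ (sq_nonneg _)
        unfold l6vGN
        rw [if_pos (by rw [e01]; exact h01), if_pos h45, if_pos h67, e01]
        unfold l6vH
        have a1 := l6v_XD_nonneg hX (τ' 6 7)
        have a2 := l6v_XT_nonneg hX θ (τ 0 1)
        have a3 := l6v_XT_nonneg hX θ (τ' 4 5)
        have a4 : 0 ≤ θ / 2 * l6vXD X (τ' 6 7) := by positivity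
        linarith
      · rw [if_neg h67, mul_zero, zero_mul]; exact hr
    · rw [if_neg h45, zero_mul, zero_mul]; exact hr
  refine (l6v_absK_mono (ms := ms) hτ 4 _ _ hpt).trans ?_
  rw [tra2_absK_const_mul, l6v_absK_add, l6v_absK_add]
  have b1 := h44.2 X.N τ ms hτ hX.isMs hA _ hH 0 1 (by norm_num) (by norm_num)
  have b2 := h44.2 X.N τ ms hτ hX.isMs hA _ hH 4 5 (by norm_num) (by norm_num)
  have b3 := h44.2 X.N τ ms hτ hX.isMs hA _ hH 6 7 (by norm_num) (by norm_num)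
  rw [mul_assoc]
  refine mul_le_mul_of_nonneg_left ?_ (sq_nonneg _)
  linarith

theorem l6v_rem_nonneg {X : JtCtx S} {ms : ℕ → ℝ} (hX : X.Law ms) (q : ℕ) (τ : JtTopo) (P : (ℕ → S) → ℝ) (k : ℕ) : 0 ≤ X.rem q τ P k := by
  unfold JtCtx.rem
  rw [hX.absK]
  refine trw_absK_nonneg ms X.N _ q τ fun τ' => mul_nonneg ?_ (hX.nu.nonneg _ _ fun σ => by positivity)
  unfold JtCtx.off
  exact Finset.prod_nonneg fun i _ => by split_ifs <;> norm_num

theorem l6v_FK_tau {N t0 : ℕ} {g : ℕ → ℝ} (hg : ∀ t, 0 ≤ g t) : l6vFK N 4 (l6vTau N t0) g ≤ 16 * g t0 := by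
  unfold l6vFK
  have h1 : ∀ u v, l6vGN N g (l6vTau N t0 u v) ≤ g t0 := by
    intro u v
    unfold l6vGN l6vTau trPair
    by_cases h : u % 2 = v % 2
    · rw [if_pos h, if_neg (by omega)]; exact hg t0
    · rw [if_neg h]; split_ifs; exacts [le_rfl, hg t0]
  calc ∑ u ∈ range 4, ∑ v ∈ range 4, l6vGN N g (l6vTau N t0 u v) ≤ ∑ u ∈ range 4, ∑ v ∈ range 4, g t0 :=
        Finset.sum_le_sum fun u _ => Finset.sum_le_sum fun v _ => h1 u v
    _ = 16 * g t0 := by simp; ring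

theorem l6v_ret_le (N : ℕ) (b : ℕ → ℝ) (r t : ℕ) : pkRet N b r t ≤ if t ≤ N then 1 else 0 := by
  unfold pkRet
  by_cases h : t ≤ N
  · rw [if_pos h]; split_ifs <;> norm_num
  · rw [if_neg h, if_neg (fun hh => h hh.1)]

theorem l6v_ret_nonneg (N : ℕ) (b : ℕ → ℝ) (r t : ℕ) : 0 ≤ pkRet N b r t := by
  unfold pkRet; split_ifs <;> norm_num

/-- **Step B (LL 06 l.568-584, 616-625)**: the a-priori inequality (H1) at the pair `23 = 01`, the rows bounded by V1, Step A; allocation of the two attached labels by V4. -/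
theorem l6v_one {C44 C42 : ℝ} (h44 : L6vAl 4 4 1 C44) (h42 : L6vAl 4 2 1 C42) {X : JtCtx S} {ms : ℕ → ℝ} (hX : X.Law ms)
    (hmsk : ∀ u, X.msk u = 1) (hA : ms X.N ≤ 1) (hK : ∀ u, u ≤ X.N → X.KC u = X.hC u + X.bC u * l6vXS X u) {M0 : ℝ}
    (hb : ∀ u, u ≤ X.N → 0 ≤ X.bC u ∧ X.bC u ≤ M0) {θ : ℝ} (hθ : 0 ≤ θ) {C7 E7 CH : ℝ} (hE7 : 0 ≤ E7) (hCH : 0 ≤ CH)
    (hA7 : ∀ τ, IsTr X.N 4 τ → τ 0 1 ≤ X.N → τ 2 3 ≤ X.N → X.A7 4 τ (l6vT X (τ 0 1)) 2 3 2 C7 E7) {t0 : ℕ} (ht0 : t0 ≤ X.N)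
    (hH1 : |l6vU X t0 (l6vTau X.N t0)| ≤ CH * X.absK 2 (2 + 2) (l6vTau X.N t0) fun τ' =>
      pkRet X.N X.bC (l6vTau X.N t0 2 (2 + 1)) (τ' (2 + 2) (2 + 3)) * |pkL X 2 X.bC (l6vU X t0) (pkPull 2 (2 + 2) (2 + 3) τ')|) :
    l6vXD X t0 ≤ CH * (80 * (|C7| * (M0 ^ 2 * (3 * C44)) * l6vIG ms X.N (l6vH X θ) + E7)
      + |C7| * (M0 ^ 2 * (3 * C44)) * (16 * C42 * (l6vIG ms X.N (l6vH X θ) + 16 * l6vH X θ t0))) := by
  have hH := l6v_H_nonneg hX hθ
  set K : ℝ := |C7| * (M0 ^ 2 * (3 * C44)) with hKdef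
  have hK0 : 0 ≤ K := mul_nonneg (abs_nonneg _) (mul_nonneg (sq_nonneg _) (mul_nonneg (by norm_num) h44.1))
  set IGh : ℝ := l6vIG ms X.N (l6vH X θ) with hIGh
  have hIG0 : 0 ≤ IGh := l6v_IG_nonneg hX.isMs hH
  have hτ0 : IsTr X.N 4 (l6vTau X.N t0) := l6v_tau_isTr (by omega)
  rw [← l6v_U_tau hX ht0]
  refine (le_abs_self _).trans (hH1.trans (mul_le_mul_of_nonneg_left ?_ hCH))
  rw [hX.absK]
  -- pointwise bound of the rows
  have hpt : ∀ τ', IsTr X.N (4 + 2) τ' → (∀ y z, y < 4 → z < 4 → τ' y z = l6vTau X.N t0 y z) →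
      pkRet X.N X.bC (l6vTau X.N t0 2 (2 + 1)) (τ' (2 + 2) (2 + 3)) * |pkL X 2 X.bC (l6vU X t0) (pkPull 2 (2 + 2) (2 + 3) τ')|
        ≤ (K * IGh + E7) + K * l6vFK X.N 4 (pkPull 2 4 5 τ') (l6vH X θ) := by
    intro τ' hτ' hag
    have hr : 0 ≤ (K * IGh + E7) + K * l6vFK X.N 4 (pkPull 2 4 5 τ') (l6vH X θ) := by
      have := l6v_FK_nonneg (N := X.N) (q := 4) (τ := pkPull 2 4 5 τ') hH
      positivity
    by_cases h45 : τ' 4 5 ≤ X.N
    · have hp : IsTr X.N 4 (pkPull 2 4 5 τ') := l6v_pull_isTr (q0 := 2) hτ'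
      have e01 : pkPull 2 4 5 τ' 0 1 = t0 := by
        have : pkPull 2 4 5 τ' 0 1 = τ' 0 1 := by simp [pkPull, pkSub]
        rw [this, hag 0 1 (by norm_num) (by norm_num)]
        simp [l6vTau, trPair]
      have e23 : pkPull 2 4 5 τ' 2 3 = τ' 4 5 := by simp [pkPull, pkSub]
      have h1 := l6v_lin hX hmsk hK hp (hA7 _ hp (by rw [e01]; exact ht0) (by rw [e23]; exact h45))
      have h2 := l6v_rem_le h44 hX hmsk hA hK hb hθ hp (by rw [e01]; exact ht0)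
      rw [e01] at h1 h2
      have h3 : C7 * X.rem 4 (pkPull 2 4 5 τ') (l6vT X t0) 2 ≤ K * (IGh + l6vFK X.N 4 (pkPull 2 4 5 τ') (l6vH X θ)) := by
        have h4 := l6v_rem_nonneg hX 4 (pkPull 2 4 5 τ') (l6vT X t0) 2
        calc C7 * X.rem 4 (pkPull 2 4 5 τ') (l6vT X t0) 2 ≤ |C7| * X.rem 4 (pkPull 2 4 5 τ') (l6vT X t0) 2 :=
              mul_le_mul_of_nonneg_right (le_abs_self _) h4
          _ ≤ |C7| * (M0 ^ 2 * (3 * C44) * (IGh + l6vFK X.N 4 (pkPull 2 4 5 τ') (l6vH X θ))) :=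
              mul_le_mul_of_nonneg_left h2 (abs_nonneg _)
          _ = _ := by rw [hKdef]; ring
      have h5 : pkRet X.N X.bC (l6vTau X.N t0 2 (2 + 1)) (τ' (2 + 2) (2 + 3)) ≤ 1 :=
        (l6v_ret_le _ _ _ _).trans (by split_ifs <;> norm_num)
      calc pkRet X.N X.bC (l6vTau X.N t0 2 (2 + 1)) (τ' (2 + 2) (2 + 3)) * |pkL X 2 X.bC (l6vU X t0) (pkPull 2 (2 + 2) (2 + 3) τ')|
          ≤ 1 * |pkL X 2 X.bC (l6vU X t0) (pkPull 2 (2 + 2) (2 + 3) τ')| := mul_le_mul_of_nonneg_right h5 (abs_nonneg _)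
        _ = |pkL X 2 X.bC (l6vU X t0) (pkPull 2 4 5 τ')| := one_mul _
        _ ≤ _ := by linarith
    · have h5 : pkRet X.N X.bC (l6vTau X.N t0 2 (2 + 1)) (τ' (2 + 2) (2 + 3)) = 0 := by
        refine le_antisymm ((l6v_ret_le _ _ _ _).trans ?_) (l6v_ret_nonneg _ _ _ _)
        rw [if_neg h45]
      rw [h5, zero_mul]
      exact hr
  refine (l6v_absK_mono (ms := ms) hτ0 2 _ _ hpt).trans ?_
  rw [l6v_absK_add, tra2_absK_const_mul]
  -- constants
  have hc : trAbsK ms X.N 2 4 (l6vTau X.N t0) (fun _ => K * IGh + E7) ≤ 80 * (K * IGh + E7) := by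
    have hc0 : 0 ≤ K * IGh + E7 := by positivity
    refine (l6v_absK_const hτ0 hX.isMs 2 hc0).trans (mul_le_mul_of_nonneg_right ?_ hc0)
    have h0 := hX.isMs.nonneg X.N
    simp only [Finset.prod_range_succ, Finset.prod_range_zero]
    norm_num
    nlinarith
  -- forks of the pulled tree
  have hf : trAbsK ms X.N 2 4 (l6vTau X.N t0) (fun τ' => l6vFK X.N 4 (pkPull 2 4 5 τ') (l6vH X θ))
      ≤ 16 * C42 * (IGh + 16 * l6vH X θ t0) := by
    unfold l6vFK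
    rw [l6v_absK_sum]
    have h1 : ∀ u ∈ range 4, trAbsK ms X.N 2 4 (l6vTau X.N t0) (fun τ' => ∑ v ∈ range 4, l6vGN X.N (l6vH X θ) (pkPull 2 4 5 τ' u v))
        ≤ 4 * (C42 * (IGh + 16 * l6vH X θ t0)) := by
      intro u hu
      rw [l6v_absK_sum]
      have h2 : ∀ v ∈ range 4, trAbsK ms X.N 2 4 (l6vTau X.N t0) (fun τ' => l6vGN X.N (l6vH X θ) (pkPull 2 4 5 τ' u v))
          ≤ C42 * (IGh + 16 * l6vH X θ t0) := by
        intro v hv
        have hu' := Finset.mem_range.mp hu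
        have hv' := Finset.mem_range.mp hv
        refine (h42.2 X.N _ ms hτ0 hX.isMs hA _ hH (pkSub 2 4 5 u) (pkSub 2 4 5 v) (l6v_sub_lt (q0 := 2) hu') (l6v_sub_lt (q0 := 2) hv')).trans ?_
        refine mul_le_mul_of_nonneg_left ?_ h42.1
        have := l6v_FK_tau (N := X.N) (t0 := t0) hH
        linarith
      refine (Finset.sum_le_sum h2).trans (le_of_eq ?_)
      simp
    refine (Finset.sum_le_sum h1).trans (le_of_eq ?_)
    simp
    ring
  have := mul_le_mul_of_nonneg_left hf hK0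
  linarith

/-- **S12, ABSTRACT FORM** (a jet context with its laws, untilted, terminal mass `≤ 1`, empirical reference `K = h + b S`):
`∫ D² dm ≤ C_H c (E_7 + θ ∫ D² dm + ∫ ν[|Q - S| > θ] dm)`, `c = 80 + 8 |C_7| M0² 3 C44 (80 + 272 C42)`. -/
theorem l6v_abs {C44 C42 : ℝ} (h44 : L6vAl 4 4 1 C44) (h42 : L6vAl 4 2 1 C42) {X : JtCtx S} {ms : ℕ → ℝ} (hX : X.Law ms)
    (hmsk : ∀ u, X.msk u = 1) (hA : ms X.N ≤ 1) (hK : ∀ u, u ≤ X.N → X.KC u = X.hC u + X.bC u * l6vXS X u) {M0 : ℝ}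
    (hb : ∀ u, u ≤ X.N → 0 ≤ X.bC u ∧ X.bC u ≤ M0) {θ : ℝ} (hθ : 0 ≤ θ) {C7 E7 CH : ℝ} (hE7 : 0 ≤ E7) (hCH : 0 ≤ CH)
    (hA7 : ∀ τ, IsTr X.N 4 τ → τ 0 1 ≤ X.N → τ 2 3 ≤ X.N → X.A7 4 τ (l6vT X (τ 0 1)) 2 3 2 C7 E7)
    (hH1 : ∀ t0, t0 ≤ X.N → |l6vU X t0 (l6vTau X.N t0)| ≤ CH * X.absK 2 (2 + 2) (l6vTau X.N t0) fun τ' =>
      pkRet X.N X.bC (l6vTau X.N t0 2 (2 + 1)) (τ' (2 + 2) (2 + 3)) * |pkL X 2 X.bC (l6vU X t0) (pkPull 2 (2 + 2) (2 + 3) τ')|) :
    l6vIG ms X.N (l6vXD X) ≤ CH * (80 + 8 * (|C7| * (M0 ^ 2 * (3 * C44))) * (80 + 272 * C42))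
      * (E7 + θ * l6vIG ms X.N (l6vXD X) + l6vIG ms X.N (l6vXT X θ)) := by
  have hH := l6v_H_nonneg hX hθ
  set K : ℝ := |C7| * (M0 ^ 2 * (3 * C44)) with hKdef
  have hK0 : 0 ≤ K := mul_nonneg (abs_nonneg _) (mul_nonneg (sq_nonneg _) (mul_nonneg (by norm_num) h44.1))
  set IGh : ℝ := l6vIG ms X.N (l6vH X θ) with hIGh
  have hIG0 : 0 ≤ IGh := l6v_IG_nonneg hX.isMs hH
  have hD0 : 0 ≤ l6vIG ms X.N (l6vXD X) := l6v_IG_nonneg hX.isMs (l6v_XD_nonneg hX)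
  have hT0 : 0 ≤ l6vIG ms X.N (l6vXT X θ) := l6v_IG_nonneg hX.isMs (l6v_XT_nonneg hX θ)
  have hC42 := h42.1
  have eH : IGh = θ / 2 * l6vIG ms X.N (l6vXD X) + 8 * l6vIG ms X.N (l6vXT X θ) := by
    rw [hIGh]
    unfold l6vIG l6vH
    rw [Finset.mul_sum, Finset.mul_sum, ← Finset.sum_add_distrib]
    exact Finset.sum_congr rfl fun t _ => by ring
  have hsum : l6vIG ms X.N (fun _ => 1) ≤ 1 := by rw [l6v_IG_one]; exact hA
  have hsum0 : 0 ≤ l6vIG ms X.N (fun _ => 1) := l6v_IG_nonneg hX.isMs fun _ => zero_le_one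
  set a : ℝ := 80 * (K * IGh + E7) + K * (16 * C42) * IGh with ha
  have ha0 : 0 ≤ a := by positivity
  have h1 : l6vIG ms X.N (l6vXD X) ≤ CH * (a * l6vIG ms X.N (fun _ => 1) + K * (256 * C42) * IGh) := by
    have e : CH * (a * l6vIG ms X.N (fun _ => 1) + K * (256 * C42) * IGh)
        = ∑ t ∈ range (X.N + 1), (ms t - trPm ms t) * (CH * (a + K * (256 * C42) * l6vH X θ t)) := by
      rw [hIGh]
      unfold l6vIG
      rw [Finset.mul_sum, Finset.mul_sum, ← Finset.sum_add_distrib, Finset.mul_sum]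
      exact Finset.sum_congr rfl fun t _ => by ring
    rw [e]
    refine Finset.sum_le_sum fun t ht => ?_
    have ht' : t ≤ X.N := by have := Finset.mem_range.mp ht; omega
    refine mul_le_mul_of_nonneg_left ?_ (trw_step_nonneg hX.isMs ht')
    refine (l6v_one h44 h42 hX hmsk hA hK hb hθ hE7 hCH hA7 ht' (hH1 t ht')).trans (le_of_eq ?_)
    rw [ha]
    ring
  have h2 : a * l6vIG ms X.N (fun _ => 1) ≤ a := by nlinarith
  have h3 : IGh ≤ 8 * (θ * l6vIG ms X.N (l6vXD X) + l6vIG ms X.N (l6vXT X θ)) := by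
    rw [eH]
    have : 0 ≤ θ * l6vIG ms X.N (l6vXD X) := mul_nonneg hθ hD0
    linarith
  set R : ℝ := θ * l6vIG ms X.N (l6vXD X) + l6vIG ms X.N (l6vXT X θ) with hR
  have hR0 : 0 ≤ R := by positivity
  have h4 : a + K * (256 * C42) * IGh ≤ (80 + 8 * K * (80 + 272 * C42)) * (E7 + R) := by
    have h5 : K * (80 + 272 * C42) * IGh ≤ K * (80 + 272 * C42) * (8 * R) :=
      mul_le_mul_of_nonneg_left h3 (by positivity)
    have h6 : 0 ≤ 8 * K * (80 + 272 * C42) * E7 := by positivity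
    have h7 : 0 ≤ 80 * R := by positivity
    rw [ha]
    nlinarith
  calc l6vIG ms X.N (l6vXD X) ≤ CH * (a * l6vIG ms X.N (fun _ => 1) + K * (256 * C42) * IGh) := h1
    _ ≤ CH * ((80 + 8 * K * (80 + 272 * C42)) * (E7 + R)) := mul_le_mul_of_nonneg_left (by linarith) hCH
    _ = _ := by rw [hR]; ring

end ctx

/-! ## 3. the instance: the `n`-site model on a fine path, untilted, terminal mass `1` -/

/-- `E χ_t²` of the scalar reference at the level `t` (the vocabulary of the gap of (H1), `Inv/PairDefs`) -/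
noncomputable def l6vChi2 (P : LlStp) (t : ℕ) : ℝ := pkX2 1 P t

/-- `S_t`, `D_t²`, weight of the level `t` -/
noncomputable def l6vS (n : ℕ) (P : LlStp) (t : ℕ) : ℝ := obS n 1 (llMat P) 0 t
noncomputable def l6vD2 (n : ℕ) (P : LlStp) (t : ℕ) : ℝ := obD2 n 1 (llMat P) 0 t
def l6vG (P : LlStp) (t : ℕ) : ℝ := skGap 1 (llMat P) t

/-- `∫ D_v² dv` -/
noncomputable def l6vInt (n : ℕ) (P : LlStp) : ℝ := ∑ t ∈ range (P.length + 1), l6vG P t * l6vD2 n P t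

/-- the reference clock is the empirical scalar clock `K^emp = h + b~ S` -/
def L6vEmp (n : ℕ) (P : LlStp) : Prop :=
  ∀ t ≤ P.length, llCumK P t = skCumH (llMat P) t + skCumB (llMat P) t * l6vS n P t

open Classical in
/-- `ν[ |Q - S_t| > θ ]` for two branches forked at the level `t` -/
noncomputable def l6vTail (n : ℕ) (P : LlStp) (θ : ℝ) (t : ℕ) : ℝ :=
  (obT2 t).nu (skBase n 1) (skLvs n (llMat P)) 0 fun _ σ => if θ < |skOv (σ 0) (σ 1) - l6vS n P t| then 1 else 0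

theorem l6v_js_nu (n : ℕ) (P : LlStp) (q : ℕ) (τ : JtTopo) (T : (ℕ → SkCfg n) → ℝ) :
    (llJs n 1 P none).nu q τ T = trNu (skBase n 1) (skLvs n (llMat P)) q τ 0 T := rfl

/-- two labels: `Defs/Tr` = `GhTree` -/
theorem l6v_brg (n : ℕ) (P : LlStp) {u : ℕ} (hu : u ≤ P.length) (f : SkCfg n → SkCfg n → ℝ) :
    (llJs n 1 P none).nu 2 (trPair P.length u) (fun σ => f (σ 0) (σ 1))
      = (obT2 u).nu (skBase n 1) (skLvs n (llMat P)) 0 fun _ σ => f (σ 0) (σ 1) := by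
  rw [l6v_js_nu, tr_nu_of_ghTree (skBase n 1) (skLvs n (llMat P)) (obT2 u) 0 fun σ => f (σ 0) (σ 1)]
  refine tr_nu_congr _ _ (fun x y hx hy => ?_) 0 _
  have hl : (skLvs n (llMat P)).length = P.length := by simp [skLvs, llMat]
  rw [hl]
  unfold trPair trOf
  rw [dif_pos ⟨hx, hy⟩]
  by_cases hxy : x = y
  · rw [if_pos hxy, if_pos hxy]
  · rw [if_neg hxy, if_neg hxy]
    show u = min u (P.length + 1)
    omega

theorem l6v_XS_eq {n : ℕ} (hn : 0 < n) {P : LlStp} (hP : LlStpAdm 1 P) {u : ℕ} (hu : u ≤ P.length) :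
    l6vXS (llJs n 1 P none) u = l6vS n P u := by
  have h := l6v_brg n P hu skOv
  have h2 := obt_S_two hn one_pos (llMat P) hP.1 0 u (by simpa [llMat] using hu)
  unfold l6vXS l6vS
  exact h.trans h2

theorem l6v_XD_eq {n : ℕ} (hn : 0 < n) {P : LlStp} (hP : LlStpAdm 1 P) {u : ℕ} (hu : u ≤ P.length) :
    l6vXD (llJs n 1 P none) u = l6vD2 n P u := by
  have hX := ll2_law n one_pos hP none
  have hS := l6v_XS_eq hn hP hu
  have h1 := (l6v_brg n P hu fun s s' => skOv s s' ^ 2).trans (obt_B_two hn one_pos (llMat P) hP.1 0 u (by simpa [llMat] using hu))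
  have h0 : (llJs n 1 P none).nu 2 (trPair P.length u) (fun σ => skOv (σ 0) (σ 1)) = l6vS n P u := hS
  unfold l6vXD l6vD2 obD2
  rw [hS]
  have e : (fun σ : ℕ → SkCfg n => ((llJs n 1 P none).ov (σ 0) (σ 1) - l6vS n P u) ^ 2)
      = fun σ => (skOv (σ 0) (σ 1) ^ 2 - 2 * l6vS n P u * skOv (σ 0) (σ 1)) + l6vS n P u ^ 2 := by
    funext σ
    show (skOv (σ 0) (σ 1) - l6vS n P u) ^ 2 = _
    ring
  rw [e, hX.nu.add, hX.nu.sub, hX.nu.const_mul, hX.nu.const]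
  show (llJs n 1 P none).nu 2 (trPair P.length u) (fun σ => skOv (σ 0) (σ 1) ^ 2)
    - 2 * l6vS n P u * (llJs n 1 P none).nu 2 (trPair P.length u) (fun σ => skOv (σ 0) (σ 1)) + l6vS n P u ^ 2 = _
  rw [h1, h0]
  unfold l6vS
  ring

theorem l6v_XT_eq {n : ℕ} (hn : 0 < n) {P : LlStp} (hP : LlStpAdm 1 P) (θ : ℝ) {u : ℕ} (hu : u ≤ P.length) :
    l6vXT (llJs n 1 P none) θ u = l6vTail n P θ u := by
  have hS := l6v_XS_eq hn hP hu
  unfold l6vXT l6vTail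
  rw [hS]
  refine (l6v_brg n P hu fun s s' => if θ < |skOv s s' - l6vS n P u| then (1 : ℝ) else 0).trans ?_
  congr 1

theorem l6v_G_eq (P : LlStp) (t : ℕ) : l6vG P t = llMs 1 P t - trPm (llMs 1 P) t := by
  have e : ∀ j, skMs 1 (llMat P) j = llMs 1 P j := by
    intro j
    unfold skMs llMs
    rw [List.getD_eq_getElem?_getD]
    simp [llMat, Function.comp_def]
  unfold l6vG skGap trPm
  simp only [e]

theorem l6v_Int_eq {n : ℕ} (hn : 0 < n) {P : LlStp} (hP : LlStpAdm 1 P) :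
    l6vInt n P = l6vIG (llMs 1 P) P.length (l6vXD (llJs n 1 P none)) := by
  unfold l6vInt l6vIG
  refine Finset.sum_congr rfl fun t ht => ?_
  rw [l6v_G_eq, l6v_XD_eq hn hP (by have := Finset.mem_range.mp ht; omega)]

/-! ### clocks of an admissible path -/

theorem l6v_take_sum_mono {l : List ℝ} (h : ∀ x ∈ l, 0 ≤ x) {s t : ℕ} (hst : s ≤ t) : (l.take s).sum ≤ (l.take t).sum := by
  have e : l.take s = (l.take t).take s := by rw [List.take_take, min_eq_left hst]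
  rw [e]
  exact (List.take_sublist s (l.take t)).sum_le_sum fun x hx => h x (List.mem_of_mem_take hx)

theorem l6v_cumB_mono {a : ℝ} {Q : SkStp} (hQ : SkAdm a Q) {s t : ℕ} (hst : s ≤ t) : skCumB Q s ≤ skCumB Q t := by
  unfold skCumB
  rw [List.map_take, List.map_take]
  refine l6v_take_sum_mono (fun x hx => ?_) hst
  obtain ⟨e, he, rfl⟩ := List.mem_map.1 hx
  exact (hQ.2 e he).2.2.1

theorem l6v_cumB_le {a : ℝ} {Q : SkStp} (hQ : SkAdm a Q) (t : ℕ) : skCumB Q t ≤ skTotB Q := by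
  have h := l6v_cumB_mono hQ (Nat.le_max_left t Q.length)
  refine h.trans (le_of_eq ?_)
  unfold skCumB skTotB
  rw [List.take_of_length_le (Nat.le_max_right t Q.length)]

theorem l6v_cum_top (P : LlStp) {t : ℕ} (ht : P.length ≤ t) :
    skCumB (llMat P) t = skCumB (llMat P) P.length ∧ skCumH (llMat P) t = skCumH (llMat P) P.length ∧ llCumK P t = llCumK P P.length := by
  have hl : (llMat P).length = P.length := by simp [llMat]
  unfold skCumB skCumH llCumK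
  rw [List.take_of_length_le (by rw [hl]; exact ht), List.take_of_length_le (le_of_eq hl), List.take_of_length_le ht,
    List.take_of_length_le le_rfl]
  exact ⟨rfl, rfl, rfl⟩

theorem l6v_S_abs {n : ℕ} (hn : 0 < n) {P : LlStp} (hP : LlStpAdm 1 P) {u : ℕ} (hu : u ≤ P.length) : |l6vS n P u| ≤ 1 := by
  rw [← l6v_XS_eq hn hP hu]
  exact l6v_XS_abs (ll2_law n one_pos hP none) u

/-- the bounds required by (A7) -/
theorem l6v_bd {n : ℕ} (hn : 0 < n) {P : LlStp} (hP : LlStpAdm 1 P) (hE : L6vEmp n P) {Kb : ℝ} (hB : skTotB (llMat P) ≤ Kb) :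
    LlBd Kb P := by
  have key : ∀ t, t ≤ P.length → skCumB (llMat P) t ≤ Kb ∧ |skCumH (llMat P) t - llCumK P t| ≤ Kb := by
    intro t ht
    have h1 : skCumB (llMat P) t ≤ Kb := (l6v_cumB_le hP.1 t).trans hB
    refine ⟨h1, ?_⟩
    rw [hE t ht]
    have h2 := l6v_S_abs hn hP ht
    have h3 := ll2_cumB_nonneg hP.1 t
    have e : skCumH (llMat P) t - (skCumH (llMat P) t + skCumB (llMat P) t * l6vS n P t) = - (skCumB (llMat P) t * l6vS n P t) := by ring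
    rw [e, abs_neg, abs_mul, abs_of_nonneg h3]
    calc skCumB (llMat P) t * |l6vS n P t| ≤ skCumB (llMat P) t * 1 := mul_le_mul_of_nonneg_left h2 h3
      _ ≤ Kb := by linarith
  intro t
  rcases le_total t P.length with ht | ht
  · exact key t ht
  · obtain ⟨e1, e2, e3⟩ := l6v_cum_top P ht
    rw [e1, e2, e3]
    exact key P.length le_rfl

/-- the multiplier of (H1) -/
theorem l6v_mul {P : LlStp} (hP : LlStpAdm 1 P) {Kb : ℝ} (hB : skTotB (llMat P) ≤ Kb) (hKt : llCumK P P.length ≤ Kb) {e : ℝ}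
    (he : 0 < e) (he1 : e ≤ 1) (hgap : ∀ t ≤ P.length, e ≤ 1 - skCumB (llMat P) t * l6vChi2 P t) :
    PkMul 1 P (fun t => skCumB (llMat P) t) ((1 + |Kb|) / e) := by
  have hK0 : 0 ≤ |Kb| := abs_nonneg _
  have h1 : 1 + |Kb| ≤ (1 + |Kb|) / e := by
    rw [le_div_iff₀ he]
    nlinarith
  have hKb : Kb ≤ (1 + |Kb|) / e := by linarith [le_abs_self Kb]
  have hone : (1 : ℝ) ≤ (1 + |Kb|) / e := by linarith
  refine ⟨hone, hone, by simpa using hone, hKt.trans hKb, fun t => ll2_cumB_nonneg hP.1 t,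
    fun t _ => ((l6v_cumB_le hP.1 t).trans hB).trans hKb, ?_, fun t ht => ?_⟩
  · have e1 : ∀ t ∈ Finset.range P.length, |skCumB (llMat P) (t + 1) - skCumB (llMat P) t| = skCumB (llMat P) (t + 1) - skCumB (llMat P) t :=
      fun t _ => abs_of_nonneg (sub_nonneg.2 (l6v_cumB_mono hP.1 (Nat.le_succ t)))
    rw [Finset.sum_congr rfl e1, Finset.sum_range_sub]
    have h0 := ll2_cumB_nonneg hP.1 0
    have h2 := (l6v_cumB_le hP.1 P.length).trans hB
    linarith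
  · refine le_trans ?_ (hgap t ht)
    rw [inv_div, div_le_iff₀ (by positivity)]
    nlinarith

/-- the test of the centered inversion is a bounded Lipschitz function of the overlaps -/
theorem l6v_ovbd {c : ℝ} (hc : |c| ≤ 1) : LlOvBd 4 (fun A => A 0 1 - c) 2 1 where
  uses := fun A A' h => by rw [h 0 1 (by norm_num) (by norm_num)]
  bd := fun A hA => by
    have h1 := hA 0 1
    rw [abs_le] at h1 hc ⊢
    constructor <;> linarith
  lip := fun A A' δ _ _ h => by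
    have := h 0 1
    rw [one_mul]
    have e : A 0 1 - c - (A' 0 1 - c) = A 0 1 - A' 0 1 := by ring
    rw [e]
    exact this

/-- **S12: centered inversion and absorption.**      TEX[LL:global:trial-gap] l.553-632
`∫ D² dv ≤ C e^(-n0) ( 1/n + pfl + |floor| + θ ∫ D² dv )`, `C`, `n0` depend only on the bound `Kb` of the clocks. -/
theorem l6v_absorb (Kb : ℝ) : ∃ (C : ℝ) (n0 : ℕ), ∀ (n : ℕ) (P : LlStp), 1 ≤ n → LlStpAdm 1 P → L6vEmp n P →
    skTotB (llMat P) ≤ Kb → llCumK P P.length ≤ Kb →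
    ∀ e : ℝ, 0 < e → e ≤ 1 → (∀ t ≤ P.length, e ≤ 1 - skCumB (llMat P) t * l6vChi2 P t) →
    ∀ (θ pfl : ℝ) (Fl : Finset ℕ), 0 ≤ θ → 0 ≤ pfl → (∀ t ≤ P.length, t ∉ Fl → l6vTail n P θ t ≤ pfl) →
      l6vInt n P ≤ C / e ^ n0 * (1 / n + pfl + ∑ t ∈ Fl, l6vG P t + θ * l6vInt n P) := by
  obtain ⟨C44, h44⟩ := l6v_alloc 4 4 1
  obtain ⟨C42, h42⟩ := l6v_alloc 4 2 1
  obtain ⟨C7, hC7⟩ := exit_a7 4 2 Kb
  obtain ⟨CI, k, hCI0, hCI⟩ := exit_pair_inv
  set c : ℝ := 80 + 8 * (|(|C7|)| * (Kb ^ 2 * (3 * C44))) * (80 + 272 * C42) with hc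
  have hc0 : 0 ≤ c := by
    have := h44.1
    have := h42.1
    positivity
  refine ⟨CI * (1 + |Kb|) ^ k * c * (1 + 3 * |C7|), k, fun n P hn hP hE hB hKt e he he1 hgap θ pfl Fl hθ hpfl htail => ?_⟩
  have hn0 : 0 < n := hn
  have hnR : (0 : ℝ) < n := by exact_mod_cast hn0
  have hX := ll2_law n one_pos hP none
  set X := llJs n 1 P none with hXdef
  have hN : X.N = P.length := rfl
  have hmsk : ∀ u, X.msk u = 1 := fun _ => rfl
  have hA : llMs 1 P X.N ≤ 1 := by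
    have : llMs 1 P P.length = 1 := by simp [llMs]
    rw [hN, this]
  have hK : ∀ u, u ≤ X.N → X.KC u = X.hC u + X.bC u * l6vXS X u := by
    intro u hu
    rw [l6v_XS_eq hn0 hP hu]
    exact hE u hu
  have hb : ∀ u, u ≤ X.N → 0 ≤ X.bC u ∧ X.bC u ≤ Kb := fun u _ =>
    ⟨ll2_cumB_nonneg hP.1 u, (l6v_cumB_le hP.1 u).trans hB⟩
  -- (A7)
  have hA7 : ∀ τ, IsTr X.N 4 τ → τ 0 1 ≤ X.N → τ 2 3 ≤ X.N → X.A7 4 τ (l6vT X (τ 0 1)) 2 3 2 |C7| (|C7| * 3 / n) := by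
    intro τ hτ _ _
    have h := hC7 n 1 P none τ (fun A => A 0 1 - l6vXS X (τ 0 1)) 2 1 2 3 hn0 one_pos (by norm_num) hP trivial
      (l6v_bd hn0 hP hE hB) hτ (l6v_ovbd (l6v_XS_abs hX _)) (by norm_num) (by norm_num) (by norm_num) (by norm_num)
    have hr := l6v_rem_nonneg hX 4 τ (l6vT X (τ 0 1)) 2
    unfold JtCtx.A7
    have e1 : (fun σ => l6vT X (τ 0 1) σ * X.Qs τ σ 2 3) = fun σ : ℕ → SkCfg n => llOvT (fun A => A 0 1 - l6vXS X (τ 0 1)) σ * skOv (σ 2) (σ 3) := by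
      funext σ
      unfold JtCtx.Qs
      rw [hmsk, one_mul]
      rfl
    rw [e1]
    refine h.trans ?_
    have h1 : C7 * X.rem 4 τ (l6vT X (τ 0 1)) 2 ≤ |C7| * X.rem 4 τ (l6vT X (τ 0 1)) 2 := mul_le_mul_of_nonneg_right (le_abs_self _) hr
    have h2 : C7 * (2 + 1) / n ≤ |C7| * 3 / n := by
      rw [div_le_div_iff_of_pos_right hnR]
      nlinarith [le_abs_self C7]
    exact add_le_add h1 h2
  -- (H1)
  have hmul := l6v_mul hP hB hKt he he1 hgap
  have hH1 : ∀ t0, t0 ≤ X.N → |l6vU X t0 (l6vTau X.N t0)| ≤ (CI * ((1 + |Kb|) / e) ^ k) * X.absK 2 (2 + 2) (l6vTau X.N t0) fun τ' =>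
      pkRet X.N X.bC (l6vTau X.N t0 2 (2 + 1)) (τ' (2 + 2) (2 + 3)) * |pkL X 2 X.bC (l6vU X t0) (pkPull 2 (2 + 2) (2 + 3) τ')| := by
    intro t0 ht0
    exact hCI n 1 P none 2 (fun t => skCumB (llMat P) t) _ (l6vU X t0) (l6vTau X.N t0) one_pos hP hmul (l6v_U_fn hX t0)
      (l6v_tau_isTr (by omega)) (by
        have e : l6vTau X.N t0 2 (2 + 1) = t0 := by simp [l6vTau, trPair]
        rw [e]; exact ht0)
  have hCH : 0 ≤ CI * ((1 + |Kb|) / e) ^ k := by positivity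
  have hE7 : 0 ≤ |C7| * 3 / n := by positivity
  have main := l6v_abs h44 h42 hX hmsk hA hK hb hθ hE7 hCH hA7 hH1
  rw [← hc, hN, ← l6v_Int_eq hn0 hP] at main
  -- the tail integral
  have hG0 : ∀ t, 0 ≤ l6vG P t := by
    intro t
    rw [l6v_G_eq]
    rcases le_total t P.length with ht | ht
    · exact trw_step_nonneg hX.isMs ht
    · rcases Nat.eq_or_lt_of_le ht with h | h
      · rw [← h]; exact trw_step_nonneg hX.isMs le_rfl
      · have e1 : llMs 1 P t = 1 := by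
          unfold llMs
          rw [List.getElem?_eq_none (by simp; omega)]
          rfl
        have e2 : trPm (llMs 1 P) t = 1 := by
          unfold trPm llMs
          rw [if_neg (by omega), List.getElem?_eq_none (by simp; omega)]
          rfl
        rw [e1, e2, sub_self]
  have htl : l6vIG (llMs 1 P) P.length (l6vXT X θ) ≤ pfl + ∑ t ∈ Fl, l6vG P t := by
    have h1 : ∀ t ∈ range (P.length + 1), (llMs 1 P t - trPm (llMs 1 P) t) * l6vXT X θ t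
        ≤ (llMs 1 P t - trPm (llMs 1 P) t) * pfl + (if t ∈ Fl then l6vG P t else 0) := by
      intro t ht
      have ht' : t ≤ P.length := by have := Finset.mem_range.mp ht; omega
      have hg := hG0 t
      rw [l6v_G_eq] at hg
      by_cases hF : t ∈ Fl
      · rw [if_pos hF, l6v_G_eq]
        have := l6v_XT_le_one hX θ t
        have h2 : (llMs 1 P t - trPm (llMs 1 P) t) * l6vXT X θ t ≤ (llMs 1 P t - trPm (llMs 1 P) t) * 1 := mul_le_mul_of_nonneg_left this hg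
        have h3 : 0 ≤ (llMs 1 P t - trPm (llMs 1 P) t) * pfl := mul_nonneg hg hpfl
        linarith
      · rw [if_neg hF, add_zero, l6v_XT_eq hn0 hP θ ht']
        exact mul_le_mul_of_nonneg_left (htail t ht' hF) hg
    unfold l6vIG
    refine (Finset.sum_le_sum h1).trans ?_
    rw [Finset.sum_add_distrib, ← Finset.sum_mul]
    have h4 : ∑ t ∈ range (P.length + 1), (llMs 1 P t - trPm (llMs 1 P) t) ≤ 1 := by
      have := l6v_IG_one (llMs 1 P) P.length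
      unfold l6vIG at this
      simp only [mul_one] at this
      rw [this]
      exact hA
    have h5 : ∑ t ∈ range (P.length + 1), (if t ∈ Fl then l6vG P t else 0) ≤ ∑ t ∈ Fl, l6vG P t := by
      rw [← Finset.sum_filter]
      exact Finset.sum_le_sum_of_subset_of_nonneg (fun t ht => (Finset.mem_filter.1 ht).2) fun t _ _ => hG0 t
    have h6 : (∑ t ∈ range (P.length + 1), (llMs 1 P t - trPm (llMs 1 P) t)) * pfl ≤ 1 * pfl := mul_le_mul_of_nonneg_right h4 hpfl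
    linarith
  -- arithmetic
  have hI0 : 0 ≤ l6vInt n P := by
    rw [l6v_Int_eq hn0 hP]
    exact l6v_IG_nonneg hX.isMs (l6v_XD_nonneg hX)
  have hS0 : 0 ≤ ∑ t ∈ Fl, l6vG P t := Finset.sum_nonneg fun t _ => hG0 t
  have hek : 0 < e ^ k := pow_pos he k
  have e2 : CI * ((1 + |Kb|) / e) ^ k * c = CI * (1 + |Kb|) ^ k * c / e ^ k := by
    rw [div_pow]; ring
  rw [e2] at main
  have hpre : 0 ≤ CI * (1 + |Kb|) ^ k * c / e ^ k := by positivity
  have hin : |C7| * 3 / n + θ * l6vInt n P + l6vIG (llMs 1 P) P.length (l6vXT X θ)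
      ≤ (1 + 3 * |C7|) * (1 / n + pfl + ∑ t ∈ Fl, l6vG P t + θ * l6vInt n P) := by
    have a1 : 0 ≤ |C7| := abs_nonneg _
    have a2 : 0 ≤ θ * l6vInt n P := mul_nonneg hθ hI0
    have a3 : (0 : ℝ) ≤ 1 / n := by positivity
    have e3 : |C7| * 3 / n = 3 * |C7| * (1 / n) := by ring
    rw [e3]
    nlinarith [mul_nonneg a1 a2, mul_nonneg a1 hpfl, mul_nonneg a1 hS0, mul_nonneg a1 a3]
  calc l6vInt n P ≤ CI * (1 + |Kb|) ^ k * c / e ^ k * (|C7| * 3 / n + θ * l6vInt n P + l6vIG (llMs 1 P) P.length (l6vXT X θ)) := main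
    _ ≤ CI * (1 + |Kb|) ^ k * c / e ^ k * ((1 + 3 * |C7|) * (1 / n + pfl + ∑ t ∈ Fl, l6vG P t + θ * l6vInt n P)) :=
        mul_le_mul_of_nonneg_left hin hpre
    _ = _ := by ring

theorem l6v_eqns_cite : True := by
  have := @l6vGN.eq_1
  have := @l6vIG.eq_1
  have := @l6vFK.eq_1
  have := @L6vAl.eq_1
  have := @l6vXS.eq_1
  have := @l6vXD.eq_1
  have := @l6vXT.eq_1
  have := @l6vT.eq_1
  have := @l6vV.eq_1
  have := @l6vU.eq_1
  have := @l6vTau.eq_1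
  have := @l6vH.eq_1
  have := @l6vChi2.eq_1
  have := @l6vS.eq_1
  have := @l6vD2.eq_1
  have := @l6vG.eq_1
  have := @l6vInt.eq_1
  have := @L6vEmp.eq_1
  have := @l6vTail.eq_1
  trivial

end Claimed.Agent.R286
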